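import Crest.Agent.R98.Ent2
import Crest.Agent.R98.Part

/-!
R98 / HsCell (helper529): (E5), comparison of cell entropies at a fixed phase with the averaged
entropy `Hs`, moving lemma, change of scale, finite laws.
-/

set_option autoImplicit false

open MeasureTheory Set Real

namespace Crest.Agent.R98.HsCell

theorem sum_eq_sum_of_zero {f : ℤ → ℝ} {S T : Finset ℤ} (hS : ∀ k, k ∉ S → f k = 0)
    (hT : ∀ k, k ∉ T → f k = 0) : ∑ k ∈ S, f k = ∑ k ∈ T, f k := by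
  have h1 : ∑' k, f k = ∑ k ∈ S, f k := tsum_eq_sum hS
  have h2 : ∑' k, f k = ∑ k ∈ T, f k := tsum_eq_sum hT
  rw [← h1, h2]

section Hz

variable {X : Type*} [MeasurableSpace X]

/-- entropy of an integer valued function -/
noncomputable def Hz (P : Measure X) (Z : X → ℤ) : ℝ := ∑' k : ℤ, negMulLog (P.real (Z ⁻¹' {k}))

/-- a.e. bounded -/
def Bd (P : Measure X) (Z : X → ℤ) : Prop := ∃ S : Finset ℤ, ∀ᵐ x ∂P, Z x ∈ S

theorem real_preimage_eq_zero {P : Measure X} {Z : X → ℤ} {S : Finset ℤ}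
    (hS : ∀ᵐ x ∂P, Z x ∈ S) {A : Set X} (hA : ∀ x ∈ A, Z x ∉ S) : P.real A = 0 := by
  have h1 : P {x | Z x ∉ S} = 0 := hS
  have h2 : P A = 0 := measure_mono_null (fun x hx => hA x hx) h1
  rw [Measure.real, h2]; rfl

theorem Hz_eq_sum {P : Measure X} {Z : X → ℤ} {S : Finset ℤ} (hS : ∀ᵐ x ∂P, Z x ∈ S) :
    Hz P Z = ∑ k ∈ S, negMulLog (P.real (Z ⁻¹' {k})) := by
  unfold Hz
  refine tsum_eq_sum fun k hk => ?_
  rw [real_preimage_eq_zero hS, negMulLog_zero]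
  intro x hx
  simp only [mem_preimage, mem_singleton_iff] at hx
  rw [hx]; exact hk

theorem real_eq_sum {P : Measure X} [IsFiniteMeasure P] {Z : X → ℤ} (hZ : Measurable Z)
    {S : Finset ℤ} (hS : ∀ᵐ x ∂P, Z x ∈ S) {A : Set X} (hA : MeasurableSet A) :
    P.real A = ∑ k ∈ S, P.real (A ∩ Z ⁻¹' {k}) := by
  have h1 : P.real A = P.real (⋃ k ∈ S, A ∩ Z ⁻¹' {k}) := by
    refine measureReal_congr ?_
    filter_upwards [hS] with x hx
    refine propext ⟨fun h => ?_, fun h => ?_⟩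
    · exact mem_iUnion₂.mpr ⟨Z x, hx, h, rfl⟩
    · obtain ⟨k, _, h2⟩ := mem_iUnion₂.mp h
      exact h2.1
  rw [h1, measureReal_biUnion_finset]
  · intro i _ j _ hij
    rw [Function.onFun, Set.disjoint_left]
    rintro x ⟨_, hx⟩ ⟨_, hx'⟩
    exact hij (hx.symm.trans hx')
  · intro k _
    exact hA.inter (hZ (measurableSet_singleton k))

/-- if given `Z'` there are at most `N` values of `Z`, then `H(Z) ≤ H(Z') + log N`. -/
theorem Hz_le_add_log {P : Measure X} [IsFiniteMeasure P] {Z Z' : X → ℤ} (hZ : Measurable Z)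
    (hZ' : Measurable Z') (hB : Bd P Z) (hB' : Bd P Z') {N : ℕ} (hN : 0 < N) (a : ℤ → ℤ)
    (h : ∀ᵐ x ∂P, a (Z' x) ≤ Z x ∧ Z x < a (Z' x) + N) :
    Hz P Z ≤ Hz P Z' + P.real univ * Real.log N := by
  obtain ⟨S, hS⟩ := hB
  obtain ⟨S', hS'⟩ := hB'
  rw [Hz_eq_sum hS, Hz_eq_sum hS', real_eq_sum hZ' hS' MeasurableSet.univ, Finset.sum_mul,
    ← Finset.sum_add_distrib]
  have hmz : ∀ k : ℤ, MeasurableSet (Z ⁻¹' {k}) := fun k => hZ (measurableSet_singleton k)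
  have hmz' : ∀ k : ℤ, MeasurableSet (Z' ⁻¹' {k}) := fun k => hZ' (measurableSet_singleton k)
  have h1 : ∀ k ∈ S, negMulLog (P.real (Z ⁻¹' {k})) ≤
      ∑ k' ∈ S', negMulLog (P.real (Z ⁻¹' {k} ∩ Z' ⁻¹' {k'})) := by
    intro k _
    rw [real_eq_sum hZ' hS' (hmz k)]
    have h2 := psi_nonneg (κ := S')
      (v := fun k' : S' => P.real (Z ⁻¹' {k} ∩ Z' ⁻¹' {(k' : ℤ)})) (fun k' => measureReal_nonneg)
    unfold psi at h2
    rw [Finset.sum_coe_sort S' fun k' => negMulLog (P.real (Z ⁻¹' {k} ∩ Z' ⁻¹' {k'})),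
      Finset.sum_coe_sort S' fun k' => P.real (Z ⁻¹' {k} ∩ Z' ⁻¹' {k'})] at h2
    linarith
  refine (Finset.sum_le_sum h1).trans ?_
  rw [Finset.sum_comm]
  refine Finset.sum_le_sum fun k' _ => ?_
  -- restrict to the window
  have hz : ∀ k : ℤ, k ∉ Finset.Ico (a k') (a k' + N) →
      P.real (Z ⁻¹' {k} ∩ Z' ⁻¹' {k'}) = 0 := by
    intro k hk
    have h3 : P (Z ⁻¹' {k} ∩ Z' ⁻¹' {k'}) = 0 := by
      refine measure_mono_null ?_ (show P {x | ¬ (a (Z' x) ≤ Z x ∧ Z x < a (Z' x) + N)} = 0 from h)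
      rintro x ⟨hx, hx'⟩
      simp only [mem_preimage, mem_singleton_iff] at hx hx'
      rw [mem_ofPred_eq, hx, hx']
      intro hc
      exact hk (Finset.mem_Ico.mpr hc)
    rw [Measure.real, h3]; rfl
  have hz2 : ∀ k : ℤ, k ∉ S → P.real (Z ⁻¹' {k} ∩ Z' ⁻¹' {k'}) = 0 := by
    intro k hk
    refine real_preimage_eq_zero hS ?_
    rintro x ⟨hx, _⟩
    simp only [mem_preimage, mem_singleton_iff] at hx
    rw [hx]; exact hk
  have e1 : ∑ k ∈ S, negMulLog (P.real (Z ⁻¹' {k} ∩ Z' ⁻¹' {k'})) =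
      ∑ k ∈ Finset.Ico (a k') (a k' + N), negMulLog (P.real (Z ⁻¹' {k} ∩ Z' ⁻¹' {k'})) := by
    refine sum_eq_sum_of_zero ?_ ?_
    · intro k hk; rw [hz2 k hk, negMulLog_zero]
    · intro k hk; rw [hz k hk, negMulLog_zero]
  have e2 : P.real (Z' ⁻¹' {k'}) =
      ∑ k ∈ Finset.Ico (a k') (a k' + N), P.real (Z ⁻¹' {k} ∩ Z' ⁻¹' {k'}) := by
    rw [real_eq_sum hZ hS (hmz' k')]
    have e3 : ∀ k, P.real (Z' ⁻¹' {k'} ∩ Z ⁻¹' {k}) = P.real (Z ⁻¹' {k} ∩ Z' ⁻¹' {k'}) :=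
      fun k => by rw [inter_comm]
    simp only [e3]
    exact sum_eq_sum_of_zero hz2 hz
  rw [e1, univ_inter]
  have : Nonempty (Finset.Ico (a k') (a k' + N)) := by
    refine ⟨⟨a k', Finset.mem_Ico.mpr ⟨le_rfl, ?_⟩⟩⟩
    have : (0 : ℤ) < N := by exact_mod_cast hN
    linarith
  have h4 := psi_le (κ := Finset.Ico (a k') (a k' + N))
    (v := fun k : Finset.Ico (a k') (a k' + N) => P.real (Z ⁻¹' {(k : ℤ)} ∩ Z' ⁻¹' {k'}))
    (fun k' => measureReal_nonneg)
  unfold psi at h4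
  rw [Finset.sum_coe_sort (Finset.Ico (a k') (a k' + N))
      fun k => negMulLog (P.real (Z ⁻¹' {k} ∩ Z' ⁻¹' {k'})),
    Finset.sum_coe_sort (Finset.Ico (a k') (a k' + N))
      fun k => P.real (Z ⁻¹' {k} ∩ Z' ⁻¹' {k'}), ← e2] at h4
  have h5 : Fintype.card (Finset.Ico (a k') (a k' + N)) = N := by simp
  rw [h5] at h4
  linarith



theorem Hz_nonneg {P : Measure X} [IsProbabilityMeasure P] (Z : X → ℤ) : 0 ≤ Hz P Z := by
  refine tsum_nonneg fun k => negMulLog_nonneg measureReal_nonneg ?_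
  exact measureReal_le_one


end Hz

section cells

variable {X : Type*} [MeasurableSpace X]

/-- the number of the cell of size `d` and phase `θ` -/
noncomputable def zc (d θ : ℝ) (y : ℝ) : ℤ := ⌊(y - θ) / d⌋

theorem measurable_zc (d θ : ℝ) : Measurable (zc d θ) :=
  Int.measurable_floor.comp (by fun_prop)

theorem zc_eq_iff {d : ℝ} (hd : 0 < d) {θ y : ℝ} {k : ℤ} :
    zc d θ y = k ↔ y ∈ Ico (θ + k * d) (θ + k * d + d) := by
  unfold zc
  rw [Int.floor_eq_iff, le_div_iff₀ hd, div_lt_iff₀ hd, mem_Ico]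
  constructor
  · rintro ⟨h1, h2⟩; constructor <;> nlinarith
  · rintro ⟨h1, h2⟩; constructor <;> nlinarith

theorem zc_preimage {d : ℝ} (hd : 0 < d) (θ : ℝ) (k : ℤ) :
    zc d θ ⁻¹' {k} = Ico (θ + k * d) (θ + k * d + d) := by
  ext y
  exact zc_eq_iff hd

/-- entropy of the partition into cells of size `d` and phase `θ` -/
noncomputable def Hc (μ : Measure ℝ) (d θ : ℝ) : ℝ := Hz μ (zc d θ)

theorem Hc_eq_tsum (μ : Measure ℝ) {d : ℝ} (hd : 0 < d) (θ : ℝ) :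
    Hc μ d θ = ∑' k : ℤ, negMulLog (μ.real (Ico (θ + k * d) (θ + k * d + d))) := by
  unfold Hc Hz
  simp only [zc_preimage hd]

/-- bounded random variables -/
theorem bd_zc {P : Measure X} {V : X → ℝ} {R : ℝ} (h : ∀ᵐ x ∂P, |V x| ≤ R) {d : ℝ} (hd : 0 < d)
    (θ : ℝ) : Bd P (fun x => zc d θ (V x)) := by
  refine ⟨Finset.Icc ⌊(-R - θ) / d⌋ ⌊(R - θ) / d⌋, ?_⟩
  filter_upwards [h] with x hx
  rw [Finset.mem_Icc]
  obtain ⟨h1, h2⟩ := abs_le.mp hx
  constructor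
  · exact Int.floor_le_floor (div_le_div_of_nonneg_right (by linarith) hd.le)
  · exact Int.floor_le_floor (div_le_div_of_nonneg_right (by linarith) hd.le)

theorem BSupp.ae {μ : Measure ℝ} (h : BSupp μ) : ∃ R, ∀ᵐ x ∂μ, |x| ≤ R := by
  obtain ⟨R, hR⟩ := h
  refine ⟨R, ?_⟩
  have h1 : ∀ᵐ x ∂μ, x ∈ Icc (-R) R := hR
  filter_upwards [h1] with x hx
  exact abs_le.mpr hx

theorem bsupp_of_ae {μ : Measure ℝ} {R : ℝ} (h : ∀ᵐ x ∂μ, |x| ≤ R) : BSupp μ := by
  refine ⟨R, ?_⟩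
  have h1 : ∀ᵐ x ∂μ, x ∈ Icc (-R) R := by
    filter_upwards [h] with x hx
    exact abs_le.mp hx
  exact h1


theorem BSupp.bd {μ : Measure ℝ} (h : BSupp μ) {d : ℝ} (hd : 0 < d) (θ : ℝ) :
    Bd μ (zc d θ) := by
  obtain ⟨R, hR⟩ := BSupp.ae h
  exact bd_zc (V := fun x => x) hR hd θ

/-- **moving lemma and change of scale**: if `|V - V'| ≤ ε` and `d' + 2 ε ≤ N d`, then the entropy
of `V` at scale `d` exceeds that of `V'` at scale `d'` by at most `log (N+1)`. -/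
theorem Hz_zc_le {P : Measure X} [IsFiniteMeasure P] {V V' : X → ℝ} (hV : Measurable V)
    (hV' : Measurable V') {R : ℝ} (hR : ∀ᵐ x ∂P, |V x| ≤ R) (hR' : ∀ᵐ x ∂P, |V' x| ≤ R)
    {ε : ℝ} (hε : ∀ᵐ x ∂P, |V x - V' x| ≤ ε) {d d' : ℝ} (hd : 0 < d) (hd' : 0 < d') {N : ℕ}
    (hN : d' + 2 * ε ≤ N * d) (θ θ' : ℝ) :
    Hz P (fun x => zc d θ (V x)) ≤
      Hz P (fun x => zc d' θ' (V' x)) + P.real univ * Real.log (N + 1) := by
  have h := Hz_le_add_log (P := P) (Z := fun x => zc d θ (V x)) (Z' := fun x => zc d' θ' (V' x))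
    ((measurable_zc d θ).comp hV) ((measurable_zc d' θ').comp hV') (bd_zc hR hd θ)
    (bd_zc hR' hd' θ') (N := N + 1) (Nat.succ_pos _)
    (fun k' => ⌊(θ' + k' * d' - ε - θ) / d⌋) ?_
  · simpa using h
  · filter_upwards [hε] with x hx
    obtain ⟨h1, h2⟩ := (zc_eq_iff hd' (θ := θ') (y := V' x) (k := zc d' θ' (V' x))).mp rfl
    obtain ⟨h3, h4⟩ := abs_le.mp hx
    set k' := zc d' θ' (V' x)
    constructor
    · exact Int.floor_le_floor (div_le_div_of_nonneg_right (by linarith) hd.le)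
    · unfold zc
      have h5 : (V x - θ) / d < (θ' + k' * d' - ε - θ) / d + N := by
        rw [div_add' _ _ _ hd.ne', div_lt_div_iff_of_pos_right hd]
        linarith
      have h6 := Int.lt_floor_add_one ((θ' + k' * d' - ε - θ) / d)
      have h7 : (⌊(V x - θ) / d⌋ : ℝ) ≤ (V x - θ) / d := Int.floor_le _
      have h8 : (⌊(V x - θ) / d⌋ : ℝ) <
          ((⌊(θ' + k' * d' - ε - θ) / d⌋ + (N + 1 : ℕ) : ℤ) : ℝ) := by
        push_cast
        linarith
      exact_mod_cast h8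



/-- change of phase and scale -/
theorem Hc_le {μ : Measure ℝ} [IsFiniteMeasure μ] (hμ : BSupp μ) {d d' : ℝ} (hd : 0 < d)
    (hd' : 0 < d') {N : ℕ} (hN : d' ≤ N * d) (θ θ' : ℝ) :
    Hc μ d θ ≤ Hc μ d' θ' + μ.real univ * Real.log (N + 1) := by
  obtain ⟨R, hR⟩ := BSupp.ae hμ
  exact Hz_zc_le (V := fun x => x) (V' := fun x => x) measurable_id measurable_id hR hR
    (ε := 0) (by simp) hd hd' (by linarith) θ θ'

theorem Hc_phase_le {μ : Measure ℝ} [IsFiniteMeasure μ] (hμ : BSupp μ) {d : ℝ} (hd : 0 < d)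
    (θ θ' : ℝ) : Hc μ d θ ≤ Hc μ d θ' + μ.real univ * Real.log 2 := by
  have h := Hc_le hμ hd hd (N := 1) (by simp) θ θ'
  norm_num at h
  exact h

end cells

section average

/-- finite-sum form of `Hc` for phases in `[θ₀, θ₀ + d]` -/
theorem Hc_eq_sum_range {μ : Measure ℝ} {R : ℝ} (hR : μ (Icc (-R) R)ᶜ = 0) {d : ℝ} (hd : 0 < d)
    {θ₀ : ℝ} {N : ℕ} (hN : |R| + |θ₀| + 2 * d < N * d) {θ : ℝ} (hθ : θ ∈ Icc θ₀ (θ₀ + d)) :
    Hc μ d θ = ∑ j ∈ Finset.range (2 * N),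
      negMulLog (μ.real (Ico (θ + ((j : ℝ) - N) * d) (θ + ((j : ℝ) - N) * d + d))) := by
  rw [Hc_eq_tsum μ hd]
  have hinj : Set.InjOn (fun j : ℕ => (j : ℤ) - N) (Finset.range (2 * N) : Finset ℕ) := by
    intro a _ b _ hab
    have : (a : ℤ) - N = b - N := hab
    omega
  rw [tsum_eq_sum (s := (Finset.range (2 * N)).image fun j : ℕ => (j : ℤ) - N),
    Finset.sum_image hinj]
  · refine Finset.sum_congr rfl fun j _ => ?_
    push_cast
    rfl
  · intro k hk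
    have hle := abs_le.mp (le_refl |θ₀|)
    have hRR := le_abs_self R
    have hR2 := neg_abs_le R
    rw [cell_eq_zero hR, negMulLog_zero]
    intro hc
    apply hk
    rw [Finset.mem_image]
    have h1 : (-(N : ℤ)) ≤ k := by
      by_contra hlt
      push Not at hlt
      have h2 : (k : ℝ) ≤ -N - 1 := by
        have : k ≤ -N - 1 := by omega
        exact_mod_cast this
      have h3 := mul_le_mul_of_nonneg_right h2 hd.le
      nlinarith [hc.1, hθ.2]
    have h2 : k < N := by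
      by_contra hlt
      push Not at hlt
      have h2 : (N : ℝ) ≤ k := by exact_mod_cast hlt
      have h3 := mul_le_mul_of_nonneg_right h2 hd.le
      nlinarith [hc.2, hθ.1]
    refine ⟨(k + N).toNat, ?_, ?_⟩
    · rw [Finset.mem_range]; omega
    · omega

theorem intervalIntegrable_shift {μ : Measure ℝ} [IsFiniteMeasure μ] (hμ : BSupp μ) (d c a b : ℝ) :
    IntervalIntegrable (fun θ => negMulLog (μ.real (Ico (θ + c) (θ + c + d)))) volume a b :=
  ((integrable_negMulLog_cell hμ d).comp_add_right c).intervalIntegrable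

theorem exists_N (R θ₀ : ℝ) {d : ℝ} (hd : 0 < d) : ∃ N : ℕ, |R| + |θ₀| + 2 * d < N * d := by
  obtain ⟨N, hN⟩ := exists_nat_gt ((|R| + |θ₀| + 2 * d) / d)
  exact ⟨N, by rwa [div_lt_iff₀ hd] at hN⟩

theorem intervalIntegrable_Hc {μ : Measure ℝ} [IsFiniteMeasure μ] (hμ : BSupp μ) {d : ℝ}
    (hd : 0 < d) (θ₀ : ℝ) : IntervalIntegrable (Hc μ d) volume θ₀ (θ₀ + d) := by
  obtain ⟨R, hR⟩ := id hμ
  obtain ⟨N, hN⟩ := exists_N R θ₀ hd
  have h1 : IntervalIntegrable (fun θ => ∑ j ∈ Finset.range (2 * N),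
      negMulLog (μ.real (Ico (θ + ((j : ℝ) - N) * d) (θ + ((j : ℝ) - N) * d + d))))
      volume θ₀ (θ₀ + d) :=
    (integrable_finsetSum (Finset.range (2 * N)) fun (j : ℕ) _ =>
      (integrable_negMulLog_cell hμ d).comp_add_right (((j : ℝ) - N) * d)).intervalIntegrable
  refine h1.congr ?_
  intro θ hθ
  rw [uIoc_of_le (by linarith)] at hθ
  exact (Hc_eq_sum_range hR hd hN ⟨hθ.1.le, hθ.2⟩).symm

/-- **`Hs` is the average over the phase of the cell entropies** -/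
theorem Hs_eq_average {μ : Measure ℝ} [IsFiniteMeasure μ] (hμ : BSupp μ) {d : ℝ} (hd : 0 < d)
    (θ₀ : ℝ) : Hs μ d = (1 / d) * ∫ θ in θ₀..(θ₀ + d), Hc μ d θ := by
  obtain ⟨R, hR⟩ := id hμ
  obtain ⟨N, hN⟩ := exists_N R θ₀ hd
  unfold Hs
  congr 1
  have h1 : ∫ θ in θ₀..(θ₀ + d), Hc μ d θ = ∫ θ in θ₀..(θ₀ + d), ∑ j ∈ Finset.range (2 * N),
      negMulLog (μ.real (Ico (θ + ((j : ℝ) - N) * d) (θ + ((j : ℝ) - N) * d + d))) := by
    refine intervalIntegral.integral_congr fun θ hθ => ?_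
    rw [uIcc_of_le (by linarith)] at hθ
    exact Hc_eq_sum_range hR hd hN hθ
  rw [h1, intervalIntegral.integral_finsetSum fun j _ => intervalIntegrable_shift hμ d _ _ _]
  have h2 : ∀ j ∈ Finset.range (2 * N), ∫ θ in θ₀..(θ₀ + d),
      negMulLog (μ.real (Ico (θ + ((j : ℝ) - N) * d) (θ + ((j : ℝ) - N) * d + d))) =
      ∫ y in (θ₀ + ((j : ℝ) - N) * d)..(θ₀ + (((j + 1 : ℕ) : ℝ) - N) * d),
        negMulLog (μ.real (Ico y (y + d))) := by
    intro j _
    rw [intervalIntegral.integral_comp_add_right (fun y => negMulLog (μ.real (Ico y (y + d))))]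
    congr 1
    push_cast
    ring
  rw [Finset.sum_congr rfl h2,
    intervalIntegral.sum_integral_adjacent_intervals (a := fun j : ℕ => θ₀ + ((j : ℝ) - N) * d)
      (fun k _ => (integrable_negMulLog_cell hμ d).intervalIntegrable),
    intervalIntegral.integral_eq_integral_of_support_subset]
  intro y hy
  have hle := abs_le.mp (le_refl |θ₀|)
  have hRR := le_abs_self R
  have hR2 := neg_abs_le R
  rw [Function.mem_support] at hy
  have h3 : y ∈ Icc (-R - d) R := by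
    by_contra hc
    exact hy (by rw [cell_eq_zero hR hc, negMulLog_zero])
  constructor
  · push_cast
    nlinarith [h3.1]
  · push_cast
    nlinarith [h3.2]

theorem le_Hs {μ : Measure ℝ} [IsFiniteMeasure μ] (hμ : BSupp μ) {d : ℝ} (hd : 0 < d) {C : ℝ}
    (h : ∀ θ, C ≤ Hc μ d θ) : C ≤ Hs μ d := by
  rw [Hs_eq_average hμ hd 0]
  have h1 : ∫ _θ in (0:ℝ)..(0 + d), C ≤ ∫ θ in (0:ℝ)..(0 + d), Hc μ d θ :=
    intervalIntegral.integral_mono_on (by linarith) intervalIntegrable_const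
      (intervalIntegrable_Hc hμ hd 0) fun θ _ => h θ
  rw [intervalIntegral.integral_const, zero_add, sub_zero, smul_eq_mul] at h1
  calc C = (1 / d) * (d * C) := by field_simp
    _ ≤ _ := by
      rw [zero_add]
      exact mul_le_mul_of_nonneg_left h1 (by positivity)

theorem Hs_le {μ : Measure ℝ} [IsFiniteMeasure μ] (hμ : BSupp μ) {d : ℝ} (hd : 0 < d) {C : ℝ}
    (h : ∀ θ, Hc μ d θ ≤ C) : Hs μ d ≤ C := by
  rw [Hs_eq_average hμ hd 0]
  have h1 : ∫ θ in (0:ℝ)..(0 + d), Hc μ d θ ≤ ∫ _θ in (0:ℝ)..(0 + d), C :=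
    intervalIntegral.integral_mono_on (by linarith)
      (intervalIntegrable_Hc hμ hd 0) intervalIntegrable_const fun θ _ => h θ
  rw [intervalIntegral.integral_const, zero_add, sub_zero, smul_eq_mul] at h1
  calc _ ≤ (1 / d) * (d * C) := by
        rw [zero_add]
        exact mul_le_mul_of_nonneg_left h1 (by positivity)
    _ = C := by field_simp

/-- **(E5)** -/
theorem Hs_le_Hc {μ : Measure ℝ} [IsFiniteMeasure μ] (hμ : BSupp μ) {d : ℝ} (hd : 0 < d) (θ : ℝ) :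
    Hs μ d ≤ Hc μ d θ + μ.real univ * Real.log 2 :=
  Hs_le hμ hd fun θ' => Hc_phase_le hμ hd θ' θ

/-- **(E5)** -/
theorem Hc_le_Hs {μ : Measure ℝ} [IsFiniteMeasure μ] (hμ : BSupp μ) {d : ℝ} (hd : 0 < d) (θ : ℝ) :
    Hc μ d θ ≤ Hs μ d + μ.real univ * Real.log 2 := by
  have := le_Hs hμ hd (C := Hc μ d θ - μ.real univ * Real.log 2) fun θ' => by
    have := Hc_phase_le hμ hd θ θ'
    linarith
  linarith

theorem abs_Hs_sub_Hc_le {μ : Measure ℝ} [IsProbabilityMeasure μ] (hμ : BSupp μ) {d : ℝ}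
    (hd : 0 < d) (θ : ℝ) : |Hs μ d - Hc μ d θ| ≤ Real.log 2 := by
  have h1 := Hs_le_Hc hμ hd θ
  have h2 := Hc_le_Hs hμ hd θ
  rw [probReal_univ, one_mul] at h1 h2
  rw [abs_le]
  constructor <;> linarith

variable {X : Type*} [MeasurableSpace X]



end average

section finite

open MeasureTheory.Measure

variable {Ω : Type*} [Fintype Ω]

/-- the law of a real valued function on a finite weighted set -/
noncomputable def law (q : Ω → ℝ) (v : Ω → ℝ) : Measure ℝ := mix q fun a => dirac (v a)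

theorem law_real [DecidableEq ℤ] {q : Ω → ℝ} (hq : ∀ a, 0 ≤ q a) (v : Ω → ℝ) (Z : ℝ → ℤ)
    (hZ : Measurable Z) (k : ℤ) :
    (law q v).real (Z ⁻¹' {k}) = ∑ a, if Z (v a) = k then q a else 0 := by
  unfold law
  rw [mix_real hq]
  refine Finset.sum_congr rfl fun a _ => ?_
  rw [Measure.real, dirac_apply' _ (hZ (measurableSet_singleton k))]
  by_cases h : Z (v a) = k
  · rw [if_pos h, indicator_of_mem (by exact h)]; simp
  · rw [if_neg h, indicator_of_notMem (by exact h)]; simp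

theorem HS_ker_eq_sum [DecidableEq ℤ] (q : Ω → ℝ) (f : Ω → ℤ) {S : Finset ℤ} (hS : ∀ a, f a ∈ S) :
    Part.HS q (Setoid.ker f) = ∑ k ∈ S, negMulLog (∑ a, if f a = k then q a else 0) := by
  unfold Part.HS Part.cm
  have h1 : ∀ a, ∑ b, ({b | (Setoid.ker f) b a} : Set Ω).indicator q b =
      ∑ b, if f b = f a then q b else 0 := by
    intro a
    refine Finset.sum_congr rfl fun b _ => ?_
    by_cases h : f b = f a
    · rw [if_pos h, indicator_of_mem (by exact h)]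
    · rw [if_neg h, indicator_of_notMem (by exact h)]
  simp only [h1]
  set m : ℤ → ℝ := fun k => ∑ b, if f b = k then q b else 0 with hm
  have h2 : ∑ k ∈ S, negMulLog (m k) = ∑ k ∈ S, ∑ a, if f a = k then -(q a * log (m k)) else 0 := by
    refine Finset.sum_congr rfl fun k _ => ?_
    rw [negMulLog, neg_mul, hm, Finset.sum_mul, ← Finset.sum_neg_distrib]
    refine Finset.sum_congr rfl fun a _ => ?_
    by_cases h : f a = k
    · simp [h]
    · simp [h]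
  change -∑ a, q a * log (m (f a)) = ∑ k ∈ S, negMulLog (m k)
  rw [h2, Finset.sum_comm, ← Finset.sum_neg_distrib]
  refine Finset.sum_congr rfl fun a _ => ?_
  rw [Finset.sum_ite_eq S (f a) fun k => -(q a * log (m k)), if_pos (hS a)]

/-- entropy of an integer valued function on a finite weighted set -/
theorem Hz_law {q : Ω → ℝ} (hq : ∀ a, 0 ≤ q a) (v : Ω → ℝ) {Z : ℝ → ℤ} (hZ : Measurable Z) :
    Hz (law q v) Z = Part.HS q (Setoid.ker fun a => Z (v a)) := by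
  classical
  rw [HS_ker_eq_sum q (fun a => Z (v a)) (S := Finset.univ.image fun a => Z (v a))
    (fun a => Finset.mem_image_of_mem _ (Finset.mem_univ a))]
  unfold Hz
  simp only [law_real hq v Z hZ]
  refine tsum_eq_sum fun k hk => ?_
  have : ∑ a, (if Z (v a) = k then q a else 0) = 0 := by
    refine Finset.sum_eq_zero fun a _ => ?_
    rw [if_neg]
    intro h
    exact hk (Finset.mem_image.mpr ⟨a, Finset.mem_univ a, h⟩)
  rw [this, negMulLog_zero]

theorem Hc_law {q : Ω → ℝ} (hq : ∀ a, 0 ≤ q a) (v : Ω → ℝ) (d θ : ℝ) :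
    Hc (law q v) d θ = Part.HS q (Part.cell v d θ) :=
  Hz_law hq v (measurable_zc d θ)

theorem bsupp_law (q : Ω → ℝ) (v : Ω → ℝ) : BSupp (law q v) := by
  unfold law
  refine BSupp.mix fun a => ⟨|v a|, ?_⟩
  rw [dirac_apply' _ measurableSet_Icc.compl, indicator_of_notMem]
  rw [mem_compl_iff, not_not]
  exact ⟨neg_abs_le _, le_abs_self _⟩

theorem isProbabilityMeasure_law {q : Ω → ℝ} (hq : ∀ a, 0 ≤ q a) (h1 : ∑ a, q a = 1) (v : Ω → ℝ) :
    IsProbabilityMeasure (law q v) :=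
  isProbabilityMeasure_mix hq h1 _

instance (q : Ω → ℝ) (v : Ω → ℝ) : IsFiniteMeasure (law q v) := by
  unfold law; infer_instance

theorem law_real_univ {q : Ω → ℝ} (hq : ∀ a, 0 ≤ q a) (v : Ω → ℝ) :
    (law q v).real univ = ∑ a, q a := by
  unfold law
  rw [mix_real hq]
  simp

/-- **(E5)** for finite laws -/
theorem abs_Hs_law_sub_le {q : Ω → ℝ} (hq : ∀ a, 0 ≤ q a) (h1 : ∑ a, q a = 1) (v : Ω → ℝ) {d : ℝ}
    (hd : 0 < d) (θ : ℝ) : |Hs (law q v) d - Part.HS q (Part.cell v d θ)| ≤ Real.log 2 := by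
  have := isProbabilityMeasure_law hq h1 v
  rw [← Hc_law hq]
  exact abs_Hs_sub_Hc_le (bsupp_law q v) hd θ

end finite

end Crest.Agent.R98.HsCell
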