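import Crest.Agent.R98.DimBasic
import Crest.Agent.R98.HsCell
import Crest.Agent.R98.Ent3

-- ▼ part R98/DimCell
section

/-!
Row 98, dimension part: dyadic cells, `L^q` sums, submultiplicativity.
-/

set_option autoImplicit false
open MeasureTheory Crest.AnalysisR Set Filter Topology
open scoped ENNReal NNReal

namespace Crest.Agent.R98

/-- index of the dyadic cell of level `n` containing `x` -/
noncomputable def fl (n : ℕ) (x : ℝ) : ℤ := ⌊(2:ℝ) ^ n * x⌋

/-- dyadic cell of level `n` and index `k` -/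
def cell (n : ℕ) (k : ℤ) : Set ℝ := {x | fl n x = k}

theorem measurable_fl (n : ℕ) : Measurable (fl n) := by
  unfold fl
  exact Int.measurable_floor.comp (measurable_const.mul measurable_id)

theorem measurableSet_cell (n : ℕ) (k : ℤ) : MeasurableSet (cell n k) := by
  have : cell n k = fl n ⁻¹' {k} := rfl
  rw [this]
  exact measurable_fl n (MeasurableSet.singleton k)

theorem tsum_cell_inter (μ : Measure ℝ) (n : ℕ) {A : Set ℝ} (hA : MeasurableSet A) :
    ∑' k : ℤ, μ (A ∩ cell n k) = μ A := by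
  rw [← measure_iUnion]
  · congr 1
    ext x
    simp only [mem_iUnion, mem_inter_iff]
    exact ⟨fun ⟨k, h, _⟩ => h, fun h => ⟨fl n x, h, rfl⟩⟩
  · intro k l hkl
    apply Set.disjoint_left.2
    rintro x ⟨_, h1⟩ ⟨_, h2⟩
    exact hkl (h1.symm.trans h2)
  · exact fun k => hA.inter (measurableSet_cell n k)

/-- the `L^q` sum -/
noncomputable def tau (μ : Measure ℝ) (n : ℕ) (q : ℝ) : ℝ≥0∞ := ∑' k : ℤ, μ (cell n k) ^ q

/-! ### inequalities for sums of powers -/

theorem tsum_rpow_le_rpow_tsum {I : Type*} (a : I → ℝ≥0∞) {q : ℝ} (hq : 1 ≤ q) :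
    ∑' i, a i ^ q ≤ (∑' i, a i) ^ q := by
  set S := ∑' i, a i with hS
  have h1 : ∀ i, a i ^ q ≤ a i * S ^ (q - 1) := by
    intro i
    have hle : a i ≤ S := ENNReal.le_tsum i
    calc a i ^ q = a i ^ (1 + (q - 1)) := by ring_nf
      _ = a i * a i ^ (q - 1) := by
          rw [ENNReal.rpow_add_of_nonneg _ _ zero_le_one (by linarith), ENNReal.rpow_one]
      _ ≤ a i * S ^ (q - 1) := by
          gcongr
  calc ∑' i, a i ^ q ≤ ∑' i, a i * S ^ (q - 1) := ENNReal.tsum_le_tsum h1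
    _ = S * S ^ (q - 1) := by rw [ENNReal.tsum_mul_right]
    _ = S ^ (1 + (q - 1)) := by
        rw [ENNReal.rpow_add_of_nonneg _ _ zero_le_one (by linarith), ENNReal.rpow_one]
    _ = S ^ q := by ring_nf

theorem rpow_tsum_le {J : Type*} (a : J → ℝ≥0∞) (s : Finset J) (K : ℕ) (hK : s.card ≤ K)
    (hs : ∀ j, j ∉ s → a j = 0) {q : ℝ} (hq : 1 ≤ q) :
    (∑' j, a j) ^ q ≤ (K : ℝ≥0∞) ^ (q - 1) * ∑' j, a j ^ q := by
  rw [tsum_eq_sum (s := s) (fun j hj => hs j hj)]
  calc (∑ j ∈ s, a j) ^ q ≤ (s.card : ℝ≥0∞) ^ (q - 1) * ∑ j ∈ s, a j ^ q :=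
        ENNReal.rpow_sum_le_const_mul_sum_rpow _ _ hq
    _ ≤ (K : ℝ≥0∞) ^ (q - 1) * ∑' j, a j ^ q := by
        gcongr
        exact ENNReal.sum_le_tsum s

/-- matrix lemma -/
theorem matrix_rpow_le {I J : Type*} (α : I → J → ℝ≥0∞) (s : I → Finset J) (K : ℕ)
    (hK : ∀ i, (s i).card ≤ K) (hs : ∀ i j, j ∉ s i → α i j = 0) {q : ℝ} (hq : 1 ≤ q) :
    ∑' i, (∑' j, α i j) ^ q ≤ (K : ℝ≥0∞) ^ (q - 1) * ∑' j, (∑' i, α i j) ^ q := by
  calc ∑' i, (∑' j, α i j) ^ q ≤ ∑' i, (K : ℝ≥0∞) ^ (q - 1) * ∑' j, α i j ^ q :=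
        ENNReal.tsum_le_tsum fun i => rpow_tsum_le _ (s i) K (hK i) (hs i) hq
    _ = (K : ℝ≥0∞) ^ (q - 1) * ∑' j, ∑' i, α i j ^ q := by
        rw [ENNReal.tsum_mul_left, ENNReal.tsum_comm]
    _ ≤ _ := by
        gcongr with j
        exact tsum_rpow_le_rpow_tsum _ hq

/-- weighted power mean inequality -/
theorem weighted_rpow_le {J : Type*} (s : Finset J) (w x : J → ℝ≥0∞) {q : ℝ} (hq : 1 ≤ q) :
    (∑ j ∈ s, w j * x j) ^ q ≤ (∑ j ∈ s, w j) ^ (q - 1) * ∑ j ∈ s, w j * x j ^ q := by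
  have h := ENNReal.inner_le_weight_mul_Lp_of_nonneg s hq w x
  have hq0 : 0 < q := by linarith
  calc (∑ j ∈ s, w j * x j) ^ q
      ≤ ((∑ i ∈ s, w i) ^ (1 - q⁻¹) * (∑ i ∈ s, w i * x i ^ q) ^ q⁻¹) ^ q :=
        ENNReal.rpow_le_rpow h hq0.le
    _ = _ := by
        rw [ENNReal.mul_rpow_of_nonneg _ _ hq0.le, ← ENNReal.rpow_mul, ← ENNReal.rpow_mul,
          inv_mul_cancel₀ hq0.ne', ENNReal.rpow_one, sub_mul, inv_mul_cancel₀ hq0.ne', one_mul]

/-! ### floors -/

theorem floor_mem_Icc_of_abs_sub_le {x y : ℝ} {R : ℕ} (h : |x - y| ≤ R) :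
    ⌊x⌋ ∈ Finset.Icc (⌊y⌋ - R) (⌊y⌋ + R) := by
  rw [abs_le] at h
  rw [Finset.mem_Icc]
  constructor
  · have : ⌊y⌋ - (R:ℤ) = ⌊y - (R:ℕ)⌋ := by rw [Int.floor_sub_natCast]
    rw [this]
    apply Int.floor_le_floor
    linarith [h.1]
  · have : ⌊y⌋ + (R:ℤ) = ⌊y + (R:ℕ)⌋ := by rw [Int.floor_add_natCast]
    rw [this]
    apply Int.floor_le_floor
    linarith [h.2]

theorem card_Icc_symm (k : ℤ) (R : ℕ) : (Finset.Icc (k - R) (k + R)).card ≤ 2 * R + 1 := by
  rw [Int.card_Icc]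
  have : (k + R + 1 - (k - R)) = ((2 * R + 1 : ℕ) : ℤ) := by push_cast; ring
  rw [this, Int.toNat_natCast]

theorem fl_coarse (n m : ℕ) (x : ℝ) : fl n x = fl (n + m) x / 2 ^ m := by
  unfold fl
  have h1 : (2:ℝ) ^ n * x = ((2:ℝ) ^ (n + m) * x) / ((2 ^ m : ℕ) : ℝ) := by
    push_cast
    rw [pow_add]; field_simp
  rw [h1, Int.floor_div_natCast]
  push_cast
  rfl

/-! ### stopping decomposition -/

universe u

theorem exists_decomp {ι : Type u} [Fintype ι] {r t p : ι → ℝ} {μ : Measure ℝ}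
    (hr : ∀ i, r i ≠ 0 ∧ |r i| < 1) (hp : ∀ i, 0 ≤ p i) (hp₁ : ∑ i, p i = 1)
    (hμ : IsSelfSimilarMeasure r t p μ) {c : ℝ} (hc0 : 0 < c) (hc1 : c ≤ 1)
    (hc : ∀ i, c ≤ |r i|) {b : ℝ} (hb0 : 0 < b) (hb1 : b ≤ 1) :
    ∃ (J : Type u) (_ : Fintype J) (w ρ τ : J → ℝ), (∀ j, 0 ≤ w j) ∧ ∑ j, w j = 1 ∧
      (∀ j, c * b ≤ |ρ j| ∧ |ρ j| ≤ b) ∧
      ∀ E, MeasurableSet E → μ E = ∑ j, ENNReal.ofReal (w j) * μ ((fun x => ρ j * x + τ j) ⁻¹' E) := by
  classical
  obtain ⟨θ, hθ0, hθ1, hθ⟩ := exists_ratio hr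
  have key : ∀ n : ℕ, ∃ (J : Type u) (_ : Fintype J) (w ρ τ : J → ℝ), (∀ j, 0 ≤ w j) ∧
      ∑ j, w j = 1 ∧ (∀ j, (c * b ≤ |ρ j| ∧ |ρ j| ≤ b) ∨ (b < |ρ j| ∧ |ρ j| ≤ θ ^ n)) ∧
      ∀ E, MeasurableSet E →
        μ E = ∑ j, ENNReal.ofReal (w j) * μ ((fun x => ρ j * x + τ j) ⁻¹' E) := by
    intro n
    induction n with
    | zero =>
      refine ⟨PUnit, inferInstance, fun _ => 1, fun _ => 1, fun _ => 0, fun _ => zero_le_one, by simp,
        fun _ => ?_, fun E _ => by simp⟩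
      simp only [abs_one, pow_zero, le_refl, and_true]
      rcases lt_or_eq_of_le hb1 with h | h
      · exact Or.inr h
      · left; rw [h]; exact ⟨by linarith, le_rfl⟩
    | succ n ih =>
      obtain ⟨J, _, w, ρ, τ, hw, hw1, hρ, hE⟩ := ih
      refine ⟨J × ι, inferInstance, fun x => w x.1 * p x.2,
        fun x => if |ρ x.1| ≤ b then ρ x.1 else ρ x.1 * r x.2,
        fun x => if |ρ x.1| ≤ b then τ x.1 else ρ x.1 * t x.2 + τ x.1,
        fun x => mul_nonneg (hw _) (hp _), ?_, ?_, ?_⟩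
      · rw [Fintype.sum_prod_type]
        simp_rw [← Finset.mul_sum, hp₁, mul_one]
        exact hw1
      · rintro ⟨j, i⟩
        by_cases h : |ρ j| ≤ b
        · simp only [h, if_true]
          left
          rcases hρ j with h' | h'
          · exact ⟨h'.1, trivial⟩
          · exact absurd h (not_le.2 h'.1)
        · simp only [h, if_false]
          have h' := hρ j
          rcases h' with h' | h'
          · exact absurd h'.2 h
          · have h3 : |ρ j * r i| ≤ θ ^ (n + 1) := by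
              rw [abs_mul, pow_succ]
              exact mul_le_mul h'.2 (hθ i) (abs_nonneg _) (by positivity)
            have h4 : c * b ≤ |ρ j * r i| := by
              rw [abs_mul, mul_comm c b]
              exact mul_le_mul h'.1.le (hc i) hc0.le (abs_nonneg _)
            rcases le_or_gt |ρ j * r i| b with h5 | h5
            · exact Or.inl ⟨h4, h5⟩
            · exact Or.inr ⟨h5, h3⟩
      · intro E hEm
        rw [hE E hEm, Fintype.sum_prod_type]
        refine Finset.sum_congr rfl fun j _ => ?_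
        by_cases h : |ρ j| ≤ b
        · simp only [h, if_true]
          have h1 : ∀ i, ENNReal.ofReal (w j * p i) = ENNReal.ofReal (w j) * ENNReal.ofReal (p i) :=
            fun i => ENNReal.ofReal_mul (hw j)
          simp_rw [h1]
          rw [← Finset.sum_mul, ← Finset.mul_sum, sum_ofReal_eq_one hp hp₁, mul_one]
        · simp only [h, if_false]
          have h1 : ∀ i, ENNReal.ofReal (w j * p i) = ENNReal.ofReal (w j) * ENNReal.ofReal (p i) :=
            fun i => ENNReal.ofReal_mul (hw j)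
          simp_rw [h1]
          rw [selfSim_apply hμ (measurable_aff _ _ hEm), Finset.mul_sum]
          refine Finset.sum_congr rfl fun i _ => ?_
          rw [mul_assoc]
          congr 3
          ext x
          simp only [mem_preimage]
          have : ρ j * (r i * x + t i) + τ j = ρ j * r i * x + (ρ j * t i + τ j) := by ring
          rw [this]
  obtain ⟨n, hn⟩ : ∃ n : ℕ, θ ^ n < b := exists_pow_lt_of_lt_one hb0 hθ1
  obtain ⟨J, hJ, w, ρ, τ, hw, hw1, hρ, hE⟩ := key n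
  refine ⟨J, hJ, w, ρ, τ, hw, hw1, fun j => ?_, hE⟩
  rcases hρ j with h | h
  · exact h
  · linarith [h.1, h.2]

end Crest.Agent.R98
end

-- ▼ part R98/DimMul
section

/-!
Row 98, dimension part: submultiplicativity of the `L^q` sums.
-/

set_option autoImplicit false
open MeasureTheory Crest.AnalysisR Set Filter Topology
open scoped ENNReal NNReal

namespace Crest.Agent.R98

theorem tsum_fiber_inter (μ : Measure ℝ) {f : ℝ → ℤ} (hf : Measurable f) {A : Set ℝ}
    (hA : MeasurableSet A) :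
    ∑' k : ℤ, μ ({x | f x = k} ∩ A) = μ A := by
  have hm : ∀ k : ℤ, MeasurableSet {x | f x = k} := fun k => hf (MeasurableSet.singleton k)
  rw [← measure_iUnion]
  · congr 1
    ext x
    simp only [mem_iUnion, mem_inter_iff]
    exact ⟨fun ⟨k, _, h⟩ => h, fun h => ⟨f x, rfl, h⟩⟩
  · intro k l hkl
    apply Set.disjoint_left.2
    rintro x ⟨h1, _⟩ ⟨h2, _⟩
    have h1' : f x = k := h1
    have h2' : f x = l := h2
    exact hkl (h1'.symm.trans h2')
  · exact fun k => (hm k).inter hA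

theorem regrid (μ : Measure ℝ) {c : ℝ} (hc : 0 < c) (C : ℕ) (hC : 1 / c ≤ C) (n m : ℕ)
    (ρ τ : ℝ) (hρ : c * ((2:ℝ) ^ n)⁻¹ ≤ |ρ|) {q : ℝ} (hq : 1 ≤ q) :
    ∑' l : ℤ, μ ((fun x => ρ * x + τ) ⁻¹' cell (n + m) l) ^ q
      ≤ ((2 * C + 1 : ℕ) : ℝ≥0∞) ^ (q - 1) * tau μ m q := by
  classical
  let g : ℝ → ℝ := fun x => ρ * x + τ
  have hg : Measurable g := measurable_aff _ _
  let α : ℤ → ℤ → ℝ≥0∞ := fun l k => μ (g ⁻¹' cell (n + m) l ∩ cell m k)
  have h1 : ∀ l, ∑' k, α l k = μ (g ⁻¹' cell (n + m) l) := fun l =>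
    tsum_cell_inter μ m (hg (measurableSet_cell _ _))
  have h2 : ∀ k, ∑' l, α l k = μ (cell m k) := fun k =>
    tsum_fiber_inter μ ((measurable_fl (n + m)).comp hg) (measurableSet_cell m k)
  let s : ℤ → Finset ℤ := fun l =>
    if h : (g ⁻¹' cell (n + m) l).Nonempty then Finset.Icc (fl m h.some - C) (fl m h.some + C) else ∅
  have hs : ∀ l, (s l).card ≤ 2 * C + 1 := by
    intro l
    by_cases h : (g ⁻¹' cell (n + m) l).Nonempty
    · simp only [s, h, dif_pos]; exact card_Icc_symm _ _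
    · simp [s, h]
  have hs' : ∀ l k, k ∉ s l → α l k = 0 := by
    intro l k hk
    by_contra hne
    obtain ⟨x, hx1, hx2⟩ := nonempty_of_measure_ne_zero hne
    have h : (g ⁻¹' cell (n + m) l).Nonempty := ⟨x, hx1⟩
    apply hk
    simp only [s, h, dif_pos]
    have hx0 : h.some ∈ g ⁻¹' cell (n + m) l := h.some_mem
    set x0 := h.some
    have e1 : ⌊(2:ℝ) ^ (n + m) * g x⌋ = l := hx1
    have e2 : ⌊(2:ℝ) ^ (n + m) * g x0⌋ = l := hx0
    have h3 := Int.abs_sub_lt_one_of_floor_eq_floor (e1.trans e2.symm)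
    have h4 : (2:ℝ) ^ (n + m) * g x - (2:ℝ) ^ (n + m) * g x0
        = ρ * 2 ^ n * (2 ^ m * x - 2 ^ m * x0) := by
      simp only [g]; ring
    rw [h4, abs_mul] at h3
    have h5 : c ≤ |ρ * 2 ^ n| := by
      rw [abs_mul, abs_of_pos (show (0:ℝ) < 2 ^ n by positivity)]
      have : (0:ℝ) < 2 ^ n := by positivity
      rw [← div_eq_mul_inv, div_le_iff₀ this] at hρ
      exact hρ
    have h6 : |(2:ℝ) ^ m * x - 2 ^ m * x0| ≤ C := by
      refine le_trans ?_ hC
      rw [le_div_iff₀ hc]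
      have := mul_le_mul_of_nonneg_right h5 (abs_nonneg ((2:ℝ) ^ m * x - 2 ^ m * x0))
      nlinarith
    have h7 := floor_mem_Icc_of_abs_sub_le h6
    have e3 : ⌊(2:ℝ) ^ m * x⌋ = k := hx2
    rw [e3] at h7
    exact h7
  have h3 := matrix_rpow_le α s (2 * C + 1) hs hs' hq
  simp_rw [h1, h2] at h3
  exact h3

theorem tsum_fiber_sum {J : Type*} [Fintype J] (kj : J → ℤ) (f : J → ℝ≥0∞) :
    ∑' k : ℤ, ∑ j ∈ Finset.univ.filter (fun j => kj j = k), f j = ∑ j, f j := by
  simp_rw [Finset.sum_filter]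
  rw [Summable.tsum_finsetSum fun _ _ => ENNReal.summable]
  refine Finset.sum_congr rfl fun j _ => ?_
  rw [tsum_eq_single (kj j)]
  · simp
  · intro k hk
    rw [if_neg (fun h => hk h.symm)]

universe u

theorem exists_tau_mul {ι : Type u} [Fintype ι] {r t p : ι → ℝ} {μ : Measure ℝ}
    (hr : ∀ i, r i ≠ 0 ∧ |r i| < 1) (hp : ∀ i, 0 ≤ p i) (hp₁ : ∑ i, p i = 1)
    (hμ : IsSelfSimilarMeasure r t p μ) :
    ∃ K : ℕ, 1 ≤ K ∧ ∀ q : ℝ, 1 ≤ q → ∀ n m : ℕ,
      tau μ (n + m) q ≤ (K : ℝ≥0∞) ^ (q - 1) * (tau μ n q * tau μ m q) := by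
  classical
  have := hμ.1
  obtain ⟨R, hR0, hRμ, -⟩ := exists_supp hr hp hp₁ hμ
  obtain ⟨c, hc0, hc1, hc⟩ := exists_ratio_lower hr
  obtain ⟨C, hC⟩ := exists_nat_ge (1 / c)
  refine ⟨(2 * R + 1) * (2 * R + 1) * (2 * C + 1), by nlinarith [Nat.zero_le R, Nat.zero_le C], ?_⟩
  intro q hq n m
  obtain ⟨J, _, w, ρ, τ, hw, hw1, hρ, hE⟩ := exists_decomp hr hp hp₁ hμ hc0 hc1 hc
    (b := ((2:ℝ) ^ n)⁻¹) (by positivity) (inv_le_one_of_one_le₀ (one_le_pow₀ one_le_two))
  let g : J → ℝ → ℝ := fun j x => ρ j * x + τ j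
  have hg : ∀ j, Measurable (g j) := fun j => measurable_aff _ _
  let kj : J → ℤ := fun j => fl n (τ j)
  let W : J → ℝ≥0∞ := fun j => ENNReal.ofReal (w j)
  let S : ℤ → Finset J := fun k => Finset.univ.filter (fun j => kj j = k)
  let ν : ℤ → Set ℝ → ℝ≥0∞ := fun k A => ∑ j ∈ S k, W j * μ (g j ⁻¹' A)
  let π : ℤ → ℝ≥0∞ := fun k => ∑ j ∈ S k, W j
  have hνsum : ∀ A, MeasurableSet A → ∑' k, ν k A = μ A := by
    intro A hA
    rw [hE A hA]
    exact tsum_fiber_sum kj _
  -- locality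
  have hloc : ∀ (m : ℕ) (k l : ℤ), ν k (cell (n + m) l) ≠ 0 →
      k ∈ Finset.Icc (l / 2 ^ m - (R:ℤ)) (l / 2 ^ m + R) := by
    intro m k l hne
    obtain ⟨j, hj, hjne⟩ := Finset.exists_ne_zero_of_sum_ne_zero hne
    have hkj : kj j = k := (Finset.mem_filter.1 hj).2
    have hjne' : μ (g j ⁻¹' cell (n + m) l) ≠ 0 := right_ne_zero_of_mul hjne
    obtain ⟨x, hx1, hx2⟩ : ∃ x, x ∈ g j ⁻¹' cell (n + m) l ∧ x ∈ Icc (-(R:ℝ)) R := by
      by_contra hcon
      apply hjne'
      apply measure_mono_null _ hRμ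
      intro x hx hxI
      exact hcon ⟨x, hx, hxI⟩
    have e1 : fl (n + m) (g j x) = l := hx1
    have e2 : fl n (g j x) = l / 2 ^ m := by rw [fl_coarse n m, e1]
    have h3 : |(2:ℝ) ^ n * τ j - 2 ^ n * g j x| ≤ R := by
      have : (2:ℝ) ^ n * τ j - 2 ^ n * g j x = - (2 ^ n * ρ j * x) := by simp only [g]; ring
      rw [this, abs_neg, abs_mul, abs_mul, abs_of_pos (show (0:ℝ) < 2 ^ n by positivity)]
      have h4 := (hρ j).2
      have h5 : |x| ≤ R := abs_le.2 hx2
      have h6 : (2:ℝ) ^ n * |ρ j| ≤ 1 := by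
        have : (0:ℝ) < 2 ^ n := by positivity
        calc (2:ℝ) ^ n * |ρ j| ≤ 2 ^ n * (2 ^ n)⁻¹ := by gcongr
          _ = 1 := by field_simp
      calc (2:ℝ) ^ n * |ρ j| * |x| ≤ 1 * R := mul_le_mul h6 h5 (abs_nonneg _) zero_le_one
        _ = R := one_mul _
    have h7 := floor_mem_Icc_of_abs_sub_le h3
    have e3 : ⌊(2:ℝ) ^ n * g j x⌋ = l / 2 ^ m := e2
    have e4 : ⌊(2:ℝ) ^ n * τ j⌋ = k := hkj
    rw [e3, e4] at h7
    exact h7
  set K1 : ℝ≥0∞ := ((2 * R + 1 : ℕ) : ℝ≥0∞) ^ (q - 1) with hK1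
  set K2 : ℝ≥0∞ := ((2 * C + 1 : ℕ) : ℝ≥0∞) ^ (q - 1) with hK2
  have hq0 : 0 ≤ q - 1 := by linarith
  -- part 3
  have hπ : ∑' k, π k ^ q ≤ K1 * tau μ n q := by
    have h1 : ∀ k, ∑' l, ν k (cell n l) = π k := by
      intro k
      simp only [ν]
      rw [Summable.tsum_finsetSum fun _ _ => ENNReal.summable]
      refine Finset.sum_congr rfl fun j _ => ?_
      rw [ENNReal.tsum_mul_left]
      have : ∑' l, μ (g j ⁻¹' cell n l) = 1 := by
        have h2 := tsum_fiber_inter μ ((measurable_fl n).comp (hg j)) MeasurableSet.univ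
        simp only [inter_univ, measure_univ] at h2
        exact h2
      rw [this, mul_one]
    have h2 : ∀ l, ∑' k, ν k (cell n l) = μ (cell n l) := fun l => hνsum _ (measurableSet_cell n l)
    have h3 := matrix_rpow_le (fun k l => ν k (cell n l))
      (fun k => Finset.Icc (k - (R:ℤ)) (k + R)) (2 * R + 1) (fun k => card_Icc_symm k R) ?_ hq
    · simp_rw [h1, h2] at h3
      exact h3
    · intro k l hl
      by_contra hne
      apply hl
      have h4 := hloc 0 k l hne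
      rw [Finset.mem_Icc] at h4 ⊢
      simp only [pow_zero, Int.ediv_one] at h4
      constructor <;> linarith [h4.1, h4.2]
  -- per class estimate
  have hk : ∀ k, ∑' l, ν k (cell (n + m) l) ^ q ≤ π k ^ q * (K2 * tau μ m q) := by
    intro k
    calc ∑' l, ν k (cell (n + m) l) ^ q
        ≤ ∑' l, π k ^ (q - 1) * ∑ j ∈ S k, W j * μ (g j ⁻¹' cell (n + m) l) ^ q :=
          ENNReal.tsum_le_tsum fun l => weighted_rpow_le (S k) W _ hq
      _ = π k ^ (q - 1) * ∑ j ∈ S k, W j * ∑' l, μ (g j ⁻¹' cell (n + m) l) ^ q := by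
          rw [ENNReal.tsum_mul_left, Summable.tsum_finsetSum fun _ _ => ENNReal.summable]
          simp_rw [ENNReal.tsum_mul_left]
      _ ≤ π k ^ (q - 1) * ∑ j ∈ S k, W j * (K2 * tau μ m q) := by
          gcongr with j _
          exact regrid μ hc0 C hC n m (ρ j) (τ j) (hρ j).1 hq
      _ = π k ^ q * (K2 * tau μ m q) := by
          rw [← Finset.sum_mul, ← mul_assoc]
          congr 1
          have : π k ^ q = π k ^ ((q - 1) + 1) := by ring_nf
          rw [this, ENNReal.rpow_add_of_nonneg _ _ hq0 zero_le_one, ENNReal.rpow_one]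
  -- conclusion
  calc tau μ (n + m) q = ∑' l, (∑' k, ν k (cell (n + m) l)) ^ q := by
        unfold tau
        congr 1; funext l
        rw [hνsum _ (measurableSet_cell _ _)]
    _ ≤ ∑' l, K1 * ∑' k, ν k (cell (n + m) l) ^ q := by
        refine ENNReal.tsum_le_tsum fun l => ?_
        refine rpow_tsum_le _ (Finset.Icc (l / 2 ^ m - (R:ℤ)) (l / 2 ^ m + R)) (2 * R + 1)
          (card_Icc_symm _ _) ?_ hq
        intro k hk
        by_contra hne
        exact hk (hloc m k l hne)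
    _ = K1 * ∑' k, ∑' l, ν k (cell (n + m) l) ^ q := by
        rw [ENNReal.tsum_mul_left, ENNReal.tsum_comm]
    _ ≤ K1 * ∑' k, π k ^ q * (K2 * tau μ m q) := by
        gcongr with k
        exact hk k
    _ = K1 * K2 * tau μ m q * ∑' k, π k ^ q := by
        rw [ENNReal.tsum_mul_right]; ring
    _ ≤ K1 * K2 * tau μ m q * (K1 * tau μ n q) := by gcongr
    _ = _ := by
        push_cast
        rw [ENNReal.mul_rpow_of_nonneg _ _ hq0, ENNReal.mul_rpow_of_nonneg _ _ hq0]
        rw [hK1, hK2]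
        push_cast
        ring

end Crest.Agent.R98
end

-- ▼ part R98/DimUpper
section

/-!
Row 98, dimension part: the upper bound
`lowerHausdorffDim μ ≤ ENNReal.ofReal (min 1 (rwEntropyRate r t p / lyapunovExp r p))`.
-/

set_option autoImplicit false
open MeasureTheory Crest.AnalysisR Set Filter Topology
open scoped ENNReal NNReal

namespace Crest.Agent.R98

theorem exists_lt_of_deriv_neg {F : ℝ → ℝ} {d : ℝ} (h : HasDerivAt F d 0) (hd : d < 0) :
    ∃ δ : ℝ, 0 < δ ∧ δ < 1 ∧ F δ < F 0 := by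
  have h1 := hasDerivAt_iff_tendsto_slope.1 h
  have h2 : ∀ᶠ x in 𝓝[≠] (0:ℝ), slope F 0 x < 0 := h1.eventually (gt_mem_nhds hd)
  have h3 : ∀ᶠ x in 𝓝[>] (0:ℝ), slope F 0 x < 0 :=
    h2.filter_mono (nhdsWithin_mono _ (fun x hx => ne_of_gt hx))
  have h4 : ∀ᶠ x in 𝓝[>] (0:ℝ), x ∈ Ioo (0:ℝ) 1 := Ioo_mem_nhdsGT one_pos
  obtain ⟨x, hx1, hx2⟩ := (h3.and h4).exists
  refine ⟨x, hx2.1, hx2.2, ?_⟩
  rw [slope_def_field, sub_zero] at hx1
  have := (div_neg_iff.1 hx1)
  rcases this with ⟨_, h⟩ | ⟨h, _⟩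
  · linarith [hx2.1]
  · linarith

section claim

variable {ι : Type*} [Fintype ι] [Nonempty ι] {r t p : ι → ℝ} {μ : Measure ℝ}

omit [Nonempty ι] in
theorem sum_prod_words (φ : ι → ℝ) (n : ℕ) :
    ∑ w : Fin n → ι, ∏ j, φ (w j) = (∑ i, φ i) ^ n := by
  rw [Fintype.sum_pow]

omit [Nonempty ι] in
theorem sum_prod_words_one (hp₁ : ∑ i, p i = 1) (n : ℕ) :
    ∑ w : Fin n → ι, ∏ j, p (w j) = 1 := by
  rw [sum_prod_words, hp₁, one_pow]

theorem lyap_pos (hr : ∀ i, r i ≠ 0 ∧ |r i| < 1) (hp : ∀ i, 0 < p i) :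
    0 < lyapunovExp r p := by
  unfold lyapunovExp
  rw [← Finset.sum_neg_distrib]
  refine Finset.sum_pos (fun i _ => ?_) Finset.univ_nonempty
  have := Real.log_neg (abs_pos.2 (hr i).1) (hr i).2
  have := hp i
  nlinarith

omit [Nonempty ι] in
theorem p_le_one (hp : ∀ i, 0 < p i) (hp₁ : ∑ i, p i = 1) (i : ι) : p i ≤ 1 := by
  rw [← hp₁]
  exact Finset.single_le_sum (fun i _ => (hp i).le) (Finset.mem_univ i)

/-- Key set construction. -/
theorem exists_small_set (hr : ∀ i, r i ≠ 0 ∧ |r i| < 1) (hp : ∀ i, 0 < p i)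
    (hp₁ : ∑ i, p i = 1) (hμ : IsSelfSimilarMeasure r t p μ) {s : ℝ} (hs0 : 0 < s)
    (hs : (∑ i, Real.negMulLog (p i)) < s * lyapunovExp r p) :
    ∃ E : Set ℝ, MeasurableSet E ∧ 0 < μ E ∧ dimH E ≤ ENNReal.ofReal s := by
  classical
  have := hμ.1
  obtain ⟨R, hR0, hRμ, -⟩ := exists_supp hr (fun i => (hp i).le) hp₁ hμ
  obtain ⟨ρ, hρ0, hρ1, hρ⟩ := exists_ratio hr
  -- the pressure-like function
  set b : ι → ℝ := fun i => |r i| ^ s / p i with hb
  have hrpos : ∀ i, 0 < |r i| := fun i => abs_pos.2 (hr i).1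
  have hbpos : ∀ i, 0 < b i := fun i => div_pos (Real.rpow_pos_of_pos (hrpos i) _) (hp i)
  set F : ℝ → ℝ := fun δ => ∑ i, p i * b i ^ δ with hF
  have hFd : HasDerivAt F (∑ i, p i * (b i ^ (0:ℝ) * Real.log (b i))) 0 := by
    apply HasDerivAt.fun_sum
    intro i _
    apply HasDerivAt.const_mul
    have := (Real.hasStrictDerivAt_const_rpow (hbpos i) 0).hasDerivAt
    exact this
  have hF0 : F 0 = 1 := by simp [hF, hp₁]
  have hneg : (∑ i, p i * (b i ^ (0:ℝ) * Real.log (b i))) < 0 := by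
    have h1 : ∀ i, p i * (b i ^ (0:ℝ) * Real.log (b i))
        = s * (p i * Real.log |r i|) + Real.negMulLog (p i) := by
      intro i
      rw [Real.rpow_zero, one_mul, hb]
      simp only
      rw [Real.log_div (Real.rpow_pos_of_pos (hrpos i) _).ne' (hp i).ne', Real.log_rpow (hrpos i),
        Real.negMulLog]
      ring
    simp_rw [h1]
    rw [Finset.sum_add_distrib, ← Finset.mul_sum]
    have h2 : ∑ i, p i * Real.log |r i| = - lyapunovExp r p := by simp [lyapunovExp]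
    rw [h2]; linarith
  obtain ⟨δ, hδ0, hδ1, hδ⟩ := exists_lt_of_deriv_neg hFd hneg
  rw [hF0] at hδ
  set θ := F δ with hθ
  have hθ0 : 0 < θ := by
    rw [hθ, hF]
    exact Finset.sum_pos (fun i _ => mul_pos (hp i) (Real.rpow_pos_of_pos (hbpos i) _))
      Finset.univ_nonempty
  set a := Real.sqrt θ with ha
  have ha0 : 0 < a := Real.sqrt_pos.2 hθ0
  have ha1 : a < 1 := by rw [ha]; rw [Real.sqrt_lt' one_pos]; simpa using hδ
  have haa : a * a = θ := Real.mul_self_sqrt hθ0.le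
  set κ := a ^ (1 / δ) with hκ
  have hκ0 : 0 < κ := Real.rpow_pos_of_pos ha0 _
  have hκ1 : κ < 1 := Real.rpow_lt_one ha0.le ha1 (by positivity)
  have hκδ : κ ^ δ = a := by
    rw [hκ, ← Real.rpow_mul ha0.le, one_div_mul_cancel hδ0.ne', Real.rpow_one]
  -- words
  set P : ∀ n : ℕ, (Fin n → ι) → ℝ := fun n w => ∏ j, p (w j) with hP
  have hPpos : ∀ n w, 0 < P n w := fun n w => Finset.prod_pos fun j _ => hp _
  set Q : ∀ n : ℕ, (Fin n → ι) → ℝ := fun n w => |wR r w| ^ s with hQ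
  have habsR : ∀ n (w : Fin n → ι), |wR r w| = ∏ j, |r (w j)| := by
    intro n w; rw [wR, Finset.abs_prod]
  have hRpos : ∀ n (w : Fin n → ι), 0 < |wR r w| := by
    intro n w; rw [habsR]; exact Finset.prod_pos fun j _ => hrpos _
  have hQpos : ∀ n w, 0 < Q n w := fun n w => Real.rpow_pos_of_pos (hRpos n w) _
  have hQP : ∀ n (w : Fin n → ι), Q n w / P n w = ∏ j, b (w j) := by
    intro n w
    simp only [hQ, hP, hb]
    rw [habsR, Finset.prod_div_distrib, ← Real.finsetProd_rpow _ _ (fun j _ => (hrpos _).le)]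
  let G : ∀ n : ℕ, Finset (Fin n → ι) := fun n => Finset.univ.filter fun w => Q n w < κ ^ n * P n w
  have hGc : ∀ n, ∑ w ∈ (G n)ᶜ, P n w ≤ a ^ n := by
    intro n
    have h1 : ∀ w ∈ (G n)ᶜ, P n w ≤ P n w * (∏ j, b (w j) ^ δ) * (a ^ n)⁻¹ := by
      intro w hw
      have hw' : κ ^ n * P n w ≤ Q n w := by
        simpa [G] using hw
      have h2 : κ ^ n ≤ ∏ j, b (w j) := by
        rw [← hQP, le_div_iff₀ (hPpos n w)]; exact hw'
      have h3 : a ^ n ≤ ∏ j, b (w j) ^ δ := by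
        rw [Real.finsetProd_rpow _ _ (fun j _ => (hbpos _).le), ← hκδ, ← Real.rpow_natCast,
          ← Real.rpow_mul hκ0.le, mul_comm, Real.rpow_mul hκ0.le]
        exact Real.rpow_le_rpow (by positivity) (by rw [Real.rpow_natCast]; exact h2) hδ0.le
      have h4 : 0 < a ^ n := by positivity
      rw [mul_assoc]
      apply le_mul_of_one_le_right (hPpos n w).le
      rw [← div_eq_mul_inv, le_div_iff₀ h4, one_mul]
      exact h3
    calc ∑ w ∈ (G n)ᶜ, P n w ≤ ∑ w ∈ (G n)ᶜ, P n w * (∏ j, b (w j) ^ δ) * (a ^ n)⁻¹ :=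
          Finset.sum_le_sum h1
      _ ≤ ∑ w, P n w * (∏ j, b (w j) ^ δ) * (a ^ n)⁻¹ := by
          apply Finset.sum_le_sum_of_subset_of_nonneg (Finset.subset_univ _)
          intro w _ _
          have : 0 ≤ ∏ j, b (w j) ^ δ :=
            Finset.prod_nonneg fun j _ => Real.rpow_nonneg (hbpos _).le _
          have := (hPpos n w).le
          positivity
      _ = (∑ w : Fin n → ι, ∏ j, (p (w j) * b (w j) ^ δ)) * (a ^ n)⁻¹ := by
          rw [Finset.sum_mul]
          refine Finset.sum_congr rfl fun w _ => ?_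
          rw [Finset.prod_mul_distrib]
      _ = θ ^ n * (a ^ n)⁻¹ := by
          rw [sum_prod_words (fun i => p i * b i ^ δ)]
      _ = a ^ n := by
          rw [← haa, mul_pow]; field_simp
  -- the sets
  let I : Set ℝ := Icc (-(R:ℝ)) R
  let Tn : ∀ n : ℕ, (Fin n → ι) → Set ℝ := fun n w => (affineWordMap r t (List.ofFn w)) '' I
  have hTcomp : ∀ n w, IsCompact (Tn n w) := by
    intro n w
    apply isCompact_Icc.image
    rw [affineWordMap_ofFn]; fun_prop
  let E : ℕ → Set ℝ := fun n => ⋃ w ∈ G n, Tn n w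
  have hEm : ∀ n, MeasurableSet (E n) := fun n =>
    Finset.measurableSet_biUnion _ fun w _ => (hTcomp n w).isClosed.measurableSet
  have hμE : ∀ n, μ (E n)ᶜ ≤ ENNReal.ofReal (a ^ n) := by
    intro n
    rw [selfSim_apply_words hμ (fun i => (hp i).le) n (hEm n).compl]
    calc ∑ w : Fin n → ι, ENNReal.ofReal (∏ j, p (w j)) *
          μ ((affineWordMap r t (List.ofFn w)) ⁻¹' (E n)ᶜ)
        ≤ ∑ w : Fin n → ι, if w ∈ (G n)ᶜ then ENNReal.ofReal (P n w) else 0 := by
          refine Finset.sum_le_sum fun w _ => ?_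
          split_ifs with hw
          · exact mul_le_of_le_one_right' prob_le_one
          · have hw' : w ∈ G n := by simpa using hw
            have : μ ((affineWordMap r t (List.ofFn w)) ⁻¹' (E n)ᶜ) = 0 := by
              apply measure_mono_null _ hRμ
              intro x hx hxI
              apply hx
              simp only [E, mem_iUnion]
              exact ⟨w, hw', mem_image_of_mem _ hxI⟩
            rw [this, mul_zero]
      _ = ∑ w ∈ (G n)ᶜ, ENNReal.ofReal (P n w) := by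
          rw [← Finset.sum_filter]; congr 1; ext w; simp
      _ = ENNReal.ofReal (∑ w ∈ (G n)ᶜ, P n w) :=
          (ENNReal.ofReal_sum_of_nonneg fun w _ => (hPpos n w).le).symm
      _ ≤ ENNReal.ofReal (a ^ n) := ENNReal.ofReal_le_ofReal (hGc n)
  -- choose N
  obtain ⟨N, hN⟩ : ∃ N : ℕ, a ^ N * (1 - a)⁻¹ < 1 := by
    have ht : Tendsto (fun N : ℕ => a ^ N * (1 - a)⁻¹) atTop (𝓝 (0 * (1 - a)⁻¹)) :=
      (tendsto_pow_atTop_nhds_zero_of_lt_one ha0.le ha1).mul_const _
    rw [zero_mul] at ht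
    exact (ht.eventually (gt_mem_nhds one_pos)).exists
  refine ⟨⋂ n : ℕ, E (N + n), MeasurableSet.iInter fun n => hEm _, ?_, ?_⟩
  · -- positive measure
    by_contra hcon
    have hz : μ (⋂ n : ℕ, E (N + n)) = 0 := by simpa using hcon
    have h1 : (1:ℝ≥0∞) ≤ μ (⋂ n : ℕ, E (N + n))ᶜ := by
      have := prob_compl_eq_one_sub (μ := μ) (MeasurableSet.iInter fun n => hEm (N + n))
      rw [this, hz, tsub_zero]
    have h2 : μ (⋂ n : ℕ, E (N + n))ᶜ ≤ ENNReal.ofReal (a ^ N * (1 - a)⁻¹) := by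
      rw [compl_iInter]
      calc μ (⋃ n : ℕ, (E (N + n))ᶜ) ≤ ∑' n : ℕ, μ (E (N + n))ᶜ := measure_iUnion_le _
        _ ≤ ∑' n : ℕ, ENNReal.ofReal (a ^ (N + n)) := ENNReal.tsum_le_tsum fun n => hμE _
        _ = ENNReal.ofReal (∑' n : ℕ, a ^ (N + n)) := by
            rw [ENNReal.ofReal_tsum_of_nonneg (fun n => by positivity)]
            simp_rw [pow_add]
            exact (summable_geometric_of_lt_one ha0.le ha1).mul_left _
        _ = ENNReal.ofReal (a ^ N * (1 - a)⁻¹) := by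
            simp_rw [pow_add]
            rw [tsum_mul_left, tsum_geometric_of_lt_one ha0.le ha1]
    have h3 : ENNReal.ofReal (a ^ N * (1 - a)⁻¹) < 1 := by
      rw [← ENNReal.ofReal_one]
      exact (ENNReal.ofReal_lt_ofReal_iff one_pos).2 hN
    exact absurd (h1.trans h2) (not_le.2 h3)
  · -- dimension
    have hdiam : ∀ n (w : Fin n → ι), Metric.ediam (Tn n w) ≤ ENNReal.ofReal (|wR r w| * (2 * R)) := by
      intro n w
      apply Metric.ediam_le
      rintro _ ⟨x, hx, rfl⟩ _ ⟨y, hy, rfl⟩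
      rw [affineWordMap_ofFn]
      simp only
      rw [edist_dist, Real.dist_eq]
      apply ENNReal.ofReal_le_ofReal
      have h1 : wR r w * x + wT r t w - (wR r w * y + wT r t w) = wR r w * (x - y) := by ring
      rw [h1, abs_mul]
      apply mul_le_mul_of_nonneg_left _ (abs_nonneg _)
      rw [abs_le]
      constructor <;> [linarith [hx.1, hy.2]; linarith [hx.2, hy.1]]
    have hRρ : ∀ n (w : Fin n → ι), |wR r w| ≤ ρ ^ n := by
      intro n w
      rw [habsR]
      calc ∏ j, |r (w j)| ≤ ∏ _j : Fin n, ρ :=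
            Finset.prod_le_prod (fun j _ => abs_nonneg _) fun j _ => hρ _
        _ = ρ ^ n := by simp
    have hmain : μH[s] (⋂ n : ℕ, E (N + n)) ≤ ENNReal.ofReal ((2 * R : ℝ) ^ s) := by
      have h1 := Measure.hausdorffMeasure_le_liminf_sum (β := ℕ) (ι := fun n => {w // w ∈ G n}) s
        (⋂ n : ℕ, E (N + n)) (l := atTop) (fun n => ENNReal.ofReal (ρ ^ n * (2 * R))) ?_
        (fun n w => Tn n w.1) ?_ ?_
      · refine h1.trans ?_
        refine (liminf_le_liminf (v := fun _ => ENNReal.ofReal ((2 * R : ℝ) ^ s))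
          (Eventually.of_forall fun n => ?_)).trans (by simp)
        calc ∑ w : {w // w ∈ G n}, Metric.ediam (Tn n w.1) ^ s
            ≤ ∑ w : {w // w ∈ G n}, ENNReal.ofReal (P n w.1 * (2 * R : ℝ) ^ s) := by
              refine Finset.sum_le_sum fun w _ => ?_
              have hw : Q n w.1 < κ ^ n * P n w.1 := (Finset.mem_filter.1 w.2).2
              calc Metric.ediam (Tn n w.1) ^ s
                  ≤ (ENNReal.ofReal (|wR r w.1| * (2 * R))) ^ s :=
                    ENNReal.rpow_le_rpow (hdiam n w.1) hs0.le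
                _ = ENNReal.ofReal ((|wR r w.1| * (2 * R)) ^ s) :=
                    ENNReal.ofReal_rpow_of_nonneg (by positivity) hs0.le
                _ ≤ _ := by
                    apply ENNReal.ofReal_le_ofReal
                    rw [Real.mul_rpow (abs_nonneg _) (by positivity)]
                    apply mul_le_mul_of_nonneg_right _ (by positivity)
                    have h5 : κ ^ n * P n w.1 ≤ P n w.1 :=
                      mul_le_of_le_one_left (hPpos n w.1).le (pow_le_one₀ hκ0.le hκ1.le)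
                    exact hw.le.trans h5
          _ = ∑ w ∈ G n, ENNReal.ofReal (P n w * (2 * R : ℝ) ^ s) :=
              Finset.sum_coe_sort (G n) (fun w => ENNReal.ofReal (P n w * (2 * R : ℝ) ^ s))
          _ ≤ ∑ w, ENNReal.ofReal (P n w * (2 * R : ℝ) ^ s) :=
              Finset.sum_le_sum_of_subset (Finset.subset_univ _)
          _ = ENNReal.ofReal (∑ w, P n w * (2 * R : ℝ) ^ s) := by
              rw [ENNReal.ofReal_sum_of_nonneg]
              intro w _; have := (hPpos n w).le; positivity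
          _ = ENNReal.ofReal ((2 * R : ℝ) ^ s) := by
              rw [← Finset.sum_mul, sum_prod_words_one hp₁, one_mul]
      · have ht : Tendsto (fun n : ℕ => ρ ^ n * (2 * R : ℝ)) atTop (𝓝 (0 * (2 * R))) :=
          (tendsto_pow_atTop_nhds_zero_of_lt_one hρ0.le hρ1).mul_const _
        rw [zero_mul] at ht
        simpa using ENNReal.tendsto_ofReal ht
      · refine Eventually.of_forall fun n w => (hdiam n w.1).trans ?_
        apply ENNReal.ofReal_le_ofReal
        exact mul_le_mul_of_nonneg_right (hRρ n w.1) (by positivity)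
      · filter_upwards [eventually_ge_atTop N] with n hn x hx
        obtain ⟨k, rfl⟩ := Nat.exists_eq_add_of_le hn
        have := mem_iInter.1 hx k
        simp only [E, mem_iUnion] at this
        obtain ⟨w, hw, hx⟩ := this
        exact mem_iUnion.2 ⟨⟨w, hw⟩, hx⟩
    have hs' : ((s.toNNReal : ℝ≥0) : ℝ) = s := Real.coe_toNNReal s hs0.le
    apply dimH_le_of_hausdorffMeasure_ne_top
    rw [hs']
    exact (hmain.trans_lt ENNReal.ofReal_lt_top).ne

theorem upper_claim (hr : ∀ i, r i ≠ 0 ∧ |r i| < 1) (hp : ∀ i, 0 < p i)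
    (hp₁ : ∑ i, p i = 1) (hμ : IsSelfSimilarMeasure r t p μ) :
    lowerHausdorffDim μ ≤ ENNReal.ofReal ((∑ i, Real.negMulLog (p i)) / lyapunovExp r p) := by
  have hχ := lyap_pos (r := r) hr hp
  have hH : 0 ≤ ∑ i, Real.negMulLog (p i) :=
    Finset.sum_nonneg fun i _ => Real.negMulLog_nonneg (hp i).le (p_le_one hp hp₁ i)
  apply ENNReal.le_of_forall_pos_le_add
  intro ε hε _
  have hε' : (0:ℝ) < ε := hε
  obtain ⟨E, hE1, hE2, hE3⟩ := exists_small_set (s := (∑ i, Real.negMulLog (p i)) / lyapunovExp r p + ε)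
    hr hp hp₁ hμ (by positivity) (by
      rw [add_mul, div_mul_cancel₀ _ hχ.ne']
      have : 0 < (ε:ℝ) * lyapunovExp r p := by positivity
      linarith)
  calc lowerHausdorffDim μ ≤ dimH E := by
        unfold lowerHausdorffDim
        exact iInf_le_of_le E (iInf_le_of_le hE1 (iInf_le _ hE2))
    _ ≤ _ := hE3
    _ = _ := by
        rw [ENNReal.ofReal_add (by positivity) hε'.le, ENNReal.ofReal_coe_nnreal]

/-- `∑ over words` of the log of the ratio is `m` times the Lyapunov exponent (up to sign). -/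
theorem sum_words_log (hr : ∀ i, r i ≠ 0 ∧ |r i| < 1) (hp₁ : ∑ i, p i = 1) (m : ℕ) :
    ∑ w : Fin m → ι, (∏ j, p (w j)) * Real.log |wR r w| = - (m * lyapunovExp r p) := by
  induction m with
  | zero => simp [wR]
  | succ m ih =>
    rw [← (Fin.consEquiv (fun _ : Fin (m+1) => ι)).sum_comp, Fintype.sum_prod_type]
    have h1 : ∀ (i : ι) (w : Fin m → ι), (∏ j, p ((Fin.consEquiv fun _ : Fin (m+1) => ι) (i, w) j)) *
        Real.log |wR r ((Fin.consEquiv fun _ : Fin (m+1) => ι) (i, w))|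
        = (p i * Real.log |r i|) * (∏ j, p (w j)) + p i * ((∏ j, p (w j)) * Real.log |wR r w|) := by
      intro i w
      have h2 : (Fin.consEquiv fun x : Fin (m+1) => ι) (i, w) = (Fin.cons i w : Fin (m+1) → ι) := rfl
      rw [h2, Fin.prod_univ_succ]
      have h3 : wR r (Fin.cons i w : Fin (m+1) → ι) = r i * wR r w := by
        rw [wR, Fin.prod_univ_succ, wR]; simp
      rw [h3, abs_mul, Real.log_mul (abs_pos.2 (hr i).1).ne']
      · simp only [Fin.cons_zero, Fin.cons_succ]; ring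
      · apply abs_ne_zero.2
        exact Finset.prod_ne_zero_iff.2 fun j _ => (hr _).1
    simp_rw [h1]
    simp_rw [Finset.sum_add_distrib, ← Finset.mul_sum]
    rw [sum_prod_words_one hp₁, ih]
    have h5 : ∑ x, p x * -((m:ℝ) * lyapunovExp r p) = -((m:ℝ) * lyapunovExp r p) := by
      rw [← Finset.sum_mul, hp₁, one_mul]
    have h4 : ∑ i, p i * Real.log |r i| = - lyapunovExp r p := by simp [lyapunovExp]
    rw [h5]
    simp only [mul_one]
    rw [h4]; push_cast; ring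

theorem upper_words (hr : ∀ i, r i ≠ 0 ∧ |r i| < 1) (hp : ∀ i, 0 < p i)
    (hp₁ : ∑ i, p i = 1) (hμ : IsSelfSimilarMeasure r t p μ) (m : ℕ) (hm : 0 < m) :
    lowerHausdorffDim μ ≤ ENNReal.ofReal (composedMapEntropy r t p m / (m * lyapunovExp r p)) := by
  classical
  have := hμ.1
  let Z : (Fin m → ι) → (ℝ → ℝ) := fun w => affineWordMap r t (List.ofFn w)
  let G := Set.range Z
  let _ : Fintype G := Fintype.ofFinite _
  have : Nonempty G := ⟨⟨Z (fun _ => Classical.arbitrary ι), mem_range_self _⟩⟩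
  let P : (Fin m → ι) → ℝ := fun w => ∏ j, p (w j)
  have hPpos : ∀ w, 0 < P w := fun w => Finset.prod_pos fun j _ => hp _
  let zz : (Fin m → ι) → G := fun w => ⟨Z w, mem_range_self w⟩
  let p' : G → ℝ := fun g => ∑ w ∈ Finset.univ.filter (fun w => zz w = g), P w
  let r' : G → ℝ := fun g => g.1 1 - g.1 0
  let t' : G → ℝ := fun g => g.1 0
  have hr'w : ∀ w, r' (zz w) = wR r w := by
    intro w
    simp only [r', zz, Z, affineWordMap_ofFn]; ring
  have hgw : ∀ g : G, ∀ x, g.1 x = r' g * x + t' g := by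
    rintro ⟨_, w, rfl⟩ x
    simp only [r', t', Z, affineWordMap_ofFn]; ring
  have hr' : ∀ g, r' g ≠ 0 ∧ |r' g| < 1 := by
    rintro ⟨_, w, rfl⟩
    have := hr'w w
    simp only [zz] at this
    rw [this]
    refine ⟨Finset.prod_ne_zero_iff.2 fun j _ => (hr _).1, ?_⟩
    obtain ⟨ρ, hρ0, hρ1, hρ⟩ := exists_ratio hr
    rw [wR, Finset.abs_prod]
    calc ∏ j, |r (w j)| ≤ ∏ _j : Fin m, ρ :=
          Finset.prod_le_prod (fun j _ => abs_nonneg _) fun j _ => hρ _
      _ = ρ ^ m := by simp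
      _ < 1 := pow_lt_one₀ hρ0.le hρ1 hm.ne'
  have hp' : ∀ g, 0 < p' g := by
    rintro ⟨_, w, rfl⟩
    apply Finset.sum_pos (fun w _ => hPpos w)
    exact ⟨w, by simp [zz]⟩
  have hfib : ∀ f : G → ℝ, ∑ g, p' g * f g = ∑ w, P w * f (zz w) := by
    intro f
    rw [← Finset.sum_fiberwise (s := Finset.univ) (g := zz)]
    refine Finset.sum_congr rfl fun g _ => ?_
    rw [Finset.sum_mul]
    refine Finset.sum_congr rfl fun w hw => ?_
    rw [(Finset.mem_filter.1 hw).2]
  have hp₁' : ∑ g, p' g = 1 := by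
    have := hfib (fun _ => 1)
    simp only [mul_one] at this
    rw [this]
    exact sum_prod_words_one hp₁ m
  have hμ' : IsSelfSimilarMeasure r' t' p' μ := by
    refine ⟨hμ.1, ?_⟩
    ext E hE
    rw [selfSim_apply_words hμ (fun i => (hp i).le) m hE, Measure.finsetSum_apply]
    rw [← Finset.sum_fiberwise (s := Finset.univ) (g := zz)]
    refine Finset.sum_congr rfl fun g _ => ?_
    rw [Measure.smul_apply, Measure.map_apply (measurable_aff _ _) hE, smul_eq_mul]
    have : (fun x => r' g * x + t' g) = g.1 := by funext x; rw [hgw]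
    rw [this]
    simp only [p']
    rw [ENNReal.ofReal_sum_of_nonneg (fun w _ => (hPpos w).le), Finset.sum_mul]
    refine Finset.sum_congr rfl fun w hw => ?_
    have h2 := (Finset.mem_filter.1 hw).2
    rw [← h2]
  have hmain := upper_claim hr' hp' hp₁' hμ'
  have hent : ∑ g, Real.negMulLog (p' g) = composedMapEntropy r t p m := by
    have h1 : ∀ g, Real.negMulLog (p' g) = p' g * (-Real.log (p' g)) := by
      intro g; rw [Real.negMulLog]; ring
    simp_rw [h1]
    rw [hfib (fun g => -Real.log (p' g))]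
    rw [composedMapEntropy, finiteLawEntropy, ← Finset.sum_neg_distrib]
    refine Finset.sum_congr rfl fun w _ => ?_
    rw [mul_neg]
    congr 3
    simp only [p']
    rw [Finset.sum_filter]
    refine Finset.sum_congr rfl fun v _ => ?_
    simp only [zz, Subtype.mk.injEq, Set.indicator_apply, Set.mem_ofPred_eq, Z, P]
  have hly : lyapunovExp r' p' = m * lyapunovExp r p := by
    have h1 := hfib (fun g => Real.log |r' g|)
    rw [lyapunovExp, h1]
    simp_rw [hr'w]
    rw [sum_words_log hr hp₁ m, neg_neg]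
  rw [hent, hly] at hmain
  exact hmain

/-- THE UPPER BOUND (A1). -/
theorem lowerHausdorffDim_le (hr : ∀ i, r i ≠ 0 ∧ |r i| < 1) (hp : ∀ i, 0 < p i)
    (hp₁ : ∑ i, p i = 1) (hμ : IsSelfSimilarMeasure r t p μ) :
    lowerHausdorffDim μ ≤ ENNReal.ofReal (min 1 (rwEntropyRate r t p / lyapunovExp r p)) := by
  have := hμ.1
  have hχ := lyap_pos (r := r) hr hp
  rw [ENNReal.ofReal_min, ENNReal.ofReal_one]
  refine le_min ?_ ?_
  · unfold lowerHausdorffDim
    refine iInf_le_of_le univ (iInf_le_of_le MeasurableSet.univ (iInf_le_of_le (by simp) ?_))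
    rw [Real.dimH_univ]
  · apply ENNReal.le_of_forall_pos_le_add
    intro ε hε _
    have hε' : (0:ℝ) < ε := hε
    have hlt : rwEntropyRate r t p < rwEntropyRate r t p + ε * lyapunovExp r p := by
      have : 0 < (ε:ℝ) * lyapunovExp r p := by positivity
      linarith
    obtain ⟨m, hm⟩ := exists_lt_of_ciInf_lt (show (⨅ m : ℕ, composedMapEntropy r t p (m + 1) / ((m : ℝ) + 1))
      < rwEntropyRate r t p + ε * lyapunovExp r p from hlt)
    have h1 := upper_words (t := t) hr hp hp₁ hμ (m+1) (Nat.succ_pos m)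
    refine h1.trans ?_
    have h2 : composedMapEntropy r t p (m + 1) / (((m + 1 : ℕ) : ℝ) * lyapunovExp r p)
        ≤ rwEntropyRate r t p / lyapunovExp r p + ε := by
      rw [← div_div, div_le_iff₀ hχ, add_mul, div_mul_cancel₀ _ hχ.ne']
      push_cast
      exact hm.le
    refine (ENNReal.ofReal_le_ofReal h2).trans ?_
    refine ENNReal.ofReal_add_le.trans ?_
    rw [ENNReal.ofReal_coe_nnreal]

end claim

end Crest.Agent.R98
end

-- ▼ part R98/DimLower
section

/-!
Row 98, dimension part: dyadic entropy, superadditivity, and the lower bound for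
`lowerHausdorffDim`.
-/

set_option autoImplicit false
open MeasureTheory Crest.AnalysisR Set Filter Topology
open scoped ENNReal NNReal

namespace Crest.Agent.R98

/-- Shannon entropy (nats) of the dyadic partition of level `n`. -/
noncomputable def Hd (μ : Measure ℝ) (n : ℕ) : ℝ := ∑' k : ℤ, Real.negMulLog (μ.real (cell n k))

/-- finite set of indices outside which the cells are null -/
noncomputable def idx (R n : ℕ) : Finset ℤ := Finset.Icc (-((R:ℤ) * 2 ^ n)) ((R:ℤ) * 2 ^ n)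

theorem cell_null {μ : Measure ℝ} {R : ℕ} (hR : μ (Icc (-(R:ℝ)) R)ᶜ = 0) (n : ℕ) (k : ℤ)
    (hk : k ∉ idx R n) : μ (cell n k) = 0 := by
  apply measure_mono_null _ hR
  intro x hx hxI
  apply hk
  have hx' : ⌊(2:ℝ) ^ n * x⌋ = k := hx
  rw [idx, Finset.mem_Icc, ← hx']
  have h2 : (0:ℝ) < 2 ^ n := by positivity
  constructor
  · rw [Int.le_floor]
    push_cast
    nlinarith [hxI.1]
  · have : ⌊(2:ℝ) ^ n * x⌋ ≤ ⌊(((R:ℤ) * 2 ^ n : ℤ) : ℝ)⌋ := by
      apply Int.floor_le_floor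
      push_cast
      nlinarith [hxI.2]
    rwa [Int.floor_intCast] at this

section

variable {μ : Measure ℝ} [IsProbabilityMeasure μ] {R : ℕ}

omit [IsProbabilityMeasure μ] in
theorem Hd_eq_sum (hR : μ (Icc (-(R:ℝ)) R)ᶜ = 0) (n : ℕ) :
    Hd μ n = ∑ k ∈ idx R n, Real.negMulLog (μ.real (cell n k)) := by
  unfold Hd
  apply tsum_eq_sum
  intro k hk
  rw [Measure.real, cell_null hR n k hk]; simp

theorem tau_eq (hR : μ (Icc (-(R:ℝ)) R)ᶜ = 0) (n : ℕ) {δ : ℝ} (hδ : 0 ≤ δ) :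
    tau μ n (1 + δ) = ENNReal.ofReal (∑ k ∈ idx R n, μ.real (cell n k) * μ.real (cell n k) ^ δ) := by
  unfold tau
  rw [tsum_eq_sum (s := idx R n)]
  · rw [ENNReal.ofReal_sum_of_nonneg]
    · refine Finset.sum_congr rfl fun k _ => ?_
      rw [ENNReal.rpow_add_of_nonneg _ _ zero_le_one hδ, ENNReal.rpow_one,
        ENNReal.ofReal_mul measureReal_nonneg,
        ← ENNReal.ofReal_rpow_of_nonneg measureReal_nonneg hδ, ofReal_measureReal]
    · intro k _
      exact mul_nonneg measureReal_nonneg (Real.rpow_nonneg measureReal_nonneg _)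
  · intro k hk
    rw [cell_null hR n k hk, ENNReal.zero_rpow_of_pos (by linarith)]

theorem sum_cells_real (hR : μ (Icc (-(R:ℝ)) R)ᶜ = 0) (n : ℕ) :
    ∑ k ∈ idx R n, μ.real (cell n k) = 1 := by
  have h := tsum_cell_inter μ n MeasurableSet.univ
  simp only [univ_inter, measure_univ] at h
  rw [tsum_eq_sum (s := idx R n) (fun k hk => cell_null hR n k hk)] at h
  have h2 : (∑ k ∈ idx R n, μ (cell n k)).toReal = 1 := by rw [h]; simp
  rw [ENNReal.toReal_sum (fun k _ => measure_ne_top _ _)] at h2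
  exact h2

/-- Derivative at `0` of `δ ↦ ∑ m_k (B m_k)^δ`. -/
theorem hasDerivAt_sum (hR : μ (Icc (-(R:ℝ)) R)ᶜ = 0) (n : ℕ) {B : ℝ} (hB : 0 < B) :
    HasDerivAt (fun δ : ℝ => ∑ k ∈ idx R n, μ.real (cell n k) * (B * μ.real (cell n k)) ^ δ)
      (Real.log B - Hd μ n) 0 := by
  have h1 : Real.log B - Hd μ n
      = ∑ k ∈ idx R n, μ.real (cell n k) * Real.log (B * μ.real (cell n k)) := by
    rw [Hd_eq_sum hR]
    have : ∀ k ∈ idx R n, μ.real (cell n k) * Real.log (B * μ.real (cell n k))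
        = μ.real (cell n k) * Real.log B - Real.negMulLog (μ.real (cell n k)) := by
      intro k _
      rcases eq_or_ne (μ.real (cell n k)) 0 with h | h
      · simp [h]
      · rw [Real.log_mul hB.ne' h, Real.negMulLog]; ring
    rw [Finset.sum_congr rfl this, Finset.sum_sub_distrib, ← Finset.sum_mul, sum_cells_real hR,
      one_mul]
  rw [h1]
  apply HasDerivAt.fun_sum
  intro k _
  rcases eq_or_ne (μ.real (cell n k)) 0 with h | h
  · simp only [h, zero_mul]
    exact hasDerivAt_const _ _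
  · have hpos : 0 < B * μ.real (cell n k) :=
      mul_pos hB (lt_of_le_of_ne measureReal_nonneg (Ne.symm h))
    have h3 := (Real.hasStrictDerivAt_const_rpow hpos 0).hasDerivAt
    rw [Real.rpow_zero, one_mul] at h3
    exact h3.const_mul _

end

universe u
variable {ι : Type u} [Fintype ι] {r t p : ι → ℝ} {μ : Measure ℝ}

/-- real version of the submultiplicativity -/
theorem exists_sum_mul (hr : ∀ i, r i ≠ 0 ∧ |r i| < 1) (hp : ∀ i, 0 ≤ p i) (hp₁ : ∑ i, p i = 1)
    (hμ : IsSelfSimilarMeasure r t p μ) {R : ℕ} (hR : μ (Icc (-(R:ℝ)) R)ᶜ = 0) :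
    ∃ K : ℕ, 1 ≤ K ∧ ∀ δ : ℝ, 0 ≤ δ → ∀ n m : ℕ,
      ∑ k ∈ idx R (n + m), μ.real (cell (n + m) k) * μ.real (cell (n + m) k) ^ δ ≤
      (K:ℝ) ^ δ * ((∑ k ∈ idx R n, μ.real (cell n k) * μ.real (cell n k) ^ δ) *
        (∑ k ∈ idx R m, μ.real (cell m k) * μ.real (cell m k) ^ δ)) := by
  have := hμ.1
  obtain ⟨K, hK, h⟩ := exists_tau_mul hr hp hp₁ hμ
  refine ⟨K, hK, fun δ hδ n m => ?_⟩
  have h1 := h (1 + δ) (by linarith) n m
  rw [tau_eq hR _ hδ, tau_eq hR _ hδ, tau_eq hR _ hδ] at h1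
  have hnn : ∀ n, 0 ≤ ∑ k ∈ idx R n, μ.real (cell n k) * μ.real (cell n k) ^ δ := fun n =>
    Finset.sum_nonneg fun k _ => mul_nonneg measureReal_nonneg (Real.rpow_nonneg measureReal_nonneg _)
  rw [← ENNReal.ofReal_mul (hnn n), ← ENNReal.ofReal_natCast, ENNReal.ofReal_rpow_of_nonneg
    (Nat.cast_nonneg _) (by linarith), ← ENNReal.ofReal_mul (by positivity)] at h1
  rw [show (1 + δ - 1) = δ by ring] at h1
  exact (ENNReal.ofReal_le_ofReal_iff (by have := hnn n; have := hnn m; positivity)).1 h1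

/-- superadditivity of the dyadic entropy up to a constant -/
theorem exists_Hd_superadd (hr : ∀ i, r i ≠ 0 ∧ |r i| < 1) (hp : ∀ i, 0 ≤ p i)
    (hp₁ : ∑ i, p i = 1) (hμ : IsSelfSimilarMeasure r t p μ) :
    ∃ C : ℝ, 0 ≤ C ∧ ∀ n m : ℕ, Hd μ n + Hd μ m ≤ Hd μ (n + m) + C := by
  have := hμ.1
  obtain ⟨R, hR0, hR, -⟩ := exists_supp hr hp hp₁ hμ
  obtain ⟨K, hK, h⟩ := exists_sum_mul hr hp hp₁ hμ hR
  refine ⟨Real.log K, Real.log_natCast_nonneg _, fun n m => ?_⟩
  by_contra hcon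
  push Not at hcon
  have hK0 : (0:ℝ) < K := by exact_mod_cast hK
  -- F δ = K^δ τ_n τ_m - τ_{n+m}
  set f : ℕ → ℝ → ℝ := fun n δ => ∑ k ∈ idx R n, μ.real (cell n k) * μ.real (cell n k) ^ δ with hf
  have hfd : ∀ n, HasDerivAt (f n) (- Hd μ n) 0 := by
    intro n
    have := hasDerivAt_sum (μ := μ) hR n one_pos
    simpa [hf] using this
  have hf0 : ∀ n, f n 0 = 1 := by
    intro n; simp [hf, sum_cells_real hR]
  have hKd : HasDerivAt (fun δ : ℝ => (K:ℝ) ^ δ) (Real.log K) 0 := by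
    have := (Real.hasStrictDerivAt_const_rpow hK0 0).hasDerivAt
    rwa [Real.rpow_zero, one_mul] at this
  have hF : HasDerivAt (fun δ => (K:ℝ) ^ δ * (f n δ * f m δ) - f (n + m) δ)
      (Real.log K * (f n 0 * f m 0) + (K:ℝ) ^ (0:ℝ) * ((- Hd μ n) * f m 0 + f n 0 * (- Hd μ m))
        - (- Hd μ (n + m))) 0 :=
    (hKd.mul ((hfd n).mul (hfd m))).sub (hfd (n + m))
  obtain ⟨δ, hδ0, hδ1, hδ⟩ := exists_lt_of_deriv_neg hF (by
    rw [hf0, hf0, Real.rpow_zero]; linarith)
  simp only [hf0, Real.rpow_zero, mul_one, sub_self] at hδ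
  have := h δ hδ0.le n m
  simp only [hf] at hδ
  linarith

/-- small measure of the set of points with heavy cells -/
theorem exists_exp_decay (hr : ∀ i, r i ≠ 0 ∧ |r i| < 1) (hp : ∀ i, 0 ≤ p i)
    (hp₁ : ∑ i, p i = 1) (hμ : IsSelfSimilarMeasure r t p μ) {s s' : ℝ} (hs : s' < s)
    (hfreq : ∃ᶠ n : ℕ in atTop, s * (n * Real.log 2) ≤ Hd μ n) :
    ∃ n₀ : ℕ, 0 < n₀ ∧ ∃ θ : ℝ, 0 ≤ θ ∧ θ < 1 ∧ ∀ j : ℕ,
      μ {x | ENNReal.ofReal (((2:ℝ) ^ (n₀ * (j + 1)))⁻¹ ^ s') ≤ μ (cell (n₀ * (j + 1)) (fl (n₀ * (j + 1)) x))}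
        ≤ ENNReal.ofReal (θ ^ (j + 1)) := by
  have := hμ.1
  obtain ⟨R, hR0, hR, -⟩ := exists_supp hr hp hp₁ hμ
  obtain ⟨K, hK, h⟩ := exists_sum_mul hr hp hp₁ hμ hR
  have hK0 : (0:ℝ) < K := by exact_mod_cast hK
  have hK1 : (1:ℝ) ≤ K := by exact_mod_cast hK
  have hlog2 : 0 < Real.log 2 := Real.log_pos one_lt_two
  -- choose n₀
  obtain ⟨n₀, hn₀, hn₀'⟩ : ∃ n₀ : ℕ, s * (n₀ * Real.log 2) ≤ Hd μ n₀ ∧
      (0 < n₀ ∧ Real.log K < (s - s') * (n₀ * Real.log 2)) := by
    have hev : ∀ᶠ n : ℕ in atTop, 0 < n ∧ Real.log K < (s - s') * (n * Real.log 2) := by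
      refine (eventually_gt_atTop 0).and ?_
      have ht : Tendsto (fun n : ℕ => (s - s') * ((n:ℝ) * Real.log 2)) atTop atTop :=
        Tendsto.const_mul_atTop (by linarith)
          (Tendsto.atTop_mul_const hlog2 tendsto_natCast_atTop_atTop)
      exact ht.eventually_gt_atTop _
    exact (hfreq.and_eventually hev).exists
  set f : ℕ → ℝ → ℝ := fun n δ => ∑ k ∈ idx R n, μ.real (cell n k) * μ.real (cell n k) ^ δ with hf
  have hfnn : ∀ n δ, 0 ≤ f n δ := fun n δ =>
    Finset.sum_nonneg fun k _ => mul_nonneg measureReal_nonneg (Real.rpow_nonneg measureReal_nonneg _)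
  set B : ℝ := K * ((2:ℝ) ^ n₀) ^ s' with hB
  have h2n : (0:ℝ) < (2:ℝ) ^ n₀ := by positivity
  have hB0 : 0 < B := mul_pos hK0 (Real.rpow_pos_of_pos h2n _)
  have hlogB : Real.log B = Real.log K + s' * (n₀ * Real.log 2) := by
    rw [hB, Real.log_mul hK0.ne' (Real.rpow_pos_of_pos h2n _).ne', Real.log_rpow h2n, Real.log_pow]
  obtain ⟨δ, hδ0, hδ1, hδ⟩ := exists_lt_of_deriv_neg (hasDerivAt_sum (μ := μ) hR n₀ hB0) (by
    rw [hlogB]; nlinarith)
  simp only [Real.rpow_zero, mul_one, sum_cells_real hR] at hδ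
  -- θ
  set θ := ∑ k ∈ idx R n₀, μ.real (cell n₀ k) * (B * μ.real (cell n₀ k)) ^ δ with hθ
  have hθeq : θ = (K:ℝ) ^ δ * ((2:ℝ) ^ n₀) ^ (s' * δ) * f n₀ δ := by
    rw [hθ, hf, Finset.mul_sum]
    refine Finset.sum_congr rfl fun k _ => ?_
    rw [Real.mul_rpow hB0.le measureReal_nonneg, hB, Real.mul_rpow hK0.le (Real.rpow_nonneg h2n.le _),
      ← Real.rpow_mul h2n.le]
    ring
  have hθ0 : 0 ≤ θ := by
    rw [hθeq]; have := hfnn n₀ δ; positivity
  refine ⟨n₀, hn₀'.1, θ, hθ0, hδ, ?_⟩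
  -- induction for f
  have hind : ∀ j : ℕ, (K:ℝ) ^ δ * ((2:ℝ) ^ (n₀ * (j+1))) ^ (s' * δ) * f (n₀ * (j + 1)) δ ≤ θ ^ (j + 1) := by
    intro j
    induction j with
    | zero => simp only [zero_add, mul_one, pow_one]; exact hθeq.symm.le
    | succ j ih =>
      have h1 := h δ hδ0.le (n₀ * (j + 1)) n₀
      have h2 : n₀ * (j + 1) + n₀ = n₀ * (j + 1 + 1) := by ring
      rw [h2] at h1
      have h3 : ((2:ℝ) ^ (n₀ * (j + 1 + 1))) ^ (s' * δ)
          = ((2:ℝ) ^ (n₀ * (j + 1))) ^ (s' * δ) * ((2:ℝ) ^ n₀) ^ (s' * δ) := by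
        rw [← h2, pow_add, Real.mul_rpow (by positivity) (by positivity)]
      calc (K:ℝ) ^ δ * ((2:ℝ) ^ (n₀ * (j + 1 + 1))) ^ (s' * δ) * f (n₀ * (j + 1 + 1)) δ
          ≤ (K:ℝ) ^ δ * ((2:ℝ) ^ (n₀ * (j + 1 + 1))) ^ (s' * δ) *
            ((K:ℝ) ^ δ * (f (n₀ * (j + 1)) δ * f n₀ δ)) :=
            mul_le_mul_of_nonneg_left h1 (by positivity)
        _ = ((K:ℝ) ^ δ * ((2:ℝ) ^ (n₀ * (j+1))) ^ (s' * δ) * f (n₀ * (j + 1)) δ) * θ := by
            rw [h3, hθeq]; ring
        _ ≤ θ ^ (j + 1) * θ := mul_le_mul_of_nonneg_right ih hθ0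
        _ = θ ^ (j + 1 + 1) := by ring
  intro j
  set n := n₀ * (j + 1) with hn
  have h2n' : (0:ℝ) < (2:ℝ) ^ n := by positivity
  have hc0 : (0:ℝ) < ((2:ℝ) ^ n)⁻¹ ^ s' := Real.rpow_pos_of_pos (by positivity) _
  -- Markov
  set bad : Set ℝ := {x | ENNReal.ofReal (((2:ℝ) ^ n)⁻¹ ^ s') ≤ μ (cell n (fl n x))} with hbad
  have hbadm : MeasurableSet bad := by
    have : bad = fl n ⁻¹' {k | ENNReal.ofReal (((2:ℝ) ^ n)⁻¹ ^ s') ≤ μ (cell n k)} := rfl
    rw [this]
    exact measurable_fl n (MeasurableSet.of_discrete)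
  rw [← tsum_cell_inter μ n hbadm, tsum_eq_sum (s := idx R n)]
  · calc ∑ k ∈ idx R n, μ (bad ∩ cell n k)
        ≤ ∑ k ∈ idx R n, ENNReal.ofReal (((2:ℝ) ^ n) ^ (s' * δ) *
            (μ.real (cell n k) * μ.real (cell n k) ^ δ)) := by
          refine Finset.sum_le_sum fun k _ => ?_
          by_cases hk : ENNReal.ofReal (((2:ℝ) ^ n)⁻¹ ^ s') ≤ μ (cell n k)
          · have h5 : ((2:ℝ) ^ n)⁻¹ ^ s' ≤ μ.real (cell n k) := by
              rw [← ofReal_measureReal] at hk
              exact (ENNReal.ofReal_le_ofReal_iff measureReal_nonneg).1 hk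
            calc μ (bad ∩ cell n k) ≤ μ (cell n k) := measure_mono inter_subset_right
              _ = ENNReal.ofReal (μ.real (cell n k)) := (ofReal_measureReal (measure_ne_top _ _)).symm
              _ ≤ _ := by
                apply ENNReal.ofReal_le_ofReal
                have h6 : (((2:ℝ) ^ n)⁻¹ ^ s') ^ δ ≤ μ.real (cell n k) ^ δ :=
                  Real.rpow_le_rpow hc0.le h5 hδ0.le
                have h7 : ((2:ℝ) ^ n) ^ (s' * δ) * (((2:ℝ) ^ n)⁻¹ ^ s') ^ δ = 1 := by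
                  rw [← Real.rpow_mul (by positivity), Real.inv_rpow h2n'.le,
                    mul_inv_cancel₀ (Real.rpow_pos_of_pos h2n' _).ne']
                have h8 : 1 ≤ ((2:ℝ) ^ n) ^ (s' * δ) * μ.real (cell n k) ^ δ := by
                  rw [← h7]
                  exact mul_le_mul_of_nonneg_left h6 (by positivity)
                have h9 : 0 ≤ μ.real (cell n k) := measureReal_nonneg
                nlinarith
          · have : bad ∩ cell n k = ∅ := by
              ext x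
              simp only [mem_inter_iff, mem_empty_iff_false, iff_false, not_and]
              intro hx hxk
              apply hk
              have hxk' : fl n x = k := hxk
              have hx' : ENNReal.ofReal (((2:ℝ) ^ n)⁻¹ ^ s') ≤ μ (cell n (fl n x)) := hx
              rwa [hxk'] at hx'
            rw [this, measure_empty]
            exact zero_le
      _ = ENNReal.ofReal (((2:ℝ) ^ n) ^ (s' * δ) * f n δ) := by
          rw [← ENNReal.ofReal_sum_of_nonneg, ← Finset.mul_sum]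
          intro k _
          have h9 : 0 ≤ μ.real (cell n k) := measureReal_nonneg
          positivity
      _ ≤ ENNReal.ofReal (θ ^ (j + 1)) := by
          apply ENNReal.ofReal_le_ofReal
          refine le_trans ?_ (hind j)
          have h9 := hfnn n δ
          have h10 : (1:ℝ) ≤ (K:ℝ) ^ δ := Real.one_le_rpow hK1 hδ0.le
          have h11 : 0 ≤ ((2:ℝ) ^ n) ^ (s' * δ) * f n δ := by positivity
          nlinarith
  · intro k hk
    exact measure_mono_null inter_subset_right (cell_null hR n k hk)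

end Crest.Agent.R98
end

-- ▼ part R98/DimFinal
section

/-!
Row 98, dimension part: lower bound for `lowerHausdorffDim` from the dyadic entropy.
-/

set_option autoImplicit false
open MeasureTheory Crest.AnalysisR Set Filter Topology
open scoped ENNReal NNReal

namespace Crest.Agent.R98

/-- Mass distribution principle along dyadic levels `n₀ (j+1)`. -/
theorem mass_distribution {μ : Measure ℝ} [IsProbabilityMeasure μ] {n₀ N : ℕ} (hn₀ : 0 < n₀)
    {s : ℝ} (hs : 0 < s) {S : Set ℝ} (hSm : MeasurableSet S) (hS : μ S ≠ 0)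
    (h : ∀ x ∈ S, ∀ j : ℕ, N ≤ j →
      μ (cell (n₀ * (j + 1)) (fl (n₀ * (j + 1)) x)) ≤ ENNReal.ofReal (((2:ℝ) ^ (n₀ * (j + 1)))⁻¹ ^ s)) :
    ENNReal.ofReal s ≤ dimH S := by
  classical
  -- basic estimate
  have hbasic : ∀ U : Set ℝ, ∀ j : ℕ, N ≤ j →
      Metric.ediam U ≤ ENNReal.ofReal (((2:ℝ) ^ (n₀ * (j + 1)))⁻¹) →
      μ (U ∩ S) ≤ 3 * ENNReal.ofReal (((2:ℝ) ^ (n₀ * (j + 1)))⁻¹ ^ s) := by
    intro U j hj hU
    set n := n₀ * (j + 1) with hn
    have h2n : (0:ℝ) < 2 ^ n := by positivity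
    rcases (U ∩ S).eq_empty_or_nonempty with he | ⟨x, hxU, hxS⟩
    · rw [he, measure_empty]; exact zero_le
    · have hcov : U ∩ S ⊆ ⋃ k ∈ Finset.Icc (fl n x - 1) (fl n x + 1), (S ∩ cell n k) := by
        rintro y ⟨hyU, hyS⟩
        have h1 : edist y x ≤ ENNReal.ofReal (((2:ℝ) ^ n)⁻¹) :=
          (Metric.edist_le_ediam_of_mem hyU hxU).trans hU
        have h2 : |y - x| ≤ ((2:ℝ) ^ n)⁻¹ := by
          rw [edist_dist, ENNReal.ofReal_le_ofReal_iff (by positivity), Real.dist_eq] at h1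
          exact h1
        have h3 : |(2:ℝ) ^ n * y - 2 ^ n * x| ≤ (1:ℕ) := by
          rw [← mul_sub, abs_mul, abs_of_pos h2n]
          calc (2:ℝ) ^ n * |y - x| ≤ 2 ^ n * (2 ^ n)⁻¹ := by gcongr
            _ = ((1:ℕ):ℝ) := by rw [mul_inv_cancel₀ h2n.ne']; simp
        have h4 := floor_mem_Icc_of_abs_sub_le h3
        simp only [mem_iUnion]
        exact ⟨fl n y, h4, hyS, rfl⟩
      calc μ (U ∩ S) ≤ μ (⋃ k ∈ Finset.Icc (fl n x - 1) (fl n x + 1), (S ∩ cell n k)) :=
            measure_mono hcov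
        _ ≤ ∑ k ∈ Finset.Icc (fl n x - 1) (fl n x + 1), μ (S ∩ cell n k) :=
            measure_biUnion_finset_le _ _
        _ ≤ ∑ _k ∈ Finset.Icc (fl n x - 1) (fl n x + 1), ENNReal.ofReal (((2:ℝ) ^ n)⁻¹ ^ s) := by
            refine Finset.sum_le_sum fun k _ => ?_
            rcases (S ∩ cell n k).eq_empty_or_nonempty with he | ⟨z, hzS, hzk⟩
            · rw [he, measure_empty]; exact zero_le
            · have h5 := h z hzS j hj
              have h6 : fl n z = k := hzk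
              rw [← hn, h6] at h5
              exact (measure_mono inter_subset_right).trans h5
        _ ≤ 3 * ENNReal.ofReal (((2:ℝ) ^ n)⁻¹ ^ s) := by
            rw [Finset.sum_const, nsmul_eq_mul]
            gcongr
            have := card_Icc_symm (fl n x) 1
            push_cast at this
            exact_mod_cast this
  -- the constant
  set Cst : ℝ := 3 * ((2:ℝ) ^ n₀) ^ s with hCst
  have hCpos : 0 < Cst := by positivity
  have hfin : ∀ U : Set ℝ, Metric.ediam U ≤ ENNReal.ofReal (((2:ℝ) ^ (n₀ * (N + 1)))⁻¹) →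
      μ (U ∩ S) ≤ ENNReal.ofReal Cst * Metric.ediam U ^ s := by
    intro U hU
    rcases eq_or_ne (Metric.ediam U) 0 with h0 | h0
    · -- null diameter
      have h1 : ∀ j : ℕ, N ≤ j → μ (U ∩ S) ≤ 3 * ENNReal.ofReal (((2:ℝ) ^ (n₀ * (j + 1)))⁻¹ ^ s) :=
        fun j hj => hbasic U j hj (by rw [h0]; exact zero_le)
      have ht : Tendsto (fun j : ℕ => 3 * ENNReal.ofReal (((2:ℝ) ^ (n₀ * (j + 1)))⁻¹ ^ s)) atTop
          (𝓝 (3 * ENNReal.ofReal (0 ^ s))) := by
        apply ENNReal.Tendsto.const_mul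
        · apply ENNReal.tendsto_ofReal
          have h2 : Tendsto (fun j : ℕ => ((2:ℝ) ^ (n₀ * (j + 1)))⁻¹) atTop (𝓝 0) := by
            have h3 : Tendsto (fun j : ℕ => ((1/2:ℝ)) ^ (n₀ * (j + 1))) atTop (𝓝 0) := by
              apply (tendsto_pow_atTop_nhds_zero_of_lt_one (by norm_num) (by norm_num)).comp
              apply tendsto_atTop_mono (f := fun j : ℕ => j)
              · intro j; nlinarith
              · exact tendsto_id
            refine h3.congr fun j => ?_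
            rw [one_div, inv_pow]
          exact (Real.continuous_rpow_const hs.le).continuousAt.tendsto.comp h2
        · right; norm_num
      rw [Real.zero_rpow hs.ne', ENNReal.ofReal_zero, mul_zero] at ht
      have : μ (U ∩ S) ≤ 0 := ge_of_tendsto ht (by
        filter_upwards [eventually_ge_atTop N] with j hj using h1 j hj)
      exact this.trans zero_le
    · have hne : Metric.ediam U ≠ ∞ := (hU.trans_lt ENNReal.ofReal_lt_top).ne
      set d := (Metric.ediam U).toReal with hd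
      have hd0 : 0 < d := ENNReal.toReal_pos h0 hne
      have hdU : Metric.ediam U = ENNReal.ofReal d := (ENNReal.ofReal_toReal hne).symm
      have hdle : d ≤ ((2:ℝ) ^ (n₀ * (N + 1)))⁻¹ := by
        rw [hdU] at hU
        exact (ENNReal.ofReal_le_ofReal_iff (by positivity)).1 hU
      set y : ℝ := ((2:ℝ) ^ n₀)⁻¹ with hy
      have hy0 : 0 < y := by positivity
      have hy1 : y < 1 := inv_lt_one_of_one_lt₀ (one_lt_pow₀ one_lt_two hn₀.ne')
      have hyp : ∀ j : ℕ, ((2:ℝ) ^ (n₀ * (j + 1)))⁻¹ = y ^ (j + 1) := by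
        intro j; rw [hy, inv_pow, ← pow_mul]
      rw [hyp] at hdle
      have hd1 : d ≤ 1 := hdle.trans (pow_le_one₀ hy0.le hy1.le)
      obtain ⟨i, hi1, hi2⟩ := exists_nat_pow_near_of_lt_one hd0 hd1 hy0 hy1
      have hiN : N + 1 ≤ i := by
        have : y ^ (i + 1) < y ^ (N + 1) := hi1.trans_le hdle
        have := (pow_lt_pow_iff_right_of_lt_one₀ hy0 hy1).1 this
        omega
      obtain ⟨j, rfl⟩ : ∃ j, i = j + 1 := ⟨i - 1, by omega⟩
      have hj : N ≤ j := by omega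
      have h1 := hbasic U j hj (by rw [hyp, hdU]; exact ENNReal.ofReal_le_ofReal hi2)
      rw [hyp] at h1
      refine h1.trans ?_
      rw [hdU, ENNReal.ofReal_rpow_of_nonneg hd0.le hs.le, ← ENNReal.ofReal_mul hCpos.le,
        show (3:ℝ≥0∞) = ENNReal.ofReal 3 by simp, ← ENNReal.ofReal_mul (by norm_num)]
      apply ENNReal.ofReal_le_ofReal
      have h2 : (y ^ (j + 1)) ^ s ≤ ((2:ℝ) ^ n₀) ^ s * d ^ s := by
        rw [← Real.mul_rpow (by positivity) hd0.le]
        apply Real.rpow_le_rpow (by positivity) _ hs.le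
        have h3 : y ^ (j + 1) = 2 ^ n₀ * y ^ (j + 1 + 1) := by
          rw [pow_succ y (j+1), hy]; field_simp
        rw [h3]
        gcongr
      rw [hCst]; nlinarith
  -- conclude
  have hle : (ENNReal.ofReal Cst)⁻¹ • (μ.restrict S) ≤ μH[s] := by
    apply Measure.le_hausdorffMeasure s _ (ENNReal.ofReal (((2:ℝ) ^ (n₀ * (N + 1)))⁻¹))
      (by rw [ENNReal.ofReal_pos]; positivity)
    intro U hU
    rw [Measure.smul_apply, smul_eq_mul, Measure.restrict_apply' hSm]
    have h1 := hfin U hU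
    have hC1 : ENNReal.ofReal Cst ≠ 0 := by rw [Ne, ENNReal.ofReal_eq_zero]; linarith
    calc (ENNReal.ofReal Cst)⁻¹ * μ (U ∩ S)
        ≤ (ENNReal.ofReal Cst)⁻¹ * (ENNReal.ofReal Cst * Metric.ediam U ^ s) := by gcongr
      _ = Metric.ediam U ^ s := by
          rw [← mul_assoc, ENNReal.inv_mul_cancel hC1 ENNReal.ofReal_ne_top, one_mul]
  have hpos : μH[s] S ≠ 0 := by
    intro h0
    have h1 := hle S
    rw [h0, Measure.smul_apply, smul_eq_mul, Measure.restrict_apply' hSm, inter_self] at h1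
    have h2 : (ENNReal.ofReal Cst)⁻¹ * μ S = 0 := le_antisymm h1 zero_le
    rcases mul_eq_zero.1 h2 with h3 | h3
    · exact ENNReal.ofReal_ne_top (ENNReal.inv_eq_zero.1 h3)
    · exact hS h3
  have hs' : ((s.toNNReal : ℝ≥0) : ℝ) = s := Real.coe_toNNReal s hs.le
  apply le_dimH_of_hausdorffMeasure_ne_zero
  rw [hs']
  exact hpos

universe u
variable {ι : Type u} [Fintype ι] {r t p : ι → ℝ} {μ : Measure ℝ}

/-- THE LOWER BOUND (A2): it is enough to have many levels with large dyadic entropy. -/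
theorem le_lowerHausdorffDim_of_frequently (hr : ∀ i, r i ≠ 0 ∧ |r i| < 1) (hp : ∀ i, 0 ≤ p i)
    (hp₁ : ∑ i, p i = 1) (hμ : IsSelfSimilarMeasure r t p μ) {s : ℝ}
    (hfreq : ∃ᶠ n : ℕ in atTop, s * (n * Real.log 2) ≤ Hd μ n) :
    ENNReal.ofReal s ≤ lowerHausdorffDim μ := by
  classical
  have := hμ.1
  -- it suffices to treat s' < s, s' > 0
  suffices hmain : ∀ s' : ℝ, 0 < s' → s' < s → ENNReal.ofReal s' ≤ lowerHausdorffDim μ by
    rcases le_or_gt s 0 with h0 | h0
    · rw [ENNReal.ofReal_of_nonpos h0]; exact zero_le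
    · have ht : Tendsto (fun s' => ENNReal.ofReal s') (𝓝[<] s) (𝓝 (ENNReal.ofReal s)) :=
        (ENNReal.continuous_ofReal.tendsto s).mono_left nhdsWithin_le_nhds
      refine le_of_tendsto ht ?_
      filter_upwards [Ioo_mem_nhdsLT h0] with s' hs'
      exact hmain s' hs'.1 hs'.2
  intro s' hs'0 hs's
  obtain ⟨n₀, hn₀, θ, hθ0, hθ1, hdec⟩ := exists_exp_decay hr hp hp₁ hμ hs's hfreq
  unfold lowerHausdorffDim
  refine le_iInf fun E => le_iInf fun hE => le_iInf fun hμE => ?_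
  -- Borel-Cantelli
  set bad : ℕ → Set ℝ := fun j => {x | ENNReal.ofReal (((2:ℝ) ^ (n₀ * (j + 1)))⁻¹ ^ s') ≤
    μ (cell (n₀ * (j + 1)) (fl (n₀ * (j + 1)) x))} with hbad
  have hbadm : ∀ j, MeasurableSet (bad j) := by
    intro j
    have : bad j = fl (n₀ * (j + 1)) ⁻¹' {k | ENNReal.ofReal (((2:ℝ) ^ (n₀ * (j + 1)))⁻¹ ^ s') ≤
      μ (cell (n₀ * (j + 1)) k)} := rfl
    rw [this]
    exact measurable_fl _ (MeasurableSet.of_discrete)
  have hsum : ∑' j, μ (bad j) ≠ ∞ := by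
    have h1 : ∑' j, μ (bad j) ≤ ∑' j : ℕ, ENNReal.ofReal (θ ^ (j + 1)) := ENNReal.tsum_le_tsum hdec
    have h2 : Summable (fun j : ℕ => θ ^ (j + 1)) := by
      simp_rw [pow_succ]
      exact (summable_geometric_of_lt_one hθ0 hθ1).mul_right _
    rw [← ENNReal.ofReal_tsum_of_nonneg (fun j => by positivity) h2] at h1
    exact (h1.trans_lt ENNReal.ofReal_lt_top).ne
  have hae := ae_eventually_notMem hsum
  -- increasing sets
  set S : ℕ → Set ℝ := fun N => E ∩ ⋂ j : ℕ, (bad (N + j))ᶜ with hSdef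
  have hSm : ∀ N, MeasurableSet (S N) := fun N =>
    hE.inter (MeasurableSet.iInter fun j => (hbadm _).compl)
  obtain ⟨N, hN⟩ : ∃ N, μ (S N) ≠ 0 := by
    by_contra hcon
    push Not at hcon
    have h1 : μ (⋃ N, S N) = 0 := measure_iUnion_null hcon
    have h2 : μ E ≤ μ ((⋃ N, S N) ∪ {x | ¬ ∀ᶠ n in atTop, x ∉ bad n}) := by
      apply measure_mono
      intro x hx
      by_cases hev : ∀ᶠ n in atTop, x ∉ bad n
      · left
        obtain ⟨N, hN⟩ := eventually_atTop.1 hev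
        exact mem_iUnion.2 ⟨N, hx, mem_iInter.2 fun j => hN _ (Nat.le_add_right _ _)⟩
      · right; exact hev
    have h3 : μ {x | ¬ ∀ᶠ n in atTop, x ∉ bad n} = 0 := hae
    have h4 : μ E ≤ 0 := h2.trans ((measure_union_le _ _).trans (by rw [h1, h3, add_zero]))
    exact absurd hμE (not_lt.2 h4)
  have hsub : S N ⊆ E := inter_subset_left
  refine le_trans ?_ (dimH_mono hsub)
  apply mass_distribution (N := N) hn₀ hs'0 (hSm N) hN
  intro x hx j hj
  obtain ⟨k, rfl⟩ := Nat.exists_eq_add_of_le hj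
  have hx2 := mem_iInter.1 hx.2 k
  simp only [hbad, mem_compl_iff, mem_ofPred_eq, not_le] at hx2
  exact hx2.le

/-- Reduction of S0129 to the entropy inequality. -/
theorem result_of_entropy [Nonempty ι] (hr : ∀ i, r i ≠ 0 ∧ |r i| < 1) (hp : ∀ i, 0 < p i)
    (hp₁ : ∑ i, p i = 1) (hμ : IsSelfSimilarMeasure r t p μ)
    (hgoal : ∀ ε : ℝ, 0 < ε → ∃ᶠ n : ℕ in atTop,
      (min 1 (rwEntropyRate r t p / lyapunovExp r p) - ε) * (n * Real.log 2) ≤ Hd μ n) :
    lowerHausdorffDim μ = ENNReal.ofReal (min 1 (rwEntropyRate r t p / lyapunovExp r p)) := by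
  apply le_antisymm (lowerHausdorffDim_le hr hp hp₁ hμ)
  set a := min 1 (rwEntropyRate r t p / lyapunovExp r p) with ha
  have ht : Tendsto (fun ε : ℝ => ENNReal.ofReal (a - ε)) (𝓝[>] 0) (𝓝 (ENNReal.ofReal (a - 0))) := by
    apply ENNReal.tendsto_ofReal
    exact (tendsto_const_nhds.sub tendsto_id).mono_left nhdsWithin_le_nhds
  rw [sub_zero] at ht
  refine le_of_tendsto ht ?_
  filter_upwards [self_mem_nhdsWithin] with ε hε
  exact le_lowerHausdorffDim_of_frequently hr (fun i => (hp i).le) hp₁ hμ (hgoal ε hε)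

end Crest.Agent.R98
end

-- ▼ part R98/Goal
section

/-!
Row 98 (S0129): frozen interface between the two cases and the final statement (helper777).

* `EntGoal r t p μ`: what both cases must prove (the hypothesis of `result_of_entropy`).
* `IrrRatio r`: case K (some ratio of logarithms irrational).
* `KMain`, `RMain`: the statements of the two cases, universe polymorphic.
* `result_of_cases`: `KMain → RMain → S0129`.
-/

set_option autoImplicit false
open MeasureTheory Crest.AnalysisR Set Filter Topology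

namespace Crest.Agent.R98

/-- The frozen goal: the dyadic entropy of `μ` is at least `(min 1 (h/χ) - ε) n log 2` for
infinitely many `n`, for every `ε > 0`. -/
def EntGoal {ι : Type*} [Fintype ι] (r t p : ι → ℝ) (μ : Measure ℝ) : Prop :=
  ∀ ε : ℝ, 0 < ε → ∃ᶠ n : ℕ in atTop,
    (min 1 (rwEntropyRate r t p / lyapunovExp r p) - ε) * (n * Real.log 2) ≤ Hd μ n

/-- Case K: two letters with irrational ratio of logarithms. -/
def IrrRatio {ι : Type*} (r : ι → ℝ) : Prop :=
  ∃ i j : ι, Irrational (Real.log |r i| / Real.log |r j|)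

universe u

/-- Statement of case K. -/
def KMain : Prop :=
  ∀ (ι : Type u) [Fintype ι] [Nonempty ι] (r t p : ι → ℝ) (μ : Measure ℝ),
    (∀ i, r i ≠ 0 ∧ |r i| < 1) → (∀ i, 0 < p i) → ∑ i, p i = 1 →
    IsSelfSimilarMeasure r t p μ → IrrRatio r → EntGoal r t p μ

/-- Statement of case R. -/
def RMain : Prop :=
  ∀ (ι : Type u) [Fintype ι] [Nonempty ι] (r t p : ι → ℝ) (μ : Measure ℝ),
    (∀ i, r i ≠ 0 ∧ |r i| < 1) → (∀ i, 0 < p i) → ∑ i, p i = 1 →
    IsSelfSimilarMeasure r t p μ → ¬ IrrRatio r → EntGoal r t p μ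

/-- In case R all `-log |r i|` are positive integer multiples of one `β > 0`. -/
theorem exists_int_ratio {ι : Type*} [Fintype ι] [Nonempty ι] {r : ι → ℝ}
    (hr : ∀ i, r i ≠ 0 ∧ |r i| < 1) (h : ¬ IrrRatio r) :
    ∃ (β : ℝ) (a : ι → ℕ), 0 < β ∧ (∀ i, 0 < a i) ∧ ∀ i, -Real.log |r i| = a i * β := by
  classical
  have hneg : ∀ i, 0 < -Real.log |r i| := by
    intro i
    have h1 : 0 < |r i| := abs_pos.2 (hr i).1
    have := Real.log_neg h1 (hr i).2
    linarith
  obtain ⟨j⟩ := ‹Nonempty ι›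
  have hq : ∀ i, ∃ q : ℚ, (q : ℝ) = Real.log |r i| / Real.log |r j| := by
    intro i
    by_contra hc
    exact h ⟨i, j, fun hmem => hc (by obtain ⟨q, hq⟩ := hmem; exact ⟨q, hq⟩)⟩
  choose q hq using hq
  have hqpos : ∀ i, 0 < q i := by
    intro i
    have : (0:ℝ) < q i := by
      rw [hq i]
      have h1 := hneg i
      have h2 := hneg j
      rw [show Real.log |r i| / Real.log |r j| = (-Real.log |r i|) / (-Real.log |r j|) by
        rw [neg_div_neg_eq]]
      positivity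
    exact_mod_cast this
  -- common denominator
  set N : ℕ := ∏ i, (q i).den with hN
  have hNpos : 0 < N := Finset.prod_pos fun i _ => (q i).den_pos
  have hdiv : ∀ i, (q i).den ∣ N := fun i => Finset.dvd_prod_of_mem _ (Finset.mem_univ i)
  refine ⟨-Real.log |r j| / N, fun i => ((q i).num.toNat) * (N / (q i).den), ?_, ?_, ?_⟩
  · have := hneg j
    positivity
  · intro i
    have h1 : 0 < (q i).num := Rat.num_pos.2 (hqpos i)
    have h2 : 0 < N / (q i).den := Nat.div_pos (Nat.le_of_dvd hNpos (hdiv i)) (q i).den_pos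
    have h3 : 0 < (q i).num.toNat := by omega
    exact Nat.mul_pos h3 h2
  · intro i
    have h1 : 0 < (q i).num := Rat.num_pos.2 (hqpos i)
    obtain ⟨c, hc⟩ := hdiv i
    have hden : ((q i).den : ℝ) ≠ 0 := by exact_mod_cast (q i).den_nz
    have hcN : N / (q i).den = c := by
      rw [hc]; exact Nat.mul_div_cancel_left _ (q i).den_pos
    have hNr : (N : ℝ) ≠ 0 := by exact_mod_cast hNpos.ne'
    have hNc : (N : ℝ) = (q i).den * c := by rw [hc]; push_cast; ring
    have hc0 : (c : ℝ) ≠ 0 := by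
      intro h0; rw [h0, mul_zero] at hNc; exact hNr hNc
    have hlogj : Real.log |r j| ≠ 0 := by have := hneg j; intro h0; linarith
    have hnum : (((q i).num.toNat : ℕ) : ℝ) = ((q i).num : ℝ) := by
      have : (((q i).num.toNat : ℕ) : ℤ) = (q i).num := Int.toNat_of_nonneg h1.le
      exact_mod_cast this
    have hqr : (q i : ℝ) = (q i).num / (q i).den := by
      exact_mod_cast (Rat.num_div_den (q i)).symm
    have hlog : Real.log |r i| = (q i : ℝ) * Real.log |r j| := by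
      rw [hq i]; field_simp
    show -Real.log |r i| = (((q i).num.toNat * (N / (q i).den) : ℕ) : ℝ) * (-Real.log |r j| / N)
    rw [hlog, hqr, hcN]
    push_cast
    rw [hnum, hNc]
    field_simp

/-- The final statement from the two cases. -/
theorem result_of_cases (hK : KMain.{u}) (hR : RMain.{u})
    {ι : Type u} [Fintype ι] [Nonempty ι] (r t p : ι → ℝ)
    (hr : ∀ i, r i ≠ 0 ∧ |r i| < 1) (hp : ∀ i, 0 < p i) (hp₁ : ∑ i, p i = 1)
    (μ : Measure ℝ) (hμ : IsSelfSimilarMeasure r t p μ) :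
    lowerHausdorffDim μ =
      ENNReal.ofReal (min 1 (rwEntropyRate r t p / lyapunovExp r p)) := by
  by_cases h : IrrRatio r
  · exact result_of_entropy hr hp hp₁ hμ (hK ι r t p μ hr hp hp₁ hμ h)
  · exact result_of_entropy hr hp hp₁ hμ (hR ι r t p μ hr hp hp₁ hμ h)

end Crest.Agent.R98
end

-- ▼ part R98/HsHd
section

/-!
R98 / HsHd (helper529): helper193's dyadic entropy `Hd μ n` is the cell entropy at scale `2⁻ⁿ`.
-/

set_option autoImplicit false

open MeasureTheory Set Real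

namespace Crest.Agent.R98.HsCell

theorem Hd_eq (μ : Measure ℝ) (n : ℕ) : Hd μ n = Hc μ (1 / 2 ^ n) 0 := by
  unfold Hd Hc Hz
  refine tsum_congr fun k => ?_
  congr 2
  ext x
  change ⌊(2:ℝ) ^ n * x⌋ = k ↔ ⌊(x - 0) / (1 / 2 ^ n)⌋ = k
  rw [show (x - 0) / (1 / 2 ^ n) = (2:ℝ) ^ n * x by field_simp; ring]

theorem abs_Hs_sub_Hd_le {μ : Measure ℝ} [IsProbabilityMeasure μ] (hμ : BSupp μ) (n : ℕ) :
    |Hs μ (1 / 2 ^ n) - Hd μ n| ≤ Real.log 2 := by
  rw [Hd_eq]
  exact abs_Hs_sub_Hc_le hμ (by positivity) 0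

end Crest.Agent.R98.HsCell
end

-- ▼ part R98/Bridge

/-!
R98 / Bridge (helper529): the entropy dimension `D` of a self-similar measure, in terms of the
dyadic entropies `Hd` and of the averaged entropies `Hs`, and the negation of the goal.
-/

set_option autoImplicit false

open MeasureTheory Set Real Filter Topology Crest.AnalysisR

namespace Crest.Agent.R98.Bridge

open HsCell

variable {ι : Type*} [Fintype ι] {r t p : ι → ℝ} {μ : Measure ℝ}

theorem Hd_nonneg [IsProbabilityMeasure μ] (n : ℕ) : 0 ≤ Hd μ n := by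
  rw [Hd_eq]
  exact Hz_nonneg _

theorem bsupp (hr : ∀ i, r i ≠ 0 ∧ |r i| < 1) (hp : ∀ i, 0 ≤ p i) (hp₁ : ∑ i, p i = 1)
    (hμ : IsSelfSimilarMeasure r t p μ) : BSupp μ := by
  obtain ⟨R, _, hR, -⟩ := exists_supp hr hp hp₁ hμ
  exact ⟨R, hR⟩

theorem Hd_le [IsProbabilityMeasure μ] (hμ : BSupp μ) (n : ℕ) :
    Hd μ n ≤ n * Real.log 2 + (Hd μ 0 + Real.log 2) := by
  have h := Hc_le hμ (d := 1 / 2 ^ n) (d' := 1) (by positivity) one_pos (N := 2 ^ n)
    (by push_cast; rw [mul_one_div, div_self (by positivity)]) 0 0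
  rw [probReal_univ, one_mul] at h
  have h0 : Hd μ 0 = Hc μ 1 0 := by rw [Hd_eq]; norm_num
  rw [Hd_eq μ n, h0]
  have h1 : Real.log (((2 ^ n : ℕ) : ℝ) + 1) ≤ n * Real.log 2 + Real.log 2 := by
    rw [← Real.log_pow, ← Real.log_mul (by positivity) two_ne_zero]
    refine Real.log_le_log (by positivity) ?_
    push_cast
    have : (1:ℝ) ≤ 2 ^ n := one_le_pow₀ one_le_two
    linarith
  linarith

/-- **the entropy dimension** -/
theorem exists_dim (hr : ∀ i, r i ≠ 0 ∧ |r i| < 1) (hp : ∀ i, 0 ≤ p i) (hp₁ : ∑ i, p i = 1)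
    (hμ : IsSelfSimilarMeasure r t p μ) :
    ∃ D C : ℝ, 0 ≤ D ∧ D ≤ 1 ∧ 0 ≤ C ∧ (∀ n : ℕ, Hd μ n ≤ D * (n * Real.log 2) + C) ∧
      Tendsto (fun n : ℕ => Hd μ n / (n * Real.log 2)) atTop (𝓝 D) := by
  have hprob := hμ.1
  have hb := bsupp hr hp hp₁ hμ
  obtain ⟨C, hC, hsup⟩ := exists_Hd_superadd hr hp hp₁ hμ
  have hlog : 0 < Real.log 2 := Real.log_pos one_lt_two
  set u : ℕ → ℝ := fun n => C - Hd μ n with hu
  have hsub : Subadditive u := by
    intro m n
    simp only [hu]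
    linarith [hsup m n]
  set K : ℝ := Hd μ 0 + Real.log 2 with hK
  have hK0 : 0 ≤ K := add_nonneg (Hd_nonneg 0) hlog.le
  have hbd : BddBelow (Set.range fun n => u n / n) := by
    refine ⟨-(Real.log 2 + K), ?_⟩
    rintro x ⟨n, rfl⟩
    simp only
    rcases Nat.eq_zero_or_pos n with h | h
    · subst h
      simp only [Nat.cast_zero, div_zero]
      linarith
    · have hn : (0:ℝ) < n := by exact_mod_cast h
      have hn1 : (1:ℝ) ≤ n := by exact_mod_cast h
      rw [le_div_iff₀ hn]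
      have := Hd_le hb n
      simp only [hu]
      nlinarith
  have hlim := hsub.tendsto_lim hbd
  set L := hsub.lim with hL
  have hle : ∀ n : ℕ, Hd μ n ≤ (-L / Real.log 2) * (n * Real.log 2) + (C + Hd μ 0) := by
    intro n
    rcases Nat.eq_zero_or_pos n with h | h
    · subst h
      simp only [Nat.cast_zero, zero_mul, mul_zero, zero_add]
      linarith
    · have h1 := hsub.lim_le_div hbd (n := n) (by omega)
      have hn : (0:ℝ) < n := by exact_mod_cast h
      rw [← hL, le_div_iff₀ hn] at h1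
      simp only [hu] at h1
      have h2 : (-L / Real.log 2) * (n * Real.log 2) = -(L * n) := by field_simp
      rw [h2]
      have := Hd_nonneg (μ := μ) 0
      linarith
  have htend : Tendsto (fun n : ℕ => Hd μ n / (n * Real.log 2)) atTop (𝓝 (-L / Real.log 2)) := by
    have h1 : Tendsto (fun n : ℕ => C / n - u n / n) atTop (𝓝 (0 - L)) :=
      (tendsto_const_div_atTop_nhds_zero_nat C).sub hlim
    have h2 := h1.div_const (Real.log 2)
    rw [zero_sub] at h2
    refine h2.congr fun n => ?_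
    simp only [hu]
    rw [← sub_div, sub_sub_cancel, div_div]
  refine ⟨-L / Real.log 2, C + Hd μ 0, ?_, ?_, add_nonneg hC (Hd_nonneg 0), hle, htend⟩
  · refine ge_of_tendsto' htend fun n => ?_
    exact div_nonneg (Hd_nonneg n) (by positivity)
  · have h3 : Tendsto (fun n : ℕ => 1 + (K / Real.log 2) / n) atTop (𝓝 (1 + 0)) :=
      tendsto_const_nhds.add (tendsto_const_div_atTop_nhds_zero_nat _)
    rw [add_zero] at h3
    refine le_of_tendsto_of_tendsto htend h3 ?_
    filter_upwards [eventually_gt_atTop 0] with n hn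
    have hn' : (0:ℝ) < n := by exact_mod_cast hn
    rw [div_le_iff₀ (by positivity)]
    have h4 := Hd_le hb n
    have h5 : (1 + K / Real.log 2 / n) * (n * Real.log 2) = n * Real.log 2 + K := by
      field_simp
    rw [h5]
    exact h4

/-- real scales -/
theorem exists_dim_real (hr : ∀ i, r i ≠ 0 ∧ |r i| < 1) (hp : ∀ i, 0 ≤ p i)
    (hp₁ : ∑ i, p i = 1) (hμ : IsSelfSimilarMeasure r t p μ) :
    ∃ D C : ℝ, 0 ≤ D ∧ D ≤ 1 ∧ 0 ≤ C ∧ (∀ n : ℕ, Hd μ n ≤ D * (n * Real.log 2) + C) ∧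
      Tendsto (fun n : ℕ => Hd μ n / (n * Real.log 2)) atTop (𝓝 D) ∧
      (∀ x : ℝ, 0 ≤ x → Hs μ (exp (-x)) ≤ D * x + C) ∧
      Tendsto (fun x : ℝ => Hs μ (exp (-x)) / x) atTop (𝓝 D) := by
  have hprob := hμ.1
  have hb := bsupp hr hp hp₁ hμ
  obtain ⟨D, C, hD0, hD1, hC, hle, htend⟩ := exists_dim hr hp hp₁ hμ
  have hlog : 0 < Real.log 2 := Real.log_pos one_lt_two
  have hexp : ∀ n : ℕ, (1:ℝ) / 2 ^ n = exp (-(n * Real.log 2)) := by
    intro n
    rw [Real.exp_neg, mul_comm, Real.exp_mul, Real.exp_log two_pos, Real.rpow_natCast, one_div]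
  have hupper : ∀ x : ℝ, 0 ≤ x → Hs μ (exp (-x)) ≤ D * x + (C + 2 * Real.log 2) := by
    intro x hx
    set n := ⌈x / Real.log 2⌉₊ with hn
    have h1 : x ≤ n * Real.log 2 := by
      have := Nat.le_ceil (x / Real.log 2)
      rwa [div_le_iff₀ hlog] at this
    have h2 : n * Real.log 2 ≤ x + Real.log 2 := by
      have := (Nat.ceil_lt_add_one (div_nonneg hx hlog.le)).le
      have h3 := mul_le_mul_of_nonneg_right this hlog.le
      rw [add_mul, div_mul_cancel₀ _ hlog.ne', one_mul] at h3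
      exact h3
    have h3 : Hs μ (exp (-x)) ≤ Hs μ (exp (-(n * Real.log 2))) :=
      Hs_anti hb (exp_pos _) (exp_le_exp.mpr (by linarith))
    have h4 := (abs_le.mp (abs_Hs_sub_Hd_le hb n)).2
    rw [hexp] at h4
    have h5 := hle n
    have h6 : D * (n * Real.log 2) ≤ D * (x + Real.log 2) := mul_le_mul_of_nonneg_left h2 hD0
    nlinarith
  have hlower : ∀ x : ℝ, 0 ≤ x → Hd μ ⌊x / Real.log 2⌋₊ - Real.log 2 ≤ Hs μ (exp (-x)) := by
    intro x hx
    set n := ⌊x / Real.log 2⌋₊ with hn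
    have h1 : n * Real.log 2 ≤ x := by
      have := Nat.floor_le (div_nonneg hx hlog.le)
      rwa [le_div_iff₀ hlog] at this
    have h3 : Hs μ (exp (-(n * Real.log 2))) ≤ Hs μ (exp (-x)) :=
      Hs_anti hb (exp_pos _) (exp_le_exp.mpr (by linarith))
    have h4 := (abs_le.mp (abs_Hs_sub_Hd_le hb n)).1
    rw [hexp] at h4
    linarith
  refine ⟨D, C + 2 * Real.log 2, hD0, hD1, by positivity, fun n => (hle n).trans (by linarith),
    htend, hupper, ?_⟩
  -- the limit over real scales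
  have hfl : Tendsto (fun x : ℝ => ⌊x / Real.log 2⌋₊) atTop atTop :=
    tendsto_nat_floor_atTop.comp (tendsto_id.atTop_div_const hlog)
  have hratio : Tendsto (fun x : ℝ => ((⌊x / Real.log 2⌋₊ : ℕ) : ℝ) / (x / Real.log 2)) atTop
      (𝓝 1) := (tendsto_nat_floor_div_atTop (R := ℝ)).comp (tendsto_id.atTop_div_const hlog)
  have hlow : Tendsto (fun x : ℝ => (Hd μ ⌊x / Real.log 2⌋₊ / (⌊x / Real.log 2⌋₊ * Real.log 2)) *
      (((⌊x / Real.log 2⌋₊ : ℕ) : ℝ) / (x / Real.log 2)) - Real.log 2 / x) atTop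
      (𝓝 (D * 1 - 0)) :=
    ((htend.comp hfl).mul hratio).sub (tendsto_const_nhds.div_atTop tendsto_id)
  rw [mul_one, sub_zero] at hlow
  have hup : Tendsto (fun x : ℝ => D + (C + 2 * Real.log 2) / x) atTop (𝓝 (D + 0)) :=
    tendsto_const_nhds.add (tendsto_const_nhds.div_atTop tendsto_id)
  rw [add_zero] at hup
  refine tendsto_of_tendsto_of_tendsto_of_le_of_le' hlow hup ?_ ?_
  · filter_upwards [eventually_gt_atTop 0, hfl.eventually (eventually_gt_atTop 0)] with x hx hn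
    have hn' : (0:ℝ) < ((⌊x / Real.log 2⌋₊ : ℕ) : ℝ) := by exact_mod_cast hn
    have h1 := hlower x hx.le
    have h2 : (Hd μ ⌊x / Real.log 2⌋₊ / (⌊x / Real.log 2⌋₊ * Real.log 2)) *
      (((⌊x / Real.log 2⌋₊ : ℕ) : ℝ) / (x / Real.log 2)) - Real.log 2 / x =
      (Hd μ ⌊x / Real.log 2⌋₊ - Real.log 2) / x := by
      field_simp
    rw [h2]
    exact div_le_div_of_nonneg_right h1 hx.le
  · filter_upwards [eventually_gt_atTop 0] with x hx
    rw [div_le_iff₀ hx]
    have h1 := hupper x hx.le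
    have h2 : (D + (C + 2 * Real.log 2) / x) * x = D * x + (C + 2 * Real.log 2) := by
      field_simp
    rw [h2]
    exact h1

/-- if the goal (with `a` in place of `min 1 (h/χ)`) fails, then `D < a` -/
theorem dim_lt_of_not_goal {D a : ℝ}
    (htend : Tendsto (fun n : ℕ => Hd μ n / (n * Real.log 2)) atTop (𝓝 D))
    (h : ¬ ∀ ε : ℝ, 0 < ε → ∃ᶠ n : ℕ in atTop, (a - ε) * (n * Real.log 2) ≤ Hd μ n) : D < a := by
  push Not at h
  obtain ⟨ε, hε, h⟩ := h
  have hlog : 0 < Real.log 2 := Real.log_pos one_lt_two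
  have h1 : D ≤ a - ε := by
    refine le_of_tendsto htend ?_
    filter_upwards [h, eventually_gt_atTop 0] with n hn hn0
    have hn' : (0:ℝ) < n := by exact_mod_cast hn0
    rw [div_le_iff₀ (by positivity)]
    exact (not_le.mp (by simpa using hn)).le
  linarith


end Crest.Agent.R98.Bridge
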