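import Crest.Agent.R98.Word3
import Crest.Agent.R98.Part

/-!
Row 98 (S0129). Definitions for the ending (helper549): processes over words, `Fac`, jets, rays.
-/

set_option autoImplicit false

namespace Crest.Agent.R98

open Finset MeasureTheory Filter Crest.AnalysisR
open scoped Topology

/-! ### processes -/

section Proc

variable {ι E : Type*} [NormedAddCommGroup E] [NormedSpace ℝ E]

/-- letter maps `σ_a exp(-ℓ_a L)` of a process with generator `L` -/
noncomputable def gen (σ ℓ : ι → ℝ) (L : E →L[ℝ] E) (a : ι) : E →L[ℝ] E :=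
  σ a • NormedSpace.exp ((-(ℓ a)) • L)

/-- value of a finite word for letter maps `G` and offsets `b` -/
noncomputable def pfin (G : ι → E →L[ℝ] E) (b : ι → E) : ∀ {n : ℕ}, (Fin n → ι) → E
  | 0, _ => 0
  | _ + 1, u => b (u 0) + G (u 0) (pfin G b (Fin.tail u))

/-- composition of the letter maps along a finite word -/
noncomputable def gprod (G : ι → E →L[ℝ] E) : ∀ {n : ℕ}, (Fin n → ι) → (E →L[ℝ] E)
  | 0, _ => ContinuousLinearMap.id ℝ E
  | _ + 1, u => (G (u 0)).comp (gprod G (Fin.tail u))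

@[simp] lemma pfin_zero (G : ι → E →L[ℝ] E) (b : ι → E) (u : Fin 0 → ι) : pfin G b u = 0 := rfl

lemma pfin_cons (G : ι → E →L[ℝ] E) (b : ι → E) {n : ℕ} (a : ι) (u : Fin n → ι) :
    pfin G b (Fin.cons a u : Fin (n + 1) → ι) = b a + G a (pfin G b u) := by
  simp [pfin]

@[simp] lemma gprod_zero (G : ι → E →L[ℝ] E) (u : Fin 0 → ι) :
    gprod G u = ContinuousLinearMap.id ℝ E := rfl

lemma gprod_cons (G : ι → E →L[ℝ] E) {n : ℕ} (a : ι) (u : Fin n → ι) :
    gprod G (Fin.cons a u : Fin (n + 1) → ι) = (G a).comp (gprod G u) := by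
  simp [gprod]

/-- `Φ` is the infinite-word functional of the process `(G, b)` -/
structure IsProc [MeasurableSpace ι] (G : ι → E →L[ℝ] E) (b : ι → E) (Φ : (ℕ → ι) → E) :
    Prop where
  eq : ∀ a w, Φ (scons a w) = b a + G a (Φ w)
  bdd : ∃ C, ∀ w, ‖Φ w‖ ≤ C
  meas : ∀ φ : E →L[ℝ] ℝ, Measurable fun w => φ (Φ w)

lemma IsProc.cat [MeasurableSpace ι] {G : ι → E →L[ℝ] E} {b : ι → E} {Φ : (ℕ → ι) → E}
    (h : IsProc G b Φ) {n : ℕ} (u : Fin n → ι) (w : ℕ → ι) :
    Φ (cat u w) = pfin G b u + gprod G u (Φ w) := by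
  induction n with
  | zero => simp
  | succ n ih =>
    obtain ⟨a, u, rfl⟩ := exists_cons u
    rw [cat_cons, h.eq, ih, pfin_cons, gprod_cons, map_add]
    simp [add_assoc]

end Proc

/-! ### almost sure functional dependence -/

section Fac

variable {ι : Type*} [Fintype ι] [MeasurableSpace ι]

/-- `X` is almost surely a Borel function of `Y` -/
def Fac (p : ι → ℝ) (Y X : (ℕ → ι) → ℝ) : Prop :=
  ∃ f : ℝ → ℝ, Measurable f ∧ X =ᵐ[PP p] fun w => f (Y w)

lemma Fac.self (p : ι → ℝ) (Y : (ℕ → ι) → ℝ) : Fac p Y Y :=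
  ⟨id, measurable_id, Eventually.of_forall fun _ => rfl⟩

lemma Fac.const (p : ι → ℝ) (Y : (ℕ → ι) → ℝ) (c : ℝ) : Fac p Y fun _ => c :=
  ⟨fun _ => c, measurable_const, Eventually.of_forall fun _ => rfl⟩

lemma Fac.add {p : ι → ℝ} {Y X X' : (ℕ → ι) → ℝ} (h : Fac p Y X) (h' : Fac p Y X') :
    Fac p Y fun w => X w + X' w := by
  obtain ⟨f, hf, e⟩ := h
  obtain ⟨g, hg, e'⟩ := h'
  refine ⟨fun y => f y + g y, hf.add hg, ?_⟩
  filter_upwards [e, e'] with w h1 h2
  rw [h1, h2]

lemma Fac.const_mul {p : ι → ℝ} {Y X : (ℕ → ι) → ℝ} (h : Fac p Y X) (c : ℝ) :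
    Fac p Y fun w => c * X w := by
  obtain ⟨f, hf, e⟩ := h
  refine ⟨fun y => c * f y, hf.const_mul c, ?_⟩
  filter_upwards [e] with w h1
  rw [h1]

lemma Fac.congr {p : ι → ℝ} {Y X X' : (ℕ → ι) → ℝ} (h : Fac p Y X) (e : X =ᵐ[PP p] X') :
    Fac p Y X' := by
  obtain ⟨f, hf, e'⟩ := h
  exact ⟨f, hf, e.symm.trans e'⟩

lemma Fac.trans {p : ι → ℝ} {Z Y X : (ℕ → ι) → ℝ} (h : Fac p Y X) (h' : Fac p Z Y) :
    Fac p Z X := by
  obtain ⟨f, hf, e⟩ := h
  obtain ⟨g, hg, e'⟩ := h'
  refine ⟨fun y => f (g y), hf.comp hg, ?_⟩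
  filter_upwards [e, e'] with w h1 h2
  rw [h1, h2]

lemma Fac.sum {κ : Type*} {p : ι → ℝ} {Y : (ℕ → ι) → ℝ} (s : Finset κ) (X : κ → (ℕ → ι) → ℝ)
    (h : ∀ k ∈ s, Fac p Y (X k)) : Fac p Y fun w => ∑ k ∈ s, X k w := by
  classical
  induction s using Finset.induction_on with
  | empty => simpa using Fac.const p Y 0
  | insert a s ha ih =>
    simp only [Finset.sum_insert ha]
    exact (h a (Finset.mem_insert_self _ _)).add
      (ih fun k hk => h k (Finset.mem_insert_of_mem hk))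

end Fac

/-! ### the space of jets -/

section Jet

variable {ι : Type*} [Fintype ι]

/-- the space of `J`-jets -/
abbrev EJ (ι : Type*) [Fintype ι] (J : ℕ) := EuclideanSpace ℝ (Fin (J + 1) × ι)

/-- index shift on jets: multiplication by `s`, `(N v)_l = v_{l-1}` -/
noncomputable def shJ (J : ℕ) : EJ ι J →L[ℝ] EJ ι J :=
  LinearMap.toContinuousLinearMap
    { toFun := fun v => WithLp.toLp 2 fun x : Fin (J + 1) × ι =>
        if h : (x.1 : ℕ) = 0 then 0 else v (⟨(x.1 : ℕ) - 1, by omega⟩, x.2)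
      map_add' := by
        intro v w
        ext x
        by_cases h : (x.1 : ℕ) = 0
        · simp only [dif_pos h, PiLp.add_apply, add_zero]
        · simp only [dif_neg h, PiLp.add_apply]
      map_smul' := by
        intro c v
        ext x
        by_cases h : (x.1 : ℕ) = 0
        · simp only [dif_pos h, RingHom.id_apply, PiLp.smul_apply, smul_zero]
        · simp only [dif_neg h, RingHom.id_apply, PiLp.smul_apply] }

/-- the transposed shift on jet functionals, `(Nᵀ a)_l = a_{l+1}` -/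
noncomputable def shT (J : ℕ) : EJ ι J →L[ℝ] EJ ι J :=
  LinearMap.toContinuousLinearMap
    { toFun := fun v => WithLp.toLp 2 fun x : Fin (J + 1) × ι =>
        if h : (x.1 : ℕ) < J then v (⟨(x.1 : ℕ) + 1, by omega⟩, x.2) else 0
      map_add' := by
        intro v w
        ext x
        by_cases h : (x.1 : ℕ) < J
        · simp only [dif_pos h, PiLp.add_apply]
        · simp only [dif_neg h, PiLp.add_apply, add_zero]
      map_smul' := by
        intro c v
        ext x
        by_cases h : (x.1 : ℕ) < J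
        · simp only [dif_pos h, RingHom.id_apply, PiLp.smul_apply]
        · simp only [dif_neg h, RingHom.id_apply, PiLp.smul_apply, smul_zero] }

lemma shJ_apply (J : ℕ) (v : EJ ι J) (x : Fin (J + 1) × ι) :
    shJ J v x = if h : (x.1 : ℕ) = 0 then 0 else v (⟨(x.1 : ℕ) - 1, by omega⟩, x.2) := rfl

lemma shT_apply (J : ℕ) (v : EJ ι J) (x : Fin (J + 1) × ι) :
    shT J v x = if h : (x.1 : ℕ) < J then v (⟨(x.1 : ℕ) + 1, by omega⟩, x.2) else 0 := rfl

/-- letter maps of the jet process: `σ_a exp(-ℓ_a (1 + N))` -/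
noncomputable def GJ (σ ℓ : ι → ℝ) (J : ℕ) (a : ι) : EJ ι J →L[ℝ] EJ ι J :=
  gen σ ℓ (ContinuousLinearMap.id ℝ (EJ ι J) + shJ J) a

open Classical in
/-- offsets of the jet process: the basis vector `(0,a)` -/
noncomputable def bJ (J : ℕ) (a : ι) : EJ ι J := EuclideanSpace.single ((0 : Fin (J + 1)), a) (1 : ℝ)

end Jet

end Crest.Agent.R98
private theorem rz_a14e983b9e : type_of% @_root_.Crest.Agent.R98.gprod.eq_def := @_root_.Crest.Agent.R98.gprod.eq_def -- L31
private theorem rz_aef005ffc7 : type_of% @_root_.Crest.Agent.R98.gprod.eq_1 := @_root_.Crest.Agent.R98.gprod.eq_1 -- L31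
private theorem rz_c974d99565 : type_of% @_root_.Crest.Agent.R98.pfin.eq_def := @_root_.Crest.Agent.R98.pfin.eq_def -- L26
private theorem rz_31bc77dbb9 : type_of% @_root_.Crest.Agent.R98.pfin.eq_1 := @_root_.Crest.Agent.R98.pfin.eq_1 -- L26
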