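import Crest.Agent.R98.FB
import Mathlib.Probability.Kernel.Condexp
import Mathlib.MeasureTheory.Measure.Support

/-!
Row 98, module F (helper893): almost everywhere versions; relatively independent self-joining:
a continuous function of the word is a.e. `m`-measurable iff it takes equal values on all pairs of
a fixed set (the support of the joining).
-/

set_option autoImplicit false
set_option linter.unusedSectionVars false
set_option linter.unusedSimpArgs false

namespace Crest.Agent.R98.F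

open MeasureTheory ProbabilityTheory Filter Topology Real
open Crest.Agent.R098.Upper

noncomputable section

section congr

variable {Ω : Type*} [m0 : MeasurableSpace Ω] {μ : Measure Ω} {E : Type*} [mE : MeasurableSpace E]

/-- conditional expectations given a.e. equal variables -/
theorem condExp_comap_congr [IsProbabilityMeasure μ] {Φ Ψ : Ω → E} (hΦ : Measurable Φ)
    (hΨ : Measurable Ψ) (h : Φ =ᵐ[μ] Ψ) {F : Ω → ℝ} (hF : Integrable F μ) :
    μ[F | MeasurableSpace.comap Φ mE] =ᵐ[μ] μ[F | MeasurableSpace.comap Ψ mE] := by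
  obtain ⟨g, hg, e⟩ := (stronglyMeasurable_condExp (f := F) (μ := μ)
    (m := MeasurableSpace.comap Φ mE)).exists_eq_measurable_comp
  have hgi : Integrable (g ∘ Φ) μ := by rw [← e]; exact integrable_condExp
  have hae : g ∘ Φ =ᵐ[μ] g ∘ Ψ := by
    filter_upwards [h] with ω hω
    simp only [Function.comp_apply, hω]
  have hgi' : Integrable (g ∘ Ψ) μ := hgi.congr hae
  have h2 : g ∘ Ψ =ᵐ[μ] μ[F | MeasurableSpace.comap Ψ mE] := by
    refine ae_eq_condExp_of_forall_setIntegral_eq hΨ.comap_le hF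
      (fun s _ _ => hgi'.integrableOn) ?_ ?_
    · rintro _ ⟨B, hB, rfl⟩ _
      have hs : Φ ⁻¹' B =ᵐ[μ] Ψ ⁻¹' B := by
        filter_upwards [h] with ω hω
        have : (ω ∈ Φ ⁻¹' B) = (ω ∈ Ψ ⁻¹' B) := by
          simp only [Set.mem_preimage, hω]
        exact this
      rw [← setIntegral_congr_set hs, ← setIntegral_congr_set hs]
      have e1 : ∫ ω in Φ ⁻¹' B, (g ∘ Ψ) ω ∂μ = ∫ ω in Φ ⁻¹' B, (g ∘ Φ) ω ∂μ := by
        refine integral_congr_ae ?_
        exact ae_restrict_of_ae (by filter_upwards [hae] with ω hω using hω.symm)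
      rw [e1, ← e]
      exact setIntegral_condExp hΦ.comap_le hF ⟨B, hB, rfl⟩
    · have : StronglyMeasurable[MeasurableSpace.comap Ψ mE] (g ∘ Ψ) :=
        hg.comp_measurable (comap_measurable Ψ)
      exact this.aestronglyMeasurable
  rw [e]
  exact hae.trans h2

theorem Hc_comap_congr {Z : Type*} [Fintype Z] [MeasurableSpace Z] [MeasurableSingletonClass Z]
    [IsProbabilityMeasure μ] {Φ Ψ : Ω → E} (hΦ : Measurable Φ)
    (hΨ : Measurable Ψ) (h : Φ =ᵐ[μ] Ψ) {f : Ω → Z} (hf : Measurable f) :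
    Hc μ (MeasurableSpace.comap Φ mE) f = Hc μ (MeasurableSpace.comap Ψ mE) f := by
  unfold Hc
  refine Finset.sum_congr rfl fun z _ => integral_congr_ae ?_
  filter_upwards [condExp_comap_congr hΦ hΨ h (ind_int (μ := μ) z hf)] with ω hω
  unfold cp
  rw [hω]

end congr

section join

variable {Ω : Type*} {m : MeasurableSpace Ω} [mΩ : MeasurableSpace Ω] [StandardBorelSpace Ω]

/-- the conditional kernel as a kernel on the big σ-algebra -/
def kr (μ : Measure Ω) [IsFiniteMeasure μ] (hm : m ≤ mΩ) : Kernel Ω Ω :=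
  (condExpKernel μ m).comap id (measurable_id'' hm)

instance (μ : Measure Ω) [IsFiniteMeasure μ] (hm : m ≤ mΩ) : IsMarkovKernel (kr μ hm) := by
  unfold kr; infer_instance


/-- the relatively independent self-joining over `m` -/
def jn (μ : Measure Ω) [IsFiniteMeasure μ] (hm : m ≤ mΩ) : Measure (Ω × Ω) := μ ⊗ₘ kr μ hm

instance (μ : Measure Ω) [IsProbabilityMeasure μ] (hm : m ≤ mΩ) :
    IsProbabilityMeasure (jn μ hm) := by
  unfold jn; infer_instance



end join

section seq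

variable {ι : Type*} [Fintype ι] [mι : MeasurableSpace ι] [DiscreteMeasurableSpace ι]
variable {E : Type*} [mE : MeasurableSpace E] {E' : Type*} [mE' : MeasurableSpace E']

theorem alpha_congr {p : ι → ℝ} (hp : (∀ i, 0 ≤ p i) ∧ ∑ i, p i = 1) {Φ Ψ : (ℕ → ι) → E}
    (hΦ : Measurable Φ) (hΨ : Measurable Ψ) (h : Φ =ᵐ[PP p] Ψ) : alpha p Φ = alpha p Ψ := by
  have := isProb_PP hp
  unfold alpha
  rw [Hc_comap_congr hΦ hΨ h (measurable_pi_apply 0)]

/-- monotonicity of `α`, almost everywhere version -/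
theorem alpha_mono_ae {p : ι → ℝ} (hp : (∀ i, 0 ≤ p i) ∧ ∑ i, p i = 1) {Φ : (ℕ → ι) → E}
    {Φ₁ : (ℕ → ι) → E'} (h : Measurable Φ) (h₁ : Measurable Φ₁)
    (hae : ∃ Ψ : (ℕ → ι) → E', Measurable[MeasurableSpace.comap Φ mE] Ψ ∧ Φ₁ =ᵐ[PP p] Ψ) :
    alpha p Φ₁ ≤ alpha p Φ := by
  obtain ⟨Ψ, hΨ, hae⟩ := hae
  rw [alpha_congr hp h₁ (hΨ.mono h.comap_le le_rfl) hae]
  exact alpha_mono hp h hΨ.comap_le


/-- vector version -/
theorem alpha_mono_aesm_pi {p : ι → ℝ} (hp : (∀ i, 0 ≤ p i) ∧ ∑ i, p i = 1) {K : Type*}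
    [Fintype K] {Φ : (ℕ → ι) → E} {Φ₁ : (ℕ → ι) → K → ℝ} (h : Measurable Φ)
    (h₁ : Measurable Φ₁)
    (hae : ∀ k, AEStronglyMeasurable[MeasurableSpace.comap Φ mE] (fun w => Φ₁ w k) (PP p)) :
    alpha p Φ₁ ≤ alpha p Φ := by
  refine alpha_mono_ae hp h h₁ ⟨fun w k => (hae k).mk _ w, ?_, ?_⟩
  · exact @measurable_pi_lambda (ℕ → ι) K (fun _ => ℝ) (MeasurableSpace.comap Φ mE) _ _
      fun k => (hae k).stronglyMeasurable_mk.measurable
  · have : ∀ᵐ w ∂(PP p), ∀ k, Φ₁ w k = (hae k).mk _ w :=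
      ae_all_iff.2 fun k => (hae k).ae_eq_mk
    filter_upwards [this] with w hw
    funext k
    exact hw k





end seq

end

end Crest.Agent.R98.F
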