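import Mathlib

-- ▼ part R98/ExactA
section

/-!
Row 98 (S0129): arithmetic of integer polynomials in one variable:
l1 norm, Lipschitz bound, nearest root lemma, Liouville inequality.
-/

set_option autoImplicit false

open Polynomial

namespace Crest.Agent.R98.Exact

/-- the `l1` norm of an integer polynomial -/
noncomputable def l1 (R : ℤ[X]) : ℝ := ∑ i ∈ R.support, |((R.coeff i : ℤ) : ℝ)|

lemma l1_eq_of_subset {R : ℤ[X]} {s : Finset ℕ} (h : R.support ⊆ s) :
    l1 R = ∑ i ∈ s, |((R.coeff i : ℤ) : ℝ)| := by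
  unfold l1
  apply Finset.sum_subset h
  intro i _ hi
  simp [Polynomial.notMem_support_iff.mp hi]

lemma l1_nonneg (R : ℤ[X]) : 0 ≤ l1 R := Finset.sum_nonneg fun _ _ => abs_nonneg _

@[simp] lemma l1_zero : l1 (0 : ℤ[X]) = 0 := by simp [l1]

lemma one_le_l1 {R : ℤ[X]} (h : R ≠ 0) : 1 ≤ l1 R := by
  have h1 : R.natDegree ∈ R.support := Polynomial.natDegree_mem_support_of_nonzero h
  have h2 : (1 : ℝ) ≤ |((R.coeff R.natDegree : ℤ) : ℝ)| := by
    have : R.coeff R.natDegree ≠ 0 := Polynomial.mem_support_iff.mp h1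
    exact_mod_cast Int.one_le_abs this
  exact h2.trans (Finset.single_le_sum (f := fun i => |((R.coeff i : ℤ) : ℝ)|)
    (fun _ _ => abs_nonneg _) h1)

lemma l1_add (R S : ℤ[X]) : l1 (R + S) ≤ l1 R + l1 S := by
  rw [l1_eq_of_subset (R := R + S) (s := R.support ∪ S.support) Polynomial.support_add,
    l1_eq_of_subset (R := R) (s := R.support ∪ S.support) Finset.subset_union_left,
    l1_eq_of_subset (R := S) (s := R.support ∪ S.support) Finset.subset_union_right,
    ← Finset.sum_add_distrib]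
  apply Finset.sum_le_sum
  intro i _
  simp only [Polynomial.coeff_add, Int.cast_add]
  exact abs_add_le _ _

@[simp] lemma l1_neg (R : ℤ[X]) : l1 (-R) = l1 R := by
  simp [l1, Polynomial.support_neg]

lemma l1_sum {ι : Type*} (s : Finset ι) (f : ι → ℤ[X]) :
    l1 (∑ i ∈ s, f i) ≤ ∑ i ∈ s, l1 (f i) := by
  classical
  induction s using Finset.induction_on with
  | empty => simp
  | insert a s ha ih =>
    rw [Finset.sum_insert ha, Finset.sum_insert ha]
    exact (l1_add _ _).trans (by linarith)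

lemma l1_monomial_mul (k : ℕ) (a : ℤ) (S : ℤ[X]) :
    l1 (Polynomial.monomial k a * S) ≤ |(a : ℝ)| * l1 S := by
  classical
  have hs : (Polynomial.monomial k a * S).support ⊆ S.support.image (fun i => i + k) := by
    intro i hi
    rw [Polynomial.mem_support_iff] at hi
    rw [Finset.mem_image]
    by_cases hk : k ≤ i
    · refine ⟨i - k, ?_, by omega⟩
      rw [Polynomial.mem_support_iff]
      intro h0
      apply hi
      obtain ⟨j, rfl⟩ := Nat.exists_eq_add_of_le' hk
      rw [show j + k - k = j by omega] at h0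
      rw [Polynomial.coeff_monomial_mul, h0, mul_zero]
    · exfalso
      apply hi
      rw [← Polynomial.C_mul_X_pow_eq_monomial, mul_assoc, Polynomial.coeff_C_mul,
        Polynomial.coeff_X_pow_mul', if_neg hk, mul_zero]
  rw [l1_eq_of_subset hs, Finset.sum_image (by intro x _ y _ h; simpa using h)]
  unfold l1
  rw [Finset.mul_sum]
  apply Finset.sum_le_sum
  intro i _
  rw [Polynomial.coeff_monomial_mul]
  push_cast
  rw [abs_mul]

lemma l1_mul (R S : ℤ[X]) : l1 (R * S) ≤ l1 R * l1 S := by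
  conv_lhs => rw [R.as_sum_support, Finset.sum_mul]
  refine (l1_sum _ _).trans ?_
  unfold l1
  rw [Finset.sum_mul]
  apply Finset.sum_le_sum
  intro i _
  exact l1_monomial_mul _ _ _

@[simp] lemma l1_one : l1 (1 : ℤ[X]) = 1 := by
  have : (1 : ℤ[X]).support ⊆ {0} := by
    intro i hi
    rw [Polynomial.mem_support_iff, Polynomial.coeff_one] at hi
    simp only [Finset.mem_singleton]
    by_contra h
    exact hi (by simp [h])
  rw [l1_eq_of_subset this]
  simp

lemma l1_prod {ι : Type*} (s : Finset ι) (f : ι → ℤ[X]) :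
    l1 (∏ i ∈ s, f i) ≤ ∏ i ∈ s, l1 (f i) := by
  classical
  induction s using Finset.induction_on with
  | empty => simp
  | insert a s ha ih =>
    rw [Finset.prod_insert ha, Finset.prod_insert ha]
    exact (l1_mul _ _).trans (mul_le_mul_of_nonneg_left ih (l1_nonneg _))

lemma l1_units_smul (u : ℤˣ) (R : ℤ[X]) : l1 (u • R) = l1 R := by
  rcases Int.units_eq_one_or u with h | h <;> simp [h]

lemma l1_det {e : ℕ} (A : Matrix (Fin e) (Fin e) ℤ[X]) (H : ℝ)
    (hA : ∀ i j, l1 (A i j) ≤ H) : l1 A.det ≤ (e.factorial : ℝ) * H ^ e := by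
  rw [Matrix.det_apply]
  refine (l1_sum _ _).trans ?_
  have h1 : ∀ σ ∈ (Finset.univ : Finset (Equiv.Perm (Fin e))),
      l1 (Equiv.Perm.sign σ • ∏ i, A (σ i) i) ≤ H ^ e := by
    intro σ _
    rw [l1_units_smul]
    refine (l1_prod _ _).trans ?_
    calc ∏ i, l1 (A (σ i) i) ≤ ∏ _i : Fin e, H :=
          Finset.prod_le_prod (fun i _ => l1_nonneg _) (fun i _ => hA _ _)
      _ = H ^ e := by simp
  refine (Finset.sum_le_sum h1).trans ?_
  simp [Fintype.card_perm]

lemma natDegree_det_le {e n : ℕ} (A : Matrix (Fin e) (Fin e) ℤ[X])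
    (hA : ∀ i j, (A i j).natDegree ≤ n) : A.det.natDegree ≤ e * n := by
  rw [Matrix.det_apply]
  apply Polynomial.natDegree_sum_le_of_forall_le
  intro σ _
  have h1 : (∏ i, A (σ i) i).natDegree ≤ e * n := by
    refine (Polynomial.natDegree_prod_le _ _).trans ?_
    calc ∑ i, (A (σ i) i).natDegree ≤ ∑ _i : Fin e, n :=
          Finset.sum_le_sum (fun i _ => hA _ _)
      _ = e * n := by simp
  rcases Int.units_eq_one_or (Equiv.Perm.sign σ) with h | h <;> simpa [h] using h1

/-- evaluation of an integer polynomial at a complex number -/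
lemma aeval_eq_sum (R : ℤ[X]) (z : ℂ) :
    aeval z R = ∑ i ∈ R.support, ((R.coeff i : ℤ) : ℂ) * z ^ i := by
  rw [Polynomial.aeval_eq_sum_range, ]
  rw [Finset.sum_subset (Polynomial.supp_subset_range_natDegree_succ (p := R))]
  · simp
  · intro i _ hi
    simp [Polynomial.notMem_support_iff.mp hi]

lemma norm_aeval_le (R : ℤ[X]) {n : ℕ} (hn : R.natDegree ≤ n) (z : ℂ) :
    ‖aeval z R‖ ≤ l1 R * (max 1 ‖z‖) ^ n := by
  rw [aeval_eq_sum, l1, Finset.sum_mul]
  refine (norm_sum_le _ _).trans (Finset.sum_le_sum ?_)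
  intro i hi
  rw [norm_mul, norm_pow]
  have h1 : ‖((R.coeff i : ℤ) : ℂ)‖ = |((R.coeff i : ℤ) : ℝ)| := by
    rw [Complex.norm_intCast]
  rw [h1]
  apply mul_le_mul_of_nonneg_left _ (abs_nonneg _)
  have hin : i ≤ n := (Polynomial.le_natDegree_of_mem_supp i hi).trans hn
  calc ‖z‖ ^ i ≤ (max 1 ‖z‖) ^ i := by gcongr; exact le_max_right _ _
    _ ≤ (max 1 ‖z‖) ^ n := pow_le_pow_right₀ (le_max_left _ _) hin

lemma norm_pow_sub_pow_le {z w : ℂ} (hz : ‖z‖ ≤ 1) (hw : ‖w‖ ≤ 1) (i : ℕ) :
    ‖z ^ i - w ^ i‖ ≤ i * ‖z - w‖ := by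
  induction i with
  | zero => simp
  | succ i ih =>
    have : z ^ (i + 1) - w ^ (i + 1) = (z ^ i - w ^ i) * z + w ^ i * (z - w) := by ring
    rw [this]
    refine (norm_add_le _ _).trans ?_
    rw [norm_mul, norm_mul, norm_pow]
    have h1 : ‖z ^ i - w ^ i‖ * ‖z‖ ≤ i * ‖z - w‖ := by
      calc ‖z ^ i - w ^ i‖ * ‖z‖ ≤ ‖z ^ i - w ^ i‖ * 1 := by gcongr
        _ ≤ _ := by rw [mul_one]; exact ih
    have h2 : ‖w‖ ^ i * ‖z - w‖ ≤ 1 * ‖z - w‖ := by
      gcongr
      exact pow_le_one₀ (norm_nonneg _) hw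
    push_cast
    linarith

lemma norm_aeval_sub_le (R : ℤ[X]) {n : ℕ} (hn : R.natDegree ≤ n) {z w : ℂ}
    (hz : ‖z‖ ≤ 1) (hw : ‖w‖ ≤ 1) :
    ‖aeval z R - aeval w R‖ ≤ n * l1 R * ‖z - w‖ := by
  rw [aeval_eq_sum, aeval_eq_sum, ← Finset.sum_sub_distrib, l1, Finset.mul_sum, Finset.sum_mul]
  refine (norm_sum_le _ _).trans (Finset.sum_le_sum ?_)
  intro i hi
  rw [← mul_sub, norm_mul, Complex.norm_intCast]
  have hin : (i : ℝ) ≤ n := by exact_mod_cast (Polynomial.le_natDegree_of_mem_supp i hi).trans hn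
  have h1 := norm_pow_sub_pow_le hz hw i
  have h2 : ‖z ^ i - w ^ i‖ ≤ n * ‖z - w‖ := h1.trans (by gcongr)
  calc |((R.coeff i : ℤ) : ℝ)| * ‖z ^ i - w ^ i‖
      ≤ |((R.coeff i : ℤ) : ℝ)| * (n * ‖z - w‖) := by gcongr
    _ = _ := by ring

/-- the complex polynomial attached to an integer polynomial -/
noncomputable abbrev toC (R : ℤ[X]) : ℂ[X] := R.map (Int.castRingHom ℂ)

lemma toC_ne_zero {R : ℤ[X]} (h : R ≠ 0) : toC R ≠ 0 := by
  rwa [Ne, Polynomial.map_eq_zero_iff (RingHom.injective_int _)]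

lemma eval_toC (R : ℤ[X]) (z : ℂ) : (toC R).eval z = aeval z R := by
  rw [Polynomial.eval_map, Polynomial.aeval_def]
  rfl

lemma natDegree_toC (R : ℤ[X]) : (toC R).natDegree = R.natDegree :=
  Polynomial.natDegree_map_eq_of_injective (RingHom.injective_int _) _

lemma leadingCoeff_toC (R : ℤ[X]) : (toC R).leadingCoeff = (R.leadingCoeff : ℂ) := by
  rw [Polynomial.leadingCoeff_map_of_injective (RingHom.injective_int _)]
  rfl

lemma one_le_norm_lc {R : ℤ[X]} (h : R ≠ 0) : 1 ≤ ‖(toC R).leadingCoeff‖ := by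
  rw [leadingCoeff_toC, Complex.norm_intCast]
  exact_mod_cast Int.one_le_abs (Polynomial.leadingCoeff_ne_zero.mpr h)

lemma mahler_le (R : ℤ[X]) : (toC R).mahlerMeasure ≤ l1 R := by
  refine (Polynomial.mahlerMeasure_le_sum_norm_coeff _).trans ?_
  rw [Polynomial.sum_def, l1]
  rw [show (toC R).support = R.support from
    Polynomial.support_map_of_injective _ (RingHom.injective_int _)]
  apply Finset.sum_le_sum
  intro i _
  rw [Polynomial.coeff_map, eq_intCast, Complex.norm_intCast]

lemma one_le_mahler {R : ℤ[X]} (h : R ≠ 0) : 1 ≤ (toC R).mahlerMeasure :=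
  Polynomial.one_le_mahlerMeasure_of_one_le_norm_leadingCoeff (one_le_norm_lc h)

lemma eval_eq_prod (p : ℂ[X]) (z : ℂ) :
    p.eval z = p.leadingCoeff * (p.roots.map fun ρ => z - ρ).prod := by
  conv_lhs => rw [(IsAlgClosed.splits p).eq_prod_roots]
  rw [Polynomial.eval_mul, Polynomial.eval_C, Polynomial.eval_multiset_prod, Multiset.map_map]
  simp

lemma norm_eval_eq_prod (p : ℂ[X]) (z : ℂ) :
    ‖p.eval z‖ = ‖p.leadingCoeff‖ * (p.roots.map fun ρ => ‖z - ρ‖).prod := by
  rw [eval_eq_prod, norm_mul]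
  congr 1
  rw [show (fun ρ => ‖z - ρ‖) = (fun x : ℂ => ‖x‖) ∘ (fun ρ => z - ρ) from rfl,
    ← Multiset.map_map]
  exact (Multiset.prod_hom (p.roots.map fun ρ => z - ρ) (normHom (α := ℂ))).symm

end Crest.Agent.R98.Exact
end

-- ▼ part R98/ExactB
section

/-!
Row 98 (S0129): nearest root lemma and Liouville inequality for integer polynomials.
-/

set_option autoImplicit false

open Polynomial

namespace Crest.Agent.R98.Exact

/-- lower bound for a product over a multiset, by the number of bad elements -/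
lemma multiset_prod_lower (s : Multiset ℂ) (P : ℂ → Prop) [DecidablePred P] (f : ℂ → ℝ)
    {b δ : ℝ} (hb0 : 0 ≤ b) (hb1 : b ≤ 1) (hδ0 : 0 ≤ δ)
    (h1 : ∀ x ∈ s, ¬ P x → b ≤ f x) (h2 : ∀ x ∈ s, P x → δ ≤ f x) :
    b ^ (Multiset.card s) * δ ^ (Multiset.card (s.filter P)) ≤ (s.map f).prod := by
  induction s using Multiset.induction_on with
  | empty => simp
  | cons a s ih =>
    have ih' := ih (fun x hx => h1 x (Multiset.mem_cons_of_mem hx))
      (fun x hx => h2 x (Multiset.mem_cons_of_mem hx))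
    have hprod : 0 ≤ (s.map f).prod := le_trans (by positivity) ih'
    rw [Multiset.map_cons, Multiset.prod_cons, Multiset.card_cons]
    by_cases hP : P a
    · rw [Multiset.filter_cons_of_pos _ hP, Multiset.card_cons]
      have h3 := h2 a (Multiset.mem_cons_self a s) hP
      calc b ^ (Multiset.card s + 1) * δ ^ (Multiset.card (s.filter P) + 1)
          = (b * δ) * (b ^ Multiset.card s * δ ^ Multiset.card (s.filter P)) := by ring
        _ ≤ f a * (b ^ Multiset.card s * δ ^ Multiset.card (s.filter P)) := by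
            gcongr
            calc b * δ ≤ 1 * δ := by gcongr
              _ ≤ f a := by rw [one_mul]; exact h3
        _ ≤ f a * (s.map f).prod := by
            gcongr
            exact hδ0.trans h3
    · rw [Multiset.filter_cons_of_neg _ hP]
      have h3 := h1 a (Multiset.mem_cons_self a s) hP
      calc b ^ (Multiset.card s + 1) * δ ^ (Multiset.card (s.filter P))
          = b * (b ^ Multiset.card s * δ ^ Multiset.card (s.filter P)) := by ring
        _ ≤ f a * (b ^ Multiset.card s * δ ^ Multiset.card (s.filter P)) := by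
            gcongr
        _ ≤ f a * (s.map f).prod := by
            gcongr
            exact hb0.trans h3

/-- upper bound for a product over a multiset, by the number of small elements -/
lemma multiset_prod_upper (s : Multiset ℂ) (P : ℂ → Prop) [DecidablePred P]
    {c : ℝ} (hc0 : 0 ≤ c) (h1 : ∀ x ∈ s, P x → ‖x‖ ≤ c) :
    (s.map fun x => ‖x‖).prod ≤
      c ^ (Multiset.card (s.filter P)) * (s.map fun x => max 1 ‖x‖).prod := by
  induction s using Multiset.induction_on with
  | empty => simp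
  | cons a s ih =>
    have ih' := ih (fun x hx => h1 x (Multiset.mem_cons_of_mem hx))
    have hM : 0 ≤ (s.map fun x => max 1 ‖x‖).prod :=
      Multiset.prod_nonneg (by
        intro y hy
        obtain ⟨x, _, rfl⟩ := Multiset.mem_map.mp hy
        exact le_trans zero_le_one (le_max_left _ _))
    have hM' : 0 ≤ (s.map fun x => ‖x‖).prod :=
      Multiset.prod_nonneg (by
        intro y hy
        obtain ⟨x, _, rfl⟩ := Multiset.mem_map.mp hy
        exact norm_nonneg _)
    rw [Multiset.map_cons, Multiset.prod_cons, Multiset.map_cons, Multiset.prod_cons]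
    by_cases hP : P a
    · rw [Multiset.filter_cons_of_pos _ hP, Multiset.card_cons]
      have h3 := h1 a (Multiset.mem_cons_self a s) hP
      calc ‖a‖ * (s.map fun x => ‖x‖).prod
          ≤ c * (c ^ (Multiset.card (s.filter P)) * (s.map fun x => max 1 ‖x‖).prod) :=
            mul_le_mul h3 ih' hM' hc0
        _ ≤ max 1 ‖a‖ * (c * (c ^ (Multiset.card (s.filter P)) *
              (s.map fun x => max 1 ‖x‖).prod)) := by
            apply le_mul_of_one_le_left
            · positivity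
            · exact le_max_left _ _
        _ = _ := by ring
    · rw [Multiset.filter_cons_of_neg _ hP]
      calc ‖a‖ * (s.map fun x => ‖x‖).prod
          ≤ max 1 ‖a‖ * (c ^ (Multiset.card (s.filter P)) *
              (s.map fun x => max 1 ‖x‖).prod) :=
            mul_le_mul (le_max_right _ _) ih' hM' (le_trans zero_le_one (le_max_left _ _))
        _ = _ := by ring

/-- **nearest root lemma** -/
theorem near_root {lam : ℝ} (h0 : 0 < lam) (h1 : lam < 1) {δ : ℝ} (hδ0 : 0 < δ) (hδ1 : δ ≤ 1)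
    {H : ℝ} (k : ℕ) (hk : H * ((1 + lam) / 2) ^ (k + 1) < 1) :
    ∀ (n : ℕ) (R : ℤ[X]), R ≠ 0 → R.natDegree ≤ n → l1 R ≤ H →
      (∀ ρ : ℂ, aeval ρ R = 0 → δ ≤ ‖ρ - lam‖) →
      (lam * ((1 - lam) / 2)) ^ n * δ ^ k ≤ ‖aeval (lam : ℂ) R‖ := by
  intro n
  induction n with
  | zero =>
    intro R hR hn _ _
    obtain ⟨a, rfl⟩ := Polynomial.natDegree_eq_zero.mp (Nat.le_zero.mp hn)
    have ha : a ≠ 0 := by
      rintro rfl
      simp at hR
    have : (1 : ℝ) ≤ ‖(a : ℂ)‖ := by
      rw [Complex.norm_intCast]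
      exact_mod_cast Int.one_le_abs ha
    simp only [pow_zero, one_mul, Polynomial.aeval_C]
    exact (pow_le_one₀ hδ0.le hδ1).trans (by simpa using this)
  | succ n ih =>
    intro R hR hn hH hρ
    by_cases hc : R.coeff 0 = 0
    · -- divide by X
      obtain ⟨S, rfl⟩ := Polynomial.X_dvd_iff.mpr hc
      have hS : S ≠ 0 := by
        rintro rfl
        simp at hR
      have hdeg : S.natDegree ≤ n := by
        rw [Polynomial.natDegree_X_mul hS] at hn
        omega
      have hl : l1 S ≤ H := by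
        refine le_trans (le_of_eq ?_) hH
        have hs : (X * S : ℤ[X]).support ⊆ S.support.image (fun i => i + 1) := by
          intro i hi
          rw [Polynomial.mem_support_iff] at hi
          rw [Finset.mem_image]
          cases i with
          | zero => simp at hi
          | succ j =>
            rw [Polynomial.coeff_X_mul] at hi
            exact ⟨j, Polynomial.mem_support_iff.mpr hi, rfl⟩
        rw [l1_eq_of_subset hs, Finset.sum_image (by intro x _ y _ h; simpa using h)]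
        unfold l1
        apply Finset.sum_congr rfl
        intro i _
        rw [Polynomial.coeff_X_mul]
      have hroot : ∀ ρ : ℂ, aeval ρ S = 0 → δ ≤ ‖ρ - lam‖ := by
        intro ρ hρ0
        apply hρ
        simp [hρ0]
      have ih' := ih S hS hdeg hl hroot
      rw [map_mul, Polynomial.aeval_X, norm_mul]
      have h3 : ‖(lam : ℂ)‖ = lam := by
        rw [Complex.norm_real, Real.norm_of_nonneg h0.le]
      rw [h3]
      have h4 : (lam * ((1 - lam) / 2)) ^ (n + 1) * δ ^ k
          = (lam * ((1 - lam) / 2)) * ((lam * ((1 - lam) / 2)) ^ n * δ ^ k) := by ring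
      rw [h4]
      have h5 : 0 ≤ (lam * ((1 - lam) / 2)) ^ n * δ ^ k := by
        have : 0 ≤ (1 - lam) / 2 := by linarith
        positivity
      calc (lam * ((1 - lam) / 2)) * ((lam * ((1 - lam) / 2)) ^ n * δ ^ k)
          ≤ lam * ((lam * ((1 - lam) / 2)) ^ n * δ ^ k) := by
            apply mul_le_mul_of_nonneg_right _ h5
            nlinarith
        _ ≤ _ := by gcongr
    · -- the constant coefficient is non-zero
      set p := toC R with hp
      have hp0 : p ≠ 0 := toC_ne_zero hR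
      have hroots0 : ∀ x ∈ p.roots, x ≠ 0 := by
        intro x hx hx0
        rw [Polynomial.mem_roots hp0, Polynomial.IsRoot.def, hx0, ← Polynomial.coeff_zero_eq_eval_zero,
          hp, Polynomial.coeff_map] at hx
        apply hc
        simpa using hx
      have hconst : 1 ≤ ‖p.leadingCoeff‖ * (p.roots.map fun ρ => ‖ρ‖).prod := by
        have h2 := norm_eval_eq_prod p 0
        rw [← Polynomial.coeff_zero_eq_eval_zero, hp, Polynomial.coeff_map, eq_intCast,
          Complex.norm_intCast] at h2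
        have h3 : (1 : ℝ) ≤ |((R.coeff 0 : ℤ) : ℝ)| := by exact_mod_cast Int.one_le_abs hc
        rw [h2] at h3
        simpa using h3
      classical
      have hcard : Multiset.card (p.roots.filter fun x => ‖x‖ < (1 + lam) / 2) ≤ k := by
        by_contra hcon
        push Not at hcon
        have h2 := multiset_prod_upper p.roots (fun x => ‖x‖ < (1 + lam) / 2)
          (c := (1 + lam) / 2) (by linarith) (fun x _ hx => hx.le)
        have h3 : 1 ≤ ((1 + lam) / 2) ^ (Multiset.card (p.roots.filter fun x => ‖x‖ < (1 + lam) / 2))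
            * p.mahlerMeasure := by
          rw [Polynomial.mahlerMeasure_eq_leadingCoeff_mul_prod_roots]
          calc (1 : ℝ) ≤ ‖p.leadingCoeff‖ * (p.roots.map fun ρ => ‖ρ‖).prod := hconst
            _ ≤ ‖p.leadingCoeff‖ * (((1 + lam) / 2) ^
                (Multiset.card (p.roots.filter fun x => ‖x‖ < (1 + lam) / 2)) *
                (p.roots.map fun x => max 1 ‖x‖).prod) := by gcongr
            _ = _ := by ring
        have h4 : p.mahlerMeasure ≤ H := (mahler_le R).trans hH
        have h5 : ((1 + lam) / 2) ^ (Multiset.card (p.roots.filter fun x => ‖x‖ < (1 + lam) / 2))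
            ≤ ((1 + lam) / 2) ^ (k + 1) :=
          pow_le_pow_of_le_one (by linarith) (by linarith) hcon
        have h6 : 0 ≤ p.mahlerMeasure := Polynomial.mahlerMeasure_nonneg _
        have h7 : (0 : ℝ) ≤ ((1 + lam) / 2) ^ (k + 1) := by
          have : 0 ≤ (1 + lam) / 2 := by linarith
          positivity
        have h8 : ((1 + lam) / 2) ^ (Multiset.card (p.roots.filter fun x => ‖x‖ < (1 + lam) / 2))
            * p.mahlerMeasure ≤ ((1 + lam) / 2) ^ (k + 1) * H := by
          calc _ ≤ ((1 + lam) / 2) ^ (k + 1) * p.mahlerMeasure := by gcongr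
            _ ≤ _ := by gcongr
        linarith [mul_comm H (((1 + lam) / 2) ^ (k + 1))]
      have hlow := multiset_prod_lower p.roots (fun x => ‖x‖ < (1 + lam) / 2)
        (fun ρ => ‖(lam : ℂ) - ρ‖) (b := lam * ((1 - lam) / 2)) (δ := δ)
        (by nlinarith) (by nlinarith) hδ0.le
        (by
          intro x _ hx
          push Not at hx
          have h2 : ‖x‖ - ‖(lam : ℂ)‖ ≤ ‖x - lam‖ := norm_sub_norm_le _ _
          have h3 : ‖(lam : ℂ)‖ = lam := by
            rw [Complex.norm_real, Real.norm_of_nonneg h0.le]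
          rw [h3, norm_sub_rev] at h2
          nlinarith)
        (by
          intro x hx _
          rw [norm_sub_rev]
          apply hρ
          rw [Polynomial.mem_roots hp0, Polynomial.IsRoot.def, hp, eval_toC] at hx
          exact hx)
      rw [← eval_toC, norm_eval_eq_prod]
      have hcardn : Multiset.card p.roots ≤ n + 1 :=
        (Polynomial.card_roots' p).trans (by rw [hp, natDegree_toC]; exact hn)
      have hb0 : 0 ≤ lam * ((1 - lam) / 2) := by nlinarith
      have hb1 : lam * ((1 - lam) / 2) ≤ 1 := by nlinarith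
      calc (lam * ((1 - lam) / 2)) ^ (n + 1) * δ ^ k
          ≤ (lam * ((1 - lam) / 2)) ^ (Multiset.card p.roots) *
            δ ^ (Multiset.card (p.roots.filter fun x => ‖x‖ < (1 + lam) / 2)) := by
            apply mul_le_mul (pow_le_pow_of_le_one hb0 hb1 hcardn)
              (pow_le_pow_of_le_one hδ0.le hδ1 hcard) (by positivity) (by positivity)
        _ ≤ (p.roots.map fun ρ => ‖(lam : ℂ) - ρ‖).prod := hlow
        _ ≤ ‖p.leadingCoeff‖ * (p.roots.map fun ρ => ‖(lam : ℂ) - ρ‖).prod := by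
            apply le_mul_of_one_le_left (le_trans (by positivity) hlow)
            exact one_le_norm_lc hR

/-- the irreducible factor at a root -/
lemma exists_irreducible_factor {R : ℤ[X]} (hR : R ≠ 0) {ρ : ℂ} (hρ : aeval ρ R = 0) :
    ∃ g : ℤ[X], Irreducible g ∧ g ∣ R ∧ aeval ρ g = 0 := by
  induction R using UniqueFactorizationMonoid.induction_on_prime with
  | h₁ => exact absurd rfl hR
  | h₂ x hx =>
    exfalso
    obtain ⟨y, hy⟩ := hx.exists_right_inv
    have h1 : aeval ρ (x * y) = (1 : ℂ) := by rw [hy, map_one]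
    rw [map_mul, hρ, zero_mul] at h1
    exact zero_ne_one h1
  | h₃ a p ha hp ih =>
    rw [map_mul, mul_eq_zero] at hρ
    rcases hρ with h | h
    · exact ⟨p, hp.irreducible, dvd_mul_right _ _, h⟩
    · obtain ⟨g, hg1, hg2, hg3⟩ := ih ha h
      exact ⟨g, hg1, hg2.mul_left _, hg3⟩

lemma natDegree_pos_of_root {g : ℤ[X]} (hg : g ≠ 0) {ρ : ℂ} (hρ : aeval ρ g = 0) :
    0 < g.natDegree := by
  by_contra h
  obtain ⟨a, rfl⟩ := Polynomial.natDegree_eq_zero.mp (by omega : g.natDegree = 0)
  rw [Polynomial.aeval_C] at hρ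
  apply hg
  have : a = 0 := by simpa using hρ
  simp [this]

/-- **Liouville inequality** -/
theorem liouville {R S : ℤ[X]} (hR : R ≠ 0) {n s : ℕ} (hn : R.natDegree ≤ n)
    (hs : S.natDegree ≤ s) {ρ : ℂ} (hρ : aeval ρ R = 0) (hS : aeval ρ S ≠ 0) :
    1 ≤ ‖aeval ρ S‖ * (l1 S ^ n * l1 R ^ s) := by
  obtain ⟨g, hirr, ⟨h, hgh⟩, hgρ⟩ := exists_irreducible_factor hR hρ
  have hg0 : g ≠ 0 := hirr.ne_zero
  have hh0 : h ≠ 0 := by
    rintro rfl
    rw [mul_zero] at hgh
    exact hR hgh
  have hS0 : S ≠ 0 := by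
    rintro rfl
    simp at hS
  have hdeg : 0 < g.natDegree := natDegree_pos_of_root hg0 hgρ
  have hprim : g.IsPrimitive := hirr.isPrimitive (by omega)
  -- resultant is nonzero
  have hres : Polynomial.resultant g S g.natDegree s ≠ 0 := by
    have hirrQ : Irreducible (g.map (Int.castRingHom ℚ)) :=
      (Polynomial.IsPrimitive.Int.irreducible_iff_irreducible_map_cast hprim).mp hirr
    have hcop : IsCoprime (g.map (Int.castRingHom ℚ)) (S.map (Int.castRingHom ℚ)) := by
      rw [hirrQ.coprime_iff_not_dvd]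
      rintro ⟨q, hq⟩
      apply hS
      have h1 : aeval ρ (S.map (Int.castRingHom ℚ)) = aeval ρ S := by
        exact Polynomial.aeval_map_algebraMap ℚ ρ S
      have h2 : aeval ρ (g.map (Int.castRingHom ℚ)) = aeval ρ g :=
        Polynomial.aeval_map_algebraMap ℚ ρ g
      rw [← h1, hq, map_mul, h2, hgρ, zero_mul]
    intro h0
    have h1 := Polynomial.resultant_map_map g S g.natDegree s (Int.castRingHom ℚ)
    rw [h0, map_zero] at h1
    obtain ⟨k, rfl⟩ := Nat.exists_eq_add_of_le hs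
    rw [Polynomial.resultant_add_right_deg _ _ _ _ _ (by rw [Polynomial.natDegree_map_eq_of_injective
      (RingHom.injective_int _)])] at h1
    have h2 : (g.map (Int.castRingHom ℚ)).coeff g.natDegree ≠ 0 := by
      rw [Polynomial.coeff_map]
      simp [hg0]
    have h3 := mul_eq_zero.mp h1
    rcases h3 with h3 | h3
    · exact pow_ne_zero k h2 h3
    · have h4 := Polynomial.resultant_ne_zero _ _ hcop
      rw [Polynomial.natDegree_map_eq_of_injective (RingHom.injective_int _),
        Polynomial.natDegree_map_eq_of_injective (RingHom.injective_int _)] at h4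
      exact h4 h3
  -- product formula over ℂ
  have hprod := Polynomial.resultant_eq_prod_eval (toC g) (toC S) s (by rw [natDegree_toC]; exact hs)
    (IsAlgClosed.splits _)
  rw [natDegree_toC] at hprod
  have hmap := Polynomial.resultant_map_map g S g.natDegree s (Int.castRingHom ℂ)
  rw [show g.map (Int.castRingHom ℂ) = toC g from rfl,
    show S.map (Int.castRingHom ℂ) = toC S from rfl, hprod] at hmap
  have hone : (1 : ℝ) ≤ ‖(toC g).leadingCoeff ^ s * ((toC g).roots.map (toC S).eval).prod‖ := by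
    rw [hmap, eq_intCast, Complex.norm_intCast]
    exact_mod_cast Int.one_le_abs hres
  have hg0' : toC g ≠ 0 := toC_ne_zero hg0
  have hmem : ρ ∈ (toC g).roots := by
    rw [Polynomial.mem_roots hg0', Polynomial.IsRoot.def, eval_toC, hgρ]
  obtain ⟨t, ht⟩ := Multiset.exists_cons_of_mem hmem
  rw [ht, Multiset.map_cons, Multiset.prod_cons, eval_toC, norm_mul, norm_mul, norm_pow] at hone
  have hl1S : 1 ≤ l1 S := one_le_l1 hS0
  -- bound over the other roots
  have hbound : ∀ (t : Multiset ℂ), ‖(t.map (toC S).eval).prod‖ ≤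
      l1 S ^ (Multiset.card t) * ((t.map fun x => max 1 ‖x‖).prod) ^ s := by
    intro t
    induction t using Multiset.induction_on with
    | empty => simp
    | cons a t ih =>
      rw [Multiset.map_cons, Multiset.prod_cons, norm_mul, Multiset.map_cons, Multiset.prod_cons,
        Multiset.card_cons, eval_toC]
      calc ‖aeval a S‖ * ‖(t.map (toC S).eval).prod‖
          ≤ (l1 S * (max 1 ‖a‖) ^ s) *
            (l1 S ^ (Multiset.card t) * ((t.map fun x => max 1 ‖x‖).prod) ^ s) := by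
            apply mul_le_mul (norm_aeval_le S hs a) ih (norm_nonneg _)
            have := l1_nonneg S
            positivity
        _ = _ := by rw [mul_pow]; ring
  have hcardt : Multiset.card t ≤ n := by
    have h1 : Multiset.card (toC g).roots ≤ g.natDegree := by
      have := Polynomial.card_roots' (toC g)
      rwa [natDegree_toC] at this
    rw [ht, Multiset.card_cons] at h1
    have h2 : g.natDegree ≤ R.natDegree := Polynomial.natDegree_le_of_dvd ⟨h, hgh⟩ hR
    omega
  have hM : ‖(toC g).leadingCoeff‖ * (t.map fun x => max 1 ‖x‖).prod ≤ l1 R := by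
    have h1 : (toC g).mahlerMeasure ≤ (toC R).mahlerMeasure := by
      have h2 : toC R = toC g * toC h := by
        rw [hgh]
        exact Polynomial.map_mul _
      rw [h2, Polynomial.mahlerMeasure_mul]
      exact le_mul_of_one_le_right (Polynomial.mahlerMeasure_nonneg _) (one_le_mahler hh0)
    have h3 := (h1.trans (mahler_le R))
    rw [Polynomial.mahlerMeasure_eq_leadingCoeff_mul_prod_roots, ht, Multiset.map_cons,
      Multiset.prod_cons] at h3
    have hM0 : 0 ≤ (t.map fun x => max 1 ‖x‖).prod :=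
      Multiset.prod_nonneg (by
        intro y hy
        obtain ⟨x, _, rfl⟩ := Multiset.mem_map.mp hy
        exact le_trans zero_le_one (le_max_left _ _))
    refine le_trans ?_ h3
    gcongr
    exact le_mul_of_one_le_left hM0 (le_max_left _ _)
  have hMt0 : 0 ≤ (t.map fun x => max 1 ‖x‖).prod :=
    Multiset.prod_nonneg (by
      intro y hy
      obtain ⟨x, _, rfl⟩ := Multiset.mem_map.mp hy
      exact le_trans zero_le_one (le_max_left _ _))
  calc (1 : ℝ) ≤ ‖(toC g).leadingCoeff‖ ^ s * (‖aeval ρ S‖ * ‖(t.map (toC S).eval).prod‖) := hone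
    _ ≤ ‖(toC g).leadingCoeff‖ ^ s * (‖aeval ρ S‖ * (l1 S ^ (Multiset.card t) *
          ((t.map fun x => max 1 ‖x‖).prod) ^ s)) := by
        gcongr
        exact hbound t
    _ = ‖aeval ρ S‖ * (l1 S ^ (Multiset.card t) *
          (‖(toC g).leadingCoeff‖ * (t.map fun x => max 1 ‖x‖).prod) ^ s) := by
        rw [mul_pow]; ring
    _ ≤ ‖aeval ρ S‖ * (l1 S ^ n * l1 R ^ s) := by
        gcongr

end Crest.Agent.R98.Exact
end

-- ▼ part R98/ExactC

/-!
Row 98 (S0129): the one-variable exactness lemma (E1 of note 9852).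
-/

set_option autoImplicit false

open Polynomial

namespace Crest.Agent.R98.Exact

/-- the minor with rows `P i` and columns `J j` -/
noncomputable def minor {κ : Type*} {e : ℕ} (P : Fin e → κ → ℤ[X]) (J : Fin e → κ) : ℤ[X] :=
  (Matrix.of fun i j => P i (J j)).det

lemma minor_l1 {κ : Type*} {e : ℕ} (P : Fin e → κ → ℤ[X]) (J : Fin e → κ) {H : ℝ}
    (h : ∀ i j, l1 (P i j) ≤ H) : l1 (minor P J) ≤ (e.factorial : ℝ) * H ^ e :=
  l1_det _ H fun i j => h i (J j)

lemma minor_natDegree {κ : Type*} {e n : ℕ} (P : Fin e → κ → ℤ[X]) (J : Fin e → κ)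
    (h : ∀ i j, (P i j).natDegree ≤ n) : (minor P J).natDegree ≤ e * n :=
  natDegree_det_le _ fun i j => h i (J j)

lemma aeval_minor {κ : Type*} {e : ℕ} (P : Fin e → κ → ℤ[X]) (J : Fin e → κ) (z : ℂ) :
    aeval z (minor P J) = (Matrix.of fun i j => aeval z (P i (J j))).det := by
  unfold minor
  rw [AlgHom.map_det]
  rfl

/-- if `e + 1 > card κ` all minors vanish -/
lemma minor_eq_zero_of_card {κ : Type*} [Fintype κ] {e : ℕ} (P : Fin e → κ → ℤ[X])
    (J : Fin e → κ) (he : Fintype.card κ < e) : minor P J = 0 := by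
  classical
  have : ¬ Function.Injective J := by
    intro hJ
    have := Fintype.card_le_of_injective J hJ
    simp at this
    omega
  rw [Function.Injective] at this
  push Not at this
  obtain ⟨a, b, hab, hne⟩ := this
  unfold minor
  apply Matrix.det_zero_of_column_eq hne
  intro i
  simp [hab]

/-- vanishing of all bordered minors makes every row a combination of the chosen rows -/
lemma row_combination {κ : Type*} {e : ℕ} (A : Fin e → κ → ℂ) (J : Fin e → κ) (p : κ → ℂ)
    (hD : (Matrix.of fun i j => A i (J j)).det ≠ 0)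
    (hz : ∀ j : κ, (Matrix.of fun (i : Fin (e + 1)) (l : Fin (e + 1)) =>
      (Fin.snoc A p : Fin (e + 1) → κ → ℂ) i ((Fin.snoc J j : Fin (e + 1) → κ) l)).det = 0) :
    ∃ γ : Fin e → ℂ, ∀ j, p j = ∑ i, γ i * A i j := by
  classical
  set M : Matrix (Fin e) (Fin e) ℂ := Matrix.of fun i j => A i (J j) with hM
  refine ⟨fun i => ∑ l, p (J l) * M⁻¹ l i, ?_⟩
  intro j
  have h1 := hz j
  -- block form
  have h2 : (Matrix.of fun (i : Fin (e + 1)) (l : Fin (e + 1)) =>
      (Fin.snoc A p : Fin (e + 1) → κ → ℂ) i ((Fin.snoc J j : Fin (e + 1) → κ) l)).det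
      = (Matrix.fromBlocks M (Matrix.of fun i (_ : Fin 1) => A i j)
          (Matrix.of fun (_ : Fin 1) l => p (J l)) (Matrix.of fun (_ _ : Fin 1) => p j)).det := by
    rw [← Matrix.det_submatrix_equiv_self (finSumFinEquiv (m := e) (n := 1))]
    congr 1
    ext a b
    rcases a with a | a <;> rcases b with b | b
    · simp [hM, Fin.snoc, Fin.castAdd, Fin.castLE]
    · have hb : b = 0 := Subsingleton.elim _ _
      subst hb
      simp [Fin.snoc, Fin.castAdd, Fin.castLE, Fin.natAdd]
    · have ha : a = 0 := Subsingleton.elim _ _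
      subst ha
      simp [Fin.snoc, Fin.castAdd, Fin.castLE, Fin.natAdd]
    · have ha : a = 0 := Subsingleton.elim _ _
      have hb : b = 0 := Subsingleton.elim _ _
      subst ha
      subst hb
      simp [Fin.snoc, Fin.natAdd]
  rw [h2] at h1
  have hMu : IsUnit M.det := isUnit_iff_ne_zero.mpr hD
  let _ : Invertible M := Matrix.invertibleOfIsUnitDet M hMu
  rw [Matrix.det_fromBlocks₁₁, mul_eq_zero] at h1
  rcases h1 with h1 | h1
  · exact absurd h1 hD
  · rw [Matrix.det_unique] at h1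
    simp only [Matrix.invOf_eq_nonsing_inv, Matrix.sub_apply, Matrix.of_apply, Matrix.mul_apply] at h1
    rw [sub_eq_zero] at h1
    rw [h1]


lemma norm_det_le' {e : ℕ} (M : Matrix (Fin e) (Fin e) ℂ) {B : ℝ} (hM : ∀ i j, ‖M i j‖ ≤ B) :
    ‖M.det‖ ≤ (e.factorial : ℝ) * B ^ e := by
  rw [Matrix.det_apply]
  refine (norm_sum_le _ _).trans ?_
  have h1 : ∀ σ ∈ (Finset.univ : Finset (Equiv.Perm (Fin e))),
      ‖Equiv.Perm.sign σ • ∏ i, M (σ i) i‖ ≤ B ^ e := by
    intro σ _
    have h2 : ‖Equiv.Perm.sign σ • ∏ i, M (σ i) i‖ = ‖∏ i, M (σ i) i‖ := by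
      rcases Int.units_eq_one_or (Equiv.Perm.sign σ) with h | h <;> simp [h]
    rw [h2, norm_prod]
    calc ∏ i, ‖M (σ i) i‖ ≤ ∏ _i : Fin e, B :=
          Finset.prod_le_prod (fun i _ => norm_nonneg _) (fun i _ => hM _ _)
      _ = B ^ e := by simp
  refine (Finset.sum_le_sum h1).trans ?_
  simp [Fintype.card_perm]

/-- quantitative Cramer -/
lemma cramer_bound {e : ℕ} (M : Matrix (Fin e) (Fin e) ℂ) {B : ℝ} (hB : 1 ≤ B)
    (hM : ∀ i j, ‖M i j‖ ≤ B) (hD : M.det ≠ 0) (v : Fin e → ℂ) {ε : ℝ}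
    (hv : ∀ i, ‖v i‖ ≤ ε) :
    ∃ x : Fin e → ℂ, (∀ i, ∑ l, M i l * x l = v i) ∧
      ∀ l, ‖x l‖ ≤ e * ((e.factorial : ℝ) * B ^ e) * ε / ‖M.det‖ := by
  have hMu : IsUnit M.det := isUnit_iff_ne_zero.mpr hD
  refine ⟨fun l => ∑ i, (M.det)⁻¹ * M.adjugate l i * v i, ?_, ?_⟩
  · intro i
    have h1 : M * M.adjugate = M.det • (1 : Matrix (Fin e) (Fin e) ℂ) := Matrix.mul_adjugate M
    calc ∑ l, M i l * ∑ i', (M.det)⁻¹ * M.adjugate l i' * v i'
        = ∑ i', (M.det)⁻¹ * (∑ l, M i l * M.adjugate l i') * v i' := by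
          simp_rw [Finset.mul_sum, Finset.sum_mul]
          rw [Finset.sum_comm]
          refine Finset.sum_congr rfl fun i' _ => Finset.sum_congr rfl fun l _ => ?_
          ring
      _ = ∑ i', (M.det)⁻¹ * ((M * M.adjugate) i i') * v i' := rfl
      _ = v i := by
          rw [h1]
          simp only [Matrix.smul_apply, Matrix.one_apply, smul_eq_mul]
          rw [Finset.sum_eq_single i]
          · rw [if_pos rfl, mul_one, inv_mul_cancel₀ hD, one_mul]
          · intro b _ hb
            rw [if_neg (Ne.symm hb)]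
            ring
          · intro h
            exact absurd (Finset.mem_univ _) h
  · intro l
    have hadj : ∀ i, ‖M.adjugate l i‖ ≤ (e.factorial : ℝ) * B ^ e := by
      intro i
      rw [Matrix.adjugate_apply]
      apply norm_det_le'
      intro a b
      rw [Matrix.updateRow_apply]
      split_ifs with h
      · by_cases hb : b = l
        · subst hb
          simpa using hB
        · rw [Pi.single_eq_of_ne hb]
          simp
          linarith
      · exact hM a b
    refine (norm_sum_le _ _).trans ?_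
    have hdpos : 0 < ‖M.det‖ := norm_pos_iff.mpr hD
    have h2 : ∀ i ∈ (Finset.univ : Finset (Fin e)),
        ‖(M.det)⁻¹ * M.adjugate l i * v i‖ ≤ ((e.factorial : ℝ) * B ^ e) * ε / ‖M.det‖ := by
      intro i _
      rw [norm_mul, norm_mul, norm_inv]
      rw [div_eq_mul_inv]
      have h3 : 0 ≤ (e.factorial : ℝ) * B ^ e := by positivity
      calc ‖M.det‖⁻¹ * ‖M.adjugate l i‖ * ‖v i‖
          ≤ ‖M.det‖⁻¹ * ((e.factorial : ℝ) * B ^ e) * ε := by
            apply mul_le_mul _ (hv i) (norm_nonneg _) (by positivity)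
            exact mul_le_mul_of_nonneg_left (hadj i) (by positivity)
        _ = _ := by ring
    refine (Finset.sum_le_sum h2).trans ?_
    simp only [Finset.sum_const, Finset.card_univ, Fintype.card_fin, nsmul_eq_mul]
    apply le_of_eq
    ring

/-- the thresholds -/
noncomputable def thr (q : ℕ) (G : ℝ) : ℕ → ℝ
  | 0 => 0
  | e + 1 => (q + 1) * (thr q G e + G)

lemma thr_nonneg (q : ℕ) {G : ℝ} (hG : 0 ≤ G) (e : ℕ) : 0 ≤ thr q G e := by
  induction e with
  | zero => simp [thr]
  | succ e ih => rw [thr]; positivity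

lemma thr_add_le (q : ℕ) {G : ℝ} (hG : 0 ≤ G) (e : ℕ) :
    thr q G e + G ≤ G * (e + 1) * (q + 1) ^ e := by
  induction e with
  | zero => simp [thr]
  | succ e ih =>
    rw [thr]
    have h1 : (1 : ℝ) ≤ (q + 1) ^ (e + 1) := one_le_pow₀ (by
      have : (0 : ℝ) ≤ q := Nat.cast_nonneg q
      linarith)
    have h2 : ((q : ℝ) + 1) * (thr q G e + G) ≤ (q + 1) * (G * (e + 1) * (q + 1) ^ e) := by
      gcongr
    have h3 : G ≤ G * (q + 1) ^ (e + 1) := le_mul_of_one_le_right hG h1
    push_cast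
    calc ((q : ℝ) + 1) * (thr q G e + G) + G
        ≤ (q + 1) * (G * (e + 1) * (q + 1) ^ e) + G * (q + 1) ^ (e + 1) := by linarith
      _ = _ := by ring

lemma factorial_pow_mono {a b : ℕ} (hab : a ≤ b) {H : ℝ} (hH : 1 ≤ H) :
    (a.factorial : ℝ) * H ^ a ≤ (b.factorial : ℝ) * H ^ b := by
  have h1 : (a.factorial : ℝ) ≤ b.factorial := by exact_mod_cast Nat.factorial_le hab
  have h2 : H ^ a ≤ H ^ b := pow_le_pow_right₀ hH hab
  have : (0 : ℝ) ≤ H ^ a := by positivity
  gcongr

/-- the final step: the rank at `z` is exactly `e`, `z` close to `lam`: solve exactly -/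
lemma solve_exact {κ : Type*} [Fintype κ] (PP : Set (κ → ℤ[X])) {n : ℕ} {H : ℝ} (hH : 1 ≤ H)
    (hdeg : ∀ P ∈ PP, ∀ j, (P j).natDegree ≤ n) (hl1 : ∀ P ∈ PP, ∀ j, l1 (P j) ≤ H)
    {lam : ℝ} (h0 : 0 < lam) (h1 : lam < 1) {z : ℂ} (hz : ‖z‖ ≤ 1) {δ : ℝ}
    (hzl : ‖z - lam‖ ≤ δ) {e : ℕ} (hek : e ≤ Fintype.card κ) (R : Fin e → κ → ℤ[X]) (hR : ∀ i, R i ∈ PP)
    (J : Fin e → κ) {d : ℝ} (hd : 0 < d) (hD : d ≤ ‖aeval z (minor R J)‖)
    (hvan : ∀ (R' : Fin (e + 1) → κ → ℤ[X]) (J' : Fin (e + 1) → κ), (∀ i, R' i ∈ PP) →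
      aeval z (minor R' J') = 0)
    (t : κ → ℝ) {η : ℝ} (hη0 : 0 ≤ η) (ht : ∀ P ∈ PP, ‖∑ j, (t j : ℂ) * aeval (lam : ℂ) (P j)‖ ≤ η * ‖t‖) :
    ∃ t' : κ → ℂ, (∀ j, ‖t' j - t j‖ ≤ (Fintype.card κ : ℝ) ^ 2 *
        (((Fintype.card κ).factorial : ℝ) * H ^ (Fintype.card κ)) *
        (η + (Fintype.card κ) * n * H * δ) / d * ‖t‖) ∧
      ∀ P ∈ PP, ∑ j, t' j * aeval z (P j) = 0 := by
  classical
  set k := Fintype.card κ with hk
  have hlam : ‖(lam : ℂ)‖ ≤ 1 := by
    rw [Complex.norm_real, Real.norm_of_nonneg h0.le]; exact h1.le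
  have hδ : 0 ≤ δ := (norm_nonneg _).trans hzl
  set M : Matrix (Fin e) (Fin e) ℂ := Matrix.of fun i j => aeval z (R i (J j)) with hM
  have hMdet : M.det = aeval z (minor R J) := by rw [aeval_minor]
  have hMne : M.det ≠ 0 := by
    rw [hMdet]
    exact norm_pos_iff.mp (lt_of_lt_of_le hd hD)
  have hMent : ∀ i j, ‖M i j‖ ≤ H := by
    intro i j
    have h2 := norm_aeval_le (R i (J j)) (hdeg _ (hR i) (J j)) z
    rw [max_eq_left hz, one_pow, mul_one] at h2
    exact h2.trans (hl1 _ (hR i) _)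
  set v : Fin e → ℂ := fun i => ∑ j, (t j : ℂ) * aeval z (R i j) with hv
  have hvb : ∀ i, ‖v i‖ ≤ (η + k * n * H * δ) * ‖t‖ := by
    intro i
    have h2 : v i = ∑ j, (t j : ℂ) * aeval (lam : ℂ) (R i j) +
        ∑ j, (t j : ℂ) * (aeval z (R i j) - aeval (lam : ℂ) (R i j)) := by
      rw [hv, ← Finset.sum_add_distrib]
      refine Finset.sum_congr rfl fun j _ => ?_
      ring
    rw [h2]
    refine (norm_add_le _ _).trans ?_
    rw [add_mul]
    apply add_le_add (ht _ (hR i))
    refine (norm_sum_le _ _).trans ?_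
    have h3 : ∀ j ∈ (Finset.univ : Finset κ),
        ‖(t j : ℂ) * (aeval z (R i j) - aeval (lam : ℂ) (R i j))‖ ≤ ‖t‖ * (n * H * δ) := by
      intro j _
      rw [norm_mul, Complex.norm_real]
      apply mul_le_mul (norm_le_pi_norm t j) _ (norm_nonneg _) (norm_nonneg _)
      refine (norm_aeval_sub_le (R i j) (hdeg _ (hR i) j) hz hlam).trans ?_
      have := hl1 _ (hR i) j
      have h4 := l1_nonneg (R i j)
      gcongr
    refine (Finset.sum_le_sum h3).trans ?_
    simp only [Finset.sum_const, Finset.card_univ, nsmul_eq_mul]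
    apply le_of_eq
    rw [← hk]
    ring
  obtain ⟨x, hx1, hx2⟩ := cramer_bound M hH hMent hMne v hvb
  refine ⟨fun j => t j - ∑ l, if J l = j then x l else 0, ?_, ?_⟩
  · intro j
    rw [sub_sub_cancel_left, norm_neg]
    refine (norm_sum_le _ _).trans ?_
    have hη : 0 ≤ (η + k * n * H * δ) * ‖t‖ := by
      have := norm_nonneg t
      positivity
    have h3 : ∀ l ∈ (Finset.univ : Finset (Fin e)), ‖if J l = j then x l else 0‖ ≤
        k * ((k.factorial : ℝ) * H ^ k) * ((η + k * n * H * δ) * ‖t‖) / d := by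
      intro l _
      have h4 : ‖x l‖ ≤ k * ((k.factorial : ℝ) * H ^ k) * ((η + k * n * H * δ) * ‖t‖) / d := by
        refine (hx2 l).trans ?_
        rw [hMdet]
        have h5 : (e : ℝ) * ((e.factorial : ℝ) * H ^ e) ≤ k * ((k.factorial : ℝ) * H ^ k) := by
          have h6 : (e : ℝ) ≤ k := by exact_mod_cast hek
          have h7 := factorial_pow_mono hek hH
          have : 0 ≤ (e.factorial : ℝ) * H ^ e := by positivity
          gcongr
        have h8 : 0 ≤ (k : ℝ) * ((k.factorial : ℝ) * H ^ k) := by positivity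
        gcongr
      split_ifs
      · exact h4
      · rw [norm_zero]
        exact (norm_nonneg _).trans h4
    refine (Finset.sum_le_sum h3).trans ?_
    simp only [Finset.sum_const, Finset.card_univ, Fintype.card_fin, nsmul_eq_mul]
    have h6 : (e : ℝ) ≤ k := by exact_mod_cast hek
    calc (e : ℝ) * (k * ((k.factorial : ℝ) * H ^ k) * ((η + k * n * H * δ) * ‖t‖) / d)
        ≤ k * (k * ((k.factorial : ℝ) * H ^ k) * ((η + k * n * H * δ) * ‖t‖) / d) := by
          gcongr
      _ = _ := by ring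
  · intro P hP
    have hrow : ∃ γ : Fin e → ℂ, ∀ j, aeval z (P j) = ∑ i, γ i * aeval z (R i j) := by
      apply row_combination (fun i j => aeval z (R i j)) J (fun j => aeval z (P j)) hMne
      intro j
      have h3 := hvan (Fin.snoc R P) (Fin.snoc J j) (by
        intro i
        refine Fin.lastCases ?_ (fun i => ?_) i
        · simpa using hP
        · simpa using hR i)
      rw [aeval_minor] at h3
      rw [← h3]
      congr 1
      ext a b
      refine Fin.lastCases ?_ (fun a => ?_) a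
      · simp
      · simp
    obtain ⟨γ, hγ⟩ := hrow
    have hzero : ∀ i, ∑ j, (t j - ∑ l, if J l = j then x l else 0) * aeval z (R i j) = 0 := by
      intro i
      simp_rw [sub_mul, Finset.sum_sub_distrib, Finset.sum_mul]
      rw [Finset.sum_comm]
      have h4 : ∀ l, ∑ j, (if J l = j then x l else 0) * aeval z (R i j) = M i l * x l := by
        intro l
        simp_rw [ite_mul, zero_mul]
        rw [Finset.sum_ite_eq]
        simp only [Finset.mem_univ, if_true]
        rw [hM]
        simp only [Matrix.of_apply]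
        ring
      simp_rw [h4]
      rw [hx1 i, hv]
      simp
    calc ∑ j, (t j - ∑ l, if J l = j then x l else 0) * aeval z (P j)
        = ∑ j, (t j - ∑ l, if J l = j then x l else 0) * ∑ i, γ i * aeval z (R i j) := by
          refine Finset.sum_congr rfl fun j _ => ?_
          rw [hγ j]
      _ = ∑ i, γ i * ∑ j, (t j - ∑ l, if J l = j then x l else 0) * aeval z (R i j) := by
          simp_rw [Finset.mul_sum]
          rw [Finset.sum_comm]
          refine Finset.sum_congr rfl fun i _ => Finset.sum_congr rfl fun j _ => ?_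
          ring
      _ = 0 := by simp [hzero]


/-- **E1: one-variable exactness lemma.** `PP` family of integer polynomial vectors, of degree
`≤ n` and `l1` norm `≤ H`.  `q` bounds the number of small roots of the minors.  One `z` close to
`lam` (`‖z - lam‖ ≤ e^{-G}`) such that every real `t` which is nearly annihilated at `lam` is
close to a complex vector exactly annihilated at `z`. -/
theorem exactness {κ : Type*} [Fintype κ] (PP : Set (κ → ℤ[X])) {n : ℕ} {H : ℝ} (hH : 1 ≤ H)
    (hdeg : ∀ P ∈ PP, ∀ j, (P j).natDegree ≤ n) (hl1 : ∀ P ∈ PP, ∀ j, l1 (P j) ≤ H)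
    {lam : ℝ} (h0 : 0 < lam) (h1 : lam < 1) (q : ℕ)
    (hq : (((Fintype.card κ).factorial : ℝ) * H ^ (Fintype.card κ)) *
      ((1 + lam) / 2) ^ (q + 1) < 1)
    {G N : ℝ} (hG : 0 ≤ G) (hG0 : Real.exp (-G) ≤ 1 - lam)
    (hG1 : Real.exp (-G) ≤ (lam * ((1 - lam) / 2)) ^ (Fintype.card κ * n))
    (hG2 : 2 * ((Fintype.card κ * n : ℕ) + 1 : ℝ) *
      (((Fintype.card κ).factorial : ℝ) * H ^ (Fintype.card κ)) ^
        (2 * (Fintype.card κ * n) + 1) * Real.exp (-G) < 1)
    (hN : G * (Fintype.card κ + 1) * (q + 1) ^ (Fintype.card κ) ≤ N) :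
    ∃ z : ℂ, ‖z - lam‖ ≤ Real.exp (-G) ∧ ‖z‖ ≤ 1 ∧
      (z = lam ∨ ∃ (e : ℕ) (R : Fin e → κ → ℤ[X]) (J : Fin e → κ), e ≤ Fintype.card κ ∧
        (∀ i, R i ∈ PP) ∧ minor R J ≠ 0 ∧ aeval z (minor R J) = 0) ∧
      ∀ t : κ → ℝ, (∀ P ∈ PP, ‖∑ j, (t j : ℂ) * aeval (lam : ℂ) (P j)‖ ≤ Real.exp (-N) * ‖t‖) →
        ∃ t' : κ → ℂ, (∀ j, ‖t' j - t j‖ ≤ 2 * (Fintype.card κ : ℝ) ^ 2 *
            (((Fintype.card κ).factorial : ℝ) * H ^ (Fintype.card κ)) *
            (1 + (Fintype.card κ) * n * H) * Real.exp (-G) * ‖t‖) ∧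
          ∀ P ∈ PP, ∑ j, t' j * aeval z (P j) = 0 := by
  classical
  set k := Fintype.card κ with hk
  set H' : ℝ := (k.factorial : ℝ) * H ^ k with hH'
  have hH'1 : 1 ≤ H' := by
    have h2 : (1 : ℝ) ≤ (k.factorial : ℝ) := by exact_mod_cast Nat.one_le_iff_ne_zero.mpr (Nat.factorial_ne_zero k)
    have h3 : (1 : ℝ) ≤ H ^ k := one_le_pow₀ hH
    nlinarith
  have hlam : ‖(lam : ℂ)‖ = lam := by
    rw [Complex.norm_real, Real.norm_of_nonneg h0.le]
  -- bounds for minors
  have hminl1 : ∀ (e : ℕ) (R : Fin e → κ → ℤ[X]) (J : Fin e → κ), e ≤ k → (∀ i, R i ∈ PP) →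
      l1 (minor R J) ≤ H' := by
    intro e R J he hR
    exact (minor_l1 R J fun i j => hl1 _ (hR i) j).trans (factorial_pow_mono he hH)
  have hmindeg : ∀ (e : ℕ) (R : Fin e → κ → ℤ[X]) (J : Fin e → κ), e ≤ k → (∀ i, R i ∈ PP) →
      (minor R J).natDegree ≤ k * n := by
    intro e R J he hR
    exact (minor_natDegree R J fun i j => hdeg _ (hR i) j).trans (Nat.mul_le_mul_right n he)
  -- choice of the rank
  let Q : ℕ → Prop := fun e => ∃ (R : Fin e → κ → ℤ[X]) (J : Fin e → κ), (∀ i, R i ∈ PP) ∧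
    Real.exp (-(thr q G e)) ≤ ‖aeval (lam : ℂ) (minor R J)‖
  have hQ0 : Q 0 := by
    refine ⟨fun i => i.elim0, fun i => i.elim0, fun i => i.elim0, ?_⟩
    rw [aeval_minor]
    simp [thr]
  have hQk : ¬ Q (k + 1) := by
    rintro ⟨R, J, _, hR⟩
    rw [minor_eq_zero_of_card R J (by omega), map_zero, norm_zero] at hR
    exact absurd hR (not_le.mpr (Real.exp_pos _))
  obtain ⟨e, hek, hQe, hQe1⟩ : ∃ e ≤ k, Q e ∧ ¬ Q (e + 1) := by
    by_contra hcon
    push Not at hcon
    have : ∀ e ≤ k + 1, Q e := by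
      intro e
      induction e with
      | zero => intro _; exact hQ0
      | succ e ih =>
        intro he
        exact hcon e (by omega) (ih (by omega))
    exact hQk (this (k + 1) le_rfl)
  obtain ⟨R, J, hRPP, hDlam⟩ := hQe
  have hsmall : ∀ (R' : Fin (e + 1) → κ → ℤ[X]) (J' : Fin (e + 1) → κ), (∀ i, R' i ∈ PP) →
      ‖aeval (lam : ℂ) (minor R' J')‖ < Real.exp (-(thr q G (e + 1))) := by
    intro R' J' hR'
    by_contra h
    push Not at h
    exact hQe1 ⟨R', J', hR', h⟩
  set δ : ℝ := Real.exp (-(thr q G e + G)) with hδ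
  have hδ0 : 0 < δ := Real.exp_pos _
  have hthr := thr_nonneg q hG e
  have hδG : δ ≤ Real.exp (-G) := Real.exp_le_exp.mpr (by linarith)
  have hδ1 : δ ≤ 1 := by
    rw [hδ]
    exact Real.exp_le_one_iff.mpr (by linarith)
  have hexpE : Real.exp (-(thr q G (e + 1))) = δ ^ q * δ := by
    rw [← pow_succ, hδ, ← Real.exp_nat_mul, thr]
    congr 1
    push_cast
    ring
  -- find z
  obtain ⟨z, hzl, hzroot, hvan⟩ : ∃ z : ℂ, ‖z - lam‖ ≤ δ ∧
      (z = lam ∨ ∃ (e : ℕ) (R : Fin e → κ → ℤ[X]) (J : Fin e → κ), e ≤ k ∧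
        (∀ i, R i ∈ PP) ∧ minor R J ≠ 0 ∧ aeval z (minor R J) = 0) ∧
      (∀ (R' : Fin (e + 1) → κ → ℤ[X]) (J' : Fin (e + 1) → κ), (∀ i, R' i ∈ PP) →
        aeval z (minor R' J') = 0) := by
    by_cases hall : ∀ (R' : Fin (e + 1) → κ → ℤ[X]) (J' : Fin (e + 1) → κ), (∀ i, R' i ∈ PP) →
        aeval (lam : ℂ) (minor R' J') = 0
    · exact ⟨lam, by simpa using hδ0.le, Or.inl rfl, hall⟩
    · push Not at hall
      obtain ⟨R₁, J₁, hR₁, hne⟩ := hall
      have hm0 : minor R₁ J₁ ≠ 0 := by
        intro h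
        rw [h, map_zero] at hne
        exact hne rfl
      have he1k : e + 1 ≤ k := by
        by_contra h
        exact hm0 (minor_eq_zero_of_card R₁ J₁ (by omega))
      -- a root near lam
      obtain ⟨z, hz0, hzd⟩ : ∃ z : ℂ, aeval z (minor R₁ J₁) = 0 ∧ ‖z - lam‖ < δ := by
        by_contra hcon
        push Not at hcon
        have h2 := near_root h0 h1 hδ0 hδ1 q hq (k * n) (minor R₁ J₁) hm0
          (hmindeg _ _ _ he1k hR₁) (hminl1 _ _ _ he1k hR₁) hcon
        have h3 := hsmall R₁ J₁ hR₁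
        rw [hexpE] at h3
        have h4 : δ ^ q * δ ≤ (lam * ((1 - lam) / 2)) ^ (k * n) * δ ^ q := by
          rw [mul_comm]
          have : δ ≤ (lam * ((1 - lam) / 2)) ^ (k * n) := hδG.trans hG1
          gcongr
        linarith
      have hz1 : ‖z‖ ≤ 1 := by
        have h2 : ‖z‖ ≤ ‖z - lam‖ + ‖(lam : ℂ)‖ := by
          have := norm_add_le (z - lam) (lam : ℂ)
          simpa using this
        rw [hlam] at h2
        linarith
      refine ⟨z, hzd.le, Or.inr ⟨e + 1, R₁, J₁, he1k, hR₁, hm0, hz0⟩, ?_⟩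
      intro R₂ J₂ hR₂
      by_contra hS
      have h2 := liouville hm0 (hmindeg _ _ _ he1k hR₁) (hmindeg _ _ _ he1k hR₂) hz0 hS
      have h3 : ‖aeval z (minor R₂ J₂)‖ ≤ (1 + (k * n : ℕ)) * H' * δ := by
        have h4 := norm_aeval_sub_le (minor R₂ J₂) (hmindeg _ _ _ he1k hR₂) hz1
          (by rw [hlam]; exact h1.le : ‖(lam : ℂ)‖ ≤ 1)
        have h5 : ‖aeval z (minor R₂ J₂)‖ ≤ ‖aeval z (minor R₂ J₂) - aeval (lam : ℂ) (minor R₂ J₂)‖
            + ‖aeval (lam : ℂ) (minor R₂ J₂)‖ := by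
          have := norm_add_le (aeval z (minor R₂ J₂) - aeval (lam : ℂ) (minor R₂ J₂))
            (aeval (lam : ℂ) (minor R₂ J₂))
          simpa using this
        have h6 : ‖aeval (lam : ℂ) (minor R₂ J₂)‖ ≤ δ := by
          refine (hsmall R₂ J₂ hR₂).le.trans ?_
          rw [hexpE]
          exact mul_le_of_le_one_left hδ0.le (pow_le_one₀ hδ0.le hδ1)
        have h7 : ((k * n : ℕ) : ℝ) * l1 (minor R₂ J₂) * ‖z - lam‖ ≤ (k * n : ℕ) * H' * δ := by
          have := hminl1 _ _ J₂ he1k hR₂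
          have h8 := l1_nonneg (minor R₂ J₂)
          gcongr
        have h9 : δ ≤ H' * δ := le_mul_of_one_le_left hδ0.le hH'1
        calc ‖aeval z (minor R₂ J₂)‖ ≤ (k * n : ℕ) * H' * δ + δ := by linarith
          _ ≤ (k * n : ℕ) * H' * δ + H' * δ := by linarith
          _ = _ := by ring
      have h10 : l1 (minor R₂ J₂) ^ (k * n) * l1 (minor R₁ J₁) ^ (k * n) ≤ H' ^ (2 * (k * n)) := by
        rw [two_mul, pow_add]
        have h11 := hminl1 _ _ J₂ he1k hR₂
        have h12 := hminl1 _ _ J₁ he1k hR₁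
        have h13 := l1_nonneg (minor R₂ J₂)
        have h14 := l1_nonneg (minor R₁ J₁)
        gcongr
      have h15 : (1 : ℝ) ≤ (1 + (k * n : ℕ)) * H' * δ * H' ^ (2 * (k * n)) := by
        refine h2.trans ?_
        have h16 : 0 ≤ l1 (minor R₂ J₂) ^ (k * n) * l1 (minor R₁ J₁) ^ (k * n) := by
          have h13 := l1_nonneg (minor R₂ J₂)
          have h14 := l1_nonneg (minor R₁ J₁)
          positivity
        calc _ ≤ (1 + (k * n : ℕ)) * H' * δ *
              (l1 (minor R₂ J₂) ^ (k * n) * l1 (minor R₁ J₁) ^ (k * n)) := by gcongr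
          _ ≤ _ := by
            have : 0 ≤ (1 + (k * n : ℕ)) * H' * δ := by positivity
            gcongr
      have h17 : (1 + (k * n : ℕ)) * H' * δ * H' ^ (2 * (k * n)) ≤
          (1 + (k * n : ℕ)) * H' * Real.exp (-G) * H' ^ (2 * (k * n)) := by
        gcongr
      have h18 : (1 + (k * n : ℕ)) * H' * Real.exp (-G) * H' ^ (2 * (k * n)) =
          (((k * n : ℕ) + 1 : ℝ) * H' ^ (2 * (k * n) + 1) * Real.exp (-G)) := by
        rw [pow_succ]; ring
      have h19 : 0 ≤ ((k * n : ℕ) + 1 : ℝ) * H' ^ (2 * (k * n) + 1) * Real.exp (-G) := by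
        positivity
      have h20 : 2 * (((k * n : ℕ) + 1 : ℝ) * H' ^ (2 * (k * n) + 1) * Real.exp (-G)) < 1 := by
        calc _ = 2 * ((k * n : ℕ) + 1 : ℝ) * H' ^ (2 * (k * n) + 1) * Real.exp (-G) := by ring
          _ < 1 := hG2
      linarith
  have hz1 : ‖z‖ ≤ 1 := by
    have h2 : ‖z‖ ≤ ‖z - lam‖ + ‖(lam : ℂ)‖ := by
      have := norm_add_le (z - lam) (lam : ℂ)
      simpa using this
    rw [hlam] at h2
    linarith
  refine ⟨z, hzl.trans hδG, hz1, hzroot, ?_⟩
  -- the e-minor does not vanish at z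
  have hDz : Real.exp (-(thr q G e)) / 2 ≤ ‖aeval z (minor R J)‖ := by
    have h4 := norm_aeval_sub_le (minor R J) (hmindeg _ _ _ hek hRPP) hz1
      (by rw [hlam]; exact h1.le : ‖(lam : ℂ)‖ ≤ 1)
    have h5 : ‖aeval (lam : ℂ) (minor R J)‖ ≤ ‖aeval z (minor R J) - aeval (lam : ℂ) (minor R J)‖
        + ‖aeval z (minor R J)‖ := by
      have := norm_sub_le (aeval z (minor R J)) (aeval z (minor R J) - aeval (lam : ℂ) (minor R J))
      rw [sub_sub_cancel] at this
      linarith
    have h7 : ((k * n : ℕ) : ℝ) * l1 (minor R J) * ‖z - lam‖ ≤ (k * n : ℕ) * H' * δ := by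
      have := hminl1 _ _ J hek hRPP
      have h8 := l1_nonneg (minor R J)
      gcongr
    have h9 : ((k * n : ℕ) : ℝ) * H' * δ ≤ Real.exp (-(thr q G e)) / 2 := by
      have h10 : δ = Real.exp (-(thr q G e)) * Real.exp (-G) := by
        rw [hδ, ← Real.exp_add]
        congr 1
        ring
      rw [h10]
      have h11 : 2 * (((k * n : ℕ) : ℝ) * H' * Real.exp (-G)) ≤ 1 := by
        refine le_trans ?_ hG2.le
        have h12 : H' ≤ H' ^ (2 * (k * n) + 1) := by
          calc H' = H' ^ 1 := (pow_one _).symm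
            _ ≤ _ := pow_le_pow_right₀ hH'1 (by omega)
        calc 2 * (((k * n : ℕ) : ℝ) * H' * Real.exp (-G))
            = 2 * ((k * n : ℕ) : ℝ) * H' * Real.exp (-G) := by ring
          _ ≤ 2 * ((k * n : ℕ) + 1 : ℝ) * H' ^ (2 * (k * n) + 1) * Real.exp (-G) := by
            gcongr
            linarith
      have h13 := Real.exp_pos (-(thr q G e))
      nlinarith
    linarith
  intro t ht
  have hNG : thr q G e + G ≤ N := by
    refine (thr_add_le q hG e).trans (le_trans ?_ hN)
    have h2 : ((e : ℝ) + 1) ≤ k + 1 := by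
      have : (e : ℝ) ≤ k := by exact_mod_cast hek
      linarith
    have h3 : ((q : ℝ) + 1) ^ e ≤ (q + 1) ^ k := pow_le_pow_right₀ (by
      have : (0 : ℝ) ≤ q := Nat.cast_nonneg q
      linarith) hek
    gcongr
  have hpos := Real.exp_pos (-(thr q G e))
  obtain ⟨t', ht'1, ht'2⟩ := solve_exact PP hH hdeg hl1 h0 h1 hz1 hzl hek R hRPP J
    (d := Real.exp (-(thr q G e)) / 2) (by positivity) hDz hvan t (Real.exp_pos (-N)).le ht
  refine ⟨t', fun j => (ht'1 j).trans ?_, ht'2⟩
  rw [← hk, ← hH']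
  have h2 : Real.exp (-N) ≤ δ := Real.exp_le_exp.mpr (by linarith)
  have h10 : δ = Real.exp (-(thr q G e)) * Real.exp (-G) := by
    rw [hδ, ← Real.exp_add]
    congr 1
    ring
  have h3 : (Real.exp (-N) + k * n * H * δ) / (Real.exp (-(thr q G e)) / 2) ≤
      2 * (1 + k * n * H) * Real.exp (-G) := by
    rw [div_le_iff₀ (by positivity)]
    have h4 : Real.exp (-N) + k * n * H * δ ≤ (1 + k * n * H) * δ := by linarith
    refine h4.trans (le_of_eq ?_)
    rw [h10]
    ring
  calc (k : ℝ) ^ 2 * H' * (Real.exp (-N) + k * n * H * δ) / (Real.exp (-(thr q G e)) / 2) * ‖t‖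
      = (k : ℝ) ^ 2 * H' * ((Real.exp (-N) + k * n * H * δ) / (Real.exp (-(thr q G e)) / 2)) * ‖t‖ := by
        ring
    _ ≤ (k : ℝ) ^ 2 * H' * (2 * (1 + k * n * H) * Real.exp (-G)) * ‖t‖ := by
        gcongr
    _ = _ := by ring

end Crest.Agent.R98.Exact
private theorem rz_62a9b804c9 : type_of% @_root_.Crest.Agent.R98.Exact.thr.eq_def := @_root_.Crest.Agent.R98.Exact.thr.eq_def -- L169
private theorem rz_6d9e996e15 : type_of% @_root_.Crest.Agent.R98.Exact.thr.eq_1 := @_root_.Crest.Agent.R98.Exact.thr.eq_1 -- L169
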