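import Crest.Agent.R098.UpperA

-- ▼ part R098/UpperB
section

/-!
Row 98 (S0129): upper bound, part B. Iterated self-similarity, compact support, Hausdorff measure of
the typical set. (helper430)
-/

set_option autoImplicit false

namespace Crest.Agent.R098.Upper

open Finset MeasureTheory Crest.AnalysisR Filter
open scoped ENNReal NNReal Topology

variable {κ : Type*} [Fintype κ]

/-- the affine map of a word -/
noncomputable def fw (r t : κ → ℝ) {k : ℕ} (w : Fin k → κ) : ℝ → ℝ := affineWordMap r t (List.ofFn w)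

omit [Fintype κ] in
lemma fw_cons (r t : κ → ℝ) {k : ℕ} (a : κ) (w : Fin k → κ) :
    fw r t (Fin.cons a w : Fin (k+1) → κ) = fun x => r a * fw r t w x + t a := by
  simp [fw, affineWordMap, List.ofFn_succ]

omit [Fintype κ] in
lemma fw_zero (r t : κ → ℝ) (w : Fin 0 → κ) : fw r t w = id := by
  simp [fw, affineWordMap]

omit [Fintype κ] in
lemma fw_affine (r t : κ → ℝ) {k : ℕ} (w : Fin k → κ) (x : ℝ) :
    fw r t w x = pw r w * x + fw r t w 0 := by
  induction k with
  | zero => simp [fw_zero, pw]
  | succ k ih =>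
    obtain ⟨a, v, rfl⟩ : ∃ a v, w = Fin.cons a v := ⟨w 0, Fin.tail w, (Fin.cons_self_tail w).symm⟩
    rw [fw_cons, pw_cons]
    simp only
    rw [ih v]
    ring

omit [Fintype κ] in
lemma measurable_fw (r t : κ → ℝ) {k : ℕ} (w : Fin k → κ) : Measurable (fw r t w) := by
  have : fw r t w = fun x => pw r w * x + fw r t w 0 := funext (fw_affine r t w)
  rw [this]
  exact (measurable_const.mul measurable_id).add measurable_const

lemma sum_succ' {M : Type*} [AddCommMonoid M] {k : ℕ} (F : (Fin (k+1) → κ) → M) :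
    ∑ w, F w = ∑ a : κ, ∑ w : Fin k → κ, F (Fin.cons a w) := by
  rw [← Fintype.sum_prod_type']
  exact (Fintype.sum_equiv (Fin.consEquiv fun _ => κ) _ _ (fun x => rfl)).symm

/-- iterated self-similarity -/
lemma iter {r t p : κ → ℝ} (hp : ∀ i, 0 ≤ p i) {μ : Measure ℝ}
    (hμ : μ = ∑ i, ENNReal.ofReal (p i) • μ.map (fun x : ℝ => r i * x + t i)) (k : ℕ) :
    μ = ∑ w : Fin k → κ, ENNReal.ofReal (pw p w) • μ.map (fw r t w) := by
  induction k with
  | zero =>
    simp [pw, fw_zero]
  | succ k ih =>
    rw [sum_succ']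
    conv_lhs => rw [hμ]
    refine Finset.sum_congr rfl fun a _ => ?_
    conv_lhs => rw [ih]
    have hm : Measurable (fun x : ℝ => r a * x + t a) :=
      (measurable_const.mul measurable_id).add measurable_const
    rw [Measure.map_finset_sum hm.aemeasurable, Finset.smul_sum]
    refine Finset.sum_congr rfl fun w _ => ?_
    rw [Measure.map_smul, Measure.map_map hm (measurable_fw r t w), smul_smul, pw_cons,
      ENNReal.ofReal_mul (hp a), fw_cons]
    rfl






end Crest.Agent.R098.Upper
end

-- ▼ part R098/UpperC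
section

/-!
Row 98 (S0129): upper bound, part C. `lowerHausdorffDim μ ≤ H(p)/χ` without identification of maps.
(helper430)
-/

set_option autoImplicit false

namespace Crest.Agent.R098.Upper

open Finset MeasureTheory Crest.AnalysisR Filter
open scoped ENNReal NNReal Topology

variable {κ : Type*} [Fintype κ]

omit [Fintype κ] in
lemma abs_pw {r : κ → ℝ} (hr : ∀ i, r i ≠ 0) {k : ℕ} (w : Fin k → κ) :
    |pw r w| = Real.exp (- sw (fun i => - Real.log |r i|) w) := by
  rw [← pw_eq_exp (p := fun i => |r i|) (fun i => abs_pos.mpr (hr i)) w]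
  simp [pw, Finset.abs_prod]



lemma lyap_pos {r p : κ → ℝ} [Nonempty κ] (hr : ∀ i, r i ≠ 0 ∧ |r i| < 1) (hp : ∀ i, 0 < p i) :
    0 < lyapunovExp r p := by
  have : lyapunovExp r p = ∑ i, p i * (- Real.log |r i|) := by
    simp [lyapunovExp, Finset.sum_neg_distrib]
  rw [this]
  refine Finset.sum_pos (fun i _ => mul_pos (hp i) ?_) univ_nonempty
  have := Real.log_neg (abs_pos.mpr (hr i).1) (hr i).2
  linarith


end Crest.Agent.R098.Upper
end

-- ▼ part R098/Upper
section

/-!
Row 98 (S0129): upper bound `lowerHausdorffDim μ ≤ min 1 (h/χ)`. (helper430)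
Also exported: the `n`-step system with identified maps (`Gset`, `Gp`, ...), `composedMapEntropy_eq`.
-/

set_option autoImplicit false

namespace Crest.Agent.R098.Upper

open Finset MeasureTheory Crest.AnalysisR Filter
open scoped ENNReal NNReal Topology

variable {κ : Type*} [Fintype κ]

/-- the key (slope, value at 0) of the map of a word -/
noncomputable def key (r t : κ → ℝ) {n : ℕ} (w : Fin n → κ) : ℝ × ℝ := (pw r w, fw r t w 0)

omit [Fintype κ] in
lemma fw_eq_iff (r t : κ → ℝ) {n m : ℕ} (w : Fin n → κ) (v : Fin m → κ) :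
    fw r t w = fw r t v ↔ key r t w = key r t v := by
  constructor
  · intro h
    have h0 : fw r t w 0 = fw r t v 0 := by rw [h]
    have h1 : fw r t w 1 = fw r t v 1 := by rw [h]
    rw [fw_affine r t w 1, fw_affine r t v 1, h0] at h1
    simp only [key, Prod.mk.injEq]
    exact ⟨by linarith, h0⟩
  · intro h
    simp only [key, Prod.mk.injEq] at h
    funext x
    rw [fw_affine r t w x, fw_affine r t v x, h.1, h.2]
















end Crest.Agent.R098.Upper
end

-- ▼ part R98/Word1

/-!
Row 98 (S0129). Module WORDS, part 1: finite words, their ratio `rho`, translation vector `cw`,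
type `wtype`. (helper430)
-/

set_option autoImplicit false

namespace Crest.Agent.R98

open Finset Crest.AnalysisR Crest.Agent.R098.Upper

section Alg

variable {ι R : Type*}

/-- multiplicative weight of a finite word (over `ℝ` it is `Upper.pw`, definitionally) -/
def rho [CommMonoid R] (r : ι → R) {n : ℕ} (u : Fin n → ι) : R := ∏ j, r (u j)

open Classical in
/-- translation vector of a finite word: `c_u = ∑_j r_{u_1..u_j} e_{u_{j+1}}`
(recursively `c_{a u} = e_a + r_a c_u`) -/
noncomputable def cw [CommRing R] (r : ι → R) : ∀ {n : ℕ}, (Fin n → ι) → ι → R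
  | 0, _ => 0
  | _ + 1, u => fun i => (if u 0 = i then 1 else 0) + r (u 0) * cw r (Fin.tail u) i

lemma rho_eq_pw (r : ι → ℝ) {n : ℕ} (u : Fin n → ι) : rho r u = pw r u := rfl

@[simp] lemma rho_zero [CommMonoid R] (r : ι → R) (u : Fin 0 → ι) : rho r u = 1 := by simp [rho]

lemma rho_cons [CommMonoid R] (r : ι → R) {n : ℕ} (a : ι) (u : Fin n → ι) :
    rho r (Fin.cons a u : Fin (n+1) → ι) = r a * rho r u := by
  simp [rho, Fin.prod_univ_succ]

lemma rho_append [CommMonoid R] (r : ι → R) {m n : ℕ} (u : Fin m → ι) (v : Fin n → ι) :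
    rho r (Fin.append u v) = rho r u * rho r v := by
  simp [rho, Fin.prod_univ_add]

@[simp] lemma cw_zero [CommRing R] (r : ι → R) (u : Fin 0 → ι) : cw r u = 0 := rfl

open Classical in
lemma cw_cons [CommRing R] (r : ι → R) {n : ℕ} (a : ι) (u : Fin n → ι) (i : ι) :
    cw r (Fin.cons a u : Fin (n+1) → ι) i = (if a = i then 1 else 0) + r a * cw r u i := by
  simp [cw]

lemma exists_cons {n : ℕ} (w : Fin (n+1) → ι) : ∃ a v, w = (Fin.cons a v : Fin (n+1) → ι) :=
  ⟨w 0, Fin.tail w, (Fin.cons_self_tail w).symm⟩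

/-- transport of words along an equality of lengths -/
lemma cw_cast [CommRing R] (r : ι → R) {m n : ℕ} (h : m = n) (u : Fin n → ι) (i : ι) :
    cw r (u ∘ Fin.cast h) i = cw r u i := by
  subst h; rfl


lemma cw_append [CommRing R] (r : ι → R) {m n : ℕ} (u : Fin m → ι) (v : Fin n → ι) (i : ι) :
    cw r (Fin.append u v) i = cw r u i + rho r u * cw r v i := by
  induction m with
  | zero =>
    have : Fin.append u v = v ∘ Fin.cast (Nat.zero_add n) := Fin.append_left_nil u v rfl
    rw [this, cw_cast]
    simp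
  | succ m ih =>
    obtain ⟨a, u, rfl⟩ := exists_cons u
    rw [Fin.append_cons, cw_cast, cw_cons, ih, cw_cons, rho_cons]
    ring


/-- ring homomorphisms commute with `cw` -/
lemma map_cw {S : Type*} [CommRing R] [CommRing S] (φ : R →+* S) (r : ι → R) {n : ℕ}
    (u : Fin n → ι) (i : ι) : φ (cw r u i) = cw (fun i => φ (r i)) u i := by
  classical
  induction n with
  | zero => simp
  | succ n ih =>
    obtain ⟨a, u, rfl⟩ := exists_cons u
    rw [cw_cons, cw_cons, map_add, map_mul, ih]
    split_ifs <;> simp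

open Classical in
/-- the type (letter counts) of a word -/
noncomputable def wtype {n : ℕ} (u : Fin n → ι) (i : ι) : ℕ := (univ.filter fun j => u j = i).card

lemma rho_eq_wtype [Fintype ι] [CommMonoid R] (r : ι → R) {n : ℕ} (u : Fin n → ι) :
    rho r u = ∏ i, r i ^ wtype u i := by
  classical
  unfold rho wtype
  rw [← Finset.prod_fiberwise_of_maps_to (s := univ) (t := univ) (g := u) (fun _ _ => mem_univ _)]
  refine Finset.prod_congr rfl fun i _ => ?_
  rw [← Finset.prod_const]
  refine Finset.prod_congr ?_ ?_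
  · ext j; simp
  · intro j hj; rw [(mem_filter.1 hj).2]

lemma rho_congr_wtype [Fintype ι] [CommMonoid R] (r : ι → R) {m n : ℕ} {u : Fin n → ι} {v : Fin m → ι}
    (h : wtype u = wtype v) : rho r u = rho r v := by
  rw [rho_eq_wtype, rho_eq_wtype, h]

lemma wtype_le {n : ℕ} (u : Fin n → ι) (i : ι) : wtype u i ≤ n := by
  classical
  exact (card_le_univ _).trans (by simp)


lemma wtype_append {m n : ℕ} (u : Fin m → ι) (v : Fin n → ι) :
    wtype (Fin.append u v) = wtype u + wtype v := by
  classical
  funext i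
  unfold wtype
  simp only [Pi.add_apply, Finset.card_filter, Fin.sum_univ_add, Fin.append_left, Fin.append_right]



end Alg

section Real

variable {ι : Type*} [Fintype ι]

/-- the affine map of a word -/
lemma fw_eq (r t : ι → ℝ) {n : ℕ} (u : Fin n → ι) (x : ℝ) :
    fw r t u x = rho r u * x + ∑ i, cw r u i * t i := by
  classical
  induction n with
  | zero => simp [fw_zero]
  | succ n ih =>
    obtain ⟨a, u, rfl⟩ := exists_cons u
    rw [fw_cons]
    simp only [ih, rho_cons, cw_cons, add_mul, Finset.sum_add_distrib, ite_mul, one_mul, zero_mul,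
      Finset.sum_ite_eq, mem_univ, if_true, mul_assoc, ← Finset.mul_sum]
    ring

/-- two words give the same map iff same slope and same translation part -/
lemma affineWordMap_eq_iff (r t : ι → ℝ) {m n : ℕ} (u : Fin m → ι) (v : Fin n → ι) :
    affineWordMap r t (List.ofFn u) = affineWordMap r t (List.ofFn v) ↔
      rho r u = rho r v ∧ ∑ i, cw r u i * t i = ∑ i, cw r v i * t i := by
  have h := fw_eq_iff r t u v
  unfold fw at h
  rw [h]
  simp only [key, Prod.mk.injEq]
  rw [fw_eq, fw_eq]
  simp [rho_eq_pw]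

lemma affineWordMap_eq_of_wtype (r t : ι → ℝ) {m n : ℕ} {u : Fin m → ι} {v : Fin n → ι}
    (h : wtype u = wtype v) (hc : ∑ i, cw r u i * t i = ∑ i, cw r v i * t i) :
    affineWordMap r t (List.ofFn u) = affineWordMap r t (List.ofFn v) :=
  (affineWordMap_eq_iff r t u v).2 ⟨rho_congr_wtype r h, hc⟩

end Real

section Norm

variable {ι 𝕜 : Type*} [NormedField 𝕜]

lemma norm_rho_le {r : ι → 𝕜} {q : ℝ} (hr : ∀ i, ‖r i‖ ≤ q) {n : ℕ} (u : Fin n → ι) :
    ‖rho r u‖ ≤ q ^ n := by
  unfold rho
  rw [norm_prod]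
  calc ∏ j, ‖r (u j)‖ ≤ ∏ _j : Fin n, q :=
        Finset.prod_le_prod (fun _ _ => norm_nonneg _) (fun j _ => hr _)
    _ = q ^ n := by simp

lemma norm_cw_le {r : ι → 𝕜} {q : ℝ} (hr : ∀ i, ‖r i‖ ≤ q) (hq : q < 1) {n : ℕ}
    (u : Fin n → ι) (i : ι) : ‖cw r u i‖ ≤ 1 / (1 - q) := by
  classical
  have h1 : 0 < 1 - q := by linarith
  induction n with
  | zero =>
    simp only [cw_zero, Pi.zero_apply, norm_zero]
    exact (one_div_pos.2 h1).le
  | succ n ih =>
    obtain ⟨a, u, rfl⟩ := exists_cons u
    have hq0 : 0 ≤ q := (norm_nonneg _).trans (hr a)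
    rw [cw_cons]
    have h2 : ‖(if a = i then (1:𝕜) else 0)‖ ≤ 1 := by split_ifs <;> simp
    calc ‖(if a = i then (1:𝕜) else 0) + r a * cw r u i‖
        ≤ 1 + q * (1 / (1 - q)) := by
          refine (norm_add_le _ _).trans (add_le_add h2 ?_)
          rw [norm_mul]
          exact mul_le_mul (hr a) (ih u) (norm_nonneg _) hq0
      _ = 1 / (1 - q) := by field_simp; ring

end Norm

end Crest.Agent.R98
private theorem rz_d0b6b60180 : type_of% @_root_.Crest.Agent.R98.cw.eq_def := @_root_.Crest.Agent.R98.cw.eq_def -- L24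
private theorem rz_8ea88b4d5e : type_of% @_root_.Crest.Agent.R98.cw.eq_1 := @_root_.Crest.Agent.R98.cw.eq_1 -- L24
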