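import Crest.Agent.R98.Part
import Crest.Agent.R98.Word1
import Crest.Agent.R98.ExactC

/-!
Row 98 (S0129). Module TOP, part 0: the interface of the final logic (helper803).

Signs `σ` are fixed, the parameter is `ℓ` (`ℓ i = -log |r i|`), `rr σ ℓ` the ratio vector, the ray
through `ℓ` is `x • ℓ`, `x > 0`.  `Cl r t m X` is the partition of the words of length `m` by type and
by the cells of length `e^{-X}` of `c_u · t`, `Ex r t m` the exact coincidences.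
`Core p σ` = what the final logic uses about `α` and the measurability space `W`
(LT = UNI with J = 0, ST = the ST corollary).  `KW1`, `KW2` = the two steps of the crossing lemma.
-/

set_option autoImplicit false

namespace Crest.Agent.R98.Top

open Crest.AnalysisR Crest.Agent.R98 Crest.Agent.R98.Part Crest.Agent.R098.Upper Filter Topology
  MeasureTheory Polynomial

variable {ι : Type*} [Fintype ι]

/-- signs -/
def IsS (σ : ι → ℝ) : Prop := ∀ i, σ i = 1 ∨ σ i = -1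

/-- the ratio vector -/
noncomputable def rr (σ ℓ : ι → ℝ) (i : ι) : ℝ := σ i * Real.exp (-ℓ i)

/-- the complex ray (same formula as `rayC` of Word5) -/
noncomputable def rayc (σ ℓ : ι → ℝ) (s : ℂ) (i : ι) : ℂ := (σ i : ℂ) * Complex.exp (-(1 + s) * ℓ i)

/-- `c_u(r) · t` -/
noncomputable def cdot (r t : ι → ℝ) {n : ℕ} (u : Fin n → ι) : ℝ := ∑ i, cw r u i * t i

/-- partition by the type -/
noncomputable def Ty (ι : Type*) [Fintype ι] (m : ℕ) : Setoid (Fin m → ι) :=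
  Setoid.ker (wtype : (Fin m → ι) → ι → ℕ)

/-- partition by the type and by the cell of length `e^{-X}` of `c_u · t` -/
noncomputable def Cl (r t : ι → ℝ) (m : ℕ) (X : ℝ) : Setoid (Fin m → ι) :=
  Ty ι m ⊓ cell (fun u : Fin m → ι => cdot r t u) (Real.exp (-X)) 0

/-- partition by the type and the value of `c_u · t` -/
noncomputable def Ex (r t : ι → ℝ) (m : ℕ) : Setoid (Fin m → ι) :=
  Ty ι m ⊓ Setoid.ker (fun u : Fin m → ι => cdot r t u)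

/-- the Lyapunov exponent -/
noncomputable def chi (p ℓ : ι → ℝ) : ℝ := ∑ i, p i * ℓ i

/-- entropy rate of the exact coincidences (type included) -/
noncomputable def hX (p r t : ι → ℝ) : ℝ :=
  ⨅ n : ℕ, HS (pw p : (Fin (n + 1) → ι) → ℝ) (Ex r t (n + 1)) / ((n : ℝ) + 1)

/-- complexification of a real subspace, as a predicate -/
def InC (W : Submodule ℝ (ι → ℝ)) (w : ι → ℂ) : Prop :=
  (fun i => (w i).re) ∈ W ∧ (fun i => (w i).im) ∈ W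

/-- DATA of near coincidences along a sequence: levels `m j`, complex points `(s j, τ j)` close to
`(0, t)`, error `η j`, partitions `A j` finer than the type with entropy `≤ (α + ε j) m j` -/
structure Dat (p σ ℓ t : ι → ℝ) (α : ℝ) (m : ℕ → ℕ) (s : ℕ → ℂ) (τ : ℕ → ι → ℂ) (η ε : ℕ → ℝ)
    (A : ∀ j, Setoid (Fin (m j) → ι)) : Prop where
  hm : Tendsto m atTop atTop
  hε : Tendsto ε atTop (𝓝 0)
  hη : ∀ j, 0 ≤ η j
  hty : ∀ j, A j ≤ Ty ι (m j)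
  hcl : ∀ j u v, A j u v →
    ‖∑ i, (cw (rayc σ ℓ (s j)) u i - cw (rayc σ ℓ (s j)) v i) * τ j i‖ ≤ η j
  hH : ∀ j, HS (pw p : (Fin (m j) → ι) → ℝ) (A j) ≤ (α + ε j) * m j
  hs : ∀ C : ℝ, ∀ᶠ j in atTop, ‖s j‖ ≤ Real.exp (-(C * m j))
  hτ : ∀ C : ℝ, ∀ᶠ j in atTop, ∀ i, ‖τ j i - t i‖ ≤ Real.exp (-(C * m j))
  hηs : ∀ C : ℝ, ∀ᶠ j in atTop, η j ≤ Real.exp (-(C * m j))

/-- what the final logic uses about `α` and `W` -/
structure Core (p σ : ι → ℝ) where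
  /-- `α ℓ t = I(w_1; Π_t)` -/
  α : (ι → ℝ) → (ι → ℝ) → ℝ
  /-- `W ℓ t = {t' : c_w · t' ∈ σ(Π_t)}` -/
  W : (ι → ℝ) → (ι → ℝ) → Submodule ℝ (ι → ℝ)
  self_mem : ∀ ℓ t, (∀ i, 0 < ℓ i) → t ∈ W ℓ t
  W_le : ∀ ℓ t t', (∀ i, 0 < ℓ i) → t' ∈ W ℓ t → W ℓ t' ≤ W ℓ t
  α_le : ∀ ℓ t t', (∀ i, 0 < ℓ i) → t' ∈ W ℓ t → α ℓ t' ≤ α ℓ t
  /-- LT (UNI with `J = 0`) -/
  lt : ∀ ℓ t, (∀ i, 0 < ℓ i) → α ℓ t < chi p ℓ →
    ∀ (m : ℕ → ℕ) (s : ℕ → ℂ) (τ : ℕ → ι → ℂ) (η ε : ℕ → ℝ) (A : ∀ j, Setoid (Fin (m j) → ι)),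
      Dat p σ ℓ t (α ℓ t) m s τ η ε A →
      ∀ᶠ j in atTop, ∃ w : ι → ℂ, InC (W ℓ t) w ∧ ∀ i, ‖τ j i - w i‖ ≤ √(max ‖s j‖ (η j))
  /-- ST corollary: if `s j ≠ 0` and the error is smaller than all powers of `s j`, then all points
  `(1 + x) • ℓ` of the ray near `ℓ`, up to countably many, carry counterexamples -/
  st : ∀ ℓ t, (∀ i, 0 < ℓ i) → α ℓ t < chi p ℓ → α ℓ t < hX p (rr σ ℓ) t →
    ∀ (m : ℕ → ℕ) (s : ℕ → ℂ) (τ : ℕ → ι → ℂ) (η ε : ℕ → ℝ) (A : ∀ j, Setoid (Fin (m j) → ι)),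
      Dat p σ ℓ t (α ℓ t) m s τ η ε A → (∀ j, s j ≠ 0) →
      (∀ J : ℕ, ∀ᶠ j in atTop, η j ≤ ‖s j‖ ^ J) →
      ∃ ρ > (0 : ℝ), ∃ Z : Set ℝ, Z.Countable ∧ ∀ x : ℝ, |x| < ρ → x ∉ Z →
        ∃ t' : ι → ℝ, α (fun i => (1 + x) * ℓ i) t' < chi p (fun i => (1 + x) * ℓ i) ∧
          α (fun i => (1 + x) * ℓ i) t' < hX p (rr σ fun i => (1 + x) * ℓ i) t'

/-- counterexample -/
def Core.Ctr {p σ : ι → ℝ} (S : Core p σ) (ℓ t : ι → ℝ) : Prop :=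
  S.α ℓ t < chi p ℓ ∧ S.α ℓ t < hX p (rr σ ℓ) t

/-! ### rational rays -/

/-- the ratio vector `σ_i X^{a_i}` over `ℤ[X]` -/
noncomputable def ratP (σ : ι → ℝ) (a : ι → ℕ) (i : ι) : ℤ[X] :=
  (if σ i < 0 then -1 else 1) * X ^ a i

/-- `c_u - c_v` over `ℤ[X]` -/
noncomputable def difP (σ : ι → ℝ) (a : ι → ℕ) {m : ℕ} (u v : Fin m → ι) (i : ι) : ℤ[X] :=
  cw (ratP σ a) u i - cw (ratP σ a) v i

/-- candidates of level `m`: roots of the nonzero minors of size `≤ card ι` of the rows `c_u - c_v` -/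
def Cand (σ : ι → ℝ) (a : ι → ℕ) (m : ℕ) : Set ℂ :=
  {z | ∃ (e : ℕ) (R : Fin e → ι → ℤ[X]) (J : Fin e → ι), e ≤ Fintype.card ι ∧
    (∀ k, ∃ u v : Fin m → ι, R k = difP σ a u v) ∧ Exact.minor R J ≠ 0 ∧
    aeval z (Exact.minor R J) = 0}

/-- near pairs of level `m`: same type and `|(c_u - c_v) · t| ≤ e^{-X}` -/
def Near (r t : ι → ℝ) {m : ℕ} (X : ℝ) (u v : Fin m → ι) : Prop :=
  wtype u = wtype v ∧ |cdot r t u - cdot r t v| ≤ Real.exp (-X)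

/-- outcome of the exactness lemma at one level: `s` complex, `K` a complex subspace on which all near
pairs are `C δ`-coincidences at `s`, and which is `e^{-g}`-close to every point of `W` -/
structure Apx (σ ℓ t : ι → ℝ) (W : Submodule ℝ (ι → ℝ)) (m : ℕ) (X δ C g : ℝ) (s : ℂ)
    (K : Submodule ℂ (ι → ℂ)) : Prop where
  s_small : ‖s‖ ≤ Real.exp (-g)
  kill : ∀ t' ∈ K, ∀ u v : Fin m → ι, Near (rr σ ℓ) t X u v →
    ‖∑ i, (cw (rayc σ ℓ s) u i - cw (rayc σ ℓ s) v i) * t' i‖ ≤ C * δ * ‖t'‖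
  close : ∀ t' ∈ W, ∃ t'' ∈ K, ∀ i, ‖t'' i - t' i‖ ≤ Real.exp (-g) * ‖t'‖

/-- arithmetic data of rational rays approximating `ℓ`: `|ℓ_i - a_i θ| ≤ δ`, `1 ≤ a_i ≤ b ≤ m^c`,
window `X ≥ b^{k+1} m (log m)^{k+3}`, `δ ≤ e^{m - X}` -/
structure Ari (ℓ : ι → ℝ) (m b : ℕ → ℕ) (a : ℕ → ι → ℕ) (θ X δ : ℕ → ℝ) (c : ℕ) : Prop where
  hm : Tendsto m atTop atTop
  ha : ∀ j i, 1 ≤ a j i ∧ a j i ≤ b j
  hb : ∀ᶠ j in atTop, (b j : ℝ) ≤ (m j : ℝ) ^ c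
  hθ : ∀ᶠ j in atTop, 0 < θ j
  hδ : ∀ j, 0 ≤ δ j
  hδX : ∀ᶠ j in atTop, δ j ≤ Real.exp (m j - X j)
  hap : ∀ᶠ j in atTop, ∀ i, |ℓ i - a j i * θ j| ≤ δ j
  hX : ∀ᶠ j in atTop, (b j : ℝ) ^ (Fintype.card ι + 1) * m j *
    (Real.log (m j)) ^ (Fintype.card ι + 3) ≤ X j

/-- BC2: on `W` the differences `c_u - c_v` are bounded by their value at `t` -/
def BC2 (r t : ι → ℝ) (W : Submodule ℝ (ι → ℝ)) (m : ℕ → ℕ) (C₅ : ℝ) : Prop :=
  ∀ᶠ j in atTop, ∀ u v : Fin (m j) → ι, ∀ t' ∈ W,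
    |cdot r t' u - cdot r t' v| ≤ Real.exp (C₅ * m j) * |cdot r t u - cdot r t v| * ‖t'‖



end Crest.Agent.R98.Top
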