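import Crest.Agent.R98.Word3

/-!
Row 98 (S0129). Module WORDS, part 5: the one-parameter ray `r_i(s) = σ_i exp(-(1+s) ℓ_i)` and the
jets (Taylor coefficients at `s = 0`) of the translation vectors. (helper430)
-/

set_option autoImplicit false

namespace Crest.Agent.R98

open Finset Crest.AnalysisR Crest.Agent.R098.Upper MeasureTheory Filter
open scoped Topology

section Ray

variable {ι : Type*}

/-- the ray of ratios, complex parameter -/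
noncomputable def rayC (σ ℓ : ι → ℝ) (s : ℂ) (i : ι) : ℂ := (σ i : ℂ) * Complex.exp (-(1 + s) * ℓ i)

/-- the ray of ratios, real parameter -/
noncomputable def rayR (σ ℓ : ι → ℝ) (s : ℝ) (i : ι) : ℝ := σ i * Real.exp (-(1 + s) * ℓ i)

lemma rayC_ofReal (σ ℓ : ι → ℝ) (s : ℝ) (i : ι) : rayC σ ℓ (s : ℂ) i = (rayR σ ℓ s i : ℂ) := by
  simp [rayC, rayR]

lemma norm_rayC_le {σ ℓ : ι → ℝ} (hσ : ∀ i, |σ i| ≤ 1) {ℓ0 : ℝ} (hℓ : ∀ i, ℓ0 ≤ ℓ i) (h0 : 0 ≤ ℓ0)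
    {s : ℂ} (hs : ‖s‖ ≤ 1 / 2) (i : ι) : ‖rayC σ ℓ s i‖ ≤ Real.exp (-ℓ0 / 2) := by
  unfold rayC
  rw [norm_mul, Complex.norm_real, Complex.norm_exp]
  have h1 : (-(1 + s) * (ℓ i : ℂ)).re = -(1 + s.re) * ℓ i := by simp
  rw [h1, Real.norm_eq_abs]
  have h2 : -(1/2) ≤ s.re := by
    have := Complex.abs_re_le_norm s
    have := (abs_le.1 (this.trans hs)).1
    linarith
  have h3 : 0 ≤ ℓ i := h0.trans (hℓ i)
  calc |σ i| * Real.exp (-(1 + s.re) * ℓ i) ≤ 1 * Real.exp (-(1 + s.re) * ℓ i) :=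
        mul_le_mul_of_nonneg_right (hσ i) (Real.exp_pos _).le
    _ = Real.exp (-(1 + s.re) * ℓ i) := one_mul _
    _ ≤ Real.exp (-ℓ0 / 2) := by
        refine Real.exp_le_exp.2 ?_
        nlinarith [hℓ i]

lemma abs_rayR_le {σ ℓ : ι → ℝ} (hσ : ∀ i, |σ i| ≤ 1) {ℓ0 : ℝ} (hℓ : ∀ i, ℓ0 ≤ ℓ i) (h0 : 0 ≤ ℓ0)
    {s : ℝ} (hs : |s| ≤ 1 / 2) (i : ι) : |rayR σ ℓ s i| ≤ Real.exp (-ℓ0 / 2) := by
  have h := norm_rayC_le hσ hℓ h0 (s := (s : ℂ)) (by simpa using hs) i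
  rw [rayC_ofReal, Complex.norm_real] at h
  exact h

/-- ratio of a word on the ray -/
lemma rho_rayC (σ ℓ : ι → ℝ) (s : ℂ) {n : ℕ} (u : Fin n → ι) :
    rho (rayC σ ℓ s) u = ((rho σ u : ℝ) : ℂ) * Complex.exp (-(1 + s) * (sw ℓ u : ℝ)) := by
  unfold rho rayC sw
  rw [Finset.prod_mul_distrib, ← Complex.exp_sum]
  push_cast
  rw [Finset.mul_sum]

end Ray

section Jets

variable {ι : Type*}

/-- `[s^k] r_u(s)` : Taylor coefficients of the ratio of a word -/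
noncomputable def jc (σ ℓ : ι → ℝ) (k : ℕ) {n : ℕ} (u : Fin n → ι) : ℝ :=
  rho σ u * Real.exp (-(sw ℓ u)) * (-(sw ℓ u)) ^ k / (k.factorial : ℝ)

open PowerSeries in
/-- the ray as a power series in `s` -/
noncomputable def rayPS (σ ℓ : ι → ℝ) (i : ι) : PowerSeries ℝ :=
  C (σ i * Real.exp (-(ℓ i))) * rescale (-(ℓ i)) (PowerSeries.exp ℝ)

open PowerSeries in
lemma rho_rayPS (σ ℓ : ι → ℝ) {n : ℕ} (u : Fin n → ι) :
    rho (rayPS σ ℓ) u =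
      C (rho σ u * Real.exp (-(sw ℓ u))) * rescale (-(sw ℓ u)) (PowerSeries.exp ℝ) := by
  induction n with
  | zero =>
    simp only [rho_zero, sw, Finset.univ_eq_empty, Finset.sum_empty, neg_zero, Real.exp_zero,
      mul_one, map_one, one_mul]
    rw [PowerSeries.rescale_zero]
    simp
  | succ n ih =>
    obtain ⟨a, u, rfl⟩ := exists_cons u
    rw [rho_cons, ih, rho_cons, sw_cons]
    have h1 : rescale (-(ℓ a + sw ℓ u)) (PowerSeries.exp ℝ) =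
        rescale (-(ℓ a)) (PowerSeries.exp ℝ) * rescale (-(sw ℓ u)) (PowerSeries.exp ℝ) := by
      rw [PowerSeries.exp_mul_exp_eq_exp_add, neg_add]
    have h2 : Real.exp (-(ℓ a + sw ℓ u)) = Real.exp (-(ℓ a)) * Real.exp (-(sw ℓ u)) := by
      rw [← Real.exp_add, neg_add]
    rw [h1, h2]
    unfold rayPS
    simp only [map_mul]
    ring

open PowerSeries in
lemma coeff_rho_rayPS (σ ℓ : ι → ℝ) (k : ℕ) {n : ℕ} (u : Fin n → ι) :
    PowerSeries.coeff k (rho (rayPS σ ℓ) u) = jc σ ℓ k u := by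
  rw [rho_rayPS, PowerSeries.coeff_C_mul, PowerSeries.coeff_rescale, PowerSeries.coeff_exp]
  unfold jc
  simp
  ring

/-- jets of the translation vector of a finite word -/
noncomputable def jetw (σ ℓ : ι → ℝ) (l : ℕ) {n : ℕ} (u : Fin n → ι) (i : ι) : ℝ :=
  PowerSeries.coeff l (cw (rayPS σ ℓ) u i)

@[simp] lemma jetw_zero_len (σ ℓ : ι → ℝ) (l : ℕ) (u : Fin 0 → ι) (i : ι) : jetw σ ℓ l u i = 0 := by
  simp [jetw]


open Classical in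
/-- terms of the jets of an infinite word -/
noncomputable def jterm (σ ℓ : ι → ℝ) (l : ℕ) (w : ℕ → ι) (i : ι) (j : ℕ) : ℝ :=
  jc σ ℓ l (pre j w) * (if w j = i then 1 else 0)

lemma coeff_cterm (σ ℓ : ι → ℝ) (l : ℕ) (w : ℕ → ι) (i : ι) (j : ℕ) :
    PowerSeries.coeff l (cterm (rayPS σ ℓ) w i j) = jterm σ ℓ l w i j := by
  unfold cterm jterm
  rw [prod_pre]
  split_ifs
  · rw [mul_one, mul_one, coeff_rho_rayPS]
  · simp

lemma sum_jterm (σ ℓ : ι → ℝ) (l : ℕ) (w : ℕ → ι) (i : ι) (n : ℕ) :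
    ∑ j ∈ range n, jterm σ ℓ l w i j = jetw σ ℓ l (pre n w) i := by
  unfold jetw
  rw [← sum_cterm, map_sum]
  simp only [coeff_cterm]

/-- jets of the translation vector of an infinite word -/
noncomputable def jetinf (σ ℓ : ι → ℝ) (l : ℕ) (w : ℕ → ι) (i : ι) : ℝ :=
  ∑' j, jterm σ ℓ l w i j

lemma jetw_zero_eq (σ ℓ : ι → ℝ) {n : ℕ} (u : Fin n → ι) (i : ι) :
    jetw σ ℓ 0 u i = cw (rayR σ ℓ 0) u i := by
  classical
  unfold jetw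
  rw [PowerSeries.coeff_zero_eq_constantCoeff, map_cw]
  congr 1
  funext a
  unfold rayPS rayR
  rw [map_mul, PowerSeries.constantCoeff_C, ← PowerSeries.coeff_zero_eq_constantCoeff_apply,
    PowerSeries.coeff_rescale, PowerSeries.coeff_exp]
  simp

/-! ### bounds -/

lemma sw_pre_ge {ℓ : ι → ℝ} {ℓ0 : ℝ} (hℓ : ∀ i, ℓ0 ≤ ℓ i) {n : ℕ} (u : Fin n → ι) :
    n * ℓ0 ≤ sw ℓ u := by
  unfold sw
  calc (n : ℝ) * ℓ0 = ∑ _j : Fin n, ℓ0 := by simp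
    _ ≤ _ := Finset.sum_le_sum fun j _ => hℓ _

lemma abs_rho_sigma_le {σ : ι → ℝ} (hσ : ∀ i, |σ i| ≤ 1) {n : ℕ} (u : Fin n → ι) :
    |rho σ u| ≤ 1 := by
  have := norm_rho_le (𝕜 := ℝ) (r := σ) (q := 1) hσ u
  simpa using this

lemma abs_jc_le {σ ℓ : ι → ℝ} (hσ : ∀ i, |σ i| ≤ 1) {ℓ0 : ℝ} (hℓ : ∀ i, ℓ0 ≤ ℓ i) (h0 : 0 ≤ ℓ0)
    (k : ℕ) {n : ℕ} (u : Fin n → ι) : |jc σ ℓ k u| ≤ 2 ^ k * Real.exp (-ℓ0 / 2) ^ n := by
  have hL : (n : ℝ) * ℓ0 ≤ sw ℓ u := sw_pre_ge hℓ u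
  set L := sw ℓ u with hLdef
  have hL0 : 0 ≤ L := le_trans (by positivity) hL
  have h1 : |jc σ ℓ k u| = |rho σ u| * Real.exp (-L) * (L ^ k / (k.factorial : ℝ)) := by
    unfold jc
    rw [abs_div, abs_mul, abs_mul, abs_pow, abs_neg, abs_of_nonneg (Real.exp_pos _).le,
      ← hLdef, abs_of_nonneg hL0, Nat.abs_cast]
    ring
  have h2 : L ^ k / (k.factorial : ℝ) ≤ 2 ^ k * Real.exp (L / 2) := by
    have := Real.pow_div_factorial_le_exp (x := L / 2) (by positivity) k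
    calc L ^ k / (k.factorial : ℝ) = 2 ^ k * ((L / 2) ^ k / (k.factorial : ℝ)) := by
          rw [div_pow]; field_simp
      _ ≤ 2 ^ k * Real.exp (L / 2) := by gcongr
  rw [h1]
  calc |rho σ u| * Real.exp (-L) * (L ^ k / (k.factorial : ℝ))
      ≤ 1 * Real.exp (-L) * (2 ^ k * Real.exp (L / 2)) := by
        gcongr
        exact abs_rho_sigma_le hσ u
    _ = 2 ^ k * Real.exp (-L / 2) := by
        have : Real.exp (-L / 2) = Real.exp (-L) * Real.exp (L / 2) := by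
          rw [← Real.exp_add]; congr 1; ring
        rw [this]; ring
    _ ≤ 2 ^ k * Real.exp (-ℓ0 / 2) ^ n := by
        rw [← Real.exp_nat_mul]
        gcongr
        linarith

lemma abs_jterm_le {σ ℓ : ι → ℝ} (hσ : ∀ i, |σ i| ≤ 1) {ℓ0 : ℝ} (hℓ : ∀ i, ℓ0 ≤ ℓ i) (h0 : 0 ≤ ℓ0)
    (l : ℕ) (w : ℕ → ι) (i : ι) (j : ℕ) :
    |jterm σ ℓ l w i j| ≤ 2 ^ l * Real.exp (-ℓ0 / 2) ^ j := by
  classical
  unfold jterm
  have h := abs_jc_le hσ hℓ h0 l (pre j w)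
  by_cases hi : w j = i
  · simpa [hi] using h
  · simp [hi]
    positivity

lemma exp_half_lt_one {ℓ0 : ℝ} (h0 : 0 < ℓ0) : Real.exp (-ℓ0 / 2) < 1 := by
  rw [Real.exp_lt_one_iff]; linarith

lemma summable_jterm {σ ℓ : ι → ℝ} (hσ : ∀ i, |σ i| ≤ 1) {ℓ0 : ℝ} (hℓ : ∀ i, ℓ0 ≤ ℓ i) (h0 : 0 < ℓ0)
    (l : ℕ) (w : ℕ → ι) (i : ι) : Summable (jterm σ ℓ l w i) := by
  refine Summable.of_norm_bounded
    ((summable_geometric_of_lt_one (Real.exp_pos _).le (exp_half_lt_one h0)).mul_left (2 ^ l))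
    fun j => ?_
  exact abs_jterm_le hσ hℓ h0.le l w i j

/-- the uniform constant `1/(1 - e^{-ℓ0/2})` -/
noncomputable def jK (ℓ0 : ℝ) : ℝ := 1 / (1 - Real.exp (-ℓ0 / 2))

lemma jK_pos {ℓ0 : ℝ} (h0 : 0 < ℓ0) : 0 < jK ℓ0 := by
  have := exp_half_lt_one h0
  unfold jK
  exact one_div_pos.2 (by linarith)

lemma sum_geom_le {ℓ0 : ℝ} (h0 : 0 < ℓ0) (n : ℕ) :
    ∑ j ∈ range n, Real.exp (-ℓ0 / 2) ^ j ≤ jK ℓ0 := by
  unfold jK
  rw [one_div, ← tsum_geometric_of_lt_one (Real.exp_pos _).le (exp_half_lt_one h0)]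
  exact (summable_geometric_of_lt_one (Real.exp_pos _).le (exp_half_lt_one h0)).sum_le_tsum _
    fun j _ => by positivity

lemma abs_jetinf_le {σ ℓ : ι → ℝ} (hσ : ∀ i, |σ i| ≤ 1) {ℓ0 : ℝ} (hℓ : ∀ i, ℓ0 ≤ ℓ i) (h0 : 0 < ℓ0)
    (l : ℕ) (w : ℕ → ι) (i : ι) : |jetinf σ ℓ l w i| ≤ 2 ^ l * jK ℓ0 := by
  unfold jK jetinf
  rw [one_div]
  have h := (hasSum_geometric_of_lt_one (Real.exp_pos (-ℓ0/2)).le (exp_half_lt_one h0)).mul_left
    (2 ^ l)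
  exact tsum_of_norm_bounded (f := jterm σ ℓ l w i) h fun j => abs_jterm_le hσ hℓ h0.le l w i j

/-- every finite word is a prefix of an infinite word -/
lemma exists_pre [Nonempty ι] {n : ℕ} (u : Fin n → ι) : ∃ w : ℕ → ι, pre n w = u := by
  obtain ⟨a⟩ := ‹Nonempty ι›
  exact ⟨cat u fun _ => a, pre_cat u _⟩

lemma abs_jetw_le {σ ℓ : ι → ℝ} (hσ : ∀ i, |σ i| ≤ 1) {ℓ0 : ℝ} (hℓ : ∀ i, ℓ0 ≤ ℓ i) (h0 : 0 < ℓ0)
    (l : ℕ) {n : ℕ} (u : Fin n → ι) (i : ι) : |jetw σ ℓ l u i| ≤ 2 ^ l * jK ℓ0 := by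
  have : Nonempty ι := ⟨i⟩
  obtain ⟨w, rfl⟩ := exists_pre u
  rw [← sum_jterm]
  refine (Finset.abs_sum_le_sum_abs _ _).trans ?_
  calc ∑ j ∈ range n, |jterm σ ℓ l w i j| ≤ ∑ j ∈ range n, 2 ^ l * Real.exp (-ℓ0 / 2) ^ j :=
        Finset.sum_le_sum fun j _ => abs_jterm_le hσ hℓ h0.le l w i j
    _ = 2 ^ l * ∑ j ∈ range n, Real.exp (-ℓ0 / 2) ^ j := by rw [Finset.mul_sum]
    _ ≤ 2 ^ l * jK ℓ0 := mul_le_mul_of_nonneg_left (sum_geom_le h0 n) (by positivity)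

lemma tendsto_jetw {σ ℓ : ι → ℝ} (hσ : ∀ i, |σ i| ≤ 1) {ℓ0 : ℝ} (hℓ : ∀ i, ℓ0 ≤ ℓ i) (h0 : 0 < ℓ0)
    (l : ℕ) (w : ℕ → ι) (i : ι) :
    Tendsto (fun n => jetw σ ℓ l (pre n w) i) atTop (𝓝 (jetinf σ ℓ l w i)) := by
  have h := (summable_jterm hσ hℓ h0 l w i).hasSum.tendsto_sum_nat
  simp only [sum_jterm] at h
  exact h




/-! ### Taylor expansion in `s` -/

lemma exp_tail_le {z : ℂ} {L : ℝ} (hL : 0 ≤ L) (hz : ‖z‖ < 1 / 2) (J : ℕ) :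
    ‖Complex.exp (-z * L) - ∑ l ∈ range J, z ^ l * ((-L) ^ l / l.factorial : ℝ)‖ * Real.exp (-L) ≤
      (2 * ‖z‖) ^ J / (1 - 2 * ‖z‖) * Real.exp (-L / 2) := by
  have hz0 := norm_nonneg z
  have h2z : 2 * ‖z‖ < 1 := by linarith
  have hs : HasSum (fun l : ℕ => z ^ l * ((-L) ^ l / l.factorial : ℝ)) (Complex.exp (-z * L)) := by
    have := NormedSpace.expSeries_div_hasSum_exp (𝔸 := ℂ) (-z * L)
    rw [← Complex.exp_eq_exp_ℂ] at this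
    refine this.congr_fun ?_
    intro l
    push_cast
    rw [show (-z * (L:ℂ)) = z * (-(L:ℂ)) by ring, mul_pow]
    ring
  have htail : Complex.exp (-z * L) - ∑ l ∈ range J, z ^ l * ((-L) ^ l / l.factorial : ℝ) =
      ∑' l, z ^ (l + J) * ((-L) ^ (l + J) / (l + J).factorial : ℝ) := by
    rw [← hs.tsum_eq, ← hs.summable.sum_add_tsum_nat_add J]
    ring
  have hterm : ∀ l : ℕ, ‖z ^ (l + J) * ((-L) ^ (l + J) / (l + J).factorial : ℝ)‖ ≤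
      (2 * ‖z‖) ^ J * Real.exp (L / 2) * (2 * ‖z‖) ^ l := by
    intro l
    rw [norm_mul, norm_pow, Complex.norm_real, Real.norm_eq_abs, abs_div, abs_pow, abs_neg,
      abs_of_nonneg hL, Nat.abs_cast]
    have h1 := Real.pow_div_factorial_le_exp (x := L / 2) (by positivity) (l + J)
    have h2 : L ^ (l + J) / ((l + J).factorial : ℝ) =
        2 ^ (l + J) * ((L / 2) ^ (l + J) / ((l + J).factorial : ℝ)) := by
      rw [div_pow]; field_simp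
    rw [h2]
    calc ‖z‖ ^ (l + J) * (2 ^ (l + J) * ((L / 2) ^ (l + J) / ((l + J).factorial : ℝ)))
        ≤ ‖z‖ ^ (l + J) * (2 ^ (l + J) * Real.exp (L / 2)) := by gcongr
      _ = _ := by rw [mul_pow, mul_pow, pow_add, pow_add]; ring
  have hgeo : HasSum (fun l : ℕ => (2 * ‖z‖) ^ J * Real.exp (L / 2) * (2 * ‖z‖) ^ l)
      ((2 * ‖z‖) ^ J * Real.exp (L / 2) * (1 - 2 * ‖z‖)⁻¹) :=
    (hasSum_geometric_of_lt_one (by positivity) h2z).mul_left _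
  have hb := tsum_of_norm_bounded hgeo hterm
  rw [htail]
  calc _ ≤ ((2 * ‖z‖) ^ J * Real.exp (L / 2) * (1 - 2 * ‖z‖)⁻¹) * Real.exp (-L) :=
        mul_le_mul_of_nonneg_right hb (Real.exp_pos _).le
    _ = _ := by
        have : Real.exp (-L / 2) = Real.exp (-L) * Real.exp (L / 2) := by
          rw [← Real.exp_add]; congr 1; ring
        rw [this, div_eq_mul_inv]; ring

lemma cterm_sub_le {σ ℓ : ι → ℝ} (hσ : ∀ i, |σ i| ≤ 1) {ℓ0 : ℝ} (hℓ : ∀ i, ℓ0 ≤ ℓ i) (h0 : 0 < ℓ0)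
    {s : ℂ} (hs : ‖s‖ < 1 / 2) (J : ℕ) (w : ℕ → ι) (i : ι) (j : ℕ) :
    ‖cterm (rayC σ ℓ s) w i j - ∑ l ∈ range J, s ^ l * (jterm σ ℓ l w i j : ℂ)‖ ≤
      (2 * ‖s‖) ^ J / (1 - 2 * ‖s‖) * Real.exp (-ℓ0 / 2) ^ j := by
  classical
  have hs0 := norm_nonneg s
  have h1s : 0 < 1 - 2 * ‖s‖ := by linarith
  by_cases hi : w j = i
  swap
  · simp only [cterm, jterm, hi, if_false, mul_zero, Complex.ofReal_zero, Finset.sum_const_zero,
      sub_zero, norm_zero]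
    positivity
  have hL : (j : ℝ) * ℓ0 ≤ sw ℓ (pre j w) := sw_pre_ge hℓ _
  set L := sw ℓ (pre j w) with hLdef
  have hL0 : 0 ≤ L := le_trans (by positivity) hL
  have e1 : cterm (rayC σ ℓ s) w i j =
      ((rho σ (pre j w) : ℝ) : ℂ) * (Real.exp (-L) : ℂ) * Complex.exp (-s * L) := by
    unfold cterm
    rw [prod_pre, rho_rayC, if_pos hi, mul_one, ← hLdef]
    rw [Complex.ofReal_exp, mul_assoc, ← Complex.exp_add]
    congr 2
    push_cast; ring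
  have e2 : ∑ l ∈ range J, s ^ l * (jterm σ ℓ l w i j : ℂ) =
      ((rho σ (pre j w) : ℝ) : ℂ) * (Real.exp (-L) : ℂ) *
        ∑ l ∈ range J, s ^ l * ((-L) ^ l / l.factorial : ℝ) := by
    rw [Finset.mul_sum]
    refine Finset.sum_congr rfl fun l _ => ?_
    unfold jterm jc
    rw [if_pos hi, ← hLdef]
    push_cast
    ring
  rw [e1, e2, ← mul_sub, norm_mul, norm_mul, Complex.norm_real, Complex.norm_real,
    Real.norm_eq_abs, Real.norm_eq_abs, abs_of_nonneg (Real.exp_pos _).le]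
  have h3 := exp_tail_le hL0 hs J
  calc |rho σ (pre j w)| * Real.exp (-L) *
        ‖Complex.exp (-s * L) - ∑ l ∈ range J, s ^ l * ((-L) ^ l / l.factorial : ℝ)‖
      ≤ 1 * Real.exp (-L) *
        ‖Complex.exp (-s * L) - ∑ l ∈ range J, s ^ l * ((-L) ^ l / l.factorial : ℝ)‖ := by
        gcongr
        exact abs_rho_sigma_le hσ _
    _ = ‖Complex.exp (-s * L) - ∑ l ∈ range J, s ^ l * ((-L) ^ l / l.factorial : ℝ)‖ *
        Real.exp (-L) := by ring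
    _ ≤ (2 * ‖s‖) ^ J / (1 - 2 * ‖s‖) * Real.exp (-L / 2) := h3
    _ ≤ (2 * ‖s‖) ^ J / (1 - 2 * ‖s‖) * Real.exp (-ℓ0 / 2) ^ j := by
        rw [← Real.exp_nat_mul]
        gcongr
        linarith

/-- Taylor remainder, finite words -/
theorem norm_cw_sub_jets_le {σ ℓ : ι → ℝ} (hσ : ∀ i, |σ i| ≤ 1) {ℓ0 : ℝ} (hℓ : ∀ i, ℓ0 ≤ ℓ i)
    (h0 : 0 < ℓ0) {s : ℂ} (hs : ‖s‖ < 1 / 2) (J : ℕ) {n : ℕ} (u : Fin n → ι) (i : ι) :
    ‖cw (rayC σ ℓ s) u i - ∑ l ∈ range J, s ^ l * (jetw σ ℓ l u i : ℂ)‖ ≤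
      (2 * ‖s‖) ^ J / (1 - 2 * ‖s‖) * jK ℓ0 := by
  have : Nonempty ι := ⟨i⟩
  have hs0 := norm_nonneg s
  have h1s : 0 < 1 - 2 * ‖s‖ := by linarith
  obtain ⟨w, rfl⟩ := exists_pre u
  have e : cw (rayC σ ℓ s) (pre n w) i - ∑ l ∈ range J, s ^ l * (jetw σ ℓ l (pre n w) i : ℂ) =
      ∑ j ∈ range n, (cterm (rayC σ ℓ s) w i j - ∑ l ∈ range J, s ^ l * (jterm σ ℓ l w i j : ℂ)) := by
    rw [Finset.sum_sub_distrib, sum_cterm, Finset.sum_comm]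
    congr 1
    refine Finset.sum_congr rfl fun l _ => ?_
    rw [← Finset.mul_sum, ← sum_jterm]
    push_cast
    rfl
  rw [e]
  refine (norm_sum_le _ _).trans ?_
  calc _ ≤ ∑ j ∈ range n, (2 * ‖s‖) ^ J / (1 - 2 * ‖s‖) * Real.exp (-ℓ0 / 2) ^ j :=
        Finset.sum_le_sum fun j _ => cterm_sub_le hσ hℓ h0 hs J w i j
    _ = (2 * ‖s‖) ^ J / (1 - 2 * ‖s‖) * ∑ j ∈ range n, Real.exp (-ℓ0 / 2) ^ j := by
        rw [Finset.mul_sum]
    _ ≤ _ := mul_le_mul_of_nonneg_left (sum_geom_le h0 n) (by positivity)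

/-- Taylor remainder, infinite words -/
theorem norm_cinf_sub_jets_le {σ ℓ : ι → ℝ} (hσ : ∀ i, |σ i| ≤ 1) {ℓ0 : ℝ} (hℓ : ∀ i, ℓ0 ≤ ℓ i)
    (h0 : 0 < ℓ0) {s : ℂ} (hs : ‖s‖ < 1 / 2) (J : ℕ) (w : ℕ → ι) (i : ι) :
    ‖cinf (rayC σ ℓ s) w i - ∑ l ∈ range J, s ^ l * (jetinf σ ℓ l w i : ℂ)‖ ≤
      (2 * ‖s‖) ^ J / (1 - 2 * ‖s‖) * jK ℓ0 := by
  have h1 : Tendsto (fun n => cw (rayC σ ℓ s) (pre n w) i) atTop (𝓝 (cinf (rayC σ ℓ s) w i)) :=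
    tendsto_cw_cinf (fun i => norm_rayC_le hσ hℓ h0.le hs.le i) (exp_half_lt_one h0) w i
  have h2 : Tendsto (fun n => ∑ l ∈ range J, s ^ l * (jetw σ ℓ l (pre n w) i : ℂ)) atTop
      (𝓝 (∑ l ∈ range J, s ^ l * (jetinf σ ℓ l w i : ℂ))) := by
    refine tendsto_finsetSum _ fun l _ => ?_
    exact ((Complex.continuous_ofReal.tendsto _).comp (tendsto_jetw hσ hℓ h0 l w i)).const_mul _
  exact le_of_tendsto (h1.sub h2).norm
    (Eventually.of_forall fun n => norm_cw_sub_jets_le hσ hℓ h0 hs J (pre n w) i)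


lemma jetinf_zero_eq {σ ℓ : ι → ℝ} (hσ : ∀ i, |σ i| ≤ 1) {ℓ0 : ℝ} (hℓ : ∀ i, ℓ0 ≤ ℓ i)
    (h0 : 0 < ℓ0) (w : ℕ → ι) (i : ι) : jetinf σ ℓ 0 w i = cinf (rayR σ ℓ 0) w i := by
  have h1 := tendsto_jetw hσ hℓ h0 0 w i
  simp only [jetw_zero_eq] at h1
  have h2 : Tendsto (fun n => cw (rayR σ ℓ 0) (pre n w) i) atTop (𝓝 (cinf (rayR σ ℓ 0) w i)) :=
    tendsto_cw_cinf (𝕜 := ℝ) (fun i => abs_rayR_le hσ hℓ h0.le (by simp) i) (exp_half_lt_one h0) w i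
  exact tendsto_nhds_unique h1 h2

end Jets

section JetMeas

variable {ι : Type*} [Finite ι] [MeasurableSpace ι] [DiscreteMeasurableSpace ι]

lemma measurable_jetinf {σ ℓ : ι → ℝ} (hσ : ∀ i, |σ i| ≤ 1) {ℓ0 : ℝ} (hℓ : ∀ i, ℓ0 ≤ ℓ i)
    (h0 : 0 < ℓ0) (l : ℕ) (i : ι) : Measurable fun w : ℕ → ι => jetinf σ ℓ l w i := by
  refine measurable_of_tendsto_metrizable (fun n => ?_)
    (tendsto_pi_nhds.2 fun w => tendsto_jetw hσ hℓ h0 l w i)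
  exact (measurable_of_countable (fun u : Fin n → ι => jetw σ ℓ l u i)).comp (measurable_pre n)

/-- real and complex translation vectors agree -/
lemma cinf_ofReal {ι : Type*} {r : ι → ℝ} {q : ℝ} (hr : ∀ i, |r i| ≤ q) (hq : q < 1) (w : ℕ → ι)
    (i : ι) : cinf (fun i => (r i : ℂ)) w i = ((cinf r w i : ℝ) : ℂ) := by
  have h1 : Tendsto (fun n => ((cw r (pre n w) i : ℝ) : ℂ)) atTop (𝓝 ((cinf r w i : ℝ) : ℂ)) :=
    (Complex.continuous_ofReal.tendsto _).comp (tendsto_cw_cinf (𝕜 := ℝ) (r := r) hr hq w i)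
  have h2 : Tendsto (fun n => cw (fun i => (r i : ℂ)) (pre n w) i) atTop
      (𝓝 (cinf (fun i => (r i : ℂ)) w i)) :=
    tendsto_cw_cinf (fun i => by rw [Complex.norm_real]; exact hr i) hq w i
  refine tendsto_nhds_unique h2 (h1.congr fun n => ?_)
  exact map_cw Complex.ofRealHom r (pre n w) i


end JetMeas

end Crest.Agent.R98
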