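import Mathlib
import Crest.Agent.R98.Word5
import Crest.Agent.R98.Word4
import Crest.Agent.R98.EndDefs
import Crest.Agent.R98.FC
import Crest.Agent.R98.Top0

-- ▼ part R98/AL
section

/-!
# Row 98: the analytic linear algebra lemma (AL) of the ending (helper587)

`v g` (`g : G`) and `P n` (`n : N`, `N` countable) are vector functions analytic on `|s| < r0`, real on
the reals.  If `v g (s_j) · t_j` is flat along `s_j → 0`, `s_j ≠ 0`, `t_j → t`, and `P n 0 · t ≠ 0` for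
all `n`, then for all real `s` near `0` outside a countable set there is a real `τ` with
`v g s · τ = 0` for all `g` and `P n s · τ ≠ 0` for all `n`.
-/

set_option autoImplicit false

open Filter Topology Set Metric

namespace Crest.Agent.R98.AL

section Zeros

/-- zeros of an analytic function on a ball which is not identically zero: countable -/
theorem countable_zeros {f : ℂ → ℂ} {r0 : ℝ} (hf : AnalyticOnNhd ℂ f (ball 0 r0))
    {s0 : ℂ} (hs0 : s0 ∈ ball (0 : ℂ) r0) (hne : f s0 ≠ 0) :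
    {s : ℂ | s ∈ ball (0 : ℂ) r0 ∧ f s = 0}.Countable := by
  set Z : Set ℂ := {s : ℂ | s ∈ ball (0 : ℂ) r0 ∧ f s = 0} with hZ
  have hpre : IsPreconnected (ball (0 : ℂ) r0) := (convex_ball _ _).isPreconnected
  have hiso : ∀ z ∈ Z, ({z} : Set ℂ) ∈ 𝓝[Z] z := by
    intro z hz
    rcases (hf z hz.1).eventually_eq_zero_or_eventually_ne_zero with h | h
    · exfalso
      have := hf.eqOn_zero_of_preconnected_of_eventuallyEq_zero hpre hz.1 h
      exact hne (this hs0)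
    · rw [eventually_nhdsWithin_iff] at h
      rw [mem_nhdsWithin_iff_eventually]
      filter_upwards [h] with x hx hxZ
      by_contra hne'
      exact hx hne' hxZ.2
  obtain ⟨t, htZ, htc, hcov⟩ := TopologicalSpace.countable_cover_nhdsWithin hiso
  refine htc.mono fun x hx => ?_
  obtain ⟨y, hy, hxy⟩ := mem_iUnion₂.mp (hcov hx)
  rw [mem_singleton_iff] at hxy
  rwa [hxy]

end Zeros

section Border

variable {κ : Type*}

/-- bordered matrix: rows `M a` (`a < ρ`) and a last row `y`, columns `f b` and `c` -/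
def bmat {ρ : ℕ} (M : Fin ρ → κ → ℂ) (f : Fin ρ → κ) (c : κ) (y : κ → ℂ) :
    Matrix (Fin ρ ⊕ Unit) (Fin ρ ⊕ Unit) ℂ :=
  Matrix.of fun i j => (Sum.elim M (fun _ => y) i) (Sum.elim f (fun _ => c) j)

theorem bmat_eq_fromBlocks {ρ : ℕ} (M : Fin ρ → κ → ℂ) (f : Fin ρ → κ) (c : κ) (y : κ → ℂ) :
    bmat M f c y = Matrix.fromBlocks (Matrix.of fun a b => M a (f b)) (Matrix.of fun a (_ : Unit) => M a c)
      (Matrix.of fun (_ : Unit) b => y (f b)) (Matrix.of fun (_ : Unit) (_ : Unit) => y c) := by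
  ext i j
  rcases i with i | i <;> rcases j with j | j <;> rfl

/-- the bordered determinant as a linear functional of the last row -/
noncomputable def bordL {ρ : ℕ} (M : Fin ρ → κ → ℂ) (f : Fin ρ → κ) (c : κ) : (κ → ℂ) →ₗ[ℂ] ℂ :=
  ((Matrix.detRowAlternating (R := ℂ) (n := Fin ρ ⊕ Unit)).toMultilinearMap.toLinearMap
    (fun i j => (Sum.elim M (fun _ => 0) i) (Sum.elim f (fun _ => c) j)) (Sum.inr ())) ∘ₗ
    (LinearMap.funLeft ℂ ℂ (Sum.elim f (fun _ => c)))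

theorem bordL_apply {ρ : ℕ} (M : Fin ρ → κ → ℂ) (f : Fin ρ → κ) (c : κ) (y : κ → ℂ) :
    bordL M f c y = (bmat M f c y).det := by
  unfold bordL
  rw [LinearMap.comp_apply, MultilinearMap.toLinearMap_apply]
  have : (Function.update (fun (i : Fin ρ ⊕ Unit) (j : Fin ρ ⊕ Unit) =>
      (Sum.elim M (fun _ => (0 : κ → ℂ)) i) (Sum.elim f (fun _ => c) j)) (Sum.inr ())
      (LinearMap.funLeft ℂ ℂ (Sum.elim f (fun _ => c)) y)) = (bmat M f c y) := by
    ext i j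
    rcases i with i | i
    · rw [Function.update_of_ne (by simp)]
      rfl
    · rw [show Sum.inr i = (Sum.inr () : Fin ρ ⊕ Unit) from rfl, Function.update_self]
      rfl
  rw [this]
  rfl

/-- Schur complement formula -/
theorem bmat_det_eq {ρ : ℕ} (M : Fin ρ → κ → ℂ) (f : Fin ρ → κ) (c : κ) (y : κ → ℂ)
    (hM : (Matrix.of fun a b => M a (f b) : Matrix (Fin ρ) (Fin ρ) ℂ).det ≠ 0) :
    (bmat M f c y).det = (Matrix.of fun a b => M a (f b) : Matrix (Fin ρ) (Fin ρ) ℂ).det *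
      (y c - ∑ a, (∑ b, y (f b) * (Matrix.of fun a b => M a (f b) : Matrix (Fin ρ) (Fin ρ) ℂ)⁻¹ b a) * M a c) := by
  classical
  set A : Matrix (Fin ρ) (Fin ρ) ℂ := Matrix.of fun a b => M a (f b) with hA
  let _ : Invertible A := A.invertibleOfIsUnitDet (isUnit_iff_ne_zero.mpr hM)
  rw [bmat_eq_fromBlocks, ← hA, Matrix.det_fromBlocks₁₁, Matrix.invOf_eq_nonsing_inv]
  congr 1
  rw [Matrix.det_unique]
  simp only [Matrix.sub_apply, Matrix.of_apply, Matrix.mul_apply]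

end Border

section Main

variable {κ G N : Type*} [Fintype κ] [Countable N]

/-- countable unions of proper subspaces of a real finite dimensional space are proper -/
theorem exists_notMem_iUnion_submodule {K : Type*} [AddCommGroup K] [Module ℝ K] [FiniteDimensional ℝ K]
    {ι : Type*} [Countable ι] (S : ι → Submodule ℝ K) (hS : ∀ i, S i ≠ ⊤) : ∃ x : K, ∀ i, x ∉ S i := by
  classical
  -- transport to `Fin d → ℝ`
  set d := Module.finrank ℝ K
  let e : K ≃ₗ[ℝ] (Fin d → ℝ) := (Module.finBasis ℝ K).equivFun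
  let μ : MeasureTheory.Measure (Fin d → ℝ) := MeasureTheory.volume
  have h0 : ∀ i, μ ((S i).map (e : K →ₗ[ℝ] (Fin d → ℝ)) : Set (Fin d → ℝ)) = 0 := by
    intro i
    apply MeasureTheory.Measure.addHaar_submodule
    intro htop
    apply hS i
    rw [eq_top_iff]
    intro x _
    have hx : e x ∈ (S i).map (e : K →ₗ[ℝ] (Fin d → ℝ)) := by
      rw [htop]; trivial
    obtain ⟨y, hy, hxy⟩ := hx
    have : y = x := e.injective hxy
    rwa [← this]
  have hU : μ (⋃ i, ((S i).map (e : K →ₗ[ℝ] (Fin d → ℝ)) : Set (Fin d → ℝ))) = 0 :=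
    MeasureTheory.measure_iUnion_null h0
  have hne : (⋃ i, ((S i).map (e : K →ₗ[ℝ] (Fin d → ℝ)) : Set (Fin d → ℝ))) ≠ Set.univ := by
    intro h
    rw [h] at hU
    exact (MeasureTheory.Measure.measure_univ_ne_zero.mpr (NeZero.ne μ)) hU
  obtain ⟨x, hx⟩ := (Set.ne_univ_iff_exists_notMem _).mp hne
  refine ⟨e.symm x, fun i hi => hx ?_⟩
  exact mem_iUnion.mpr ⟨i, ⟨e.symm x, hi, by simp⟩⟩

theorem analyticAt_det {n : Type*} [Fintype n] [DecidableEq n] {A : ℂ → Matrix n n ℂ} {s : ℂ}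
    (h : ∀ i j, AnalyticAt ℂ (fun s => A s i j) s) : AnalyticAt ℂ (fun s => (A s).det) s := by
  simp only [Matrix.det_apply']
  exact Finset.analyticAt_fun_sum _ fun σ _ =>
    analyticAt_const.fun_mul (Finset.analyticAt_fun_prod _ fun i _ => h _ _)

theorem analyticAt_adjugate {n : Type*} [Fintype n] [DecidableEq n] {A : ℂ → Matrix n n ℂ} {s : ℂ}
    (h : ∀ i j, AnalyticAt ℂ (fun s => A s i j) s) (i j : n) :
    AnalyticAt ℂ (fun s => (A s).adjugate i j) s := by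
  simp only [Matrix.adjugate_apply]
  refine analyticAt_det fun k l => ?_
  simp only [Matrix.updateRow_apply]
  by_cases hk : k = j
  · simp only [hk, if_true]
    exact analyticAt_const
  · simp only [hk, if_false]
    exact h k l

/-- identities at a point where the maximal minor does not vanish -/
theorem cramer_identity {ρ : ℕ} (M : Fin ρ → κ → ℂ) (f : Fin ρ → κ) (y t : κ → ℂ)
    (hM : (Matrix.of fun a b => M a (f b) : Matrix (Fin ρ) (Fin ρ) ℂ).det ≠ 0)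
    (hy : ∀ c, (bmat M f c y).det = 0) :
    (Matrix.of fun a b => M a (f b) : Matrix (Fin ρ) (Fin ρ) ℂ).det * ∑ i, y i * t i =
      ∑ a, (∑ b, y (f b) * (Matrix.of fun a b => M a (f b) : Matrix (Fin ρ) (Fin ρ) ℂ).adjugate b a) *
        ∑ i, M a i * t i := by
  classical
  set A : Matrix (Fin ρ) (Fin ρ) ℂ := Matrix.of fun a b => M a (f b) with hA
  have h1 : ∀ c, y c = ∑ a, (∑ b, y (f b) * A⁻¹ b a) * M a c := by
    intro c
    have h2 := hy c
    rw [bmat_det_eq M f c y hM, mul_eq_zero] at h2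
    exact sub_eq_zero.mp (h2.resolve_left hM)
  have h3 : ∀ a, A.det * (∑ b, y (f b) * A⁻¹ b a) = ∑ b, y (f b) * A.adjugate b a := by
    intro a
    rw [Finset.mul_sum]
    refine Finset.sum_congr rfl fun b _ => ?_
    rw [Matrix.inv_def, Matrix.smul_apply, smul_eq_mul, Ring.inverse_eq_inv']
    field_simp
  have h4 : ∑ i, y i * t i = ∑ a, (∑ b, y (f b) * A⁻¹ b a) * ∑ i, M a i * t i := by
    calc ∑ i, y i * t i = ∑ i, (∑ a, (∑ b, y (f b) * A⁻¹ b a) * M a i) * t i :=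
          Finset.sum_congr rfl fun i _ => by rw [← h1 i]
      _ = _ := by
          simp only [Finset.sum_mul, Finset.mul_sum]
          rw [Finset.sum_comm]
          refine Finset.sum_congr rfl fun a _ => Finset.sum_congr rfl fun i _ =>
            Finset.sum_congr rfl fun b _ => by ring
  rw [h4, Finset.mul_sum]
  refine Finset.sum_congr rfl fun a _ => ?_
  rw [← h3 a]
  ring

/-- **(AL)** -/
theorem analytic_linear {r0 : ℝ} (hr0 : 0 < r0) (v : G → ℂ → κ → ℂ) (P : N → ℂ → κ → ℂ)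
    (hv : ∀ g i, AnalyticOnNhd ℂ (fun s => v g s i) (ball 0 r0))
    (hvr : ∀ g i (s : ℝ), |s| < r0 → (v g s i).im = 0)
    (hP : ∀ n i, AnalyticOnNhd ℂ (fun s => P n s i) (ball 0 r0))
    (hPr : ∀ n i (s : ℝ), |s| < r0 → (P n s i).im = 0)
    (sj : ℕ → ℂ) (hs0 : Tendsto sj atTop (𝓝 0)) (hsne : ∃ᶠ j in atTop, sj j ≠ 0)
    (tj : ℕ → κ → ℂ) (t : κ → ℝ) (ht : Tendsto tj atTop (𝓝 fun i => (t i : ℂ)))
    (hflat : ∀ g (J : ℕ), ∃ C : ℝ, ∀ᶠ j in atTop, ‖∑ i, v g (sj j) i * tj j i‖ ≤ C * ‖sj j‖ ^ J)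
    (hP0 : ∀ n, ∑ i, P n 0 i * (t i : ℂ) ≠ 0) :
    ∃ Z : Set ℝ, Z.Countable ∧ ∀ s : ℝ, |s| < r0 → s ∉ Z →
      ∃ τ : κ → ℝ, (∀ g, ∑ i, v g s i * (τ i : ℂ) = 0) ∧ ∀ n, ∑ i, P n s i * (τ i : ℂ) ≠ 0 := by
  classical
  have h0mem : (0 : ℂ) ∈ ball (0 : ℂ) r0 := mem_ball_self hr0
  have hpre : IsPreconnected (ball (0 : ℂ) r0) := (convex_ball _ _).isPreconnected
  -- maximal rank
  let NZ : ℕ → Prop := fun ρ => ∃ (a : Fin ρ → G) (f : Fin ρ → κ) (s : ℂ), s ∈ ball (0 : ℂ) r0 ∧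
    (Matrix.of fun x y => v (a x) s (f y) : Matrix (Fin ρ) (Fin ρ) ℂ).det ≠ 0
  have hNZ0 : NZ 0 := ⟨Fin.elim0, Fin.elim0, 0, h0mem, by simp⟩
  have hNZle : ∀ ρ, NZ ρ → ρ ≤ Fintype.card κ := by
    rintro ρ ⟨a, f, s, _, hdet⟩
    have hinj : Function.Injective f := by
      intro i j hij
      by_contra hne
      exact hdet (Matrix.det_zero_of_column_eq hne fun k => by simp [hij])
    simpa using Fintype.card_le_of_injective f hinj
  obtain ⟨ρ, hρ, hρmax⟩ : ∃ ρ, NZ ρ ∧ ¬ NZ (ρ + 1) := by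
    by_contra hcon
    push Not at hcon
    have hall : ∀ ρ, NZ ρ := fun ρ => Nat.rec hNZ0 (fun n ih => hcon n ih) ρ
    have := hNZle _ (hall (Fintype.card κ + 1))
    omega
  obtain ⟨a, f, s0, hs0mem, hdet0⟩ := hρ
  have hmax : ∀ (s : ℂ), s ∈ ball (0 : ℂ) r0 → ∀ (c : κ) (g : G),
      (bmat (fun x => v (a x) s) f c (v g s)).det = 0 := by
    intro s hs c g
    by_contra hne
    apply hρmax
    let e : Fin (ρ + 1) ≃ Fin ρ ⊕ Unit :=
      (finCongr (by simp)).trans (Fintype.equivFin (Fin ρ ⊕ Unit)).symm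
    refine ⟨fun x => Sum.elim a (fun _ => g) (e x), fun y => Sum.elim f (fun _ => c) (e y), s, hs, ?_⟩
    have h1 : (Matrix.of fun x y => v (Sum.elim a (fun _ => g) (e x)) s (Sum.elim f (fun _ => c) (e y)) :
        Matrix (Fin (ρ + 1)) (Fin (ρ + 1)) ℂ) = (bmat (fun x => v (a x) s) f c (v g s)).submatrix e e := by
      ext x y
      simp only [Matrix.of_apply, Matrix.submatrix_apply, bmat]
      rcases e x with i | i <;> rfl
    rw [h1, Matrix.det_submatrix_equiv_self]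
    exact hne
  -- analyticity of the bordered determinants
  have hA : ∀ s ∈ ball (0 : ℂ) r0, ∀ x y : Fin ρ, AnalyticAt ℂ
      (fun s => (Matrix.of fun x y => v (a x) s (f y) : Matrix (Fin ρ) (Fin ρ) ℂ) x y) s :=
    fun s hs x y => hv (a x) (f y) s hs
  have hβan : ∀ (n : N) (c : κ), AnalyticOnNhd ℂ
      (fun s => (bmat (fun x => v (a x) s) f c (P n s)).det) (ball 0 r0) := by
    intro n c s hs
    refine analyticAt_det fun i j => ?_
    rcases i with i | i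
    · exact hv (a i) _ s hs
    · exact hP n _ s hs
  -- Step 2
  have hstep : ∀ n : N, ∃ c : κ, ∃ s ∈ ball (0 : ℂ) r0,
      (bmat (fun x => v (a x) s) f c (P n s)).det ≠ 0 := by
    intro n
    by_contra hcon
    push Not at hcon
    set Δ : ℂ → ℂ := fun s => (Matrix.of fun x y => v (a x) s (f y) : Matrix (Fin ρ) (Fin ρ) ℂ).det with hΔ
    have hΔan : AnalyticOnNhd ℂ Δ (ball 0 r0) := fun s hs => analyticAt_det (hA s hs)
    have hΔne : ¬ ∀ᶠ s in 𝓝 (0 : ℂ), Δ s = 0 := fun h =>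
      hdet0 (hΔan.eqOn_zero_of_preconnected_of_eventuallyEq_zero hpre h0mem h hs0mem)
    obtain ⟨n0, g0, hg0, hg00, hg0eq⟩ :=
      ((hΔan 0 h0mem).exists_eventuallyEq_pow_smul_nonzero_iff).mpr hΔne
    have hg0pos : 0 < ‖g0 0‖ := norm_pos_iff.mpr hg00
    have hlow : ∀ᶠ s in 𝓝 (0 : ℂ), ‖g0 0‖ / 2 * ‖s‖ ^ n0 ≤ ‖Δ s‖ := by
      have h1 : ∀ᶠ s in 𝓝 (0 : ℂ), ‖g0 0‖ / 2 < ‖g0 s‖ :=
        hg0.continuousAt.norm.eventually_const_lt (by linarith)
      filter_upwards [h1, hg0eq] with s h2 h3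
      rw [h3, sub_zero, smul_eq_mul, norm_mul, norm_pow, mul_comm]
      exact mul_le_mul_of_nonneg_left h2.le (by positivity)
    -- bounded cofactors
    set Kx : Fin ρ → ℂ → ℂ := fun x s =>
      ∑ b, P n s (f b) * (Matrix.of fun x y => v (a x) s (f y) : Matrix (Fin ρ) (Fin ρ) ℂ).adjugate b x with hKx
    have hKan : ∀ x, AnalyticAt ℂ (Kx x) 0 := fun x =>
      Finset.analyticAt_fun_sum _ fun b _ => (hP n (f b) 0 h0mem).fun_mul (analyticAt_adjugate (hA 0 h0mem) b x)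
    have hKb : ∀ x, ∀ᶠ s in 𝓝 (0 : ℂ), ‖Kx x s‖ ≤ ‖Kx x 0‖ + 1 := fun x => by
      have := (hKan x).continuousAt.norm.eventually_lt_const (show ‖Kx x 0‖ < ‖Kx x 0‖ + 1 by linarith)
      exact this.mono fun s hs => hs.le
    choose C hC using fun x : Fin ρ => hflat (a x) (n0 + 1)
    -- the limit of `P(s_j)·t_j`
    have hlim : Tendsto (fun j => ∑ i, P n (sj j) i * tj j i) atTop (𝓝 (∑ i, P n 0 i * (t i : ℂ))) := by
      refine tendsto_finsetSum _ fun i _ => ?_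
      refine Tendsto.mul ((hP n i 0 h0mem).continuousAt.tendsto.comp hs0) ?_
      exact (tendsto_pi_nhds.mp ht) i
    set ε : ℝ := ‖∑ i, P n 0 i * (t i : ℂ)‖ / 2 with hε
    have hεpos : 0 < ε := half_pos (norm_pos_iff.mpr (hP0 n))
    have hlim2 : ∀ᶠ j in atTop, ε < ‖∑ i, P n (sj j) i * tj j i‖ :=
      hlim.norm.eventually_const_lt (by rw [hε]; linarith [norm_pos_iff.mpr (hP0 n)])
    set Kt : ℝ := ∑ x : Fin ρ, (‖Kx x 0‖ + 1) * |C x| with hKt
    have hKt0 : 0 ≤ Kt := Finset.sum_nonneg fun x _ => by positivity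
    have hsmall : ∀ᶠ j in atTop, Kt * ‖sj j‖ < ‖g0 0‖ / 2 * ε := by
      have h1 : Tendsto (fun j => Kt * ‖sj j‖) atTop (𝓝 (Kt * 0)) := by
        refine Tendsto.const_mul _ ?_
        simpa using hs0.norm
      rw [mul_zero] at h1
      exact h1.eventually_lt_const (by positivity)
    have hball : ∀ᶠ j in atTop, sj j ∈ ball (0 : ℂ) r0 := hs0.eventually (ball_mem_nhds _ hr0)
    have hCall := eventually_all.mpr hC
    have hKall := hs0.eventually (eventually_all.mpr hKb)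
    have hlowj := hs0.eventually hlow
    obtain ⟨j, hjne, hj⟩ := (hsne.and_eventually
      (((((hlim2.and hsmall).and hball).and hCall).and hKall).and hlowj)).exists
    obtain ⟨⟨⟨⟨⟨h1, h2⟩, h3⟩, h4⟩, h5⟩, h6⟩ := hj
    have hnpos : 0 < ‖sj j‖ := norm_pos_iff.mpr hjne
    have hΔpos : 0 < ‖Δ (sj j)‖ := lt_of_lt_of_le (by positivity) h6
    have hid := cramer_identity (fun x => v (a x) (sj j)) f (P n (sj j)) (tj j)
      (norm_pos_iff.mp hΔpos) (fun c => hcon c (sj j) h3)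
    have hle : ‖Δ (sj j)‖ * ‖∑ i, P n (sj j) i * tj j i‖ ≤ Kt * ‖sj j‖ ^ (n0 + 1) := by
      rw [← norm_mul]
      change ‖(Matrix.of fun x y => v (a x) (sj j) (f y) : Matrix (Fin ρ) (Fin ρ) ℂ).det *
        ∑ i, P n (sj j) i * tj j i‖ ≤ _
      rw [hid]
      refine (norm_sum_le _ _).trans ?_
      rw [hKt, Finset.sum_mul]
      refine Finset.sum_le_sum fun x _ => ?_
      rw [norm_mul]
      calc ‖∑ b, P n (sj j) (f b) * (Matrix.of fun x y => v (a x) (sj j) (f y) :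
              Matrix (Fin ρ) (Fin ρ) ℂ).adjugate b x‖ * ‖∑ i, v (a x) (sj j) i * tj j i‖
          ≤ (‖Kx x 0‖ + 1) * (C x * ‖sj j‖ ^ (n0 + 1)) := by
            refine mul_le_mul (h5 x) (h4 x) (norm_nonneg _) (by positivity)
        _ ≤ (‖Kx x 0‖ + 1) * |C x| * ‖sj j‖ ^ (n0 + 1) := by
            rw [mul_assoc]
            refine mul_le_mul_of_nonneg_left ?_ (by positivity)
            exact mul_le_mul_of_nonneg_right (le_abs_self _) (by positivity)
    have h7 : ‖g0 0‖ / 2 * ‖sj j‖ ^ n0 * ε ≤ Kt * ‖sj j‖ ^ (n0 + 1) :=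
      (mul_le_mul h6 h1.le hεpos.le (norm_nonneg _)).trans hle
    have h8 : (‖g0 0‖ / 2 * ε) * ‖sj j‖ ^ n0 ≤ (Kt * ‖sj j‖) * ‖sj j‖ ^ n0 := by
      calc (‖g0 0‖ / 2 * ε) * ‖sj j‖ ^ n0 = ‖g0 0‖ / 2 * ‖sj j‖ ^ n0 * ε := by ring
        _ ≤ Kt * ‖sj j‖ ^ (n0 + 1) := h7
        _ = _ := by ring
    have h9 := le_of_mul_le_mul_right h8 (by positivity)
    linarith
  choose c s1 hs1 hβ using hstep
  -- the countable exceptional set
  refine ⟨⋃ n, (fun s : ℝ => (s : ℂ)) ⁻¹' {s : ℂ | s ∈ ball (0 : ℂ) r0 ∧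
    (bmat (fun x => v (a x) s) f (c n) (P n s)).det = 0}, ?_, ?_⟩
  · refine countable_iUnion fun n => ?_
    exact (countable_zeros (hβan n (c n)) (hs1 n) (hβ n)).preimage Complex.ofReal_injective
  · intro s hs hsZ
    have hsball : (s : ℂ) ∈ ball (0 : ℂ) r0 := by
      rw [mem_ball_zero_iff, Complex.norm_real, Real.norm_eq_abs]
      exact hs
    have hβs : ∀ n, (bmat (fun x => v (a x) (s : ℂ)) f (c n) (P n s)).det ≠ 0 := by
      intro n h
      exact hsZ (mem_iUnion.mpr ⟨n, hsball, h⟩)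
    -- real span
    let toC : (κ → ℝ) →ₗ[ℝ] (κ → ℂ) := LinearMap.pi fun i =>
      (Complex.ofRealCLM : ℝ →L[ℝ] ℂ).toLinearMap ∘ₗ LinearMap.proj i
    have htoC : ∀ (x : κ → ℝ) i, toC x i = (x i : ℂ) := fun x i => rfl
    have hvR : ∀ g, toC (fun i => (v g s i).re) = v g s := by
      intro g
      funext i
      rw [htoC]
      apply Complex.ext
      · simp
      · rw [Complex.ofReal_im, hvr g i s hs]
    have hPR : ∀ n, toC (fun i => (P n s i).re) = P n s := by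
      intro n
      funext i
      rw [htoC]
      apply Complex.ext
      · simp
      · rw [Complex.ofReal_im, hPr n i s hs]
    set VR : Submodule ℝ (κ → ℝ) := Submodule.span ℝ (Set.range fun g => fun i => (v g s i).re) with hVR
    have hnot : ∀ n, (fun i => (P n s i).re) ∉ VR := by
      intro n hn
      set ψ : (κ → ℝ) →ₗ[ℝ] ℂ :=
        ((bordL (fun x => v (a x) (s : ℂ)) f (c n)).restrictScalars ℝ) ∘ₗ toC with hψ
      have hle : VR ≤ LinearMap.ker ψ := by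
        rw [hVR, Submodule.span_le]
        rintro _ ⟨g, rfl⟩
        rw [SetLike.mem_coe, LinearMap.mem_ker, hψ, LinearMap.comp_apply, hvR g]
        rw [LinearMap.restrictScalars_apply, bordL_apply]
        exact hmax s hsball (c n) g
      have h1 := hle hn
      rw [LinearMap.mem_ker, hψ, LinearMap.comp_apply, hPR n, LinearMap.restrictScalars_apply,
        bordL_apply] at h1
      exact hβs n h1
    -- the orthogonal space
    let K : Submodule ℝ (κ → ℝ) :=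
      { carrier := {τ | ∀ x ∈ VR, ∑ i, x i * τ i = 0}
        add_mem' := by
          intro τ τ' h h' x hx
          have := h x hx
          have := h' x hx
          simp only [Pi.add_apply, mul_add, Finset.sum_add_distrib]
          linarith
        zero_mem' := by
          intro x _
          simp
        smul_mem' := by
          intro r τ h x hx
          have h1 := h x hx
          simp only [Pi.smul_apply, smul_eq_mul]
          have : ∑ i, x i * (r * τ i) = r * ∑ i, x i * τ i := by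
            rw [Finset.mul_sum]
            exact Finset.sum_congr rfl fun i _ => by ring
          rw [this, h1, mul_zero] }
    let S : N → Submodule ℝ K := fun n =>
      { carrier := {τ | ∑ i, (P n s i).re * (τ : κ → ℝ) i = 0}
        add_mem' := by
          intro τ τ' h h'
          simp only [mem_ofPred_eq] at h h' ⊢
          simp only [Submodule.coe_add, Pi.add_apply, mul_add, Finset.sum_add_distrib]
          linarith
        zero_mem' := by simp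
        smul_mem' := by
          intro r τ h
          simp only [mem_ofPred_eq] at h ⊢
          simp only [Submodule.coe_smul, Pi.smul_apply, smul_eq_mul]
          have : ∑ i, (P n s i).re * (r * (τ : κ → ℝ) i) = r * ∑ i, (P n s i).re * (τ : κ → ℝ) i := by
            rw [Finset.mul_sum]
            exact Finset.sum_congr rfl fun i _ => by ring
          rw [this, h, mul_zero] }
    have hS : ∀ n, S n ≠ ⊤ := by
      intro n htop
      obtain ⟨φ, hφ1, hφ2⟩ := Submodule.exists_le_ker_of_notMem (hnot n)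
      have hφ : ∀ x : κ → ℝ, φ x = ∑ i, x i * φ (Pi.single i 1) := by
        intro x
        conv_lhs => rw [← Finset.univ_sum_single x]
        rw [map_sum]
        refine Finset.sum_congr rfl fun i _ => ?_
        have : (Pi.single i (x i) : κ → ℝ) = x i • Pi.single i (1 : ℝ) := by
          ext j
          simp [Pi.single_apply]
        rw [this, map_smul, smul_eq_mul]
      set τ : κ → ℝ := fun i => φ (Pi.single i 1) with hτ
      have hτK : τ ∈ K := by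
        intro x hx
        rw [← hφ]
        exact hφ2 hx
      have : (⟨τ, hτK⟩ : K) ∈ S n := by rw [htop]; trivial
      apply hφ1
      rw [hφ]
      exact this
    obtain ⟨τ, hτ⟩ := exists_notMem_iUnion_submodule S hS
    refine ⟨τ, ?_, ?_⟩
    · intro g
      have h1 := τ.2 (fun i => (v g s i).re) (Submodule.subset_span ⟨g, rfl⟩)
      have h2 : ∑ i, v g s i * ((τ : κ → ℝ) i : ℂ) = ((∑ i, (v g s i).re * (τ : κ → ℝ) i : ℝ) : ℂ) := by
        push_cast
        refine Finset.sum_congr rfl fun i _ => ?_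
        congr 1
        exact (congrFun (hvR g) i).symm
      rw [h2, h1]
      simp
    · intro n hn
      apply hτ n
      have h2 : ∑ i, P n s i * ((τ : κ → ℝ) i : ℂ) = ((∑ i, (P n s i).re * (τ : κ → ℝ) i : ℝ) : ℂ) := by
        push_cast
        refine Finset.sum_congr rfl fun i _ => ?_
        congr 1
        exact (congrFun (hPR n) i).symm
      rw [h2] at hn
      exact_mod_cast hn

end Main

end Crest.Agent.R98.AL
end

-- ▼ part R98/STC
section

/-!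
# Row 98: the ST corollary, assembly of test functions + (AL) (helper587)

From flat test functions along `s_j → 0` (frequently `s_j ≠ 0`) one gets, for all real `s` near `0`
outside a countable set, translations `τ` for which `Pi (ray s) τ` is a function of the base coding
map and which create no new coincidences of words.
-/

set_option autoImplicit false

open Filter Topology Set Metric Finset

namespace Crest.Agent.R98

variable {ι : Type*} [Fintype ι]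

section Analytic

omit [Fintype ι] in
theorem analyticAt_rayC (σ ℓ : ι → ℝ) (i : ι) (s : ℂ) : AnalyticAt ℂ (fun s => rayC σ ℓ s i) s := by
  unfold rayC
  fun_prop

omit [Fintype ι] in
theorem analyticAt_cw_rayC (σ ℓ : ι → ℝ) {n : ℕ} (u : Fin n → ι) (i : ι) (s : ℂ) :
    AnalyticAt ℂ (fun s => cw (rayC σ ℓ s) u i) s := by
  classical
  induction n with
  | zero => simpa using analyticAt_const
  | succ n ih =>
    obtain ⟨a, u, rfl⟩ := exists_cons u
    simp only [cw_cons]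
    exact analyticAt_const.fun_add ((analyticAt_rayC σ ℓ a s).fun_mul (ih u))

omit [Fintype ι] in
theorem cw_rayC_ofReal (σ ℓ : ι → ℝ) {n : ℕ} (u : Fin n → ι) (i : ι) (s : ℝ) :
    cw (rayC σ ℓ (s : ℂ)) u i = ((cw (rayR σ ℓ s) u i : ℝ) : ℂ) := by
  have h := map_cw Complex.ofRealHom (rayR σ ℓ s) u i
  have h2 : (fun i => Complex.ofRealHom (rayR σ ℓ s i)) = rayC σ ℓ (s : ℂ) := by
    funext i
    rw [rayC_ofReal]
    rfl
  rw [h2] at h
  exact h.symm

end Analytic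

section Words

/-- pairs of words of equal length which do not coincide at `(r, t)` -/
def NCpair (r t : ι → ℝ) : Type _ :=
  {x : Σ n : ℕ, (Fin n → ι) × (Fin n → ι) //
    ∑ i, cw r x.2.1 i * t i ≠ ∑ i, cw r x.2.2 i * t i}

instance [Countable ι] (r t : ι → ℝ) : Countable (NCpair r t) := by
  unfold NCpair
  infer_instance

/-- **ST corollary, abstract form** -/
theorem stc_abstract (σ ℓ t : ι → ℝ) {G : Type*} {r0 : ℝ} (hr0 : 0 < r0)
    (v : G → ℂ → ι → ℂ)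
    (hv : ∀ g i, AnalyticOnNhd ℂ (fun s => v g s i) (ball 0 r0))
    (hvr : ∀ g i (s : ℝ), |s| < r0 → (v g s i).im = 0)
    (sj : ℕ → ℂ) (hs0 : Tendsto sj atTop (𝓝 0)) (hsne : ∃ᶠ j in atTop, sj j ≠ 0)
    (tj : ℕ → ι → ℂ) (ht : Tendsto tj atTop (𝓝 fun i => (t i : ℂ)))
    (hflat : ∀ g (J : ℕ), ∃ C : ℝ, ∀ᶠ j in atTop, ‖∑ i, v g (sj j) i * tj j i‖ ≤ C * ‖sj j‖ ^ J) :
    ∃ Z : Set ℝ, Z.Countable ∧ ∀ s : ℝ, |s| < r0 → s ∉ Z →
      ∃ τ : ι → ℝ, (∀ g, ∑ i, v g s i * (τ i : ℂ) = 0) ∧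
        ∀ (n : ℕ) (u w : Fin n → ι),
          ∑ i, cw (rayR σ ℓ 0) u i * t i ≠ ∑ i, cw (rayR σ ℓ 0) w i * t i →
          ∑ i, cw (rayR σ ℓ s) u i * τ i ≠ ∑ i, cw (rayR σ ℓ s) w i * τ i := by
  classical
  have hmain := AL.analytic_linear hr0 v
    (P := fun (x : NCpair (rayR σ ℓ 0) t) s i => cw (rayC σ ℓ s) x.1.2.1 i - cw (rayC σ ℓ s) x.1.2.2 i)
    hv hvr
    (fun x i s _ => (analyticAt_cw_rayC σ ℓ _ i s).fun_sub (analyticAt_cw_rayC σ ℓ _ i s))
    (fun x i s _ => by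
      simp only [cw_rayC_ofReal, Complex.sub_im, Complex.ofReal_im, sub_self])
    sj hs0 hsne tj t ht hflat
    (fun x => by
      have h0 : (0 : ℂ) = ((0 : ℝ) : ℂ) := by simp
      simp only [h0, cw_rayC_ofReal]
      intro hcon
      apply x.2
      have h1 : ((∑ i, (cw (rayR σ ℓ 0) x.1.2.1 i - cw (rayR σ ℓ 0) x.1.2.2 i) * t i : ℝ) : ℂ) = 0 := by
        push_cast
        exact hcon
      have h2 : ∑ i, (cw (rayR σ ℓ 0) x.1.2.1 i - cw (rayR σ ℓ 0) x.1.2.2 i) * t i = 0 := by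
        exact_mod_cast h1
      simp only [sub_mul, Finset.sum_sub_distrib] at h2
      linarith)
  obtain ⟨Z, hZ, h⟩ := hmain
  refine ⟨Z, hZ, fun s hs hsZ => ?_⟩
  obtain ⟨τ, hτ1, hτ2⟩ := h s hs hsZ
  refine ⟨τ, hτ1, fun n u w hne heq => ?_⟩
  apply hτ2 (⟨⟨n, (u, w)⟩, hne⟩ : NCpair (rayR σ ℓ 0) t)
  simp only [cw_rayC_ofReal]
  have h1 : ∑ i, (cw (rayR σ ℓ s) u i - cw (rayR σ ℓ s) w i) * τ i = 0 := by
    simp only [sub_mul, Finset.sum_sub_distrib]
    linarith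
  have h2 : ((∑ i, (cw (rayR σ ℓ s) u i - cw (rayR σ ℓ s) w i) * τ i : ℝ) : ℂ) = 0 := by
    rw [h1]; simp
  push_cast at h2
  exact h2





end Words

end Crest.Agent.R98
end

-- ▼ part R98/Test
section

/-!
# Row 98: test functions (TEST) of the ending (helper587)

`QQ p Y g = g - E[g | σ(Y)]`,  `vT p Y g s i = ∫ cinf (rayC s) w i * QQ p Y g w`.
-/

set_option autoImplicit false

open Filter Topology Set Metric MeasureTheory
open scoped ENNReal

namespace Crest.Agent.R98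

section Q

variable {ι : Type*} [Fintype ι] [MeasurableSpace ι]

/-- the σ-algebra generated by `Y` -/
abbrev sY (Y : (ℕ → ι) → ℝ) : MeasurableSpace (ℕ → ι) := MeasurableSpace.comap Y inferInstance

/-- `g - E[g | Y]` -/
noncomputable def QQ (p : ι → ℝ) (Y g : (ℕ → ι) → ℝ) (w : ℕ → ι) : ℝ :=
  g w - ((PP p)[g | sY Y]) w

/-- bounded measurable test functions -/
def TestFn (ι : Type*) [MeasurableSpace ι] : Type _ :=
  {g : (ℕ → ι) → ℝ // Measurable g ∧ ∃ C : ℝ, ∀ w, |g w| ≤ C}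

variable {p : ι → ℝ} {Y g : (ℕ → ι) → ℝ}

theorem integrable_of_bdd (hp : (∀ i, 0 ≤ p i) ∧ ∑ i, p i = 1) {X : (ℕ → ι) → ℝ} (hX : Measurable X)
    {C : ℝ} (hC : ∀ w, |X w| ≤ C) : Integrable X (PP p) := by
  have := isProb_PP hp
  exact Integrable.of_bound hX.aestronglyMeasurable C (Eventually.of_forall hC)

theorem integrable_QQ (hp : (∀ i, 0 ≤ p i) ∧ ∑ i, p i = 1) (hg : Measurable g)
    {C : ℝ} (hC : ∀ w, |g w| ≤ C) : Integrable (QQ p Y g) (PP p) :=
  (integrable_of_bdd hp hg hC).sub integrable_condExp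

/-- functions of `Y` are orthogonal to `g - E[g|Y]` -/
theorem integral_fac_mul_QQ (hp : (∀ i, 0 ≤ p i) ∧ ∑ i, p i = 1) (hY : Measurable Y)
    (hg : Measurable g) {C : ℝ} (hC : ∀ w, |g w| ≤ C) {Z : (ℕ → ι) → ℝ} {K : ℝ}
    (hZb : ∀ᵐ w ∂(PP p), |Z w| ≤ K) {f : ℝ → ℝ} (hf : Measurable f) (hZ : Z =ᵐ[PP p] fun w => f (Y w)) :
    ∫ w, Z w * QQ p Y g w ∂(PP p) = 0 := by
  have := isProb_PP hp
  have hm : sY Y ≤ MeasurableSpace.pi := hY.comap_le
  have hgi := integrable_of_bdd hp hg hC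
  have hfY : StronglyMeasurable[sY Y] (fun w => f (Y w)) :=
    (hf.comp (comap_measurable Y)).stronglyMeasurable
  have hb : ∀ᵐ w ∂(PP p), ‖f (Y w)‖ ≤ K := by
    filter_upwards [hZ, hZb] with w h1 h2
    rw [← h1]
    exact h2
  have h1 := condExp_stronglyMeasurable_mul_of_bound hm hfY hgi K hb
  have h2 : ∫ w, f (Y w) * g w ∂(PP p) = ∫ w, f (Y w) * ((PP p)[g | sY Y]) w ∂(PP p) := by
    rw [← integral_condExp hm (f := fun w => f (Y w) * g w)]
    exact integral_congr_ae h1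
  have hi1 : Integrable (fun w => f (Y w) * g w) (PP p) :=
    hgi.bdd_mul (hfY.mono hm).aestronglyMeasurable hb
  have hi2 : Integrable (fun w => f (Y w) * ((PP p)[g | sY Y]) w) (PP p) :=
    (integrable_condExp (μ := PP p) (m := sY Y) (f := g)).bdd_mul (hfY.mono hm).aestronglyMeasurable hb
  calc ∫ w, Z w * QQ p Y g w ∂(PP p) = ∫ w, (f (Y w) * g w - f (Y w) * ((PP p)[g | sY Y]) w) ∂(PP p) := by
        refine integral_congr_ae ?_
        filter_upwards [hZ] with w h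
        rw [h]
        unfold QQ
        ring
    _ = 0 := by rw [integral_sub hi1 hi2, h2, sub_self]

/-- if `X` is orthogonal to its own remainder then it is a function of `Y` -/
theorem fac_of_orth (hp : (∀ i, 0 ≤ p i) ∧ ∑ i, p i = 1) (hY : Measurable Y) {X : (ℕ → ι) → ℝ}
    (hX : Measurable X) {C : ℝ} (hC : ∀ w, |X w| ≤ C)
    (h0 : ∫ w, X w * QQ p Y X w ∂(PP p) = 0) : Fac p Y X := by
  have := isProb_PP hp
  have hm : sY Y ≤ MeasurableSpace.pi := hY.comap_le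
  have hXi := integrable_of_bdd hp hX hC
  -- a version of the conditional expectation
  set E : (ℕ → ι) → ℝ := (PP p)[X | sY Y] with hE
  have hEm : StronglyMeasurable[sY Y] E := stronglyMeasurable_condExp
  obtain ⟨h, hh, hEh⟩ := (hEm.measurable).exists_eq_measurable_comp
  have hC0 : 0 ≤ C := (abs_nonneg _).trans (hC (fun _ => by
    have : Nonempty ι := by
      by_contra hne
      rw [not_nonempty_iff] at hne
      have := hp.2
      simp at this
    exact this.some))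
  have hEb : ∀ᵐ w ∂(PP p), |E w| ≤ C := by
    have := ae_bdd_abs_condExp_of_ae_bdd_abs (μ := PP p) (m := sY Y) (R := C) (f := X)
      (Eventually.of_forall fun w => hC w)
    exact this
  have h1 : ∫ w, E w * QQ p Y X w ∂(PP p) = 0 :=
    integral_fac_mul_QQ hp hY hX hC hEb hh (Eventually.of_forall fun w => congrFun hEh w)
  have hQb : ∀ᵐ w ∂(PP p), ‖QQ p Y X w‖ ≤ 2 * C := by
    filter_upwards [hEb] with w hw
    unfold QQ
    calc ‖X w - E w‖ ≤ ‖X w‖ + ‖E w‖ := norm_sub_le _ _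
      _ ≤ C + C := add_le_add (hC w) hw
      _ = 2 * C := by ring
  have hQi : Integrable (QQ p Y X) (PP p) := integrable_QQ hp hX hC
  have hi1 : Integrable (fun w => X w * QQ p Y X w) (PP p) :=
    hQi.bdd_mul hX.aestronglyMeasurable (Eventually.of_forall hC)
  have hi2 : Integrable (fun w => E w * QQ p Y X w) (PP p) :=
    hQi.bdd_mul (hEm.mono hm).aestronglyMeasurable hEb
  have hsq : ∫ w, (QQ p Y X w) ^ 2 ∂(PP p) = 0 := by
    have : ∀ w, (QQ p Y X w) ^ 2 = X w * QQ p Y X w - E w * QQ p Y X w := by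
      intro w
      have : QQ p Y X w = X w - E w := rfl
      rw [this]; ring
    simp only [this]
    rw [integral_sub hi1 hi2, h0, h1, sub_zero]
  have hisq : Integrable (fun w => (QQ p Y X w) ^ 2) (PP p) := by
    have : (fun w => (QQ p Y X w) ^ 2) = fun w => X w * QQ p Y X w - E w * QQ p Y X w := by
      funext w
      have : QQ p Y X w = X w - E w := rfl
      rw [this]; ring
    rw [this]
    exact hi1.sub hi2
  have hz := (integral_eq_zero_iff_of_nonneg (fun w => sq_nonneg _) hisq).mp hsq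
  refine ⟨h, hh, ?_⟩
  filter_upwards [hz] with w hw
  have h3 : QQ p Y X w = 0 := by
    have : (QQ p Y X w) ^ 2 = 0 := hw
    exact pow_eq_zero_iff (two_ne_zero) |>.mp this
  have h4 : X w = E w := by
    have : X w - E w = 0 := h3
    linarith
  rw [h4]
  exact congrFun hEh w

end Q

section V

variable {ι : Type*} [Fintype ι] [MeasurableSpace ι] [DiscreteMeasurableSpace ι]
  {p σ ℓ : ι → ℝ} {Y : (ℕ → ι) → ℝ} {ℓ0 : ℝ}

/-- the test vectors -/
noncomputable def vT (p σ ℓ : ι → ℝ) (Y g : (ℕ → ι) → ℝ) (s : ℂ) (i : ι) : ℂ :=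
  ∫ w, cinf (rayC σ ℓ s) w i * (QQ p Y g w : ℂ) ∂(PP p)

/-- finite level version -/
theorem vT_level (hp : (∀ i, 0 ≤ p i) ∧ ∑ i, p i = 1) {g : (ℕ → ι) → ℝ} (hg : Measurable g) {C : ℝ}
    (hC : ∀ w, |g w| ≤ C) (s : ℂ) (i : ι) (n : ℕ) :
    ∫ w, cw (rayC σ ℓ s) (pre n w) i * (QQ p Y g w : ℂ) ∂(PP p) =
      ∑ u : Fin n → ι, cw (rayC σ ℓ s) u i * ∫ w in pre n ⁻¹' {u}, (QQ p Y g w : ℂ) ∂(PP p) := by
  classical
  have hQi : Integrable (fun w => (QQ p Y g w : ℂ)) (PP p) := (integrable_QQ hp hg hC).ofReal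
  have hms : ∀ u : Fin n → ι, MeasurableSet (pre n ⁻¹' {u} : Set (ℕ → ι)) := fun u =>
    measurable_pre n (measurableSet_singleton u)
  have h1 : ∀ w : ℕ → ι, cw (rayC σ ℓ s) (pre n w) i * (QQ p Y g w : ℂ) =
      ∑ u : Fin n → ι, (pre n ⁻¹' {u}).indicator (fun w => cw (rayC σ ℓ s) u i * (QQ p Y g w : ℂ)) w := by
    intro w
    rw [Finset.sum_eq_single (pre n w)]
    · rw [indicator_of_mem (by simp)]
    · intro u _ hu
      rw [indicator_of_notMem]
      simpa using fun h => hu h.symm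
    · simp
  simp only [h1]
  rw [integral_finsetSum]
  · refine Finset.sum_congr rfl fun u _ => ?_
    rw [integral_indicator (hms u), integral_const_mul]
  · intro u _
    exact (hQi.const_mul _).indicator (hms u)

/-- holomorphy of the test vectors -/
theorem differentiableOn_vT (hp : (∀ i, 0 ≤ p i) ∧ ∑ i, p i = 1) (hσ : ∀ i, |σ i| ≤ 1)
    (hℓ : ∀ i, ℓ0 ≤ ℓ i) (h0 : 0 < ℓ0) {g : (ℕ → ι) → ℝ} (hg : Measurable g) {C : ℝ}
    (hC : ∀ w, |g w| ≤ C) (i : ι) :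
    DifferentiableOn ℂ (fun s => vT p σ ℓ Y g s i) (ball 0 (1 / 2)) := by
  have := isProb_PP hp
  set q : ℝ := Real.exp (-ℓ0 / 2) with hq
  have hq1 : q < 1 := exp_half_lt_one h0
  have hq0 : 0 ≤ q := (Real.exp_pos _).le
  have hQi : Integrable (QQ p Y g) (PP p) := integrable_QQ hp hg hC
  set A : ℝ := ∫ w, |QQ p Y g w| ∂(PP p) with hA
  have hA0 : 0 ≤ A := integral_nonneg fun w => abs_nonneg _
  set vn : ℕ → ℂ → ℂ := fun n s => ∫ w, cw (rayC σ ℓ s) (pre n w) i * (QQ p Y g w : ℂ) ∂(PP p) with hvn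
  have hdiff : ∀ n, DifferentiableOn ℂ (vn n) (ball 0 (1 / 2)) := by
    intro n
    have h1 : vn n = fun s => ∑ u : Fin n → ι, cw (rayC σ ℓ s) u i *
        ∫ w in pre n ⁻¹' {u}, (QQ p Y g w : ℂ) ∂(PP p) := by
      funext s
      exact vT_level hp hg hC s i n
    rw [h1]
    refine DifferentiableOn.fun_sum fun u _ => DifferentiableOn.mul_const ?_ _
    intro s _
    have : ∀ {m : ℕ} (u : Fin m → ι), DifferentiableAt ℂ (fun s => cw (rayC σ ℓ s) u i) s := by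
      classical
      intro m
      induction m with
      | zero => intro u; simp
      | succ m ih =>
        intro u
        obtain ⟨a, u, rfl⟩ := exists_cons u
        simp only [cw_cons]
        refine DifferentiableAt.const_add _ (DifferentiableAt.fun_mul ?_ (ih u))
        unfold rayC
        fun_prop
    exact (this u).differentiableWithinAt
  have hbound : ∀ n, ∀ s ∈ ball (0 : ℂ) (1 / 2), ‖vT p σ ℓ Y g s i - vn n s‖ ≤ q ^ n / (1 - q) * A := by
    intro n s hs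
    have hs' : ‖s‖ ≤ 1 / 2 := by
      rw [mem_ball_zero_iff] at hs
      exact hs.le
    have hr : ∀ i, ‖rayC σ ℓ s i‖ ≤ q := norm_rayC_le hσ hℓ h0.le hs'
    have hi1 : Integrable (fun w => cinf (rayC σ ℓ s) w i * (QQ p Y g w : ℂ)) (PP p) :=
      hQi.ofReal.bdd_mul (measurable_cinf hr hq1 i).aestronglyMeasurable
        (Eventually.of_forall fun w => norm_cinf_le hr hq1 w i)
    have hi2 : Integrable (fun w => cw (rayC σ ℓ s) (pre n w) i * (QQ p Y g w : ℂ)) (PP p) := by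
      refine hQi.ofReal.bdd_mul (measurable_cw_pre (rayC σ ℓ s) n i).aestronglyMeasurable
        (Eventually.of_forall fun w => ?_) (c := 1 / (1 - q))
      exact norm_cw_le hr hq1 (pre n w) i
    have h1 : vT p σ ℓ Y g s i - vn n s =
        ∫ w, (cinf (rayC σ ℓ s) w i - cw (rayC σ ℓ s) (pre n w) i) * (QQ p Y g w : ℂ) ∂(PP p) := by
      unfold vT
      rw [hvn]
      simp only
      rw [← integral_sub hi1 hi2]
      refine integral_congr_ae (Eventually.of_forall fun w => ?_)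
      simp only
      ring
    rw [h1]
    refine (norm_integral_le_integral_norm _).trans ?_
    rw [hA, ← integral_const_mul]
    refine integral_mono_of_nonneg (Eventually.of_forall fun w => norm_nonneg _)
      (hQi.abs.const_mul _) (Eventually.of_forall fun w => ?_)
    simp only
    rw [norm_mul, Complex.norm_real, Real.norm_eq_abs]
    refine mul_le_mul_of_nonneg_right ?_ (abs_nonneg _)
    refine (norm_cinf_sub_le hr hq1 n w i).trans ?_
    exact div_le_div_of_nonneg_right (norm_rho_le hr _) (by linarith)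
  refine TendstoLocallyUniformlyOn.differentiableOn (F := vn) (φ := atTop) ?_
    (Eventually.of_forall hdiff) isOpen_ball
  refine TendstoUniformlyOn.tendstoLocallyUniformlyOn ?_
  rw [Metric.tendstoUniformlyOn_iff]
  intro ε hε
  have hlim : Tendsto (fun n : ℕ => q ^ n / (1 - q) * A) atTop (𝓝 (0 / (1 - q) * A)) :=
    ((tendsto_pow_atTop_nhds_zero_of_lt_one hq0 hq1).div_const _).mul_const _
  rw [zero_div, zero_mul] at hlim
  filter_upwards [hlim.eventually_lt_const hε] with n hn s hs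
  rw [dist_eq_norm]
  exact (hbound n s hs).trans_lt hn

theorem analyticOnNhd_vT (hp : (∀ i, 0 ≤ p i) ∧ ∑ i, p i = 1) (hσ : ∀ i, |σ i| ≤ 1)
    (hℓ : ∀ i, ℓ0 ≤ ℓ i) (h0 : 0 < ℓ0) {g : (ℕ → ι) → ℝ} (hg : Measurable g) {C : ℝ}
    (hC : ∀ w, |g w| ≤ C) (i : ι) :
    AnalyticOnNhd ℂ (fun s => vT p σ ℓ Y g s i) (ball 0 (1 / 2)) :=
  (differentiableOn_vT hp hσ hℓ h0 hg hC i).analyticOnNhd isOpen_ball

/-- real on the reals -/
theorem vT_ofReal (hσ : ∀ i, |σ i| ≤ 1) (hℓ : ∀ i, ℓ0 ≤ ℓ i) (h0 : 0 < ℓ0) {g : (ℕ → ι) → ℝ}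
    {s : ℝ} (hs : |s| ≤ 1 / 2) (i : ι) :
    vT p σ ℓ Y g s i = ((∫ w, cinf (rayR σ ℓ s) w i * QQ p Y g w ∂(PP p) : ℝ) : ℂ) := by
  unfold vT
  rw [← integral_complex_ofReal]
  refine integral_congr_ae (Eventually.of_forall fun w => ?_)
  simp only
  have h1 : rayC σ ℓ (s : ℂ) = fun i => (rayR σ ℓ s i : ℂ) := funext fun i => rayC_ofReal σ ℓ s i
  rw [h1, cinf_ofReal (abs_rayR_le hσ hℓ h0.le hs) (exp_half_lt_one h0)]
  push_cast
  rfl

/-- combination of the test vectors with (complex) translations -/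
theorem vT_dot (hp : (∀ i, 0 ≤ p i) ∧ ∑ i, p i = 1) (hσ : ∀ i, |σ i| ≤ 1)
    (hℓ : ∀ i, ℓ0 ≤ ℓ i) (h0 : 0 < ℓ0) {g : (ℕ → ι) → ℝ} (hg : Measurable g) {C : ℝ}
    (hC : ∀ w, |g w| ≤ C) {s : ℂ} (hs : ‖s‖ ≤ 1 / 2) (t : ι → ℂ) :
    ∑ i, vT p σ ℓ Y g s i * t i =
      ∫ w, (∑ i, cinf (rayC σ ℓ s) w i * t i) * (QQ p Y g w : ℂ) ∂(PP p) := by
  have hQi : Integrable (QQ p Y g) (PP p) := integrable_QQ hp hg hC
  have hr : ∀ i, ‖rayC σ ℓ s i‖ ≤ Real.exp (-ℓ0 / 2) := norm_rayC_le hσ hℓ h0.le hs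
  have hi : ∀ i, Integrable (fun w => cinf (rayC σ ℓ s) w i * (QQ p Y g w : ℂ)) (PP p) := fun i =>
    hQi.ofReal.bdd_mul (measurable_cinf hr (exp_half_lt_one h0) i).aestronglyMeasurable
      (Eventually.of_forall fun w => norm_cinf_le hr (exp_half_lt_one h0) w i)
  unfold vT
  simp only [← integral_mul_const]
  rw [← integral_finsetSum _ fun i _ => (hi i).mul_const _]
  refine integral_congr_ae (Eventually.of_forall fun w => ?_)
  simp only [Finset.sum_mul]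
  exact Finset.sum_congr rfl fun i _ => by ring

/-- (T1) -/
theorem fac_of_vT (hp : (∀ i, 0 ≤ p i) ∧ ∑ i, p i = 1) (hσ : ∀ i, |σ i| ≤ 1)
    (hℓ : ∀ i, ℓ0 ≤ ℓ i) (h0 : 0 < ℓ0) (hY : Measurable Y) {s : ℝ} (hs : |s| ≤ 1 / 2) {τ : ι → ℝ}
    (h : ∀ g : TestFn ι, ∑ i, vT p σ ℓ Y g.1 s i * (τ i : ℂ) = 0) :
    Fac p Y (Pi (rayR σ ℓ s) τ) := by
  have hrr := abs_rayR_le (σ := σ) hσ hℓ h0.le hs
  have hq1 := exp_half_lt_one h0
  have hXm : Measurable (Pi (rayR σ ℓ s) τ) := measurable_Pi hrr hq1 τ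
  have hXb := abs_Pi_le hrr hq1 τ
  refine fac_of_orth hp hY hXm hXb ?_
  have h1 := h ⟨Pi (rayR σ ℓ s) τ, hXm, _, hXb⟩
  have hsC : ‖(s : ℂ)‖ ≤ 1 / 2 := by simpa using hs
  rw [vT_dot hp hσ hℓ h0 hXm hXb hsC] at h1
  have h2 : ∀ w, (∑ i, cinf (rayC σ ℓ (s : ℂ)) w i * (τ i : ℂ)) * (QQ p Y (Pi (rayR σ ℓ s) τ) w : ℂ) =
      ((Pi (rayR σ ℓ s) τ w * QQ p Y (Pi (rayR σ ℓ s) τ) w : ℝ) : ℂ) := by
    intro w
    have h3 : rayC σ ℓ (s : ℂ) = fun i => (rayR σ ℓ s i : ℂ) := funext fun i => rayC_ofReal σ ℓ s i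
    rw [h3]
    simp only [cinf_ofReal hrr hq1]
    unfold Pi
    push_cast
    rfl
  simp only [h2] at h1
  rw [integral_complex_ofReal] at h1
  exact_mod_cast h1

/-- (T2): a combination close to functions of `Y` -/
theorem norm_integral_QQ_le (hp : (∀ i, 0 ≤ p i) ∧ ∑ i, p i = 1) (hY : Measurable Y)
    {g : (ℕ → ι) → ℝ} (hg : Measurable g) {C : ℝ} (hC : ∀ w, |g w| ≤ C)
    {X : (ℕ → ι) → ℂ} (hX : Measurable X) {Zr Zi : (ℕ → ι) → ℝ} (hZr : Fac p Y Zr) (hZi : Fac p Y Zi)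
    (hZrm : Measurable Zr) (hZim : Measurable Zi)
    {K : ℝ} (hZrb : ∀ w, |Zr w| ≤ K) (hZib : ∀ w, |Zi w| ≤ K) {δ : ℝ}
    (hδ : ∀ w, ‖X w - (Zr w + Zi w * Complex.I)‖ ≤ δ) :
    ‖∫ w, X w * (QQ p Y g w : ℂ) ∂(PP p)‖ ≤ δ * ∫ w, |QQ p Y g w| ∂(PP p) := by
  have := isProb_PP hp
  have hQi : Integrable (QQ p Y g) (PP p) := integrable_QQ hp hg hC
  obtain ⟨fr, hfr, er⟩ := hZr
  obtain ⟨fi, hfi, ei⟩ := hZi
  have z1 := integral_fac_mul_QQ hp hY hg hC (Eventually.of_forall hZrb) hfr er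
  have z2 := integral_fac_mul_QQ hp hY hg hC (Eventually.of_forall hZib) hfi ei
  have hir : Integrable (fun w => Zr w * QQ p Y g w) (PP p) :=
    hQi.bdd_mul hZrm.aestronglyMeasurable (Eventually.of_forall hZrb)
  have hii : Integrable (fun w => Zi w * QQ p Y g w) (PP p) :=
    hQi.bdd_mul hZim.aestronglyMeasurable (Eventually.of_forall hZib)
  have hdiff : Integrable (fun w => (X w - (Zr w + Zi w * Complex.I)) * (QQ p Y g w : ℂ)) (PP p) := by
    refine hQi.ofReal.bdd_mul ?_ (Eventually.of_forall hδ)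
    have : Measurable fun w => X w - (Zr w + Zi w * Complex.I) :=
      hX.sub ((Complex.measurable_ofReal.comp hZrm).add
        ((Complex.measurable_ofReal.comp hZim).mul_const _))
    exact this.aestronglyMeasurable
  have hZint : Integrable (fun w => ((Zr w * QQ p Y g w : ℝ) : ℂ) +
      ((Zi w * QQ p Y g w : ℝ) : ℂ) * Complex.I) (PP p) :=
    hir.ofReal.add (hii.ofReal.mul_const _)
  have hZ0 : ∫ w, (((Zr w * QQ p Y g w : ℝ) : ℂ) + ((Zi w * QQ p Y g w : ℝ) : ℂ) * Complex.I) ∂(PP p) = 0 := by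
    rw [integral_add hir.ofReal (hii.ofReal.mul_const _), integral_mul_const, integral_complex_ofReal,
      integral_complex_ofReal, z1, z2]
    simp
  have hsplit : ∫ w, X w * (QQ p Y g w : ℂ) ∂(PP p) =
      ∫ w, (X w - (Zr w + Zi w * Complex.I)) * (QQ p Y g w : ℂ) ∂(PP p) := by
    have h1 : ∀ w, X w * (QQ p Y g w : ℂ) = (X w - (Zr w + Zi w * Complex.I)) * (QQ p Y g w : ℂ) +
        (((Zr w * QQ p Y g w : ℝ) : ℂ) + ((Zi w * QQ p Y g w : ℝ) : ℂ) * Complex.I) := by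
      intro w
      push_cast
      ring
    simp only [h1]
    rw [integral_add hdiff hZint, hZ0, add_zero]
  rw [hsplit]
  refine (norm_integral_le_integral_norm _).trans ?_
  rw [← integral_const_mul]
  refine integral_mono_of_nonneg (Eventually.of_forall fun w => norm_nonneg _)
    (hQi.abs.const_mul _) (Eventually.of_forall fun w => ?_)
  simp only
  rw [norm_mul, Complex.norm_real, Real.norm_eq_abs]
  exact mul_le_mul_of_nonneg_right (hδ w) (abs_nonneg _)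

end V

end Crest.Agent.R98
end

-- ▼ part R98/STCore

/-!
# Row 98: the ST corollary in the shape consumed by TOP (helper587)

Input (from (UNI) for all `J`): along the sequence, the jet functional `(s_j^l τ_j)_{l ≤ J}` is
`‖s_j‖^J`-close to a (complex) combination of jet functionals which are functions of `Y`.
-/

set_option autoImplicit false

open Filter Topology Set Metric Finset MeasureTheory

namespace Crest.Agent.R98

section Jets

variable {ι : Type*} [Fintype ι]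

/-- pairing of a jet functional with the jet of an infinite word -/
noncomputable def jpair (σ ℓ : ι → ℝ) {J : ℕ} (a : Fin (J + 1) × ι → ℝ) (w : ℕ → ι) : ℝ :=
  ∑ x : Fin (J + 1) × ι, a x * jetinf σ ℓ (x.1 : ℕ) w x.2

variable {σ ℓ : ι → ℝ} {ℓ0 : ℝ}

theorem abs_jpair_le (hσ : ∀ i, |σ i| ≤ 1) (hℓ : ∀ i, ℓ0 ≤ ℓ i) (h0 : 0 < ℓ0) {J : ℕ}
    (a : Fin (J + 1) × ι → ℝ) (w : ℕ → ι) :
    |jpair σ ℓ a w| ≤ ∑ x : Fin (J + 1) × ι, |a x| * (2 ^ (x.1 : ℕ) * jK ℓ0) := by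
  unfold jpair
  refine (Finset.abs_sum_le_sum_abs _ _).trans (Finset.sum_le_sum fun x _ => ?_)
  rw [abs_mul]
  exact mul_le_mul_of_nonneg_left (abs_jetinf_le hσ hℓ h0 _ w _) (abs_nonneg _)

theorem measurable_jpair [MeasurableSpace ι] [DiscreteMeasurableSpace ι] (hσ : ∀ i, |σ i| ≤ 1)
    (hℓ : ∀ i, ℓ0 ≤ ℓ i) (h0 : 0 < ℓ0) {J : ℕ} (a : Fin (J + 1) × ι → ℝ) :
    Measurable (jpair σ ℓ a) := by
  unfold jpair
  exact Finset.measurable_sum _ fun x _ => (measurable_jetinf hσ hℓ h0 _ _).const_mul _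

/-- difference between `c_w(s) · t` and a combination of jets -/
theorem norm_cdot_sub_jpair_le (hσ : ∀ i, |σ i| ≤ 1) (hℓ : ∀ i, ℓ0 ≤ ℓ i) (h0 : 0 < ℓ0) {J : ℕ}
    {s : ℂ} (hs : ‖s‖ ≤ 1 / 4) (t : ι → ℂ) {M : ℝ} (ht : ∀ i, ‖t i‖ ≤ M)
    (a b : Fin (J + 1) × ι → ℝ) {δ : ℝ}
    (hab : ∀ x, ‖s ^ (x.1 : ℕ) * t x.2 - (a x + b x * Complex.I)‖ ≤ δ) (w : ℕ → ι) :
    ‖∑ i, cinf (rayC σ ℓ s) w i * t i - (jpair σ ℓ a w + jpair σ ℓ b w * Complex.I)‖ ≤
      (Fintype.card ι) * ((2 * ‖s‖) ^ (J + 1) * 2 * jK ℓ0 * M) +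
        (Fintype.card (Fin (J + 1) × ι)) * (2 ^ J * jK ℓ0 * δ) := by
  have hjK := jK_pos h0
  have hs2 : ‖s‖ < 1 / 2 := lt_of_le_of_lt hs (by norm_num)
  have e1 : ∑ i, cinf (rayC σ ℓ s) w i * t i - (jpair σ ℓ a w + jpair σ ℓ b w * Complex.I) =
      ∑ i, (cinf (rayC σ ℓ s) w i - ∑ l ∈ range (J + 1), s ^ l * (jetinf σ ℓ l w i : ℂ)) * t i +
      ∑ x : Fin (J + 1) × ι, (s ^ (x.1 : ℕ) * t x.2 - (a x + b x * Complex.I)) *
        (jetinf σ ℓ (x.1 : ℕ) w x.2 : ℂ) := by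
    have e2 : ∑ x : Fin (J + 1) × ι, (s ^ (x.1 : ℕ) * t x.2) * (jetinf σ ℓ (x.1 : ℕ) w x.2 : ℂ) =
        ∑ i, (∑ l ∈ range (J + 1), s ^ l * (jetinf σ ℓ l w i : ℂ)) * t i := by
      rw [Fintype.sum_prod_type, Finset.sum_comm]
      refine Finset.sum_congr rfl fun i _ => ?_
      rw [Finset.sum_mul, ← Fin.sum_univ_eq_sum_range (fun l => s ^ l * (jetinf σ ℓ l w i : ℂ) * t i)]
      refine Finset.sum_congr rfl fun l _ => ?_
      ring
    have e3 : ((jpair σ ℓ a w : ℝ) : ℂ) + (jpair σ ℓ b w : ℝ) * Complex.I =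
        ∑ x : Fin (J + 1) × ι, (a x + b x * Complex.I) * (jetinf σ ℓ (x.1 : ℕ) w x.2 : ℂ) := by
      unfold jpair
      push_cast
      rw [Finset.sum_mul, ← Finset.sum_add_distrib]
      refine Finset.sum_congr rfl fun x _ => ?_
      ring
    rw [e3]
    simp only [sub_mul, Finset.sum_sub_distrib, e2]
    ring
  rw [e1]
  refine (norm_add_le _ _).trans (add_le_add ?_ ?_)
  · refine (norm_sum_le _ _).trans ?_
    have h1 : ∀ i ∈ (Finset.univ : Finset ι),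
        ‖(cinf (rayC σ ℓ s) w i - ∑ l ∈ range (J + 1), s ^ l * (jetinf σ ℓ l w i : ℂ)) * t i‖ ≤
          (2 * ‖s‖) ^ (J + 1) * 2 * jK ℓ0 * M := by
      intro i _
      rw [norm_mul]
      have h2 := norm_cinf_sub_jets_le hσ hℓ h0 hs2 (J + 1) w i
      have h3 : (2 * ‖s‖) ^ (J + 1) / (1 - 2 * ‖s‖) ≤ (2 * ‖s‖) ^ (J + 1) * 2 := by
        rw [div_le_iff₀ (by linarith)]
        have h4 : 0 ≤ (2 * ‖s‖) ^ (J + 1) := by positivity
        nlinarith
      refine mul_le_mul (h2.trans (mul_le_mul_of_nonneg_right h3 hjK.le)) (ht i) (norm_nonneg _) ?_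
      positivity
    refine (Finset.sum_le_sum h1).trans ?_
    rw [Finset.sum_const, Finset.card_univ, nsmul_eq_mul]
  · refine (norm_sum_le _ _).trans ?_
    have h1 : ∀ x ∈ (Finset.univ : Finset (Fin (J + 1) × ι)),
        ‖(s ^ (x.1 : ℕ) * t x.2 - (a x + b x * Complex.I)) * (jetinf σ ℓ (x.1 : ℕ) w x.2 : ℂ)‖ ≤
          2 ^ J * jK ℓ0 * δ := by
      intro x _
      rw [norm_mul, Complex.norm_real, Real.norm_eq_abs, mul_comm]
      have h2 : |jetinf σ ℓ (x.1 : ℕ) w x.2| ≤ 2 ^ J * jK ℓ0 := by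
        refine (abs_jetinf_le hσ hℓ h0 _ w _).trans (mul_le_mul_of_nonneg_right ?_ hjK.le)
        exact pow_le_pow_right₀ (by norm_num) (by omega)
      exact mul_le_mul h2 (hab x) (norm_nonneg _) (by positivity)
    refine (Finset.sum_le_sum h1).trans ?_
    rw [Finset.sum_const, Finset.card_univ, nsmul_eq_mul]

end Jets

section Main

variable {ι : Type*} [Fintype ι] [MeasurableSpace ι] [DiscreteMeasurableSpace ι]

/-- the closeness input delivered by (UNI) -/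
def JetClose (p σ ℓ : ι → ℝ) (Y : (ℕ → ι) → ℝ) (sj : ℕ → ℂ) (tj : ℕ → ι → ℂ) : Prop :=
  ∀ J : ℕ, ∀ᶠ j in atTop, ∃ a b : Fin (J + 1) × ι → ℝ, Fac p Y (jpair σ ℓ a) ∧
    Fac p Y (jpair σ ℓ b) ∧
      ∀ x, ‖sj j ^ (x.1 : ℕ) * tj j x.2 - (a x + b x * Complex.I)‖ ≤ ‖sj j‖ ^ J

variable {p σ ℓ : ι → ℝ} {Y : (ℕ → ι) → ℝ} {ℓ0 : ℝ}

theorem flat_of_jetClose (hp : (∀ i, 0 ≤ p i) ∧ ∑ i, p i = 1) (hσ : ∀ i, |σ i| ≤ 1)
    (hℓ : ∀ i, ℓ0 ≤ ℓ i) (h0 : 0 < ℓ0) (hY : Measurable Y) {sj : ℕ → ℂ}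
    (hs0 : Tendsto sj atTop (𝓝 0)) {tj : ℕ → ι → ℂ} {t : ι → ℝ}
    (ht : Tendsto tj atTop (𝓝 fun i => (t i : ℂ))) (h : JetClose p σ ℓ Y sj tj)
    (g : TestFn ι) (J : ℕ) :
    ∃ C : ℝ, ∀ᶠ j in atTop, ‖∑ i, vT p σ ℓ Y g.1 (sj j) i * tj j i‖ ≤ C * ‖sj j‖ ^ J := by
  obtain ⟨Cg, hCg⟩ := g.2.2
  have hgm := g.2.1
  set A : ℝ := ∫ w, |QQ p Y g.1 w| ∂(PP p) with hA
  have hA0 : 0 ≤ A := integral_nonneg fun w => abs_nonneg _
  have hjK := jK_pos h0
  set M : ℝ := (∑ i, |t i|) + 1 with hM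
  have hM0 : 0 ≤ M := by
    have : 0 ≤ ∑ i, |t i| := Finset.sum_nonneg fun i _ => abs_nonneg _
    linarith
  refine ⟨((Fintype.card ι) * (2 ^ (J + 1) * 2 * jK ℓ0 * M) +
    (Fintype.card (Fin (J + 1) × ι)) * (2 ^ J * jK ℓ0)) * A, ?_⟩
  have hsmall : ∀ᶠ j in atTop, ‖sj j‖ < 1 / 4 := by
    have := hs0.norm
    rw [norm_zero] at this
    exact this.eventually_lt_const (by norm_num)
  have htb : ∀ᶠ j in atTop, ∀ i, ‖tj j i‖ ≤ M := by
    rw [eventually_all]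
    intro i
    have h1 : Tendsto (fun j => ‖tj j i‖) atTop (𝓝 ‖(t i : ℂ)‖) := ((tendsto_pi_nhds.mp ht) i).norm
    have h2 : ‖(t i : ℂ)‖ < M := by
      rw [Complex.norm_real, Real.norm_eq_abs, hM]
      have h3 : |t i| ≤ ∑ i, |t i| :=
        Finset.single_le_sum (f := fun i => |t i|) (fun i _ => abs_nonneg _) (Finset.mem_univ i)
      linarith
    exact (h1.eventually_lt_const h2).mono fun j hj => hj.le
  filter_upwards [h J, hsmall, htb] with j hj hsj htj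
  obtain ⟨a, b, ha, hb, hab⟩ := hj
  have hs2 : ‖sj j‖ ≤ 1 / 2 := by linarith
  rw [vT_dot hp hσ hℓ h0 hgm hCg hs2]
  have hXm : Measurable fun w => ∑ i, cinf (rayC σ ℓ (sj j)) w i * tj j i :=
    Finset.measurable_sum _ fun i _ =>
      (measurable_cinf (norm_rayC_le hσ hℓ h0.le hs2) (exp_half_lt_one h0) i).mul_const _
  set δ : ℝ := (Fintype.card ι) * ((2 * ‖sj j‖) ^ (J + 1) * 2 * jK ℓ0 * M) +
        (Fintype.card (Fin (J + 1) × ι)) * (2 ^ J * jK ℓ0 * ‖sj j‖ ^ J) with hδ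
  set K : ℝ := max (∑ x : Fin (J + 1) × ι, |a x| * (2 ^ (x.1 : ℕ) * jK ℓ0))
    (∑ x : Fin (J + 1) × ι, |b x| * (2 ^ (x.1 : ℕ) * jK ℓ0)) with hK
  have hmain := norm_integral_QQ_le hp hY hgm hCg hXm ha hb (measurable_jpair hσ hℓ h0 a)
    (measurable_jpair hσ hℓ h0 b) (K := K)
    (fun w => (abs_jpair_le hσ hℓ h0 a w).trans (le_max_left _ _))
    (fun w => (abs_jpair_le hσ hℓ h0 b w).trans (le_max_right _ _)) (δ := δ)
    (fun w => norm_cdot_sub_jpair_le hσ hℓ h0 hsj.le (tj j) htj a b hab w)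
  refine hmain.trans ?_
  rw [← hA]
  have hn0 := norm_nonneg (sj j)
  have h3 : (2 * ‖sj j‖) ^ (J + 1) ≤ 2 ^ (J + 1) * ‖sj j‖ ^ J := by
    rw [mul_pow]
    refine mul_le_mul_of_nonneg_left ?_ (by positivity)
    exact pow_le_pow_of_le_one hn0 (by linarith) (Nat.le_succ J)
  have h4 : δ ≤ ((Fintype.card ι) * (2 ^ (J + 1) * 2 * jK ℓ0 * M) +
    (Fintype.card (Fin (J + 1) × ι)) * (2 ^ J * jK ℓ0)) * ‖sj j‖ ^ J := by
    have h5 : (2 * ‖sj j‖) ^ (J + 1) * 2 * jK ℓ0 * M ≤ 2 ^ (J + 1) * ‖sj j‖ ^ J * 2 * jK ℓ0 * M := by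
      gcongr
    have h6 : ((Fintype.card ι : ℕ) : ℝ) * ((2 * ‖sj j‖) ^ (J + 1) * 2 * jK ℓ0 * M) ≤
        (Fintype.card ι) * (2 ^ (J + 1) * ‖sj j‖ ^ J * 2 * jK ℓ0 * M) :=
      mul_le_mul_of_nonneg_left h5 (Nat.cast_nonneg _)
    rw [hδ]
    linarith
  calc δ * A ≤ (((Fintype.card ι) * (2 ^ (J + 1) * 2 * jK ℓ0 * M) +
        (Fintype.card (Fin (J + 1) × ι)) * (2 ^ J * jK ℓ0)) * ‖sj j‖ ^ J) * A :=
        mul_le_mul_of_nonneg_right h4 hA0
    _ = _ := by ring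

/-- ST corollary, word/measure form -/
theorem st_words (hp : (∀ i, 0 ≤ p i) ∧ ∑ i, p i = 1) (hσ : ∀ i, |σ i| ≤ 1)
    (hℓ : ∀ i, ℓ0 ≤ ℓ i) (h0 : 0 < ℓ0) (hY : Measurable Y) {sj : ℕ → ℂ}
    (hs0 : Tendsto sj atTop (𝓝 0)) (hsne : ∃ᶠ j in atTop, sj j ≠ 0) {tj : ℕ → ι → ℂ} {t : ι → ℝ}
    (ht : Tendsto tj atTop (𝓝 fun i => (t i : ℂ))) (h : JetClose p σ ℓ Y sj tj) :
    ∃ Z : Set ℝ, Z.Countable ∧ ∀ s : ℝ, |s| < 1 / 2 → s ∉ Z →
      ∃ τ : ι → ℝ, Fac p Y (Pi (rayR σ ℓ s) τ) ∧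
        ∀ (n : ℕ) (u w : Fin n → ι),
          ∑ i, cw (rayR σ ℓ 0) u i * t i ≠ ∑ i, cw (rayR σ ℓ 0) w i * t i →
          ∑ i, cw (rayR σ ℓ s) u i * τ i ≠ ∑ i, cw (rayR σ ℓ s) w i * τ i := by
  obtain ⟨Z, hZ, hmain⟩ := stc_abstract σ ℓ t (G := TestFn ι) (r0 := 1 / 2) (by norm_num)
    (fun g => vT p σ ℓ Y g.1)
    (fun g i => by
      obtain ⟨C, hC⟩ := g.2.2
      exact analyticOnNhd_vT hp hσ hℓ h0 g.2.1 hC i)
    (fun g i s hs => by
      rw [vT_ofReal hσ hℓ h0 hs.le i]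
      exact Complex.ofReal_im _)
    sj hs0 hsne tj ht (flat_of_jetClose hp hσ hℓ h0 hY hs0 ht h)
  refine ⟨Z, hZ, fun s hs hsZ => ?_⟩
  obtain ⟨τ, hτ1, hτ2⟩ := hmain s hs hsZ
  exact ⟨τ, fac_of_vT hp hσ hℓ h0 hY hs.le hτ1, hτ2⟩

end Main

section Core

open Crest.Agent.R98.Top Crest.Agent.R98.Part Crest.Agent.R098.Upper

variable {ι : Type*} [Fintype ι]

omit [Fintype ι] in
theorem rr_eq_rayR (σ ℓ : ι → ℝ) (x : ℝ) : rr σ (fun i => (1 + x) * ℓ i) = rayR σ ℓ x := by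
  funext i
  unfold rr rayR
  rw [neg_mul]

omit [Fintype ι] in
theorem rr_eq_rayR_zero (σ ℓ : ι → ℝ) : rr σ ℓ = rayR σ ℓ 0 := by
  rw [← rr_eq_rayR]
  congr 1
  funext i
  ring


/-- no new coincidences: `hX` does not decrease -/
theorem hX_le_of_noNew {r t r' t' p : ι → ℝ} (hp : (∀ i, 0 ≤ p i) ∧ ∑ i, p i = 1)
    (h : ∀ (n : ℕ) (u w : Fin n → ι), ∑ i, cw r u i * t i ≠ ∑ i, cw r w i * t i →
      ∑ i, cw r' u i * t' i ≠ ∑ i, cw r' w i * t' i) :
    hX p r t ≤ hX p r' t' := by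
  unfold hX
  refine le_ciInf fun m => ?_
  have hb : BddBelow (Set.range fun n : ℕ =>
      HS (pw p : (Fin (n + 1) → ι) → ℝ) (Ex r t (n + 1)) / ((n : ℝ) + 1)) := by
    refine ⟨0, ?_⟩
    rintro _ ⟨m, rfl⟩
    exact div_nonneg (HW_nonneg hp _) (by positivity)
  refine (ciInf_le hb m).trans ?_
  refine div_le_div_of_nonneg_right (HS_anti (fun u => pw_nonneg hp.1 u) ?_) (by positivity)
  intro u w huw
  refine ⟨huw.1, ?_⟩
  have h2 : cdot r' t' u = cdot r' t' w := huw.2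
  by_contra hne
  exact h (m + 1) u w hne h2

variable [MeasurableSpace ι] [DiscreteMeasurableSpace ι]

/-- `Fac` gives monotonicity of `α` -/
theorem alpha_le_of_fac {p : ι → ℝ} (hp : (∀ i, 0 ≤ p i) ∧ ∑ i, p i = 1) {Y X : (ℕ → ι) → ℝ}
    (hY : Measurable Y) (hX : Measurable X) (h : Fac p Y X) : F.alpha p X ≤ F.alpha p Y := by
  obtain ⟨f, hf, e⟩ := h
  exact F.alpha_mono_ae hp hY hX ⟨fun w => f (Y w), hf.comp (comap_measurable Y), e⟩

/-- ST corollary in the shape of `Top.Core.st` -/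
theorem st_core {p σ ℓ : ι → ℝ} (hp : (∀ i, 0 ≤ p i) ∧ ∑ i, p i = 1) (hσ : IsS σ)
    (hℓ : ∀ i, 0 < ℓ i) (t : ι → ℝ)
    (hα : F.alpha p (Pi (rr σ ℓ) t) < chi p ℓ) (hh : F.alpha p (Pi (rr σ ℓ) t) < hX p (rr σ ℓ) t)
    {sj : ℕ → ℂ} (hs0 : Tendsto sj atTop (𝓝 0)) (hsne : ∃ᶠ j in atTop, sj j ≠ 0) {tj : ℕ → ι → ℂ}
    (ht : Tendsto tj atTop (𝓝 fun i => (t i : ℂ)))
    (h : JetClose p σ ℓ (Pi (rr σ ℓ) t) sj tj) :
    ∃ ρ > (0 : ℝ), ∃ Z : Set ℝ, Z.Countable ∧ ∀ x : ℝ, |x| < ρ → x ∉ Z →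
      ∃ t' : ι → ℝ, F.alpha p (Pi (rr σ fun i => (1 + x) * ℓ i) t') < chi p (fun i => (1 + x) * ℓ i) ∧
        F.alpha p (Pi (rr σ fun i => (1 + x) * ℓ i) t') < hX p (rr σ fun i => (1 + x) * ℓ i) t' := by
  have hne : Nonempty ι := by
    by_contra hne
    rw [not_nonempty_iff] at hne
    have := hp.2
    simp at this
  obtain ⟨i0, _, hi0⟩ := Finset.exists_min_image Finset.univ ℓ Finset.univ_nonempty
  have hℓ' : ∀ i, ℓ i0 ≤ ℓ i := fun i => hi0 i (Finset.mem_univ i)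
  have hσ' : ∀ i, |σ i| ≤ 1 := fun i => by
    rcases hσ i with h1 | h1 <;> simp [h1]
  have hr0 : ∀ i, |rayR σ ℓ 0 i| ≤ Real.exp (-ℓ i0 / 2) :=
    abs_rayR_le hσ' hℓ' (hℓ i0).le (by norm_num)
  have hY : Measurable (Pi (rr σ ℓ) t) := by
    rw [rr_eq_rayR_zero]
    exact measurable_Pi hr0 (exp_half_lt_one (hℓ i0)) t
  obtain ⟨Z, hZ, hmain⟩ := st_words hp hσ' hℓ' (hℓ i0) hY hs0 hsne ht h
  -- the exponent
  have hchi : ∀ x : ℝ, chi p (fun i => (1 + x) * ℓ i) = (1 + x) * chi p ℓ := by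
    intro x
    unfold chi
    rw [Finset.mul_sum]
    exact Finset.sum_congr rfl fun i _ => by ring
  have hchi0 : 0 < chi p ℓ := by
    unfold chi
    have h1 : ∃ i, 0 < p i := by
      by_contra hcon
      push Not at hcon
      have : ∑ i, p i ≤ 0 := Finset.sum_nonpos fun i _ => hcon i
      linarith [hp.2]
    obtain ⟨i1, hi1⟩ := h1
    exact Finset.sum_pos' (fun i _ => mul_nonneg (hp.1 i) (hℓ i).le)
      ⟨i1, Finset.mem_univ _, mul_pos hi1 (hℓ i1)⟩
  set α : ℝ := F.alpha p (Pi (rr σ ℓ) t) with hαdef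
  refine ⟨min (1 / 2) ((chi p ℓ - α) / chi p ℓ), lt_min (by norm_num) (div_pos (by linarith) hchi0),
    Z, hZ, fun x hx hxZ => ?_⟩
  have hx1 : |x| < 1 / 2 := lt_of_lt_of_le hx (min_le_left _ _)
  have hx2 : |x| < (chi p ℓ - α) / chi p ℓ := lt_of_lt_of_le hx (min_le_right _ _)
  obtain ⟨τ, hτ1, hτ2⟩ := hmain x hx1 hxZ
  have hrx : ∀ i, |rayR σ ℓ x i| ≤ Real.exp (-ℓ i0 / 2) :=
    abs_rayR_le hσ' hℓ' (hℓ i0).le hx1.le
  have hXm : Measurable (Pi (rayR σ ℓ x) τ) := measurable_Pi hrx (exp_half_lt_one (hℓ i0)) τ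
  have hle : F.alpha p (Pi (rayR σ ℓ x) τ) ≤ α := alpha_le_of_fac hp hY hXm hτ1
  refine ⟨τ, ?_, ?_⟩
  · rw [rr_eq_rayR, hchi]
    refine lt_of_le_of_lt hle ?_
    rw [lt_div_iff₀ hchi0] at hx2
    have h3 : -x ≤ |x| := neg_le_abs x
    have h4 : -x * chi p ℓ ≤ |x| * chi p ℓ := mul_le_mul_of_nonneg_right h3 hchi0.le
    linarith
  · rw [rr_eq_rayR]
    refine lt_of_le_of_lt hle (hh.trans_le ?_)
    refine hX_le_of_noNew hp ?_
    intro n u w hne'
    apply hτ2 n u w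
    rw [← rr_eq_rayR_zero]
    exact hne'

end Core

end Crest.Agent.R98
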