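import Crest.Agent.R98.Top0
import Crest.Agent.R98.Word4
import Crest.Agent.R98.BC
import Crest.Agent.R98.STCore

-- ▼ part R98/TopBasic
section

/-!
Row 98 (S0129). Module TOP, basic estimates (helper803).
-/

set_option autoImplicit false

namespace Crest.Agent.R98.Top

open Crest.AnalysisR Crest.Agent.R98 Crest.Agent.R98.Part Crest.Agent.R098.Upper Filter Topology
  MeasureTheory

section Lip

variable {ι 𝕜 : Type*} [NormedField 𝕜]


end Lip

variable {ι : Type*} [Fintype ι]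

omit [Fintype ι] in
lemma abs_sign {σ : ι → ℝ} (hσ : IsS σ) (i : ι) : |σ i| = 1 := by
  rcases hσ i with h | h <;> simp [h]

omit [Fintype ι] in
lemma rayc_zero (σ ℓ : ι → ℝ) (i : ι) : rayc σ ℓ 0 i = ((rr σ ℓ i : ℝ) : ℂ) := by
  unfold rayc rr
  push_cast
  simp

lemma norm_rayc {σ : ι → ℝ} (hσ : IsS σ) (ℓ : ι → ℝ) (s : ℂ) (i : ι) :
    ‖rayc σ ℓ s i‖ = Real.exp (-(1 + s.re) * ℓ i) := by
  unfold rayc
  rw [norm_mul, Complex.norm_real, Real.norm_eq_abs, abs_sign hσ, one_mul, Complex.norm_exp]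
  congr 1
  simp

lemma exists_q (ℓ : ι → ℝ) (hℓ : ∀ i, 0 < ℓ i) :
    ∃ q : ℝ, 0 ≤ q ∧ q < 1 ∧ ∀ i, Real.exp (-(ℓ i / 2)) ≤ q := by
  classical
  by_cases hne : Nonempty ι
  · obtain ⟨i0, hi0⟩ := Finite.exists_min ℓ
    refine ⟨Real.exp (-(ℓ i0 / 2)), (Real.exp_pos _).le, ?_, fun i => ?_⟩
    · rw [Real.exp_lt_one_iff]
      have := hℓ i0
      linarith
    · apply Real.exp_le_exp.mpr
      have := hi0 i
      linarith
  · rw [not_nonempty_iff] at hne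
    exact ⟨0, le_rfl, one_pos, fun i => hne.elim i⟩

lemma norm_rayc_le {σ : ι → ℝ} (hσ : IsS σ) {ℓ : ι → ℝ} (hℓ : ∀ i, 0 < ℓ i) {q : ℝ}
    (hq : ∀ i, Real.exp (-(ℓ i / 2)) ≤ q) {s : ℂ} (hs : ‖s‖ ≤ 1 / 2) (i : ι) :
    ‖rayc σ ℓ s i‖ ≤ q := by
  rw [norm_rayc hσ]
  refine le_trans (Real.exp_le_exp.mpr ?_) (hq i)
  have h1 : -(1 / 2) ≤ s.re := by
    have := (abs_le.mp (Complex.abs_re_le_norm s)).1
    linarith
  have := hℓ i
  nlinarith

lemma norm_rr_le {σ : ι → ℝ} (hσ : IsS σ) {ℓ : ι → ℝ} (hℓ : ∀ i, 0 < ℓ i) {q : ℝ}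
    (hq : ∀ i, Real.exp (-(ℓ i / 2)) ≤ q) (i : ι) : ‖rr σ ℓ i‖ ≤ q := by
  have h := norm_rayc_le hσ hℓ hq (s := 0) (by simp) i
  rw [rayc_zero, Complex.norm_real] at h
  exact h

/-- complex exponential ratio: `‖e^{-(1+s)x} - e^{-x}‖ ≤ 2 ‖s‖ x` for `x ≥ 0`, `‖s‖ x ≤ 1` -/
lemma norm_rayc_sub {σ : ι → ℝ} (hσ : IsS σ) {ℓ : ι → ℝ} (hℓ : ∀ i, 0 < ℓ i) {s : ℂ} (i : ι)
    (hs : ‖s‖ * ℓ i ≤ 1) : ‖rayc σ ℓ s i - rayc σ ℓ 0 i‖ ≤ 2 * (‖s‖ * ℓ i) := by
  unfold rayc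
  have e : (σ i : ℂ) * Complex.exp (-(1 + s) * ℓ i) - (σ i : ℂ) * Complex.exp (-(1 + 0) * ℓ i) =
      (σ i : ℂ) * (Complex.exp (-(ℓ i : ℂ)) * (Complex.exp (-(s * ℓ i)) - 1)) := by
    have : Complex.exp (-(1 + s) * ℓ i) = Complex.exp (-(ℓ i : ℂ)) * Complex.exp (-(s * ℓ i)) := by
      rw [← Complex.exp_add]; congr 1; ring
    rw [this]
    have h2 : (-(1 + 0) * (ℓ i : ℂ)) = -(ℓ i : ℂ) := by ring
    rw [h2]
    ring
  rw [e, norm_mul, norm_mul, Complex.norm_real, Real.norm_eq_abs, abs_sign hσ, one_mul]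
  have h1 : ‖Complex.exp (-(ℓ i : ℂ))‖ ≤ 1 := by
    rw [Complex.norm_exp]
    apply Real.exp_le_one_iff.mpr
    simp [(hℓ i).le]
  have h2 : ‖-(s * (ℓ i : ℂ))‖ = ‖s‖ * ℓ i := by
    rw [norm_neg, norm_mul, Complex.norm_real, Real.norm_of_nonneg (hℓ i).le]
  have h3 := Complex.norm_exp_sub_one_le (x := -(s * (ℓ i : ℂ))) (by rw [h2]; exact hs)
  rw [h2] at h3
  calc ‖Complex.exp (-(ℓ i : ℂ))‖ * ‖Complex.exp (-(s * ℓ i)) - 1‖
      ≤ 1 * (2 * (‖s‖ * ℓ i)) := mul_le_mul h1 h3 (norm_nonneg _) zero_le_one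
    _ = _ := by ring

/-- `c_u` over `ℂ` at `s = 0` is the real `c_u` -/
lemma cw_rayc_zero (σ ℓ : ι → ℝ) {n : ℕ} (u : Fin n → ι) (i : ι) :
    cw (rayc σ ℓ 0) u i = ((cw (rr σ ℓ) u i : ℝ) : ℂ) := by
  have h := map_cw Complex.ofRealHom (rr σ ℓ) u i
  have e : rayc σ ℓ 0 = fun i => Complex.ofRealHom (rr σ ℓ i) := by
    funext i
    rw [rayc_zero]
    rfl
  rw [e]
  exact h.symm

/-- the sum of the coefficients `c_u(s) - c_v(s)` against `t'` -/
noncomputable def dsum (ρ : ι → ℂ) {n : ℕ} (u v : Fin n → ι) (t' : ι → ℂ) : ℂ :=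
  ∑ i, (cw ρ u i - cw ρ v i) * t' i



lemma dsum_zero_real (σ ℓ t : ι → ℝ) {n : ℕ} (u v : Fin n → ι) :
    dsum (rayc σ ℓ 0) u v (fun i => (t i : ℂ)) =
      ((cdot (rr σ ℓ) t u - cdot (rr σ ℓ) t v : ℝ) : ℂ) := by
  unfold dsum cdot
  rw [← Finset.sum_sub_distrib]
  push_cast
  refine Finset.sum_congr rfl fun i _ => ?_
  rw [cw_rayc_zero, cw_rayc_zero]
  ring



end Crest.Agent.R98.Top
end

-- ▼ part R98/TopKW2
section

/-!
Row 98 (S0129). Module TOP: consumer of LT in the exact (rank one) case (helper803).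
-/

set_option autoImplicit false

namespace Crest.Agent.R98.Top

open Crest.AnalysisR Crest.Agent.R98 Crest.Agent.R98.Part Crest.Agent.R098.Upper Filter Topology
  MeasureTheory

variable {ι : Type*} [Fintype ι]

omit [Fintype ι] in
lemma InC.add {W : Submodule ℝ (ι → ℝ)} {a b : ι → ℂ} (ha : InC W a) (hb : InC W b) :
    InC W (a + b) := by
  refine ⟨?_, ?_⟩
  · exact W.add_mem ha.1 hb.1
  · exact W.add_mem ha.2 hb.2

omit [Fintype ι] in
lemma InC.smul {W : Submodule ℝ (ι → ℝ)} {a : ι → ℂ} (ha : InC W a) (c : ℂ) :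
    InC W (c • a) := by
  refine ⟨?_, ?_⟩
  · have := W.sub_mem (W.smul_mem c.re ha.1) (W.smul_mem c.im ha.2)
    convert this using 1
    funext i
    simp [Complex.mul_re]
  · have := W.add_mem (W.smul_mem c.re ha.2) (W.smul_mem c.im ha.1)
    convert this using 1
    funext i
    simp [Complex.mul_im]

omit [Fintype ι] in
lemma InC.zero (W : Submodule ℝ (ι → ℝ)) : InC W (0 : ι → ℂ) :=
  ⟨W.zero_mem, W.zero_mem⟩

omit [Fintype ι] in
lemma InC.sub {W : Submodule ℝ (ι → ℝ)} {a b : ι → ℂ} (ha : InC W a) (hb : InC W b) :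
    InC W (a - b) := by
  have := ha.add (hb.smul (-1))
  simpa [sub_eq_add_neg] using this

/-- if `K ⊆ W_C` approximates every point of `W` with relative error `ε ≤ 1/4` then `W ⊆ K` -/
lemma mem_of_close {W : Submodule ℝ (ι → ℝ)} {K : Submodule ℂ (ι → ℂ)} {ε : ℝ} (hε : ε ≤ 1 / 4)
    (hK : ∀ y ∈ K, InC W y)
    (hc : ∀ t' ∈ W, ∃ t'' ∈ K, ∀ i, ‖t'' i - t' i‖ ≤ ε * ‖t'‖) {w : ι → ℂ} (hw : InC W w) :
    w ∈ K := by
  -- one step
  have step : ∀ w : ι → ℂ, InC W w → ∃ y ∈ K, ‖w - y‖ ≤ 1 / 2 * ‖w‖ := by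
    intro w hw
    obtain ⟨y1, hy1, h1⟩ := hc _ hw.1
    obtain ⟨y2, hy2, h2⟩ := hc _ hw.2
    refine ⟨y1 + Complex.I • y2, K.add_mem hy1 (K.smul_mem _ hy2), ?_⟩
    have hre : ‖(fun i => (w i).re)‖ ≤ ‖w‖ := by
      rw [pi_norm_le_iff_of_nonneg (norm_nonneg _)]
      intro i
      exact (Complex.abs_re_le_norm _).trans (norm_le_pi_norm w i)
    have him : ‖(fun i => (w i).im)‖ ≤ ‖w‖ := by
      rw [pi_norm_le_iff_of_nonneg (norm_nonneg _)]
      intro i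
      exact (Complex.abs_im_le_norm _).trans (norm_le_pi_norm w i)
    rw [pi_norm_le_iff_of_nonneg (by positivity)]
    intro i
    have e : (w - (y1 + Complex.I • y2)) i = -((y1 i - ((w i).re : ℝ)) +
        Complex.I * (y2 i - ((w i).im : ℝ))) := by
      simp only [Pi.sub_apply, Pi.add_apply, Pi.smul_apply, smul_eq_mul]
      conv_lhs => rw [← Complex.re_add_im (w i)]
      ring
    rw [e, norm_neg]
    have h3 : ‖(y1 i - ((w i).re : ℝ)) + Complex.I * (y2 i - ((w i).im : ℝ))‖ ≤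
        ‖y1 i - ((w i).re : ℝ)‖ + ‖y2 i - ((w i).im : ℝ)‖ := by
      refine (norm_add_le _ _).trans ?_
      rw [norm_mul, Complex.norm_I, one_mul]
    have h4 := h1 i
    have h5 := h2 i
    have h6 : ε * ‖(fun i => (w i).re)‖ ≤ 1 / 4 * ‖w‖ := by
      have := norm_nonneg (fun i => (w i).re)
      nlinarith [norm_nonneg w]
    have h7 : ε * ‖(fun i => (w i).im)‖ ≤ 1 / 4 * ‖w‖ := by
      have := norm_nonneg (fun i => (w i).im)
      nlinarith [norm_nonneg w]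
    linarith
  have iter : ∀ n : ℕ, ∀ w : ι → ℂ, InC W w → ∃ y ∈ K, ‖w - y‖ ≤ (1 / 2) ^ n * ‖w‖ := by
    intro n
    induction n with
    | zero => intro w _; exact ⟨0, K.zero_mem, by simp⟩
    | succ n ih =>
      intro w hw
      obtain ⟨y, hy, h1⟩ := step w hw
      obtain ⟨y', hy', h2⟩ := ih (w - y) (hw.sub (hK y hy))
      refine ⟨y + y', K.add_mem hy hy', ?_⟩
      have e : w - (y + y') = w - y - y' := by abel
      rw [e]
      refine h2.trans ?_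
      rw [pow_succ]
      have h3 : (0:ℝ) ≤ (1 / 2) ^ n := by positivity
      calc (1 / 2 : ℝ) ^ n * ‖w - y‖ ≤ (1 / 2 : ℝ) ^ n * (1 / 2 * ‖w‖) :=
            mul_le_mul_of_nonneg_left h1 h3
        _ = _ := by ring
  have hcl : IsClosed (K : Set (ι → ℂ)) := Submodule.closed_of_finiteDimensional K
  have : w ∈ closure (K : Set (ι → ℂ)) := by
    rw [Metric.mem_closure_iff]
    intro δ hδ
    obtain ⟨n, hn⟩ := exists_pow_lt_of_lt_one (show 0 < δ / (‖w‖ + 1) by positivity)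
      (by norm_num : (1 / 2 : ℝ) < 1)
    obtain ⟨y, hy, h1⟩ := iter n w hw
    refine ⟨y, hy, ?_⟩
    rw [dist_eq_norm]
    refine lt_of_le_of_lt h1 ?_
    have h2 : (1 / 2 : ℝ) ^ n * (‖w‖ + 1) < δ := by
      rwa [lt_div_iff₀ (by positivity)] at hn
    have h3 : (0:ℝ) ≤ (1 / 2) ^ n := by positivity
    nlinarith
  rwa [hcl.closure_eq] at this

/-- classes of `Cl` are near pairs -/
lemma near_of_Cl {r t : ι → ℝ} {m : ℕ} {X : ℝ} {u v : Fin m → ι} (h : Cl r t m X u v) :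
    Near r t X u v := by
  obtain ⟨h1, h2⟩ := h
  refine ⟨h1, ?_⟩
  have h3 : ⌊(cdot r t u - 0) / Real.exp (-X)⌋ = ⌊(cdot r t v - 0) / Real.exp (-X)⌋ := h2
  have h4 := Int.abs_sub_lt_one_of_floor_eq_floor h3
  rw [sub_zero, sub_zero, ← sub_div, abs_div, abs_of_pos (Real.exp_pos _),
    div_lt_one (Real.exp_pos _)] at h4
  exact h4.le

lemma ev_exp_le (A C : ℝ) : ∀ᶠ m : ℕ in atTop,
    A * Real.exp (-((m : ℝ) * Real.log m)) ≤ Real.exp (-(C * m)) := by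
  have h1 : Tendsto (fun m : ℕ => Real.log (m : ℝ)) atTop atTop :=
    Real.tendsto_log_atTop.comp tendsto_natCast_atTop_atTop
  filter_upwards [h1.eventually_ge_atTop (C + |A|), eventually_ge_atTop 1] with m hm hm1
  have hm1' : (1:ℝ) ≤ m := by exact_mod_cast hm1
  have h2 : |A| ≤ Real.exp (|A| * m) := by
    have h3 := Real.add_one_le_exp (|A| * m)
    have := abs_nonneg A
    nlinarith
  calc A * Real.exp (-((m : ℝ) * Real.log m)) ≤ |A| * Real.exp (-((m : ℝ) * Real.log m)) :=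
        mul_le_mul_of_nonneg_right (le_abs_self A) (Real.exp_pos _).le
    _ ≤ Real.exp (|A| * m) * Real.exp (-((m : ℝ) * Real.log m)) :=
        mul_le_mul_of_nonneg_right h2 (Real.exp_pos _).le
    _ = Real.exp (|A| * m - (m : ℝ) * Real.log m) := by rw [← Real.exp_add]; congr 1
    _ ≤ Real.exp (-(C * m)) := by
        apply Real.exp_le_exp.mpr
        nlinarith

/-- exact approximants give `Dat` with `η = 0` -/
lemma dat_of_Apx {p σ : ι → ℝ} {ℓ t : ι → ℝ} {W : Submodule ℝ (ι → ℝ)} {α : ℝ}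
    {m : ℕ → ℕ} {X ε : ℕ → ℝ} {s : ℕ → ℂ} {K : ℕ → Submodule ℂ (ι → ℂ)}
    (hm : Tendsto m atTop atTop) (hε : Tendsto ε atTop (𝓝 0))
    (hH : ∀ j, HS (pw p : (Fin (m j) → ι) → ℝ) (Cl (rr σ ℓ) t (m j) (X j)) ≤ (α + ε j) * m j)
    (hA : ∀ j, Apx σ ℓ t W (m j) (X j) 0 0 (m j * Real.log (m j)) (s j) (K j))
    {τ : ℕ → ι → ℂ} (hτK : ∀ j, τ j ∈ K j) {A : ℝ}
    (hτ : ∀ j i, ‖τ j i - t i‖ ≤ A * Real.exp (-((m j : ℝ) * Real.log (m j)))) :
    Dat p σ ℓ t α m s τ (fun _ => 0) ε (fun j => Cl (rr σ ℓ) t (m j) (X j)) where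
  hm := hm
  hε := hε
  hη := fun _ => le_rfl
  hty := fun j => inf_le_left
  hcl := fun j u v huv => by
    have h := (hA j).kill (τ j) (hτK j) u v (near_of_Cl huv)
    simpa using h
  hH := hH
  hs := fun C => by
    filter_upwards [hm.eventually (ev_exp_le 1 C)] with j hj
    refine (hA j).s_small.trans ?_
    simpa using hj
  hτ := fun C => by
    filter_upwards [hm.eventually (ev_exp_le A C)] with j hj i
    exact (hτ j i).trans hj
  hηs := fun C => Eventually.of_forall fun j => (Real.exp_pos _).le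

/-- KW2, exact case: if the approximants have `s j = 0`, near pairs are eventually exact
coincidences -/
theorem kw2_exact {p σ : ι → ℝ} (S : Core p σ) {ℓ t : ι → ℝ} (hℓ : ∀ i, 0 < ℓ i)
    (hα : S.α ℓ t < chi p ℓ) {m : ℕ → ℕ} {X ε : ℕ → ℝ} {K : ℕ → Submodule ℂ (ι → ℂ)}
    (hm : Tendsto m atTop atTop) (hε : Tendsto ε atTop (𝓝 0))
    (hH : ∀ j, HS (pw p : (Fin (m j) → ι) → ℝ) (Cl (rr σ ℓ) t (m j) (X j)) ≤
      (S.α ℓ t + ε j) * m j)
    (hA : ∀ j, Apx σ ℓ t (S.W ℓ t) (m j) (X j) 0 0 (m j * Real.log (m j)) 0 (K j)) :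
    ∀ᶠ j in atTop, ∀ u v : Fin (m j) → ι, Near (rr σ ℓ) t (X j) u v →
      cdot (rr σ ℓ) t u = cdot (rr σ ℓ) t v := by
  classical
  have htW := S.self_mem ℓ t hℓ
  -- approximations of `t`
  choose t'' ht''K ht'' using fun j => (hA j).close t htW
  have hlt0 : ∀ (φ : ℕ → ℕ), StrictMono φ → ∀ (τ : ℕ → ι → ℂ), (∀ j, τ j ∈ K (φ j)) →
      ∀ A : ℝ, (∀ j i, ‖τ j i - t i‖ ≤
        A * Real.exp (-((m (φ j) : ℝ) * Real.log (m (φ j))))) →
      ∀ᶠ j in atTop, InC (S.W ℓ t) (τ j) := by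
    intro φ hφ τ hτK A hτ
    have hD := dat_of_Apx (p := p) (α := S.α ℓ t) (hm.comp hφ.tendsto_atTop)
      (hε.comp hφ.tendsto_atTop) (fun j => hH (φ j)) (fun j => hA (φ j)) hτK hτ
    filter_upwards [S.lt ℓ t hℓ hα _ _ _ _ _ _ hD] with j hj
    obtain ⟨w, hw, h1⟩ := hj
    have : τ j = w := by
      funext i
      have h2 := h1 i
      simp only [norm_zero, max_self, Real.sqrt_zero] at h2
      exact sub_eq_zero.mp (norm_le_zero_iff.mp h2)
    rw [this]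
    exact hw
  -- Step A
  have hStepA : ∀ᶠ j in atTop, ∀ y ∈ K j, InC (S.W ℓ t) y := by
    by_contra hcon
    rw [not_eventually] at hcon
    obtain ⟨φ, hφ, hbad⟩ := extraction_of_frequently_atTop hcon
    push Not at hbad
    choose y hyK hyW using hbad
    have hy0 : ∀ j, 0 < ‖y j‖ := by
      intro j
      rw [norm_pos_iff]
      intro h
      apply hyW j
      rw [h]
      exact InC.zero _
    set g : ℕ → ℝ := fun j => Real.exp (-((m (φ j) : ℝ) * Real.log (m (φ j)))) with hg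
    set y' : ℕ → ι → ℂ := fun j => ((g j / ‖y j‖ : ℝ) : ℂ) • y j with hy'
    have h1 := hlt0 φ hφ (fun j => t'' (φ j)) (fun j => ht''K (φ j)) ‖t‖ (fun j i => by
      have := ht'' (φ j) i
      rwa [mul_comm] at this)
    have h2 := hlt0 φ hφ (fun j => t'' (φ j) + y' j)
      (fun j => (K (φ j)).add_mem (ht''K (φ j)) ((K (φ j)).smul_mem _ (hyK j))) (‖t‖ + 1)
      (fun j i => by
        have h3 := ht'' (φ j) i
        have h4 : ‖y' j i‖ ≤ g j := by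
          simp only [hy', Pi.smul_apply, smul_eq_mul, norm_mul, Complex.norm_real]
          have h5 := norm_le_pi_norm (y j) i
          have h6 : 0 ≤ g j / ‖y j‖ := div_nonneg (Real.exp_pos _).le (hy0 j).le
          rw [Real.norm_of_nonneg h6]
          calc g j / ‖y j‖ * ‖y j i‖ ≤ g j / ‖y j‖ * ‖y j‖ := mul_le_mul_of_nonneg_left h5 h6
            _ = g j := div_mul_cancel₀ _ (hy0 j).ne'
        have e : (t'' (φ j) + y' j) i - t i = (t'' (φ j) i - t i) + y' j i := by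
          simp only [Pi.add_apply]; ring
        rw [e]
        refine (norm_add_le _ _).trans ?_
        calc ‖t'' (φ j) i - t i‖ + ‖y' j i‖ ≤ g j * ‖t‖ + g j := add_le_add h3 h4
          _ = _ := by ring)
    obtain ⟨j, hj1, hj2⟩ := (h1.and h2).exists
    apply hyW j
    have h3 : InC (S.W ℓ t) (y' j) := by
      have := hj2.sub hj1
      simpa using this
    have h4 := h3.smul (((g j / ‖y j‖ : ℝ) : ℂ)⁻¹)
    have h5 : ((g j / ‖y j‖ : ℝ) : ℂ) ≠ 0 := by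
      have : g j / ‖y j‖ ≠ 0 := (div_pos (Real.exp_pos _) (hy0 j)).ne'
      exact_mod_cast this
    rwa [hy', smul_smul, inv_mul_cancel₀ h5, one_smul] at h4
  filter_upwards [hStepA, hm.eventually (ev_exp_le 1 2), hm.eventually_ge_atTop 1] with j hj he hm1
    u v huv
  have hsmall : Real.exp (-((m j : ℝ) * Real.log (m j))) ≤ 1 / 4 := by
    have h2 : (1:ℝ) ≤ m j := by exact_mod_cast hm1
    rw [one_mul] at he
    refine he.trans ?_
    have h3 : Real.exp (-(2 * (m j : ℝ))) ≤ Real.exp (-2) := Real.exp_le_exp.mpr (by linarith)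
    refine h3.trans ?_
    rw [Real.exp_neg, one_div]
    apply inv_anti₀ (by norm_num)
    have h4 : (2 : ℝ) ≤ Real.exp 1 := by
      have := Real.add_one_le_exp (1 : ℝ)
      linarith
    calc (4 : ℝ) = 2 ^ 2 := by norm_num
      _ ≤ Real.exp 1 ^ 2 := by gcongr
      _ = Real.exp 2 := by rw [← Real.exp_nat_mul]; norm_num
  have htK : (fun i => (t i : ℂ)) ∈ K j := by
    refine mem_of_close hsmall hj (hA j).close ⟨?_, ?_⟩
    · simpa using htW
    · have : (fun i => ((t i : ℂ)).im) = (0 : ι → ℝ) := by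
        funext i
        simp
      rw [this]
      exact (S.W ℓ t).zero_mem
  have h5 := (hA j).kill _ htK u v huv
  simp only [mul_zero, zero_mul] at h5
  have h6 := dsum_zero_real σ ℓ t u v
  unfold dsum at h6
  rw [h6, norm_le_zero_iff] at h5
  have h7 : cdot (rr σ ℓ) t u - cdot (rr σ ℓ) t v = 0 := by exact_mod_cast h5
  linarith

end Crest.Agent.R98.Top
end

-- ▼ part R98/TopSel
section

/-!
Row 98 (S0129). Module TOP: choice of a generic counterexample with minimal `W` (helper803).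
-/

set_option autoImplicit false

namespace Crest.Agent.R98.Top

open Crest.AnalysisR Crest.Agent.R98 Crest.Agent.R98.Part Crest.Agent.R098.Upper Filter Topology
  MeasureTheory

variable {ι : Type*} [Fintype ι]

/-- `t ↦ (c_u - c_v) · t` as a linear map -/
noncomputable def cdiff (r : ι → ℝ) {m : ℕ} (u v : Fin m → ι) : (ι → ℝ) →ₗ[ℝ] ℝ :=
  ∑ i, (cw r u i - cw r v i) • LinearMap.proj i

lemma cdiff_apply (r : ι → ℝ) {m : ℕ} (u v : Fin m → ι) (t : ι → ℝ) :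
    cdiff r u v t = cdot r t u - cdot r t v := by
  unfold cdiff cdot
  rw [← Finset.sum_sub_distrib]
  simp only [LinearMap.coe_sum, Finset.sum_apply, LinearMap.smul_apply, LinearMap.coe_proj,
    Function.eval, smul_eq_mul]
  exact Finset.sum_congr rfl fun i _ => by ring

lemma cdiff_append (r : ι → ℝ) {m n : ℕ} (u v : Fin m → ι) (w : Fin n → ι)
    (h : wtype u = wtype v) (t : ι → ℝ) :
    cdiff r (Fin.append u w) (Fin.append v w) t = cdiff r u v t := by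
  rw [cdiff_apply, cdiff_apply]
  exact dotp_append_sub r t u v w h

lemma hX_bdd {p : ι → ℝ} (hp : ∀ i, 0 ≤ p i) (hp1 : ∑ i, p i = 1) (r t : ι → ℝ) :
    BddBelow (Set.range fun n : ℕ => HS (pw p : (Fin (n + 1) → ι) → ℝ) (Ex r t (n + 1)) /
      ((n : ℝ) + 1)) := by
  refine ⟨0, ?_⟩
  rintro _ ⟨n, rfl⟩
  have h1 : 0 ≤ HS (pw p : (Fin (n + 1) → ι) → ℝ) (Ex r t (n + 1)) :=
    HW_nonneg ⟨hp, hp1⟩ _
  positivity

lemma hX_le {p : ι → ℝ} (hp : ∀ i, 0 ≤ p i) (hp1 : ∑ i, p i = 1) (r t : ι → ℝ) {m : ℕ}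
    (hm : 1 ≤ m) : hX p r t ≤ HS (pw p : (Fin m → ι) → ℝ) (Ex r t m) / m := by
  obtain ⟨n, rfl⟩ : ∃ n, m = n + 1 := ⟨m - 1, by omega⟩
  refine (ciInf_le (hX_bdd hp hp1 r t) n).trans (le_of_eq ?_)
  push_cast
  rfl

lemma hX_mono {p : ι → ℝ} (hp : ∀ i, 0 ≤ p i) (hp1 : ∑ i, p i = 1) {r t t' : ι → ℝ}
    (h : ∀ n, Ex r t' n ≤ Ex r t n) : hX p r t ≤ hX p r t' := by
  refine ciInf_mono (hX_bdd hp hp1 r t) fun n => ?_
  have h1 : HS (pw p : (Fin (n + 1) → ι) → ℝ) (Ex r t (n + 1)) ≤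
      HS (pw p : (Fin (n + 1) → ι) → ℝ) (Ex r t' (n + 1)) := HW_anti hp (h _)
  gcongr

/-- choice of a counterexample over the given `ℓ` with minimal `W` and the BC2 lower bounds -/
theorem select [Nonempty ι] {p σ : ι → ℝ} (hp : ∀ i, 0 ≤ p i) (hp1 : ∑ i, p i = 1)
    (S : Core p σ) {ℓ : ι → ℝ} (hℓ : ∀ i, 0 < ℓ i) (h : ∃ t, S.Ctr ℓ t) :
    ∃ t, S.Ctr ℓ t ∧ ∃ C₅ : ℝ, BC2 (rr σ ℓ) t (S.W ℓ t) (fun m => m) C₅ := by
  classical
  -- minimal dimension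
  obtain ⟨t₀, ht₀, hmin⟩ : ∃ t₀, S.Ctr ℓ t₀ ∧ ∀ t, S.Ctr ℓ t →
      Module.finrank ℝ (S.W ℓ t₀) ≤ Module.finrank ℝ (S.W ℓ t) := by
    let P : ℕ → Prop := fun d => ∃ t, S.Ctr ℓ t ∧ Module.finrank ℝ (S.W ℓ t) = d
    have hP : ∃ d, P d := by
      obtain ⟨t, ht⟩ := h
      exact ⟨_, t, ht, rfl⟩
    obtain ⟨t, ht, hd⟩ := Nat.find_spec hP
    refine ⟨t, ht, fun t' ht' => ?_⟩
    rw [hd]
    exact Nat.find_min' hP ⟨t', ht', rfl⟩
  set W₀ := S.W ℓ t₀ with hW₀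
  set k := Fintype.card ι with hk
  -- the list of functionals
  obtain ⟨L, hLapp⟩ : ∃ L : ∀ m : ℕ, (Fin m → ι) → (Fin m → ι) → (W₀ →L[ℝ] ℝ),
      ∀ m (u v : Fin m → ι) (t' : W₀), L m u v t' = cdiff (rr σ ℓ) u v (t' : ι → ℝ) :=
    ⟨fun m u v => LinearMap.toContinuousLinearMap ((cdiff (rr σ ℓ) u v).comp W₀.subtype),
      fun m u v t' => rfl⟩
  let LL : ℕ → Finset (W₀ →L[ℝ] ℝ) := fun m =>
    (Finset.univ : Finset ((Fin m → ι) × (Fin m → ι))).image fun x => L m x.1 x.2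
  have hcard : ∀ m, ((LL m).card : ℝ) ≤ Real.exp (2 * Real.log k * m) := by
    intro m
    have h1 : (LL m).card ≤ k ^ m * k ^ m := by
      refine Finset.card_image_le.trans ?_
      rw [Finset.card_univ, Fintype.card_prod, Fintype.card_fun, Fintype.card_fin]
    have hk0 : (0 : ℝ) < k := by
      rw [hk]; exact_mod_cast Fintype.card_pos
    have h2 : Real.exp (2 * Real.log k * m) = (k : ℝ) ^ m * (k : ℝ) ^ m := by
      have : 2 * Real.log k * m = m * Real.log k + m * Real.log k := by ring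
      rw [this, Real.exp_add, Real.exp_nat_mul, Real.exp_log hk0]
    rw [h2]
    exact_mod_cast h1
  obtain ⟨t₁, ht₁⟩ : ∃ t₁ : W₀, ∀ᶠ m : ℕ in atTop, ∀ f ∈ LL m,
      Real.exp (-((2 * Real.log k + 1) * m)) * ‖f‖ ≤ |f t₁| := by
    have hae := ae_linear_lower (E := W₀) (Measure.addHaar : Measure W₀) LL
      (C := 2 * Real.log k) (Eventually.of_forall hcard)
    exact hae.exists
  have hW1 : (t₁ : ι → ℝ) ∈ W₀ := t₁.2
  -- lower bound at every large level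
  have hlow : ∀ᶠ m : ℕ in atTop, ∀ u v : Fin m → ι, ∀ t' ∈ W₀,
      |cdot (rr σ ℓ) t' u - cdot (rr σ ℓ) t' v| ≤ Real.exp ((2 * Real.log k + 1) * m) *
        |cdot (rr σ ℓ) t₁ u - cdot (rr σ ℓ) t₁ v| * ‖t'‖ := by
    filter_upwards [ht₁] with m hm u v t' ht'
    have h1 := hm (L m u v) (Finset.mem_image_of_mem _ (Finset.mem_univ (u, v)))
    have h2 : ‖L m u v ⟨t', ht'⟩‖ ≤ ‖L m u v‖ * ‖(⟨t', ht'⟩ : W₀)‖ := (L m u v).le_opNorm _
    rw [Real.norm_eq_abs, Submodule.coe_norm] at h2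
    rw [hLapp, cdiff_apply] at h1 h2
    have h3 : ‖L m u v‖ ≤ Real.exp ((2 * Real.log k + 1) * m) *
        |cdot (rr σ ℓ) t₁ u - cdot (rr σ ℓ) t₁ v| := by
      have h4 : Real.exp ((2 * Real.log k + 1) * m) * Real.exp (-((2 * Real.log k + 1) * m)) = 1 := by
        rw [← Real.exp_add]; simp
      calc ‖L m u v‖ = Real.exp ((2 * Real.log k + 1) * m) *
            (Real.exp (-((2 * Real.log k + 1) * m)) * ‖L m u v‖) := by
            rw [← mul_assoc, h4, one_mul]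
        _ ≤ _ := mul_le_mul_of_nonneg_left h1 (Real.exp_pos _).le
    exact h2.trans (mul_le_mul_of_nonneg_right h3 (norm_nonneg _))
  -- the exact coincidences at `t₁` are coincidences at `t₀`
  have hEx : ∀ n, Ex (rr σ ℓ) t₁ n ≤ Ex (rr σ ℓ) t₀ n := by
    intro n u v huv
    obtain ⟨hty, hv⟩ := huv
    refine ⟨hty, ?_⟩
    obtain ⟨M, hM⟩ := eventually_atTop.mp hlow
    have hty' : wtype u = wtype v := hty
    have hv' : cdot (rr σ ℓ) (t₁ : ι → ℝ) u = cdot (rr σ ℓ) t₁ v := hv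
    let w : Fin M → ι := fun _ => Classical.arbitrary ι
    have h1 := hM (n + M) (by omega) (Fin.append u w) (Fin.append v w) t₀ (S.self_mem ℓ t₀ hℓ)
    rw [← cdiff_apply, ← cdiff_apply, cdiff_append _ _ _ _ hty', cdiff_append _ _ _ _ hty',
      cdiff_apply, cdiff_apply, hv', sub_self, abs_zero, mul_zero, zero_mul] at h1
    have h2 := abs_nonpos_iff.mp h1
    show cdot (rr σ ℓ) t₀ u = cdot (rr σ ℓ) t₀ v
    linarith
  have hα := S.α_le ℓ t₀ t₁ hℓ hW1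
  have hctr : S.Ctr ℓ t₁ := ⟨lt_of_le_of_lt hα ht₀.1,
    lt_of_le_of_lt hα (lt_of_lt_of_le ht₀.2 (hX_mono hp hp1 hEx))⟩
  have hWeq : S.W ℓ t₁ = W₀ :=
    Submodule.eq_of_le_of_finrank_le (S.W_le ℓ t₀ t₁ hℓ hW1) (hmin _ hctr)
  refine ⟨t₁, hctr, 2 * Real.log k + 1, ?_⟩
  rw [hWeq]
  exact hlow

end Crest.Agent.R98.Top
end

-- ▼ part R98/TopOne
section

/-!
Row 98 (S0129). Module TOP: the rank one conclusion (helper803).
-/

set_option autoImplicit false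

namespace Crest.Agent.R98.Top

open Crest.AnalysisR Crest.Agent.R98 Crest.Agent.R98.Part Crest.Agent.R098.Upper Filter Topology
  MeasureTheory

variable {ι : Type*} [Fintype ι]

/-- the window at level `m`: `m (log m)^(k+4)` -/
noncomputable def lv (ι : Type*) [Fintype ι] (m : ℕ) : ℝ :=
  (m : ℝ) * (Real.log m) ^ (Fintype.card ι + 4)

/-- KW1, rank one: the exactness lemma at every large level -/
def KW1r (σ : ι → ℝ) (a : ι → ℕ) (θ : ℝ) (t : ι → ℝ) (W : Submodule ℝ (ι → ℝ)) : Prop :=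
  ∀ C₅ : ℝ, BC2 (rr σ fun i => a i * θ) t W (fun m => m) C₅ →
    ∀ᶠ m : ℕ in atTop, ∃ (s : ℂ) (K : Submodule ℂ (ι → ℂ)),
      Apx σ (fun i => a i * θ) t W m (lv ι m) 0 0 (m * Real.log m) s K ∧
      (s = 0 ∨ Complex.exp (-(1 + s) * θ) ∈ Cand σ a m)

/-- genericity of the candidates, rank one -/
def CandAway (σ : ι → ℝ) (a : ι → ℕ) (θ : ℝ) : Prop :=
  ∃ C : ℝ, ∀ᵐ x : ℝ, 0 < x → ∀ᶠ m : ℕ in atTop, ∀ z ∈ Cand σ a m,
    Real.exp (-(C * m)) ≤ ‖z - (Real.exp (-(x * θ)) : ℝ)‖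

/-- near coincidences at the window `m (log m)^(k+4)`, for infinitely many levels -/
def NC (p σ : ι → ℝ) (S : Core p σ) : Prop :=
  ∀ ℓ t, (∀ i, 0 < ℓ i) → S.α ℓ t < chi p ℓ → ∀ ε > 0, ∃ᶠ m : ℕ in atTop,
    HS (pw p : (Fin m → ι) → ℝ) (Cl (rr σ ℓ) t m (lv ι m)) ≤ (S.α ℓ t + ε) * m

lemma null_of_interval {D Z : Set ℝ} {x₀ ρ : ℝ} (hx₀ : 0 < x₀) (hρ : 0 < ρ) (hZ : Z.Countable)
    (h : ∀ x : ℝ, |x| < ρ → x ∉ Z → x₀ * (1 + x) ∈ D) : volume D ≠ 0 := by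
  intro hD
  have h1 : volume ((fun x : ℝ => 1 + x) ⁻¹' ((fun y : ℝ => x₀ * y) ⁻¹' D)) = 0 := by
    rw [measure_preimage_add]
    rw [Real.volume_preimage_mul_left hx₀.ne', hD, mul_zero]
  have h2 : Set.Ioo (-ρ) ρ ⊆ ((fun x : ℝ => 1 + x) ⁻¹' ((fun y : ℝ => x₀ * y) ⁻¹' D)) ∪ Z := by
    intro x hx
    by_cases hxZ : x ∈ Z
    · exact Or.inr hxZ
    · exact Or.inl (h x (abs_lt.mpr hx) hxZ)
  have h3 := measure_mono (μ := volume) h2
  have h4 := measure_union_le (μ := volume)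
    ((fun x : ℝ => 1 + x) ⁻¹' ((fun y : ℝ => x₀ * y) ⁻¹' D)) Z
  rw [h1, hZ.measure_zero, add_zero] at h4
  rw [Real.volume_Ioo] at h3
  have h5 : ENNReal.ofReal (ρ - -ρ) ≤ 0 := h3.trans h4
  rw [nonpos_iff_eq_zero, ENNReal.ofReal_eq_zero] at h5
  linarith

/-- RANK ONE: no counterexample over `ℓ = a θ` with integer `a` -/
theorem rank_one [Nonempty ι] {p σ : ι → ℝ} (hp : ∀ i, 0 ≤ p i) (hp1 : ∑ i, p i = 1)
    (S : Core p σ) (a : ι → ℕ) (ha : ∀ i, 1 ≤ a i) {θ : ℝ} (hθ : 0 < θ)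
    (hcand : CandAway σ a θ)
    (hKW : ∀ θ' : ℝ, 0 < θ' → ∀ t W, KW1r σ a θ' t W)
    (hNC : NC p σ S) (t : ι → ℝ) : ¬ S.Ctr (fun i => a i * θ) t := by
  classical
  intro hctr
  obtain ⟨C₆, hC₆⟩ := hcand
  set D : Set ℝ := {x : ℝ | 0 < x ∧ ∃ t', S.Ctr (fun i => a i * (x * θ)) t'} with hDdef
  have h1D : (1 : ℝ) ∈ D := ⟨one_pos, t, by simpa using hctr⟩
  -- the base point
  obtain ⟨x₀, hx₀D, hx₀⟩ : ∃ x₀ ∈ D, volume D = 0 ∨ ∀ᶠ m : ℕ in atTop, ∀ z ∈ Cand σ a m,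
      Real.exp (-(C₆ * m)) ≤ ‖z - (Real.exp (-(x₀ * θ)) : ℝ)‖ := by
    by_cases hnull : volume D = 0
    · exact ⟨1, h1D, Or.inl hnull⟩
    · by_contra hcon
      apply hnull
      refine measure_mono_null ?_ (ae_iff.mp hC₆)
      intro x hx
      show ¬ _
      intro h
      exact hcon ⟨x, hx, Or.inr (h hx.1)⟩
  have hx₀0 : 0 < x₀ := hx₀D.1
  set θ' := x₀ * θ with hθ'
  have hθ'0 : 0 < θ' := mul_pos hx₀0 hθ
  set ℓ : ι → ℝ := fun i => a i * θ' with hℓdef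
  have hℓ : ∀ i, 0 < ℓ i := fun i => by
    have : (0:ℝ) < a i := by exact_mod_cast ha i
    positivity
  obtain ⟨t₁, ht₁, C₅, hBC⟩ := select hp hp1 S hℓ hx₀D.2
  have hkw := hKW θ' hθ'0 t₁ (S.W ℓ t₁) C₅ hBC
  set α := S.α ℓ t₁ with hα
  -- extraction
  obtain ⟨φ, hφ, hφP⟩ : ∃ φ : ℕ → ℕ, StrictMono φ ∧ ∀ j,
      (HS (pw p : (Fin (φ j) → ι) → ℝ) (Cl (rr σ ℓ) t₁ (φ j) (lv ι (φ j))) ≤
        (α + 1 / ((j : ℝ) + 1)) * φ j ∧
      ∃ (s : ℂ) (K : Submodule ℂ (ι → ℂ)),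
        Apx σ ℓ t₁ (S.W ℓ t₁) (φ j) (lv ι (φ j)) 0 0 (φ j * Real.log (φ j)) s K ∧
        (s = 0 ∨ Complex.exp (-(1 + s) * θ') ∈ Cand σ a (φ j))) := by
    apply extraction_forall_of_frequently
      (P := fun j m => (HS (pw p : (Fin m → ι) → ℝ) (Cl (rr σ ℓ) t₁ m (lv ι m)) ≤
        (α + 1 / ((j : ℝ) + 1)) * m ∧
      ∃ (s : ℂ) (K : Submodule ℂ (ι → ℂ)),
        Apx σ ℓ t₁ (S.W ℓ t₁) m (lv ι m) 0 0 (m * Real.log m) s K ∧
        (s = 0 ∨ Complex.exp (-(1 + s) * θ') ∈ Cand σ a m)))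
    intro j
    have h1 := hNC ℓ t₁ hℓ ht₁.1 (1 / ((j : ℝ) + 1)) (by positivity)
    exact h1.and_eventually hkw
  choose hH s K hA hcs using hφP
  have hφt : Tendsto φ atTop atTop := hφ.tendsto_atTop
  have hεt : Tendsto (fun j : ℕ => 1 / ((j : ℝ) + 1)) atTop (𝓝 0) :=
    tendsto_one_div_add_atTop_nhds_zero_nat
  -- `s j = 0` eventually
  have hs0 : ∀ᶠ j in atTop, s j = 0 := by
    by_contra hcon
    rw [not_eventually] at hcon
    rcases hx₀ with hnull | hgen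
    · obtain ⟨ψ, hψ, hψs⟩ := extraction_of_frequently_atTop hcon
      choose τ hτK hτ using fun j => (hA (ψ j)).close t₁ (S.self_mem ℓ t₁ hℓ)
      have hD := dat_of_Apx (p := p) (α := α) (hφt.comp hψ.tendsto_atTop)
        (hεt.comp hψ.tendsto_atTop) (fun j => hH (ψ j)) (fun j => hA (ψ j)) hτK (A := ‖t₁‖)
        (fun j i => by
          have := hτ j i
          rwa [mul_comm] at this)
      obtain ⟨ρ, hρ, Z, hZ, hst⟩ := S.st ℓ t₁ hℓ ht₁.1 ht₁.2 _ _ _ _ _ _ hD (fun j => hψs j)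
        (fun J => Eventually.of_forall fun j => by positivity)
      refine null_of_interval (D := D) (ρ := min ρ 1) hx₀0 (lt_min hρ one_pos) hZ ?_ hnull
      intro x hx hxZ
      obtain ⟨t', ht'1, ht'2⟩ := hst x (lt_of_lt_of_le hx (min_le_left _ _)) hxZ
      have hx1 : 0 < 1 + x := by
        have := (abs_lt.mp (lt_of_lt_of_le hx (min_le_right _ _))).1
        linarith
      refine ⟨by positivity, t', ?_⟩
      have e : (fun i => (a i : ℝ) * (x₀ * (1 + x) * θ)) = fun i => (1 + x) * ℓ i := by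
        funext i
        simp only [hℓdef, hθ']
        ring
      rw [e]
      exact ⟨ht'1, ht'2⟩
    · apply hcon
      have h2 : ∀ᶠ j in atTop, ‖s j‖ * θ' ≤ 1 ∧ 2 * (‖s j‖ * θ') < Real.exp (-(C₆ * φ j)) := by
        filter_upwards [hφt.eventually (ev_exp_le (2 * θ' * 2) C₆),
          hφt.eventually (ev_exp_le θ' 0)] with j hj1 hj2
        have h3 := (hA j).s_small
        constructor
        · calc ‖s j‖ * θ' ≤ Real.exp (-((φ j : ℝ) * Real.log (φ j))) * θ' :=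
                mul_le_mul_of_nonneg_right h3 hθ'0.le
            _ ≤ 1 := by
                rw [mul_comm]
                refine hj2.trans ?_
                simp
        · have h4 : 2 * (2 * (‖s j‖ * θ')) ≤ Real.exp (-(C₆ * φ j)) := by
            refine le_trans ?_ hj1
            calc 2 * (2 * (‖s j‖ * θ')) = 2 * θ' * 2 * ‖s j‖ := by ring
              _ ≤ 2 * θ' * 2 * Real.exp (-((φ j : ℝ) * Real.log (φ j))) := by
                gcongr
          have h5 := Real.exp_pos (-(C₆ * φ j))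
          have h6 : 0 ≤ 2 * (‖s j‖ * θ') := by positivity
          rcases h6.eq_or_lt with h | h
          · rw [← h]; exact h5
          · linarith
      filter_upwards [hφt.eventually hgen, h2] with j hj1 hj2
      rcases hcs j with h | h
      · exact not_not.mpr h
      · exfalso
        have h3 := hj1 _ h
        have h4 : ‖Complex.exp (-(1 + s j) * θ') - (Real.exp (-(x₀ * θ)) : ℝ)‖ ≤
            2 * (‖s j‖ * θ') := by
          have h5 := norm_rayc_sub (σ := fun _ : Unit => (1:ℝ)) (fun _ => Or.inl rfl)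
            (ℓ := fun _ => θ') (fun _ => hθ'0) (s := s j) () hj2.1
          have e1 : rayc (fun _ : Unit => (1:ℝ)) (fun _ => θ') (s j) () =
              Complex.exp (-(1 + s j) * θ') := by
            simp [rayc]
          have e2 : rayc (fun _ : Unit => (1:ℝ)) (fun _ => θ') 0 () =
              ((Real.exp (-(x₀ * θ)) : ℝ) : ℂ) := by
            rw [rayc_zero, rr, one_mul]
          rwa [e1, e2] at h5
        linarith [hj2.2]
  obtain ⟨J, hJ⟩ := eventually_atTop.mp hs0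
  have hshift : Tendsto (fun j : ℕ => j + J) atTop atTop := tendsto_add_atTop_nat J
  have hkw2 := kw2_exact S hℓ ht₁.1 (m := fun j => φ (j + J)) (X := fun j => lv ι (φ (j + J)))
    (ε := fun j => 1 / (((j + J : ℕ) : ℝ) + 1)) (K := fun j => K (j + J))
    (hφt.comp hshift) (hεt.comp hshift) (fun j => hH (j + J)) (fun j => by
      have := hA (j + J)
      rwa [hJ (j + J) (by omega)] at this)
  have hle : ∀ᶠ j in atTop, hX p (rr σ ℓ) t₁ ≤ α + 1 / (((j + J : ℕ) : ℝ) + 1) := by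
    filter_upwards [hkw2, (hφt.comp hshift).eventually_ge_atTop 1] with j hj hj1
    have h1 : Cl (rr σ ℓ) t₁ (φ (j + J)) (lv ι (φ (j + J))) ≤ Ex (rr σ ℓ) t₁ (φ (j + J)) := by
      intro u v huv
      refine ⟨huv.1, ?_⟩
      exact hj u v (near_of_Cl huv)
    have h2 : HS (pw p : (Fin (φ (j + J)) → ι) → ℝ) (Ex (rr σ ℓ) t₁ (φ (j + J))) ≤
        (α + 1 / (((j + J : ℕ) : ℝ) + 1)) * φ (j + J) :=
      (HW_anti hp h1).trans (hH (j + J))
    have hpos : (0 : ℝ) < φ (j + J) := by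
      have : 1 ≤ φ (j + J) := hj1
      exact_mod_cast this
    exact (hX_le hp hp1 _ _ hj1).trans ((div_le_iff₀ hpos).mpr h2)
  have hlim : Tendsto (fun j : ℕ => α + 1 / (((j + J : ℕ) : ℝ) + 1)) atTop (𝓝 (α + 0)) :=
    tendsto_const_nhds.add (hεt.comp hshift)
  have hfin := ge_of_tendsto hlim hle
  rw [add_zero] at hfin
  exact absurd ht₁.2 (not_lt.mpr hfin)

end Crest.Agent.R98.Top
end

-- ▼ part R98/CoreInst

/-!
Row 98 (S0129). Instance of `Top.Core`: `α` and `W` (helper803).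
-/

set_option autoImplicit false

namespace Crest.Agent.R98.Top

open Crest.AnalysisR Crest.Agent.R98 Crest.Agent.R98.Part Crest.Agent.R098.Upper Filter Topology
  MeasureTheory

variable {ι : Type*} [Fintype ι]

lemma Pi_add (r t t' : ι → ℝ) (w : ℕ → ι) : Pi r (t + t') w = Pi r t w + Pi r t' w := by
  unfold Pi
  rw [← Finset.sum_add_distrib]
  exact Finset.sum_congr rfl fun i _ => by simp [mul_add]

lemma Pi_smul (r : ι → ℝ) (c : ℝ) (t : ι → ℝ) (w : ℕ → ι) : Pi r (c • t) w = c * Pi r t w := by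
  unfold Pi
  rw [Finset.mul_sum]
  exact Finset.sum_congr rfl fun i _ => by simp; ring

lemma Pi_zero (r : ι → ℝ) (w : ℕ → ι) : Pi r 0 w = 0 := by
  unfold Pi
  simp

variable [MeasurableSpace ι]

/-- the measurability space -/
def WS (p σ ℓ t : ι → ℝ) : Submodule ℝ (ι → ℝ) where
  carrier := {t' | Fac p (Pi (rr σ ℓ) t) (Pi (rr σ ℓ) t')}
  add_mem' := by
    intro a b ha hb
    have h := Fac.add ha hb
    have e : (Pi (rr σ ℓ) (a + b)) = fun w => Pi (rr σ ℓ) a w + Pi (rr σ ℓ) b w :=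
      funext fun w => Pi_add _ _ _ w
    show Fac _ _ _
    rw [e]
    exact h
  zero_mem' := by
    have h := Fac.const p (Pi (rr σ ℓ) t) 0
    have e : (Pi (rr σ ℓ) (0 : ι → ℝ)) = fun _ => (0 : ℝ) := funext fun w => Pi_zero _ w
    show Fac _ _ _
    rw [e]
    exact h
  smul_mem' := by
    intro c a ha
    have h := Fac.const_mul ha c
    have e : (Pi (rr σ ℓ) (c • a)) = fun w => c * Pi (rr σ ℓ) a w :=
      funext fun w => Pi_smul _ _ _ w
    show Fac _ _ _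
    rw [e]
    exact h

lemma mem_WS {p σ ℓ t t' : ι → ℝ} :
    t' ∈ WS p σ ℓ t ↔ Fac p (Pi (rr σ ℓ) t) (Pi (rr σ ℓ) t') := Iff.rfl

/-- `α = I(w_1; Π)` -/
noncomputable def al (p σ ℓ t : ι → ℝ) : ℝ := F.alpha p (Pi (rr σ ℓ) t)

lemma measurable_Pi_rr [DiscreteMeasurableSpace ι] {σ ℓ : ι → ℝ} (hσ : IsS σ) (hℓ : ∀ i, 0 < ℓ i)
    (t : ι → ℝ) : Measurable (Pi (rr σ ℓ) t) := by
  obtain ⟨q, hq0, hq1, hq⟩ := exists_q ℓ hℓ
  exact measurable_Pi (norm_rr_le hσ hℓ hq) hq1 t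

/-- LT in the shape of `Core.lt` -/
def LTP (p σ : ι → ℝ) : Prop :=
  ∀ ℓ t, (∀ i, 0 < ℓ i) → al p σ ℓ t < chi p ℓ →
    ∀ (m : ℕ → ℕ) (s : ℕ → ℂ) (τ : ℕ → ι → ℂ) (η ε : ℕ → ℝ) (A : ∀ j, Setoid (Fin (m j) → ι)),
      Dat p σ ℓ t (al p σ ℓ t) m s τ η ε A →
      ∀ᶠ j in atTop, ∃ w : ι → ℂ, InC (WS p σ ℓ t) w ∧ ∀ i, ‖τ j i - w i‖ ≤ √(max ‖s j‖ (η j))

/-- the ST corollary in the shape of `Core.st` -/
def STP (p σ : ι → ℝ) : Prop :=
  ∀ ℓ t, (∀ i, 0 < ℓ i) → al p σ ℓ t < chi p ℓ → al p σ ℓ t < hX p (rr σ ℓ) t →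
    ∀ (m : ℕ → ℕ) (s : ℕ → ℂ) (τ : ℕ → ι → ℂ) (η ε : ℕ → ℝ) (A : ∀ j, Setoid (Fin (m j) → ι)),
      Dat p σ ℓ t (al p σ ℓ t) m s τ η ε A → (∀ j, s j ≠ 0) →
      (∀ J : ℕ, ∀ᶠ j in atTop, η j ≤ ‖s j‖ ^ J) →
      ∃ ρ > (0 : ℝ), ∃ Z : Set ℝ, Z.Countable ∧ ∀ x : ℝ, |x| < ρ → x ∉ Z →
        ∃ t' : ι → ℝ, al p σ (fun i => (1 + x) * ℓ i) t' < chi p (fun i => (1 + x) * ℓ i) ∧
          al p σ (fun i => (1 + x) * ℓ i) t' < hX p (rr σ fun i => (1 + x) * ℓ i) t'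

/-- the instance of `Core` -/
noncomputable def mkCore [DiscreteMeasurableSpace ι] {p σ : ι → ℝ}
    (hp : (∀ i, 0 ≤ p i) ∧ ∑ i, p i = 1) (hσ : IsS σ) (hlt : LTP p σ) (hst : STP p σ) :
    Core p σ where
  α := al p σ
  W := WS p σ
  self_mem := fun ℓ t _ => Fac.self p _
  W_le := fun ℓ t t' _ h t'' h'' => Fac.trans (mem_WS.mp h'') (mem_WS.mp h)
  α_le := fun ℓ t t' hℓ h =>
    alpha_le_of_fac hp (measurable_Pi_rr hσ hℓ t) (measurable_Pi_rr hσ hℓ t') (mem_WS.mp h)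
  lt := hlt
  st := hst

end Crest.Agent.R98.Top
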