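import Crest.Agent.R98.FDMesh
import Crest.Agent.R98.Bridge_Mg
import Crest.Agent.R98.Top0
import Crest.Agent.R98.Word4

/-!
Row 98 (S0129). F1 : `α(Π) = I(w_1; Π) = D χ`, where `D` is the entropy dimension of `μ`; the
counterexample in the form of the final logic. (helper430)
-/

set_option autoImplicit false

namespace Crest.Agent.R98

open Crest.AnalysisR Crest.Agent.R098.Upper MeasureTheory Filter Topology

section Scalar

variable {ι : Type*} [Fintype ι] [MeasurableSpace ι] [DiscreteMeasurableSpace ι]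

/-- the flow `e^{-x}` on the line -/
noncomputable def scalFlow : FD.Flow Unit where
  A := fun x => Real.exp (-x) • LinearMap.id
  zero := by intro v; simp
  add := by
    intro x y v
    simp only [LinearMap.smul_apply, LinearMap.id_apply, smul_smul]
    rw [← Real.exp_add]
    congr 2; ring
  C := 1
  d := 0
  hC := le_refl _
  hd0 := le_refl _
  hd := by norm_num
  bd := by
    intro x _ v
    simp only [LinearMap.smul_apply, LinearMap.id_apply]
    rw [norm_smul, Real.norm_eq_abs, abs_of_pos (Real.exp_pos _)]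
    simp
  bd' := by
    intro x _ v
    simp only [LinearMap.smul_apply, LinearMap.id_apply]
    rw [norm_smul, Real.norm_eq_abs, abs_of_pos (Real.exp_pos _)]
    simp

omit [Fintype ι] [MeasurableSpace ι] [DiscreteMeasurableSpace ι] in
lemma cs_eq (i : ι) (w : ℕ → ι) : FD.cs i w = scons i w := by
  funext n; cases n <;> rfl

/-- the scalar process of the coding map -/
noncomputable def scalProc {r : ι → ℝ} {q : ℝ} (h0 : ∀ i, r i ≠ 0) (hr : ∀ i, |r i| ≤ q)
    (hq : q < 1) (t : ι → ℝ) :
    FD.Proc (ι := ι) (fun i => -Real.log |r i|) (fun i => r i / |r i|) Unit where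
  F := scalFlow
  b := fun i _ => t i
  Φ := fun w _ => Pi r t w
  B := (∑ i, |t i|) / (1 - q)
  meas := by
    rw [measurable_pi_iff]
    intro _
    exact measurable_Pi hr hq t
  hB := by
    intro w
    have h1 : 0 ≤ (∑ i, |t i|) / (1 - q) :=
      div_nonneg (Finset.sum_nonneg fun _ _ => abs_nonneg _) (by linarith)
    rw [pi_norm_le_iff_of_nonneg h1]
    intro _
    exact abs_Pi_le hr hq t w
  rec' := by
    intro i w
    funext _
    have hi : 0 < |r i| := abs_pos.2 (h0 i)
    have h1 : Real.exp (-(-Real.log |r i|)) = |r i| := by rw [neg_neg, Real.exp_log hi]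
    show Pi r t (FD.cs i w) = (r i / |r i|) • (Real.exp (-(-Real.log |r i|)) • Pi r t w) + t i
    rw [cs_eq, Pi_scons hr hq, h1, smul_eq_mul, smul_eq_mul, ← mul_assoc,
      div_mul_cancel₀ _ hi.ne']

/-- entropy of the cells of the scalar process at dyadic scales -/
lemma scalProc_h {r : ι → ℝ} {q : ℝ} (h0 : ∀ i, r i ≠ 0) (hr : ∀ i, |r i| ≤ q) (hq : q < 1)
    (t : ι → ℝ) {p : ι → ℝ} (n : ℕ) :
    (scalProc h0 hr hq t).h (PP p) (n * Real.log 2) = Hd ((PP p).map (Pi r t)) n := by
  unfold FD.Proc.h FD.HP Hd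
  -- reindex `Unit → ℤ` by `ℤ`
  rw [← (Equiv.funUnique Unit ℤ).tsum_eq]
  refine tsum_congr fun v => ?_
  congr 1
  have hm : MeasurableSet (cell n ((Equiv.funUnique Unit ℤ) v)) :=
    measurable_fl n (measurableSet_singleton _)
  rw [map_measureReal_apply (measurable_Pi hr hq t) hm]
  congr 1
  ext w
  simp only [Set.mem_preimage, Set.mem_singleton_iff, cell, fl, Set.mem_ofPred_eq]
  have h1 : (scalProc h0 hr hq t).cell (n * Real.log 2) w = fun _ => ⌊(2:ℝ)^n * Pi r t w⌋ := by
    funext k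
    show ⌊Real.exp (-(-(n * Real.log 2))) • Pi r t w⌋ = _
    rw [neg_neg, smul_eq_mul, mul_comm (n:ℝ), Real.exp_mul, Real.exp_log two_pos,
      Real.rpow_natCast]
  rw [h1]
  constructor
  · intro h
    have := congrFun h ()
    simpa using this
  · intro h
    funext k
    simpa using h

end Scalar

section F1

variable {ι : Type*} [Fintype ι] [Nonempty ι] [MeasurableSpace ι] [DiscreteMeasurableSpace ι]

/-- **F1**: the information of the first letter about the coding map is `D χ` -/
theorem alpha_Pi_eq {r t p : ι → ℝ} (hr : ∀ i, r i ≠ 0 ∧ |r i| < 1) (hp : ∀ i, 0 < p i)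
    (hp1 : ∑ i, p i = 1) {μ : Measure ℝ} (hμ : IsSelfSimilarMeasure r t p μ) {D : ℝ}
    (htend : Tendsto (fun n : ℕ => Hd μ n / (n * Real.log 2)) atTop (𝓝 D)) :
    F.alpha p (Pi r t) = D * lyapunovExp r p := by
  -- a uniform bound for the ratios
  obtain ⟨q, hrq, hq⟩ : ∃ q, (∀ i, |r i| ≤ q) ∧ q < 1 := by
    obtain ⟨i0, _, hi0⟩ := Finset.exists_max_image Finset.univ (fun i => |r i|) Finset.univ_nonempty
    exact ⟨|r i0|, fun i => hi0 i (Finset.mem_univ i), (hr i0).2⟩
  have h0 : ∀ i, r i ≠ 0 := fun i => (hr i).1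
  have hpv : (∀ i, 0 ≤ p i) ∧ ∑ i, p i = 1 := ⟨fun i => (hp i).le, hp1⟩
  have hμeq := selfSimilar_eq_law hrq hq hpv hμ
  have := isProb_PP hpv
  set X := scalProc (ι := ι) h0 hrq hq t with hX
  have hsg : ∀ i, |(r i / |r i|)| = 1 := by
    intro i
    have hi : 0 < |r i| := abs_pos.2 (h0 i)
    rw [abs_div, abs_abs, div_self hi.ne']
  have hl : ∀ i, 0 < -Real.log |r i| := by
    intro i
    have := Real.log_neg (abs_pos.2 (h0 i)) (hr i).2
    linarith
  set χ : ℝ := ∑ i, p i * (-Real.log |r i|) with hχ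
  have hχ' : χ = lyapunovExp r p := by
    rw [hχ]; unfold lyapunovExp
    rw [← Finset.sum_neg_distrib]
    exact Finset.sum_congr rfl fun i _ => by ring
  have hχpos : 0 < χ := Finset.sum_pos (fun i _ => mul_pos (hp i) (hl i)) Finset.univ_nonempty
  have hWM := FD.WM_PP (ι := ι) hpv
  -- `alpha` of the process is that of `Π`
  have hα : F.alpha p X.Φ = F.alpha p (Pi r t) := by
    unfold F.alpha
    have hc : MeasurableSpace.comap X.Φ MeasurableSpace.pi =
        MeasurableSpace.comap (Pi r t) (borel ℝ) := by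
      apply le_antisymm
      · have h1 : @Measurable _ _ (MeasurableSpace.comap (Pi r t) (borel ℝ))
            MeasurableSpace.pi X.Φ :=
          @measurable_pi_lambda _ _ _ (MeasurableSpace.comap (Pi r t) (borel ℝ)) _ _
            (fun _ => comap_measurable _)
        exact h1.comap_le
      · have h1 : Measurable[MeasurableSpace.comap X.Φ MeasurableSpace.pi] (Pi r t) := by
          have h2 : (Pi r t) = (fun v : Unit → ℝ => v ()) ∘ X.Φ := rfl
          rw [h2]
          exact (measurable_pi_apply ()).comp (comap_measurable _)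
        exact h1.comap_le
    have hb : (borel ℝ) = Real.measurableSpace := rfl
    rw [hb] at hc
    rw [hc]
  set α : ℝ := F.alpha p (Pi r t) with hαdef
  have hlog : 0 < Real.log 2 := Real.log_pos one_lt_two
  have hdiv : Tendsto (fun n : ℕ => (n : ℝ) * Real.log 2) atTop atTop :=
    tendsto_natCast_atTop_atTop.atTop_mul_const hlog
  have hHd : ∀ n : ℕ, X.h (PP p) (n * Real.log 2) = Hd μ n := by
    intro n
    rw [hμeq]
    exact scalProc_h h0 hrq hq t n
  -- upper bound `D ≤ (α + ε)/χ`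
  have hup : ∀ ε > 0, D ≤ (α + ε) / χ := by
    intro ε hε
    obtain ⟨C, hC⟩ := X.h_upper hWM hsg hl hpv.1 hp1 (α := α)
      (fun n x => by rw [← hα]; exact X.MI_cell_le hpv hsg n x) hε
    have hlim : Tendsto (fun n : ℕ => (α + ε) / χ + C / (n * Real.log 2)) atTop
        (𝓝 ((α + ε) / χ + 0)) := tendsto_const_nhds.add (tendsto_const_nhds.div_atTop hdiv)
    rw [add_zero] at hlim
    refine le_of_tendsto_of_tendsto htend hlim ?_
    filter_upwards [eventually_gt_atTop 0] with n hn
    have hnR : (0:ℝ) < n := by exact_mod_cast hn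
    have h1 := hC (n * Real.log 2) (by positivity)
    rw [hHd] at h1
    have hpos : 0 < (n:ℝ) * Real.log 2 := by positivity
    rw [div_le_iff₀ hpos, add_mul, div_mul_cancel₀ _ hpos.ne']
    exact h1
  -- lower bound `(α - ε)/χ ≤ D`
  have hlo : ∀ ε > 0, (α - ε) / χ ≤ D := by
    intro ε hε
    obtain ⟨x0, C, hC⟩ := X.h_lower_unif hWM hsg hl hpv.1 hp1 (α := α)
      (c0 := 1 + Fintype.card Unit * Real.log 5)
      (fun n => by
        obtain ⟨x0, hx0, h1⟩ := X.exists_MI_cell_ge hpv hsg n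
        rw [hα] at h1
        exact ⟨x0, hx0, h1⟩) hε 1
    have hlim : Tendsto (fun n : ℕ => (α - ε) / χ - C / (n * Real.log 2)) atTop
        (𝓝 ((α - ε) / χ - 0)) := tendsto_const_nhds.sub (tendsto_const_nhds.div_atTop hdiv)
    rw [sub_zero] at hlim
    refine le_of_tendsto_of_tendsto hlim htend ?_
    filter_upwards [eventually_gt_atTop 0] with n hn
    have hnR : (0:ℝ) < n := by exact_mod_cast hn
    have hpos : 0 < (n:ℝ) * Real.log 2 := by positivity
    have h1 := hC X (le_refl _) (fun w => by simp) (n * Real.log 2) hpos.le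
    rw [hHd] at h1
    rw [le_div_iff₀ hpos, sub_mul, div_mul_cancel₀ _ hpos.ne']
    exact h1
  rw [← hχ']
  have h1 : D * χ ≤ α := by
    refine le_of_forall_pos_le_add fun ε hε => ?_
    have := hup ε hε
    rwa [le_div_iff₀ hχpos] at this
  have h2 : α ≤ D * χ := by
    refine le_of_forall_pos_le_add fun ε hε => ?_
    have := hlo ε hε
    rw [div_le_iff₀ hχpos] at this
    linarith
  exact le_antisymm h2 h1

end F1

section Ctr

variable {ι : Type*} [Fintype ι]

lemma Ex_eq_zS (r t : ι → ℝ) (m : ℕ) : Top.Ex r t m = zS r t m := by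
  ext u v
  rw [zS_iff]
  exact Iff.rfl

/-- the entropy rate of the final logic is the one of the statement -/
lemma hX_eq {r t p : ι → ℝ} (hp : (∀ i, 0 ≤ p i) ∧ ∑ i, p i = 1) :
    Top.hX p r t = rwEntropyRate r t p := by
  rw [← hT_eq hp]
  unfold Top.hX hT HW
  simp only [Ex_eq_zS]

lemma chi_eq (r p : ι → ℝ) : Top.chi p (fun i => -Real.log |r i|) = lyapunovExp r p := by
  unfold Top.chi lyapunovExp
  rw [← Finset.sum_neg_distrib]
  exact Finset.sum_congr rfl fun i _ => by ring



/-- **the counterexample**: if the goal fails, then `D < 1`, `α = D χ` and `α < min (χ, h)` -/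
theorem ctr_of_not_goal [Nonempty ι] [MeasurableSpace ι] [DiscreteMeasurableSpace ι]
    {r t p : ι → ℝ} (hr : ∀ i, r i ≠ 0 ∧ |r i| < 1) (hp : ∀ i, 0 < p i) (hp1 : ∑ i, p i = 1)
    {μ : Measure ℝ} (hμ : IsSelfSimilarMeasure r t p μ) (h : ¬ EntGoal r t p μ) :
    ∃ D C : ℝ, 0 ≤ D ∧ D < 1 ∧ 0 ≤ C ∧ (∀ x : ℝ, 0 ≤ x → Hs μ (Real.exp (-x)) ≤ D * x + C) ∧
      Tendsto (fun x : ℝ => Hs μ (Real.exp (-x)) / x) atTop (𝓝 D) ∧
      F.alpha p (Pi r t) = D * lyapunovExp r p ∧
      F.alpha p (Pi r t) < lyapunovExp r p ∧ F.alpha p (Pi r t) < rwEntropyRate r t p ∧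
      F.alpha p (Pi r t) < Top.chi p (fun i => -Real.log |r i|) ∧
      F.alpha p (Pi r t) < Top.hX p r t := by
  obtain ⟨D, C, hD0, _, hC, _, htend, hup, hlim⟩ :=
    Bridge.exists_dim_real hr (fun i => (hp i).le) hp1 hμ
  have hD := Bridge.dim_lt_of_not_goal htend h
  have hα := alpha_Pi_eq hr hp hp1 hμ htend
  have hχ : 0 < lyapunovExp r p := Crest.Agent.R098.Upper.lyap_pos hr hp
  have h1 : D < 1 := lt_of_lt_of_le hD (min_le_left _ _)
  have h2 : D < rwEntropyRate r t p / lyapunovExp r p := lt_of_lt_of_le hD (min_le_right _ _)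
  have h3 : F.alpha p (Pi r t) < lyapunovExp r p := by
    rw [hα]
    calc D * lyapunovExp r p < 1 * lyapunovExp r p := mul_lt_mul_of_pos_right h1 hχ
      _ = _ := one_mul _
  have h4 : F.alpha p (Pi r t) < rwEntropyRate r t p := by
    rw [hα]
    rwa [lt_div_iff₀ hχ] at h2
  refine ⟨D, C, hD0, h1, hC, hup, hlim, hα, h3, h4, ?_, ?_⟩
  · rw [chi_eq]; exact h3
  · rw [hX_eq ⟨fun i => (hp i).le, hp1⟩]; exact h4

end Ctr

end Crest.Agent.R98
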