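import Crest.Agent.R98.Word1

/-!
Row 98 (S0129). Module WORDS, part 2: infinite words, the product measure `PP p`, the coding map
`Pi r t`, uniqueness of the self-similar measure. (helper430)
-/

set_option autoImplicit false

namespace Crest.Agent.R98

open Finset Crest.AnalysisR Crest.Agent.R098.Upper MeasureTheory Filter
open scoped ENNReal NNReal Topology

section Inf

variable {ι : Type*}

/-- put a letter in front of an infinite word -/
def scons (a : ι) (w : ℕ → ι) : ℕ → ι
  | 0 => a
  | n + 1 => w n

/-- concatenation of a finite and an infinite word -/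
def cat : ∀ {n : ℕ}, (Fin n → ι) → (ℕ → ι) → ℕ → ι
  | 0, _, w => w
  | _ + 1, u, w => scons (u 0) (cat (Fin.tail u) w)

/-- prefix of length `n` -/
def pre (n : ℕ) (w : ℕ → ι) : Fin n → ι := fun j => w j

/-- the word without its first `n` letters -/
def sh (n : ℕ) (w : ℕ → ι) : ℕ → ι := fun j => w (j + n)

@[simp] lemma scons_zero (a : ι) (w : ℕ → ι) : scons a w 0 = a := rfl
@[simp] lemma scons_succ (a : ι) (w : ℕ → ι) (n : ℕ) : scons a w (n+1) = w n := rfl

@[simp] lemma cat_nil (u : Fin 0 → ι) (w : ℕ → ι) : cat u w = w := rfl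

@[simp] lemma cat_cons {n : ℕ} (a : ι) (u : Fin n → ι) (w : ℕ → ι) :
    cat (Fin.cons a u : Fin (n+1) → ι) w = scons a (cat u w) := by
  simp [cat]

lemma scons_sh (w : ℕ → ι) : scons (w 0) (sh 1 w) = w := by
  funext n; cases n <;> rfl

@[simp] lemma sh_zero (w : ℕ → ι) : sh 0 w = w := rfl


@[simp] lemma sh_one_scons (a : ι) (w : ℕ → ι) : sh 1 (scons a w) = w := by
  funext j; rfl

@[simp] lemma sh_succ_scons (n : ℕ) (a : ι) (w : ℕ → ι) : sh (n+1) (scons a w) = sh n w := by
  funext j; rfl

@[simp] lemma pre_succ_scons (n : ℕ) (a : ι) (w : ℕ → ι) :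
    pre (n+1) (scons a w) = (Fin.cons a (pre n w) : Fin (n+1) → ι) := by
  funext j
  refine Fin.cases ?_ (fun j => ?_) j
  · simp [pre]
  · simp [pre]

lemma cat_pre_sh (n : ℕ) (w : ℕ → ι) : cat (pre n w) (sh n w) = w := by
  induction n generalizing w with
  | zero => rfl
  | succ n ih =>
    have h : w = scons (w 0) (sh 1 w) := (scons_sh w).symm
    conv_lhs => rw [h]
    rw [pre_succ_scons, cat_cons, sh_succ_scons, ih, scons_sh]

@[simp] lemma pre_cat {n : ℕ} (u : Fin n → ι) (w : ℕ → ι) : pre n (cat u w) = u := by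
  induction n with
  | zero => funext j; exact j.elim0
  | succ n ih =>
    obtain ⟨a, u, rfl⟩ := exists_cons u
    rw [cat_cons, pre_succ_scons, ih]

@[simp] lemma sh_cat {n : ℕ} (u : Fin n → ι) (w : ℕ → ι) : sh n (cat u w) = w := by
  induction n with
  | zero => rfl
  | succ n ih =>
    obtain ⟨a, u, rfl⟩ := exists_cons u
    rw [cat_cons, sh_succ_scons, ih]



variable [MeasurableSpace ι]

@[fun_prop] lemma measurable_scons (a : ι) : Measurable (scons a) := by
  refine measurable_pi_lambda _ fun n => ?_
  cases n with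
  | zero => exact measurable_const
  | succ n => exact measurable_pi_apply n

@[fun_prop] lemma measurable_cat {n : ℕ} (u : Fin n → ι) : Measurable (cat u) := by
  induction n with
  | zero => exact measurable_id
  | succ n ih =>
    obtain ⟨a, u, rfl⟩ := exists_cons u
    have : cat (Fin.cons a u : Fin (n+1) → ι) = scons a ∘ cat u := by
      funext w; simp
    rw [this]
    exact (measurable_scons a).comp (ih u)

@[fun_prop] lemma measurable_pre (n : ℕ) : Measurable (pre (ι := ι) n) :=
  measurable_pi_lambda _ fun j => measurable_pi_apply (j : ℕ)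

@[fun_prop] lemma measurable_sh (n : ℕ) : Measurable (sh (ι := ι) n) :=
  measurable_pi_lambda _ fun j => measurable_pi_apply (j + n)

end Inf

section Meas

variable {ι : Type*} [Fintype ι] [MeasurableSpace ι]

/-- law of one letter -/
noncomputable def letterMeas (p : ι → ℝ) : Measure ι := ∑ i, ENNReal.ofReal (p i) • Measure.dirac i

/-- law of an infinite iid word -/
noncomputable def PP (p : ι → ℝ) : Measure (ℕ → ι) := Measure.infinitePi fun _ : ℕ => letterMeas p


lemma isProb_letterMeas {p : ι → ℝ} (hp : (∀ i, 0 ≤ p i) ∧ ∑ i, p i = 1) :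
    IsProbabilityMeasure (letterMeas p) := by
  constructor
  simp only [letterMeas, Measure.coe_finsetSum, Finset.sum_apply, Measure.smul_apply,
    measure_univ, smul_eq_mul, mul_one]
  rw [← ENNReal.ofReal_sum_of_nonneg fun i _ => hp.1 i, hp.2, ENNReal.ofReal_one]

lemma isProb_PP {p : ι → ℝ} (hp : (∀ i, 0 ≤ p i) ∧ ∑ i, p i = 1) :
    IsProbabilityMeasure (PP p) := by
  have := isProb_letterMeas hp
  unfold PP
  infer_instance

variable [DiscreteMeasurableSpace ι]

open Classical in
lemma letterMeas_apply (p : ι → ℝ) (A : Set ι) :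
    letterMeas p A = ∑ a, if a ∈ A then ENNReal.ofReal (p a) else 0 := by
  simp only [letterMeas, Measure.coe_finsetSum, Finset.sum_apply, Measure.smul_apply, smul_eq_mul]
  refine Finset.sum_congr rfl fun a _ => ?_
  rw [Measure.dirac_apply' _ (MeasurableSet.of_discrete)]
  by_cases h : a ∈ A <;> simp [h]

lemma PP_cons {p : ι → ℝ} (hp : (∀ i, 0 ≤ p i) ∧ ∑ i, p i = 1) :
    PP p = ∑ a, ENNReal.ofReal (p a) • (PP p).map (scons a) := by
  classical
  have := isProb_letterMeas hp
  symm
  refine Measure.eq_infinitePi (μ := fun _ : ℕ => letterMeas p) ?_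
  intro s t ht
  -- extend to an initial segment
  obtain ⟨N, hN⟩ : ∃ N, ∀ j ∈ s, j < N + 1 := by
    refine ⟨s.sup id, fun j hj => Nat.lt_succ_of_le ?_⟩
    exact Finset.le_sup (f := id) hj
  set t' : ℕ → Set ι := fun j => if j ∈ s then t j else Set.univ with ht'
  have hmt' : ∀ j, MeasurableSet (t' j) := fun j => MeasurableSet.of_discrete
  have h1 : Set.pi (s : Set ℕ) t = Set.pi ((range (N+1) : Finset ℕ) : Set ℕ) t' := by
    ext w
    simp only [Set.mem_pi, Finset.mem_coe, Finset.mem_range, ht']
    constructor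
    · intro h j _
      by_cases hj : j ∈ s
      · simpa [hj] using h j hj
      · simp [hj]
    · intro h j hj
      simpa [hj] using h j (hN j hj)
  have h2 : ∏ j ∈ s, letterMeas p (t j) = ∏ j ∈ range (N+1), letterMeas p (t' j) := by
    have hsub : s ⊆ range (N+1) := fun j hj => Finset.mem_range.2 (hN j hj)
    rw [← Finset.prod_subset hsub]
    · refine Finset.prod_congr rfl fun j hj => ?_
      simp [ht', hj]
    · intro j _ hj
      simp [ht', hj]
  rw [h1, h2, Finset.prod_range_succ']
  have hmeas : MeasurableSet (Set.pi ((range (N+1) : Finset ℕ) : Set ℕ) t') :=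
    MeasurableSet.pi (Finset.countable_toSet _) fun j _ => hmt' j
  simp only [Measure.coe_finsetSum, Finset.sum_apply, Measure.smul_apply, smul_eq_mul]
  have h3 : ∀ a : ι, (PP p).map (scons a) (Set.pi ((range (N+1) : Finset ℕ) : Set ℕ) t') =
      (if a ∈ t' 0 then 1 else 0) * ∏ j ∈ range N, letterMeas p (t' (j+1)) := by
    intro a
    rw [Measure.map_apply (measurable_scons a) hmeas]
    by_cases ha : a ∈ t' 0
    · have : (scons a) ⁻¹' (Set.pi ((range (N+1) : Finset ℕ) : Set ℕ) t') =
          Set.pi ((range N : Finset ℕ) : Set ℕ) (fun j => t' (j+1)) := by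
        ext w
        simp only [Set.mem_preimage, Set.mem_pi, Finset.mem_coe, Finset.mem_range]
        constructor
        · intro h j hj
          exact h (j+1) (by omega)
        · intro h j hj
          cases j with
          | zero => exact ha
          | succ j => exact h j (by omega)
      rw [this]
      unfold PP
      rw [Measure.infinitePi_pi _ (fun j _ => hmt' (j+1))]
      simp [ha]
    · have : (scons a) ⁻¹' (Set.pi ((range (N+1) : Finset ℕ) : Set ℕ) t') = ∅ := by
        ext w
        simp only [Set.mem_preimage, Set.mem_pi, Finset.mem_coe, Finset.mem_range,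
          Set.mem_empty_iff_false, iff_false, not_forall]
        exact ⟨0, by omega, ha⟩
      rw [this]
      simp [ha]
  simp only [h3]
  rw [letterMeas_apply p (t' 0), mul_comm, Finset.sum_mul]
  refine Finset.sum_congr rfl fun a _ => ?_
  by_cases ha : a ∈ t' 0 <;> simp [ha]

lemma PP_cat {p : ι → ℝ} (hp : (∀ i, 0 ≤ p i) ∧ ∑ i, p i = 1) (n : ℕ) :
    PP p = ∑ u : Fin n → ι, ENNReal.ofReal (pw p u) • (PP p).map (cat u) := by
  induction n with
  | zero =>
    have h : cat (ι := ι) (default : Fin 0 → ι) = id := rfl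
    simp [pw, h]
  | succ n ih =>
    rw [sum_succ']
    conv_lhs => rw [PP_cons hp]
    refine Finset.sum_congr rfl fun a _ => ?_
    conv_lhs => rw [ih]
    rw [Measure.map_finset_sum' (measurable_scons a).aemeasurable, Finset.smul_sum]
    refine Finset.sum_congr rfl fun u _ => ?_
    rw [Measure.map_smul, Measure.map_map (measurable_scons a) (measurable_cat u), pw_cons,
      ENNReal.ofReal_mul (hp.1 a), smul_smul]
    congr 2

/-- independence of prefix and tail -/
lemma PP_pre_sh {p : ι → ℝ} (hp : (∀ i, 0 ≤ p i) ∧ ∑ i, p i = 1) {n : ℕ} (u : Fin n → ι)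
    {B : Set (ℕ → ι)} (hB : MeasurableSet B) :
    PP p {w | pre n w = u ∧ sh n w ∈ B} = ENNReal.ofReal (pw p u) * PP p B := by
  classical
  have hm : MeasurableSet {w : ℕ → ι | pre n w = u ∧ sh n w ∈ B} := by
    refine MeasurableSet.inter ?_ ((measurable_sh n) hB)
    exact (measurable_pre n) (MeasurableSet.of_discrete (s := ({u} : Set (Fin n → ι))))
  conv_lhs => rw [PP_cat hp n]
  simp only [Measure.coe_finsetSum, Finset.sum_apply, Measure.smul_apply, smul_eq_mul]
  rw [Finset.sum_eq_single u]
  · rw [Measure.map_apply (measurable_cat u) hm]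
    congr 2
    ext w
    simp
  · intro v _ hv
    rw [Measure.map_apply (measurable_cat v) hm]
    have : (cat v) ⁻¹' {w : ℕ → ι | pre n w = u ∧ sh n w ∈ B} = ∅ := by
      ext w; simp [hv]
    rw [this]; simp
  · intro h; exact absurd (mem_univ _) h


/-- law of the prefix -/
lemma PP_pre {p : ι → ℝ} (hp : (∀ i, 0 ≤ p i) ∧ ∑ i, p i = 1) {n : ℕ} (u : Fin n → ι) :
    PP p {w | pre n w = u} = ENNReal.ofReal (pw p u) := by
  have := isProb_PP hp
  have := PP_pre_sh hp u MeasurableSet.univ
  simpa using this



end Meas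

end Crest.Agent.R98
private theorem rz_40899708cb : type_of% @_root_.Crest.Agent.R98.cat.eq_def := @_root_.Crest.Agent.R98.cat.eq_def -- L25
private theorem rz_002e3e49de : type_of% @_root_.Crest.Agent.R98.cat.eq_1 := @_root_.Crest.Agent.R98.cat.eq_1 -- L25
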