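import Mathlib
import Crest.Agent.R98.Word2

-- ▼ part R98/FA
section

/-!
Row 98, module F (helper893): conditional entropy of a finite-valued variable given a σ-algebra.
-/

set_option autoImplicit false

namespace Crest.Agent.R98.F

open MeasureTheory ProbabilityTheory Filter Topology Real

noncomputable section

/-! ### elementary inequalities -/

theorem negMulLog_bd {x : ℝ} (h0 : 0 ≤ x) (h1 : x ≤ 1) : |negMulLog x| ≤ 1 := by
  have h2 : 0 ≤ negMulLog x := negMulLog_nonneg h0 h1
  rw [abs_of_nonneg h2]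
  rcases h0.eq_or_lt with h | h
  · rw [← h]; simp
  · have h3 : 1 - x⁻¹ ≤ log x := one_sub_inv_le_log_of_pos h
    unfold negMulLog
    have h4 : x * (1 - x⁻¹) ≤ x * log x := mul_le_mul_of_nonneg_left h3 h0
    have h5 : x * (1 - x⁻¹) = x - 1 := by field_simp
    linarith

/-- strict convexity of `x log x` -/
theorem breg {a c : ℝ} (ha : 0 ≤ a) (ha1 : a ≤ 1) (hc : 0 < c) (hc2 : c ≤ 2) :
    a * log c + (a - c) + (a - c) ^ 2 / 8 ≤ a * log a := by
  rcases ha.eq_or_lt with h | h
  · subst h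
    simp only [zero_mul, zero_add, zero_sub]
    nlinarith
  · have hs : 0 < √(a / c) := Real.sqrt_pos.2 (by positivity)
    have h1 : log (a / c) = 2 * log (√(a / c)) := by
      rw [Real.log_sqrt (by positivity)]; ring
    have h2 : 1 - (√(a / c))⁻¹ ≤ log (√(a / c)) := one_sub_inv_le_log_of_pos hs
    have h3 : (√(a / c))⁻¹ = √c / √a := by
      rw [Real.sqrt_div ha, inv_div]
    have hsa : 0 < √a := Real.sqrt_pos.2 h
    have hsc : 0 < √c := Real.sqrt_pos.2 hc
    have haa : √a * √a = a := Real.mul_self_sqrt ha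
    have hcc : √c * √c = c := Real.mul_self_sqrt hc.le
    have h4 : a * log (a / c) ≥ 2 * a - 2 * (√a * √c) := by
      rw [h1]
      have h5 : a * (1 - √c / √a) ≤ a * log (√(a / c)) := by
        rw [← h3]; exact mul_le_mul_of_nonneg_left h2 ha
      have h6 : a * (1 - √c / √a) = a - √a * √c := by
        have : a * (√c / √a) = √a * √c := by
          have : a * (√c / √a) = (√a * √a) * (√c / √a) := by rw [haa]
          rw [this]
          field_simp
        rw [mul_sub, mul_one, this]
      linarith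
    have h7 : log (a / c) = log a - log c := Real.log_div h.ne' hc.ne'
    rw [h7] at h4
    have h8 : (a - c) ^ 2 ≤ 8 * (√a - √c) ^ 2 := by
      have e : a - c = (√a - √c) * (√a + √c) := by
        have : (√a - √c) * (√a + √c) = √a * √a - √c * √c := by ring
        rw [this, haa, hcc]
      rw [e, mul_pow]
      have h9 : (√a + √c) ^ 2 ≤ 8 := by
        nlinarith [sq_nonneg (√a - √c)]
      nlinarith [sq_nonneg (√a - √c)]
    have h10 : (√a - √c) ^ 2 = a - 2 * (√a * √c) + c := by
      have : (√a - √c) ^ 2 = √a * √a - 2 * (√a * √c) + √c * √c := by ring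
      rw [this, haa, hcc]
    nlinarith

variable {Ω : Type*} {Z : Type*} {m m1 m2 m0 : MeasurableSpace Ω} {μ : Measure Ω}

/-- conditional probability of `f = z` given `m` -/
def cp (μ : Measure Ω) (m : MeasurableSpace Ω) (f : Ω → Z) (z : Z) : Ω → ℝ :=
  μ[(f ⁻¹' {z}).indicator (fun _ => (1 : ℝ)) | m]

/-- conditional entropy of `f` given `m` -/
def Hc [Fintype Z] (μ : Measure Ω) (m : MeasurableSpace Ω) (f : Ω → Z) : ℝ :=
  ∑ z, ∫ ω, negMulLog (cp μ m f z ω) ∂μ

section basic

variable [MeasurableSpace Z] [MeasurableSingletonClass Z] {f : Ω → Z} (z : Z)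

theorem meas_pre (hf : Measurable f) : MeasurableSet (f ⁻¹' {z}) :=
  hf (measurableSet_singleton z)

theorem ind_int [IsFiniteMeasure μ] (hf : Measurable f) :
    Integrable ((f ⁻¹' {z}).indicator (fun _ => (1 : ℝ))) μ :=
  (integrable_const 1).indicator (meas_pre z hf)

theorem cp_int : Integrable (cp μ m f z) μ := integrable_condExp

theorem cp_sm : StronglyMeasurable[m] (cp μ m f z) := stronglyMeasurable_condExp

theorem cp_nonneg : 0 ≤ᵐ[μ] cp μ m f z := by
  refine condExp_nonneg ?_
  exact Eventually.of_forall fun ω => Set.indicator_nonneg (fun _ _ => zero_le_one) ω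

theorem cp_le_one [IsProbabilityMeasure μ] (hm : m ≤ m0) (hf : Measurable f) :
    ∀ᵐ ω ∂μ, cp μ m f z ω ≤ 1 := by
  have h := condExp_mono (m := m) (ind_int (μ := μ) z hf) (integrable_const (1 : ℝ))
    (Eventually.of_forall fun ω => Set.indicator_le_self' (fun _ _ => zero_le_one) ω)
  rw [condExp_const hm] at h
  filter_upwards [h] with ω hω using hω

theorem cp_bd [IsProbabilityMeasure μ] (hm : m ≤ m0) (hf : Measurable f) :
    ∀ᵐ ω ∂μ, 0 ≤ cp μ m f z ω ∧ cp μ m f z ω ≤ 1 := by
  filter_upwards [cp_nonneg (μ := μ) (m := m) (f := f) z, cp_le_one z hm hf] with ω h1 h2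
  exact ⟨h1, h2⟩


theorem cp_integral [IsProbabilityMeasure μ] (hm : m ≤ m0) (hf : Measurable f) :
    ∫ ω, cp μ m f z ω ∂μ = μ.real (f ⁻¹' {z}) := by
  unfold cp
  rw [integral_condExp hm]
  exact integral_indicator_one (meas_pre z hf)

theorem cp_tower (h12 : m1 ≤ m2) (h2 : m2 ≤ m0) [IsProbabilityMeasure μ] :
    μ[cp μ m2 f z | m1] =ᵐ[μ] cp μ m1 f z := condExp_condExp_of_le h12 h2

theorem cp_self (hm : m ≤ m0) [IsProbabilityMeasure μ] (hf : Measurable[m] f) :
    cp μ m f z = (f ⁻¹' {z}).indicator (fun _ => (1 : ℝ)) := by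
  unfold cp
  refine condExp_of_stronglyMeasurable hm ?_ ?_
  · exact stronglyMeasurable_const.indicator (hf (measurableSet_singleton z))
  · exact ind_int z (hf.mono hm le_rfl)

theorem eta_int [IsProbabilityMeasure μ] (hm : m ≤ m0) (hf : Measurable f) :
    Integrable (fun ω => negMulLog (cp μ m f z ω)) μ := by
  refine Integrable.of_bound
    (continuous_negMulLog.comp_aestronglyMeasurable (cp_int z).aestronglyMeasurable) 1 ?_
  filter_upwards [cp_bd (μ := μ) z hm hf] with ω hω
  exact negMulLog_bd hω.1 hω.2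


/-- **quantitative monotonicity** -/
theorem eta_mono [IsProbabilityMeasure μ] (h12 : m1 ≤ m2) (h2 : m2 ≤ m0) (hf : Measurable f) :
    (∫ ω, (cp μ m2 f z ω - cp μ m1 f z ω) ^ 2 ∂μ) / 8 ≤
      ∫ ω, negMulLog (cp μ m1 f z ω) ∂μ - ∫ ω, negMulLog (cp μ m2 f z ω) ∂μ := by
  have h1 : m1 ≤ m0 := h12.trans h2
  set a := cp μ m2 f z with ha
  set b := cp μ m1 f z with hb
  have hab := cp_bd (μ := μ) z h2 hf
  have hbb := cp_bd (μ := μ) z h1 hf
  rw [← ha] at hab
  rw [← hb] at hbb
  have hai : Integrable a μ := cp_int z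
  have hbi : Integrable b μ := cp_int z
  have hbm : StronglyMeasurable[m1] b := cp_sm z
  have hEab : ∫ ω, a ω ∂μ = ∫ ω, b ω ∂μ := by
    rw [ha, hb, cp_integral z h2 hf, cp_integral z h1 hf]
  -- for every ε
  have key : ∀ ε : ℝ, 0 < ε → ε ≤ 1 → ∫ ω, b ω * log (b ω + ε) ∂μ - ε +
      (∫ ω, (a ω - b ω - ε) ^ 2 ∂μ) / 8 ≤ -∫ ω, negMulLog (a ω) ∂μ := by
    intro ε hε hε1
    have hlm : StronglyMeasurable[m1] (fun ω => log (b ω + ε)) := by
      have : Measurable[m1] (fun ω => log (b ω + ε)) :=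
        Real.measurable_log.comp (hbm.measurable.add_const ε)
      exact this.stronglyMeasurable
    have hlb : ∀ᵐ ω ∂μ, |log (b ω + ε)| ≤ |log ε| + 1 := by
      filter_upwards [hbb] with ω hω
      have h1 : log ε ≤ log (b ω + ε) := Real.log_le_log hε (by linarith [hω.1])
      have h2 : log (b ω + ε) ≤ 1 := by
        have := Real.log_le_sub_one_of_pos (show 0 < b ω + ε by linarith [hω.1])
        linarith [hω.2]
      rw [abs_le]
      constructor
      · have := neg_abs_le (log ε); linarith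
      · have := abs_nonneg (log ε); linarith
    have hali : Integrable (fun ω => log (b ω + ε) * a ω) μ := by
      refine (hai.bdd_mul (c := |log ε| + 1) (hlm.mono h1).aestronglyMeasurable ?_)
      filter_upwards [hlb] with ω hω using hω
    have hbli : Integrable (fun ω => log (b ω + ε) * b ω) μ := by
      refine (hbi.bdd_mul (c := |log ε| + 1) (hlm.mono h1).aestronglyMeasurable ?_)
      filter_upwards [hlb] with ω hω using hω
    have hpull : ∫ ω, log (b ω + ε) * a ω ∂μ = ∫ ω, log (b ω + ε) * b ω ∂μ := by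
      have h3 : μ[(fun ω => log (b ω + ε)) * a | m1] =ᵐ[μ]
          (fun ω => log (b ω + ε)) * μ[a | m1] :=
        condExp_mul_of_stronglyMeasurable_left hlm hali hai
      have h4 : μ[a | m1] =ᵐ[μ] b := cp_tower z h12 h2
      have h5 : ∫ ω, ((fun ω => log (b ω + ε)) * a) ω ∂μ =
          ∫ ω, (μ[(fun ω => log (b ω + ε)) * a | m1]) ω ∂μ := (integral_condExp h1).symm
      have h6 : ∫ ω, (μ[(fun ω => log (b ω + ε)) * a | m1]) ω ∂μ =
          ∫ ω, log (b ω + ε) * b ω ∂μ := by
        refine integral_congr_ae ?_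
        filter_upwards [h3, h4] with ω h7 h8
        rw [h7, Pi.mul_apply, h8]
      exact h5.trans h6
    have hsqi : Integrable (fun ω => (a ω - b ω - ε) ^ 2) μ := by
      refine Integrable.of_bound ((((hai.sub hbi).sub
        (integrable_const ε)).aestronglyMeasurable).pow 2) 4 ?_
      filter_upwards [hab, hbb] with ω h3 h4
      rw [Real.norm_eq_abs, abs_of_nonneg (sq_nonneg _)]
      nlinarith [h3.1, h3.2, h4.1, h4.2]
    have hpt : ∀ᵐ ω ∂μ, log (b ω + ε) * a ω + (a ω - b ω - ε) + (a ω - b ω - ε) ^ 2 / 8 ≤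
        -negMulLog (a ω) := by
      filter_upwards [hab, hbb] with ω h3 h4
      have := breg h3.1 h3.2 (show 0 < b ω + ε by linarith [h4.1]) (by linarith [h4.2])
      unfold negMulLog
      have e : a ω - (b ω + ε) = a ω - b ω - ε := by ring
      rw [e] at this
      linarith [mul_comm (a ω) (log (b ω + ε))]
    have i0 : Integrable (fun ω => a ω - b ω) μ := hai.sub hbi
    have i1 : Integrable (fun ω => a ω - b ω - ε) μ := i0.sub (integrable_const ε)
    have i2 : Integrable (fun ω => log (b ω + ε) * a ω + (a ω - b ω - ε)) μ := hali.add i1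
    have i3 : Integrable (fun ω => (a ω - b ω - ε) ^ 2 / 8) μ := hsqi.div_const 8
    have i4 : Integrable (fun ω => -negMulLog (a ω)) μ := (eta_int (μ := μ) z h2 hf).neg
    have e3 := integral_mono_ae (i2.add i3) i4 hpt
    rw [integral_add' i2 i3, integral_add hali i1, integral_sub i0
      (integrable_const ε), integral_sub hai hbi, hEab, integral_div, hpull, integral_neg] at e3
    simp only [sub_self, integral_const, probReal_univ, one_smul, smul_eq_mul, one_mul,
      zero_sub] at e3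
    have e4 : ∫ ω, log (b ω + ε) * b ω ∂μ = ∫ ω, b ω * log (b ω + ε) ∂μ :=
      integral_congr_ae (Eventually.of_forall fun ω => mul_comm _ _)
    rw [e4] at e3
    linarith
  -- the limit
  have hu : Tendsto (fun n : ℕ => (1 : ℝ) / (n + 1)) atTop (𝓝 0) :=
    tendsto_one_div_add_atTop_nhds_zero_nat
  have hun : ∀ n : ℕ, (0:ℝ) < 1 / (n + 1) := fun n => by positivity
  have hun1 : ∀ n : ℕ, (1:ℝ) / (n + 1) ≤ 1 := fun n => by
    rw [div_le_one (by positivity)]
    have : (0:ℝ) ≤ n := Nat.cast_nonneg n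
    linarith
  have L1 : Tendsto (fun n : ℕ => ∫ ω, b ω * log (b ω + 1 / (n + 1)) ∂μ) atTop
      (𝓝 (∫ ω, b ω * log (b ω) ∂μ)) := by
    refine tendsto_integral_of_dominated_convergence (fun _ => 1) ?_ (integrable_const 1) ?_ ?_
    · intro n
      have hb0 : Measurable b := (hbm.mono h1).measurable
      exact (hb0.mul (Real.measurable_log.comp (hb0.add_const _))).aestronglyMeasurable
    · intro n
      filter_upwards [hbb] with ω hω
      rw [Real.norm_eq_abs]
      rcases hω.1.eq_or_lt with h | h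
      · rw [← h]; simp
      · have a1 : log (b ω) ≤ log (b ω + 1 / (n + 1)) :=
          Real.log_le_log h (by linarith [hun n])
        have a2 : log (b ω + 1 / (n + 1)) ≤ 1 := by
          have := Real.log_le_sub_one_of_pos (show 0 < b ω + 1 / ((n:ℝ) + 1) by linarith [hun n])
          linarith [hω.2, hun1 n]
        have a3 := (abs_le.1 (negMulLog_bd hω.1 hω.2)).2
        unfold negMulLog at a3
        rw [abs_le]
        constructor
        · nlinarith
        · nlinarith [hω.2]
    · filter_upwards [hbb] with ω hω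
      rcases hω.1.eq_or_lt with h | h
      · rw [← h]; simp
      · have h3 : Tendsto (fun n : ℕ => b ω + 1 / ((n:ℝ) + 1)) atTop (𝓝 (b ω + 0)) :=
          tendsto_const_nhds.add hu
        rw [add_zero] at h3
        exact (h3.log h.ne').const_mul _
  have L2 : Tendsto (fun n : ℕ => ∫ ω, (a ω - b ω - 1 / ((n:ℝ) + 1)) ^ 2 ∂μ) atTop
      (𝓝 (∫ ω, (a ω - b ω) ^ 2 ∂μ)) := by
    refine tendsto_integral_of_dominated_convergence (fun _ => 4) ?_ (integrable_const 4) ?_ ?_
    · intro n
      exact (((hai.sub hbi).sub (integrable_const _)).aestronglyMeasurable.pow 2)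
    · intro n
      filter_upwards [hab, hbb] with ω h3 h4
      rw [Real.norm_eq_abs, abs_of_nonneg (sq_nonneg _)]
      nlinarith [h3.1, h3.2, h4.1, h4.2, hun n, hun1 n]
    · refine Eventually.of_forall fun ω => ?_
      have h3 : Tendsto (fun n : ℕ => (a ω - b ω - 1 / ((n:ℝ) + 1)) ^ 2) atTop
          (𝓝 ((a ω - b ω - 0) ^ 2)) := (tendsto_const_nhds.sub hu).pow 2
      rwa [sub_zero] at h3
  have L := (L1.sub hu).add (L2.div_const 8)
  have hfin : ∫ ω, b ω * log (b ω) ∂μ - 0 + (∫ ω, (a ω - b ω) ^ 2 ∂μ) / 8 ≤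
      -∫ ω, negMulLog (a ω) ∂μ :=
    le_of_tendsto L (Eventually.of_forall fun n => key _ (hun n) (hun1 n))
  have e : ∫ ω, b ω * log (b ω) ∂μ = -∫ ω, negMulLog (b ω) ∂μ := by
    rw [← integral_neg]
    refine integral_congr_ae (Eventually.of_forall fun ω => ?_)
    show b ω * log (b ω) = -negMulLog (b ω)
    unfold negMulLog; ring
  rw [e] at hfin
  linarith

/-- monotonicity of the conditional entropy -/
theorem Hc_anti [IsProbabilityMeasure μ] [Fintype Z] (h12 : m1 ≤ m2) (h2 : m2 ≤ m0)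
    (hf : Measurable f) : Hc μ m2 f ≤ Hc μ m1 f := by
  unfold Hc
  refine Finset.sum_le_sum fun z _ => ?_
  have h := eta_mono (μ := μ) z h12 h2 hf
  have h0 : 0 ≤ ∫ ω, (cp μ m2 f z ω - cp μ m1 f z ω) ^ 2 ∂μ :=
    integral_nonneg fun ω => sq_nonneg _
  linarith

/-- **equality case** -/
theorem cp_eq_of_Hc_le [IsProbabilityMeasure μ] [Fintype Z] (h12 : m1 ≤ m2) (h2 : m2 ≤ m0)
    (hf : Measurable f) (h : Hc μ m1 f ≤ Hc μ m2 f) (z : Z) :
    cp μ m2 f z =ᵐ[μ] cp μ m1 f z := by
  have hz : ∀ z : Z, 0 ≤ ∫ ω, (cp μ m2 f z ω - cp μ m1 f z ω) ^ 2 ∂μ :=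
    fun z => integral_nonneg fun ω => sq_nonneg _
  have hs : ∑ z : Z, (∫ ω, (cp μ m2 f z ω - cp μ m1 f z ω) ^ 2 ∂μ) / 8 ≤ 0 := by
    have h3 := Finset.sum_le_sum fun z (_ : z ∈ (Finset.univ : Finset Z)) =>
      eta_mono (μ := μ) z h12 h2 hf
    rw [Finset.sum_sub_distrib] at h3
    unfold Hc at h
    linarith
  have h4 : (∫ ω, (cp μ m2 f z ω - cp μ m1 f z ω) ^ 2 ∂μ) / 8 ≤ 0 :=
    (Finset.single_le_sum (f := fun z => (∫ ω, (cp μ m2 f z ω - cp μ m1 f z ω) ^ 2 ∂μ) / 8)
      (fun z _ => div_nonneg (hz z) (by norm_num)) (Finset.mem_univ z)).trans hs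
  have h5 : ∫ ω, (cp μ m2 f z ω - cp μ m1 f z ω) ^ 2 ∂μ = 0 := le_antisymm (by linarith) (hz z)
  have hi : Integrable (fun ω => (cp μ m2 f z ω - cp μ m1 f z ω) ^ 2) μ := by
    refine Integrable.of_bound
      (((cp_int (μ := μ) (m := m2) (f := f) z).sub (cp_int z)).aestronglyMeasurable.pow 2) 1 ?_
    filter_upwards [cp_bd (μ := μ) z h2 hf, cp_bd (μ := μ) z (h12.trans h2) hf] with ω h3 h4
    rw [Real.norm_eq_abs, abs_of_nonneg (sq_nonneg _)]
    nlinarith [h3.1, h3.2, h4.1, h4.2]
  rw [integral_eq_zero_iff_of_nonneg (fun ω => sq_nonneg _) hi] at h5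
  filter_upwards [h5] with ω hω
  have : (cp μ m2 f z ω - cp μ m1 f z ω) ^ 2 = 0 := hω
  have := pow_eq_zero_iff (two_ne_zero) |>.1 this
  linarith

end basic

end

end Crest.Agent.R98.F
end

-- ▼ part R98/FA2
section

/-!
Row 98, module F (helper893): chain rule for the conditional entropy given a σ-algebra,
invariance, independent augmentation.
-/

set_option autoImplicit false
set_option linter.unusedSectionVars false
set_option linter.unusedSimpArgs false

namespace Crest.Agent.R98.F

open MeasureTheory ProbabilityTheory Filter Topology Real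

noncomputable section

variable {Ω : Type*} {Y : Type*} {Z : Type*} {m m1 m2 m0 : MeasurableSpace Ω} {μ : Measure Ω}

section join

variable [mY : MeasurableSpace Y] [mZ : MeasurableSpace Z]

/-- description of the sets of `m ⊔ σ(f)` -/
theorem split_set {f : Ω → Y} {A : Set Ω}
    (hA : MeasurableSet[m ⊔ MeasurableSpace.comap f mY] A) :
    ∃ Az : Y → Set Ω, (∀ y, MeasurableSet[m] (Az y)) ∧ ∀ ω, ω ∈ A ↔ ω ∈ Az (f ω) := by
  have e : m ⊔ MeasurableSpace.comap f mY =
      @MeasurableSpace.comap Ω (Ω × Y) (fun ω => (ω, f ω)) (m.prod mY) := by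
    have h := @MeasurableSpace.comap_prodMk Ω Ω Y m mY id f
    rw [MeasurableSpace.comap_id] at h
    exact h.symm
  rw [e] at hA
  obtain ⟨B, hB, rfl⟩ := hA
  refine ⟨fun y => (fun ω => (ω, y)) ⁻¹' B, fun y => ?_, fun ω => Iff.rfl⟩
  have hmk : @Measurable Ω (Ω × Y) m (m.prod mY) (fun ω => (ω, y)) :=
    @measurable_prodMk_right Ω Y m mY y
  exact hmk hB

end join

section chain

variable [Fintype Y] [Fintype Z] [mY : MeasurableSpace Y] [MeasurableSingletonClass Y]
  [mZ : MeasurableSpace Z] [MeasurableSingletonClass Z] {f : Ω → Y} {g : Ω → Z}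

/-- the conditional law of the pair is dominated by the one of the first component -/
theorem cp_pair_le [IsProbabilityMeasure μ] (hf : @Measurable Ω Y m0 mY f)
    (hg : @Measurable Ω Z m0 mZ g) (y : Y) (z : Z) :
    ∀ᵐ ω ∂μ, cp μ m (fun ω => (f ω, g ω)) (y, z) ω ≤ cp μ m f y ω := by
  refine condExp_mono (ind_int (μ := μ) (y, z) (hf.prodMk hg)) (ind_int (μ := μ) y hf) ?_
  refine Eventually.of_forall fun ω => ?_
  refine Set.indicator_le_indicator_of_subset ?_ (fun _ => zero_le_one) ω
  intro ω h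
  have h1 : (f ω, g ω) = (y, z) := h
  exact congrArg Prod.fst h1

/-- marginal -/
theorem cp_pair_sum [IsProbabilityMeasure μ] (hf : @Measurable Ω Y m0 mY f)
    (hg : @Measurable Ω Z m0 mZ g) (y : Y) :
    ∀ᵐ ω ∂μ, ∑ z, cp μ m (fun ω => (f ω, g ω)) (y, z) ω = cp μ m f y ω := by
  have h := condExp_finsetSum (μ := μ) (s := (Finset.univ : Finset Z))
    (f := fun z => ((fun ω => (f ω, g ω)) ⁻¹' {(y, z)}).indicator (fun _ => (1 : ℝ)))
    (fun z _ => ind_int (y, z) (hf.prodMk hg)) m
  have e : ∑ z : Z, ((fun ω => (f ω, g ω)) ⁻¹' {(y, z)}).indicator (fun _ => (1 : ℝ)) =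
      (f ⁻¹' {y}).indicator (fun _ => (1 : ℝ)) := by
    funext ω
    rw [Finset.sum_apply]
    rw [Finset.sum_eq_single (g ω)]
    · by_cases h : f ω = y
      · rw [Set.indicator_of_mem, Set.indicator_of_mem]
        · exact h
        · show (f ω, g ω) = (y, g ω)
          rw [h]
      · rw [Set.indicator_of_notMem, Set.indicator_of_notMem]
        · exact h
        · intro h1
          exact h (congrArg Prod.fst h1)
    · intro z _ hz
      rw [Set.indicator_of_notMem]
      intro h
      exact hz (congrArg Prod.snd h).symm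
    · intro h; exact absurd (Finset.mem_univ _) h
  rw [e] at h
  filter_upwards [h] with ω hω
  rw [Finset.sum_apply] at hω
  exact hω.symm

/-- ratio of conditional probabilities -/
def rt (μ : Measure Ω) (m : MeasurableSpace Ω) (f : Ω → Y) (g : Ω → Z) (y : Y) (z : Z) (ω : Ω) :
    ℝ := cp μ m (fun ω => (f ω, g ω)) (y, z) ω / cp μ m f y ω

theorem rt_sm (y : Y) (z : Z) : StronglyMeasurable[m] (rt μ m f g y z) := by
  have h1 : StronglyMeasurable[m] (cp μ m (fun ω => (f ω, g ω)) (y, z)) := cp_sm (y, z)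
  have h2 : StronglyMeasurable[m] (cp μ m f y) := cp_sm y
  exact (h1.measurable.div h2.measurable).stronglyMeasurable

theorem rt_bd [IsProbabilityMeasure μ] (hf : @Measurable Ω Y m0 mY f)
    (hg : @Measurable Ω Z m0 mZ g) (hm : m ≤ m0) (y : Y) (z : Z) :
    ∀ᵐ ω ∂μ, 0 ≤ rt μ m f g y z ω ∧ rt μ m f g y z ω ≤ 1 ∧
      cp μ m f y ω * rt μ m f g y z ω = cp μ m (fun ω => (f ω, g ω)) (y, z) ω := by
  filter_upwards [cp_pair_le (μ := μ) (m := m) hf hg y z, cp_bd (μ := μ) y hm hf,
    cp_nonneg (μ := μ) (m := m) (f := fun ω => (f ω, g ω)) (y, z)] with ω h1 h2 h3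
  have h3' : 0 ≤ cp μ m (fun ω => (f ω, g ω)) (y, z) ω := h3
  unfold rt
  rcases h2.1.eq_or_lt with h | h
  · rw [← h]
    have h4 : cp μ m (fun ω => (f ω, g ω)) (y, z) ω = 0 := by
      rw [← h] at h1; exact le_antisymm h1 h3'
    rw [h4]
    simp
  · refine ⟨div_nonneg h3' h.le, (div_le_one h).2 h1, ?_⟩
    field_simp

/-- pulling out the ratio -/
theorem int_rt [IsProbabilityMeasure μ] (hf : @Measurable Ω Y m0 mY f)
    (hm : m ≤ m0) (y : Y) {F : Ω → ℝ} (hF : StronglyMeasurable[m] F) {C : ℝ}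
    (hFb : ∀ᵐ ω ∂μ, |F ω| ≤ C) :
    ∫ ω, (f ⁻¹' {y}).indicator F ω ∂μ = ∫ ω, cp μ m f y ω * F ω ∂μ := by
  have i1 : Integrable ((f ⁻¹' {y}).indicator (fun _ => (1 : ℝ))) μ := ind_int (μ := μ) y hf
  have i2 : Integrable ((f ⁻¹' {y}).indicator (fun _ => (1 : ℝ)) * F) μ := by
    refine (i1.mul_bdd (c := C) (hF.mono hm).aestronglyMeasurable ?_)
    filter_upwards [hFb] with ω hω using hω
  have h := condExp_mul_of_stronglyMeasurable_right hF i2 i1
  have h2 := integral_condExp hm (μ := μ) (f := (f ⁻¹' {y}).indicator (fun _ => (1 : ℝ)) * F)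
  have h3 : ∫ ω, ((f ⁻¹' {y}).indicator (fun _ => (1 : ℝ)) * F) ω ∂μ =
      ∫ ω, (f ⁻¹' {y}).indicator F ω ∂μ := by
    refine integral_congr_ae (Eventually.of_forall fun ω => ?_)
    show (f ⁻¹' {y}).indicator (fun _ => (1 : ℝ)) ω * F ω = _
    by_cases hω : ω ∈ f ⁻¹' {y}
    · rw [Set.indicator_of_mem hω, Set.indicator_of_mem hω, one_mul]
    · rw [Set.indicator_of_notMem hω, Set.indicator_of_notMem hω, zero_mul]
  rw [← h3, ← h2]
  refine integral_congr_ae ?_
  filter_upwards [h] with ω hω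
  rw [hω]; rfl

/-- **conditional law given `m ⊔ σ(f)`** -/
theorem cp_join [IsProbabilityMeasure μ] (hf : @Measurable Ω Y m0 mY f)
    (hg : @Measurable Ω Z m0 mZ g) (hm : m ≤ m0) (z : Z) :
    (fun ω => ∑ y, (f ⁻¹' {y}).indicator (rt μ m f g y z) ω) =ᵐ[μ]
      cp μ (m ⊔ MeasurableSpace.comap f mY) g z := by
  have hj : m ⊔ MeasurableSpace.comap f mY ≤ m0 := sup_le hm hf.comap_le
  have hi : ∀ y, Integrable ((f ⁻¹' {y}).indicator (rt μ m f g y z)) μ := by
    intro y
    refine Integrable.indicator ?_ (hf (measurableSet_singleton y))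
    refine Integrable.of_bound ((rt_sm y z).mono hm).aestronglyMeasurable 1 ?_
    filter_upwards [rt_bd (μ := μ) hf hg hm y z] with ω hω
    rw [Real.norm_eq_abs, abs_of_nonneg hω.1]
    exact hω.2.1
  have hsum : Integrable (fun ω => ∑ y, (f ⁻¹' {y}).indicator (rt μ m f g y z) ω) μ :=
    integrable_finsetSum _ fun y _ => hi y
  unfold cp
  refine ae_eq_condExp_of_forall_setIntegral_eq hj (ind_int z hg)
    (fun s _ _ => hsum.integrableOn) ?_ ?_
  · intro A hA _
    obtain ⟨Az, hAz, hAf⟩ := split_set hA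
    have hA0 : MeasurableSet[m0] A := hj _ hA
    rw [integral_finsetSum _ (fun y _ => (hi y).integrableOn)]
    -- each piece
    have hp : ∀ y, ∫ ω in A, (f ⁻¹' {y}).indicator (rt μ m f g y z) ω ∂μ =
        μ.real (A ∩ ((fun ω => (f ω, g ω)) ⁻¹' {(y, z)})) := by
      intro y
      have hAy : MeasurableSet[m0] (Az y) := hm _ (hAz y)
      have hfy : MeasurableSet[m0] (f ⁻¹' {y}) := hf (measurableSet_singleton y)
      have hpy : MeasurableSet[m0] ((fun ω => (f ω, g ω)) ⁻¹' {(y, z)}) :=
        (hf.prodMk hg) (measurableSet_singleton _)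
      have e1 : ∫ ω in A, (f ⁻¹' {y}).indicator (rt μ m f g y z) ω ∂μ =
          ∫ ω, (f ⁻¹' {y}).indicator ((Az y).indicator (rt μ m f g y z)) ω ∂μ := by
        rw [← integral_indicator hA0]
        refine integral_congr_ae (Eventually.of_forall fun ω => ?_)
        show A.indicator ((f ⁻¹' {y}).indicator (rt μ m f g y z)) ω = _
        rw [Set.indicator_indicator, Set.indicator_indicator]
        congr 1
        ext ω
        constructor
        · rintro ⟨h1, h2⟩
          refine ⟨h2, ?_⟩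
          have h3 : f ω = y := h2
          have := (hAf ω).1 h1
          rwa [h3] at this
        · rintro ⟨h1, h2⟩
          refine ⟨?_, h1⟩
          have h3 : f ω = y := h1
          rw [hAf ω, h3]
          exact h2
      rw [e1, int_rt (μ := μ) (C := 1) hf hm y ((rt_sm y z).indicator (hAz y))]
      · have e2 : ∫ ω, cp μ m f y ω * (Az y).indicator (rt μ m f g y z) ω ∂μ =
            ∫ ω in Az y, cp μ m (fun ω => (f ω, g ω)) (y, z) ω ∂μ := by
          rw [← integral_indicator hAy]
          refine integral_congr_ae ?_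
          filter_upwards [rt_bd (μ := μ) hf hg hm y z] with ω hω
          by_cases h : ω ∈ Az y
          · rw [Set.indicator_of_mem h, Set.indicator_of_mem h]
            exact hω.2.2
          · rw [Set.indicator_of_notMem h, Set.indicator_of_notMem h, mul_zero]
        rw [e2]
        unfold cp
        rw [setIntegral_condExp hm (ind_int (μ := μ) (y, z) (hf.prodMk hg)) (hAz y),
          integral_indicator hpy, Measure.restrict_restrict hpy, setIntegral_const, smul_eq_mul,
          mul_one]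
        congr 1
        ext ω
        constructor
        · rintro ⟨h1, h2⟩
          refine ⟨?_, h1⟩
          have h3 : (f ω, g ω) = (y, z) := h1
          have h4 : f ω = y := congrArg Prod.fst h3
          rw [hAf ω, h4]
          exact h2
        · rintro ⟨h1, h2⟩
          refine ⟨h2, ?_⟩
          have h3 : (f ω, g ω) = (y, z) := h2
          have h4 : f ω = y := congrArg Prod.fst h3
          have := (hAf ω).1 h1
          rwa [h4] at this
      · filter_upwards [rt_bd (μ := μ) hf hg hm y z] with ω hω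
        by_cases h : ω ∈ Az y
        · rw [Set.indicator_of_mem h, abs_of_nonneg hω.1]
          exact hω.2.1
        · rw [Set.indicator_of_notMem h, abs_zero]
          exact zero_le_one
    rw [Finset.sum_congr rfl fun y _ => hp y]
    have hgz : MeasurableSet[m0] (g ⁻¹' {z}) := hg (measurableSet_singleton z)
    rw [integral_indicator hgz, Measure.restrict_restrict hgz, setIntegral_const, smul_eq_mul,
      mul_one]
    rw [← measureReal_biUnion_finset]
    · congr 1
      ext ω
      simp only [Finset.mem_univ, Set.iUnion_true, Set.mem_iUnion, Set.mem_inter_iff,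
        Set.mem_preimage, Set.mem_singleton_iff, Prod.mk.injEq]
      constructor
      · rintro ⟨y, h1, h2, h3⟩
        exact ⟨h3, h1⟩
      · rintro ⟨h1, h2⟩
        exact ⟨f ω, h2, rfl, h1⟩
    · intro y _ y' _ hyy
      rw [Function.onFun, Set.disjoint_left]
      rintro ω ⟨_, h2⟩ ⟨_, h4⟩
      have h2' : (f ω, g ω) = (y, z) := h2
      have h4' : (f ω, g ω) = (y', z) := h4
      exact hyy ((congrArg Prod.fst h2').symm.trans (congrArg Prod.fst h4'))
    · intro y _
      exact hA0.inter ((hf.prodMk hg) (measurableSet_singleton _))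
  · have : StronglyMeasurable[m ⊔ MeasurableSpace.comap f mY]
        (fun ω => ∑ y, (f ⁻¹' {y}).indicator (rt μ m f g y z) ω) := by
      refine Finset.stronglyMeasurable_fun_sum _ fun y _ => ?_
      have h1 : StronglyMeasurable[m ⊔ MeasurableSpace.comap f mY] (rt μ m f g y z) :=
        (rt_sm y z).mono le_sup_left
      refine StronglyMeasurable.indicator h1 ?_
      have : MeasurableSet[MeasurableSpace.comap f mY] (f ⁻¹' {y}) :=
        ⟨{y}, measurableSet_singleton y, rfl⟩
      exact (le_sup_right : MeasurableSpace.comap f mY ≤ m ⊔ MeasurableSpace.comap f mY) _ this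
    exact this.aestronglyMeasurable

/-- **chain rule** -/
theorem Hc_chain [IsProbabilityMeasure μ] (hf : @Measurable Ω Y m0 mY f)
    (hg : @Measurable Ω Z m0 mZ g) (hm : m ≤ m0) :
    Hc μ m (fun ω => (f ω, g ω)) =
      Hc μ m f + Hc μ (m ⊔ MeasurableSpace.comap f mY) g := by
  have h1 : ∀ z, ∫ ω, negMulLog (cp μ (m ⊔ MeasurableSpace.comap f mY) g z ω) ∂μ =
      ∑ y, ∫ ω, cp μ m f y ω * negMulLog (rt μ m f g y z ω) ∂μ := by
    intro z
    have e1 : ∫ ω, negMulLog (cp μ (m ⊔ MeasurableSpace.comap f mY) g z ω) ∂μ =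
        ∫ ω, ∑ y, (f ⁻¹' {y}).indicator (fun ω => negMulLog (rt μ m f g y z ω)) ω ∂μ := by
      refine integral_congr_ae ?_
      filter_upwards [cp_join (μ := μ) hf hg hm z] with ω hω
      rw [← hω]
      rw [Finset.sum_eq_single (f ω), Finset.sum_eq_single (f ω)]
      · rw [Set.indicator_of_mem (show ω ∈ f ⁻¹' {f ω} from rfl),
          Set.indicator_of_mem (show ω ∈ f ⁻¹' {f ω} from rfl)]
      · intro y _ hy
        have h : ω ∉ f ⁻¹' {y} := fun h => hy (Eq.symm h)
        exact Set.indicator_of_notMem h _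
      · intro h; exact absurd (Finset.mem_univ _) h
      · intro y _ hy
        have h : ω ∉ f ⁻¹' {y} := fun h => hy (Eq.symm h)
        exact Set.indicator_of_notMem h _
      · intro h; exact absurd (Finset.mem_univ _) h
    have hsm : ∀ y, StronglyMeasurable[m] (fun ω => negMulLog (rt μ m f g y z ω)) := fun y =>
      continuous_negMulLog.comp_stronglyMeasurable (rt_sm y z)
    have hbd : ∀ y, ∀ᵐ ω ∂μ, |negMulLog (rt μ m f g y z ω)| ≤ 1 := fun y => by
      filter_upwards [rt_bd (μ := μ) hf hg hm y z] with ω hω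
      exact negMulLog_bd hω.1 hω.2.1
    rw [e1, integral_finsetSum]
    · exact Finset.sum_congr rfl fun y _ => int_rt (μ := μ) hf hm y (hsm y) (hbd y)
    · intro y _
      refine Integrable.indicator ?_ (hf (measurableSet_singleton y))
      refine Integrable.of_bound ((hsm y).mono hm).aestronglyMeasurable 1 ?_
      filter_upwards [hbd y] with ω hω using hω
  have h2 : ∀ y z, ∫ ω, cp μ m f y ω * negMulLog (rt μ m f g y z ω) ∂μ =
      ∫ ω, (negMulLog (cp μ m (fun ω => (f ω, g ω)) (y, z) ω) +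
        cp μ m (fun ω => (f ω, g ω)) (y, z) ω * log (cp μ m f y ω)) ∂μ := by
    intro y z
    refine integral_congr_ae ?_
    filter_upwards [rt_bd (μ := μ) hf hg hm y z, cp_bd (μ := μ) y hm hf,
      cp_pair_le (μ := μ) (m := m) hf hg y z,
      cp_nonneg (μ := μ) (m := m) (f := fun ω => (f ω, g ω)) (y, z)] with ω h3 h4 h5 h6
    have h6' : 0 ≤ cp μ m (fun ω => (f ω, g ω)) (y, z) ω := h6
    rcases h6'.eq_or_lt with h7 | h7
    · have : rt μ m f g y z ω = 0 := by unfold rt; rw [← h7]; simp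
      rw [this, ← h7]
      simp
    · have h8 : 0 < cp μ m f y ω := lt_of_lt_of_le h7 h5
      have h9 : 0 < rt μ m f g y z ω := by unfold rt; positivity
      have h10 := h3.2.2
      rw [← h10]
      unfold negMulLog
      rw [Real.log_mul h8.ne' h9.ne']
      ring
  have hci : ∀ y z, Integrable (fun ω =>
      cp μ m (fun ω => (f ω, g ω)) (y, z) ω * log (cp μ m f y ω)) μ := by
    intro y z
    refine Integrable.of_bound (C := 1) ?_ ?_
    · have a1 : StronglyMeasurable[m] (cp μ m (fun ω => (f ω, g ω)) (y, z)) := cp_sm (y, z)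
      have a2 : StronglyMeasurable[m] (cp μ m f y) := cp_sm y
      exact ((a1.measurable.mul (Real.measurable_log.comp a2.measurable)).stronglyMeasurable.mono
        hm).aestronglyMeasurable
    · filter_upwards [cp_bd (μ := μ) y hm hf, cp_pair_le (μ := μ) (m := m) hf hg y z,
        cp_nonneg (μ := μ) (m := m) (f := fun ω => (f ω, g ω)) (y, z)] with ω h4 h5 h6
      have h6' : 0 ≤ cp μ m (fun ω => (f ω, g ω)) (y, z) ω := h6
      have h7 := negMulLog_bd h4.1 h4.2
      unfold negMulLog at h7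
      rw [Real.norm_eq_abs, abs_mul, abs_of_nonneg h6']
      have h8 : |-(cp μ m f y ω) * log (cp μ m f y ω)| = cp μ m f y ω * |log (cp μ m f y ω)| := by
        rw [neg_mul, abs_neg, abs_mul, abs_of_nonneg h4.1]
      rw [h8] at h7
      exact (mul_le_mul_of_nonneg_right h5 (abs_nonneg _)).trans h7
  have h3 : ∀ y, ∑ z, ∫ ω, cp μ m (fun ω => (f ω, g ω)) (y, z) ω * log (cp μ m f y ω) ∂μ =
      - ∫ ω, negMulLog (cp μ m f y ω) ∂μ := by
    intro y
    rw [← integral_finsetSum _ (fun z _ => hci y z), ← integral_neg]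
    refine integral_congr_ae ?_
    filter_upwards [cp_pair_sum (μ := μ) (m := m) hf hg y] with ω hω
    rw [← Finset.sum_mul, hω]
    unfold negMulLog
    ring
  unfold Hc
  rw [Fintype.sum_prod_type]
  have h4 : ∑ z, ∫ ω, negMulLog (cp μ (m ⊔ MeasurableSpace.comap f mY) g z ω) ∂μ =
      ∑ y, (∑ z, ∫ ω, negMulLog (cp μ m (fun ω => (f ω, g ω)) (y, z) ω) ∂μ -
        ∫ ω, negMulLog (cp μ m f y ω) ∂μ) := by
    rw [Finset.sum_congr rfl fun z _ => h1 z, Finset.sum_comm]
    refine Finset.sum_congr rfl fun y _ => ?_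
    rw [sub_eq_add_neg, ← h3 y, ← Finset.sum_add_distrib]
    refine Finset.sum_congr rfl fun z _ => ?_
    rw [h2 y z]
    exact integral_add (eta_int (μ := μ) (y, z) hm (hf.prodMk hg)) (hci y z)
  rw [h4, Finset.sum_sub_distrib]
  ring

end chain

section more

variable [Fintype Z] [mZ : MeasurableSpace Z] [MeasurableSingletonClass Z] {f : Ω → Z}

/-- entropy given the trivial σ-algebra -/
theorem Hc_bot [IsProbabilityMeasure μ] (hf : @Measurable Ω Z m0 mZ f) :
    Hc μ ⊥ f = ∑ z, negMulLog (μ.real (f ⁻¹' {z})) := by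
  unfold Hc
  refine Finset.sum_congr rfl fun z _ => ?_
  have e : cp μ ⊥ f z = fun _ => μ.real (f ⁻¹' {z}) := by
    unfold cp
    rw [condExp_bot]
    funext _
    exact integral_indicator_one (meas_pre z hf)
  rw [e]
  simp

/-- entropy of a measurable function -/
theorem Hc_self [IsProbabilityMeasure μ] (hm : m ≤ m0) (hf : @Measurable Ω Z m mZ f) :
    Hc μ m f = 0 := by
  unfold Hc
  refine Finset.sum_eq_zero fun z _ => ?_
  rw [cp_self (μ := μ) z hm hf]
  have : (fun ω => negMulLog ((f ⁻¹' {z}).indicator (fun _ => (1 : ℝ)) ω)) = fun _ => 0 := by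
    funext ω
    by_cases h : ω ∈ f ⁻¹' {z}
    · rw [Set.indicator_of_mem h]; simp
    · rw [Set.indicator_of_notMem h]; simp
  rw [this]
  simp

/-- relabelling -/
theorem Hc_equiv {Z' : Type*} [Fintype Z'] (e : Z ≃ Z') (f : Ω → Z) :
    Hc μ m (fun ω => e (f ω)) = Hc μ m f := by
  unfold Hc
  rw [← Equiv.sum_comp e]
  refine Finset.sum_congr rfl fun z _ => ?_
  have : cp μ m (fun ω => e (f ω)) (e z) = cp μ m f z := by
    unfold cp
    congr 2
    ext ω
    simp
  rw [this]




/-- conditional probability after a measure preserving map -/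
theorem cp_comap {Ω' : Type*} {n0 : MeasurableSpace Ω'} {ν : Measure Ω'} {T : Ω' → Ω}
    [IsProbabilityMeasure μ] [IsProbabilityMeasure ν]
    (hT : @MeasurePreserving Ω' Ω n0 m0 T ν μ) (hm : m ≤ m0) (hf : @Measurable Ω Z m0 mZ f)
    (z : Z) :
    (fun w => cp μ m f z (T w)) =ᵐ[ν] cp ν (MeasurableSpace.comap T m) (fun w => f (T w)) z := by
  have hTm : @Measurable Ω' Ω n0 m0 T := hT.measurable
  have hc : MeasurableSpace.comap T m ≤ n0 := by
    rintro _ ⟨B, hB, rfl⟩
    exact hTm (hm _ hB)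
  have hci : Integrable (cp μ m f z) μ := cp_int z
  have hci' : Integrable (fun w => cp μ m f z (T w)) ν := by
    have := hT.integrable_comp (g := cp μ m f z) hci.aestronglyMeasurable
    exact this.2 hci
  unfold cp
  refine ae_eq_condExp_of_forall_setIntegral_eq hc (ind_int z (hf.comp hTm))
    (fun s _ _ => hci'.integrableOn) ?_ ?_
  · rintro _ ⟨B, hB, rfl⟩ _
    have hB0 : MeasurableSet[m0] B := hm _ hB
    have hz : MeasurableSet[m0] (f ⁻¹' {z}) := hf (measurableSet_singleton z)
    have e1 : ∫ w in T ⁻¹' B, (μ[(f ⁻¹' {z}).indicator (fun _ => (1 : ℝ)) | m]) (T w) ∂ν =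
        ∫ ω in B, (μ[(f ⁻¹' {z}).indicator (fun _ => (1 : ℝ)) | m]) ω ∂μ := by
      rw [← hT.map_eq]
      rw [setIntegral_map hB0 _ hTm.aemeasurable]
      rw [hT.map_eq]
      exact hci.aestronglyMeasurable
    have e2 : ∫ ω in B, (μ[(f ⁻¹' {z}).indicator (fun _ => (1 : ℝ)) | m]) ω ∂μ =
        ∫ ω in B, (f ⁻¹' {z}).indicator (fun _ => (1 : ℝ)) ω ∂μ :=
      setIntegral_condExp hm (ind_int z hf) hB
    have e3 : ∫ ω in B, (f ⁻¹' {z}).indicator (fun _ => (1 : ℝ)) ω ∂μ =
        ∫ w in T ⁻¹' B, (f ⁻¹' {z}).indicator (fun _ => (1 : ℝ)) (T w) ∂ν := by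
      have i : Integrable ((f ⁻¹' {z}).indicator (fun _ => (1 : ℝ))) μ := ind_int z hf
      rw [← hT.map_eq]
      rw [setIntegral_map hB0 _ hTm.aemeasurable]
      rw [hT.map_eq]
      exact i.aestronglyMeasurable
    rw [e1, e2, e3]
    rfl
  · have h1 : StronglyMeasurable[m] (cp μ m f z) := cp_sm z
    have h2 : @Measurable Ω' Ω (MeasurableSpace.comap T m) m T := comap_measurable T
    exact (h1.comp_measurable h2).aestronglyMeasurable

/-- invariance under a measure preserving map -/
theorem Hc_comap {Ω' : Type*} {n0 : MeasurableSpace Ω'} {ν : Measure Ω'} {T : Ω' → Ω}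
    [IsProbabilityMeasure μ] [IsProbabilityMeasure ν]
    (hT : @MeasurePreserving Ω' Ω n0 m0 T ν μ) (hm : m ≤ m0) (hf : @Measurable Ω Z m0 mZ f) :
    Hc ν (MeasurableSpace.comap T m) (fun w => f (T w)) = Hc μ m f := by
  unfold Hc
  refine Finset.sum_congr rfl fun z _ => ?_
  have e1 : ∫ w, negMulLog (cp ν (MeasurableSpace.comap T m) (fun w => f (T w)) z w) ∂ν =
      ∫ w, negMulLog (cp μ m f z (T w)) ∂ν := by
    refine integral_congr_ae ?_
    filter_upwards [cp_comap hT hm hf z] with w hw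
    rw [hw]
  have e2 : ∫ w, negMulLog (cp μ m f z (T w)) ∂ν = ∫ ω, negMulLog (cp μ m f z ω) ∂μ := by
    rw [← hT.map_eq]
    rw [integral_map hT.measurable.aemeasurable]
    rw [hT.map_eq]
    exact (eta_int (μ := μ) z hm hf).aestronglyMeasurable
  rw [e1, e2]

end more

section prod

variable [Fintype Z] [mZ : MeasurableSpace Z] [MeasurableSingletonClass Z]

/-- conditional probability on a product, independent first coordinate revealed -/
theorem cp_prod {A B : Type*} [mA : MeasurableSpace A] {mB' : MeasurableSpace B} [mB : MeasurableSpace B]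
    {κ : Measure A} {ρ : Measure B} [IsProbabilityMeasure κ] [IsProbabilityMeasure ρ]
    (hB : mB' ≤ mB) {g : B → Z} (hg : @Measurable B Z mB mZ g) (z : Z) :
    (fun w : A × B => cp ρ mB' g z w.2) =ᵐ[κ.prod ρ]
      cp (κ.prod ρ) (mA.prod mB') (fun w => g w.2) z := by
  have hle : mA.prod mB' ≤ (inferInstance : MeasurableSpace (A × B)) := by
    refine sup_le_sup le_rfl ?_
    exact MeasurableSpace.comap_mono hB
  have hci : Integrable (cp ρ mB' g z) ρ := cp_int z
  have hci' : Integrable (fun w : A × B => cp ρ mB' g z w.2) (κ.prod ρ) := hci.comp_snd κ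
  have hgi : Integrable ((g ⁻¹' {z}).indicator (fun _ => (1 : ℝ))) ρ := ind_int z hg
  have hgi' : Integrable (fun w : A × B => (g ⁻¹' {z}).indicator (fun _ => (1 : ℝ)) w.2)
      (κ.prod ρ) := hgi.comp_snd κ
  unfold cp
  refine ae_eq_condExp_of_forall_setIntegral_eq hle
    (ind_int z (hg.comp measurable_snd)) (fun s _ _ => hci'.integrableOn) ?_ ?_
  · intro S hS _
    have hS0 : MeasurableSet S := hle _ hS
    have hsec : ∀ a, MeasurableSet[mB'] (Prod.mk a ⁻¹' S) := fun a => by
      have : @Measurable B (A × B) mB' (mA.prod mB') (Prod.mk a) :=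
        @measurable_prodMk_left A B mA mB' a
      exact this hS
    have key : ∀ F : B → ℝ, Integrable F ρ → ∫ w in S, F w.2 ∂(κ.prod ρ) =
        ∫ a, ∫ b in Prod.mk a ⁻¹' S, F b ∂ρ ∂κ := by
      intro F hF
      rw [← integral_indicator hS0, integral_prod _ ((hF.comp_snd κ).indicator hS0)]
      refine integral_congr_ae (Eventually.of_forall fun a => ?_)
      show ∫ b, S.indicator (fun w : A × B => F w.2) (a, b) ∂ρ = ∫ b in Prod.mk a ⁻¹' S, F b ∂ρ
      rw [← integral_indicator (hB _ (hsec a))]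
      rfl
    have k1 := key _ (integrable_condExp (m := mB') (μ := ρ)
      (f := (g ⁻¹' {z}).indicator (fun _ => (1 : ℝ))))
    have k2 := key _ hgi
    rw [k1]
    have e : ∫ w in S, ((fun w : A × B => g w.2) ⁻¹' {z}).indicator (fun _ => (1 : ℝ)) w
        ∂(κ.prod ρ) = ∫ w in S, (g ⁻¹' {z}).indicator (fun _ => (1 : ℝ)) w.2 ∂(κ.prod ρ) := rfl
    rw [e, k2]
    refine integral_congr_ae (Eventually.of_forall fun a => ?_)
    exact setIntegral_condExp hB hgi (hsec a)
  · have h1 : StronglyMeasurable[mB'] (cp ρ mB' g z) := cp_sm z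
    have h2 : @Measurable (A × B) B (mA.prod mB') mB' Prod.snd := @measurable_snd A B mA mB'
    exact (h1.comp_measurable h2).aestronglyMeasurable

/-- **independent augmentation** -/
theorem Hc_prod {A B : Type*} [mA : MeasurableSpace A] {mB' : MeasurableSpace B} [mB : MeasurableSpace B]
    {κ : Measure A} {ρ : Measure B} [IsProbabilityMeasure κ] [IsProbabilityMeasure ρ]
    (hB : mB' ≤ mB) {g : B → Z} (hg : @Measurable B Z mB mZ g) :
    Hc (κ.prod ρ) (mA.prod mB') (fun w => g w.2) = Hc ρ mB' g := by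
  unfold Hc
  refine Finset.sum_congr rfl fun z _ => ?_
  have e1 : ∫ w, negMulLog (cp (κ.prod ρ) (mA.prod mB') (fun w => g w.2) z w) ∂(κ.prod ρ) =
      ∫ w, negMulLog (cp ρ mB' g z w.2) ∂(κ.prod ρ) := by
    refine integral_congr_ae ?_
    filter_upwards [cp_prod (κ := κ) hB hg z] with w hw
    rw [hw]
  rw [e1]
  exact (integral_fun_snd (fun b => negMulLog (cp ρ mB' g z b))).trans (by simp)

end prod

section levy

variable [Fintype Z] [mZ : MeasurableSpace Z] [MeasurableSingletonClass Z] {f : Ω → Z}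

/-- **Lévy upward** -/
theorem Hc_tendsto [IsProbabilityMeasure μ] (ℱ : Filtration ℕ m0)
    (hf : @Measurable Ω Z m0 mZ f) :
    Tendsto (fun n => Hc μ (ℱ n) f) atTop (𝓝 (Hc μ (⨆ n, ℱ n) f)) := by
  unfold Hc
  refine tendsto_finsetSum _ fun z _ => ?_
  refine tendsto_integral_of_dominated_convergence (fun _ => 1) ?_ (integrable_const 1) ?_ ?_
  · intro n
    exact (eta_int (μ := μ) z (ℱ.le n) hf).aestronglyMeasurable
  · intro n
    filter_upwards [cp_bd (μ := μ) z (ℱ.le n) hf] with ω hω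
    exact negMulLog_bd hω.1 hω.2
  · have h := tendsto_ae_condExp (μ := μ) (ℱ := ℱ) ((f ⁻¹' {z}).indicator (fun _ => (1 : ℝ)))
    filter_upwards [h] with ω hω
    exact (continuous_negMulLog.tendsto _).comp hω

end levy

end

end Crest.Agent.R98.F
end

-- ▼ part R98/FB

/-!
Row 98, module F (helper893): the information of a prefix about a process
`Φ (i w) = B_i (Φ w)`; monotonicity and the equality case.
-/

set_option autoImplicit false
set_option linter.unusedSectionVars false
set_option linter.unusedSimpArgs false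

namespace Crest.Agent.R98.F

open MeasureTheory ProbabilityTheory Filter Topology Real
open Crest.Agent.R098.Upper

noncomputable section

section soft

variable {Ω : Type*} {m m1 m2 m0 : MeasurableSpace Ω} {μ : Measure Ω}

/-- an integrable function with vanishing integrals over a generating π-system vanishes -/
theorem ae_zero_of_pi [IsProbabilityMeasure μ] (C : Set (Set Ω)) (hC : IsPiSystem C)
    (hg : m0 = MeasurableSpace.generateFrom C) (hu : Set.univ ∈ C) {h : Ω → ℝ}
    (hh : Integrable h μ) (h0 : ∀ A ∈ C, ∫ ω in A, h ω ∂μ = 0) : h =ᵐ[μ] 0 := by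
  refine hh.ae_eq_zero_of_forall_setIntegral_eq_zero fun A hA _ => ?_
  refine MeasurableSpace.induction_on_inter (C := fun (A : Set Ω) _ => ∫ ω in A, h ω ∂μ = 0)
    hg hC ?_ ?_ ?_ ?_ A hA
  · simp
  · intro t ht; exact h0 t ht
  · intro t ht hh0
    have h1 := integral_add_compl ht hh
    have h2 := h0 _ hu
    rw [setIntegral_univ] at h2
    rw [hh0, h2, zero_add] at h1
    exact h1
  · intro f hd hm hz
    rw [integral_iUnion hm hd hh.integrableOn]
    simp [hz]

/-- self-adjointness of the conditional expectation -/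
theorem condExp_adj [IsProbabilityMeasure μ] (hm : m ≤ m0) {F g : Ω → ℝ}
    (hF : Integrable F μ) (hg : AEStronglyMeasurable g μ) (hgb : ∀ᵐ ω ∂μ, |g ω| ≤ 1) :
    ∫ ω, g ω * (μ[F | m]) ω ∂μ = ∫ ω, (μ[g | m]) ω * F ω ∂μ := by
  have hgi : Integrable g μ := Integrable.of_bound hg 1 hgb
  have hEb : ∀ᵐ ω ∂μ, |(μ[g | m]) ω| ≤ 1 := by
    have a1 := condExp_mono (m := m) hgi (integrable_const (1 : ℝ))
      (by filter_upwards [hgb] with ω hω using (abs_le.1 hω).2)
    have a2 := condExp_mono (m := m) (integrable_const (-1 : ℝ)) hgi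
      (by filter_upwards [hgb] with ω hω using (abs_le.1 hω).1)
    rw [condExp_const hm] at a1 a2
    filter_upwards [a1, a2] with ω b1 b2
    exact abs_le.2 ⟨b2, b1⟩
  have hEi : Integrable (μ[F | m]) μ := integrable_condExp
  have hEg : Integrable (μ[g | m]) μ := integrable_condExp
  have i1 : Integrable (g * μ[F | m]) μ := by
    refine hEi.bdd_mul (c := 1) hg ?_
    filter_upwards [hgb] with ω hω using hω
  have i2 : Integrable (μ[g | m] * F) μ := by
    refine hF.bdd_mul (c := 1) hEg.aestronglyMeasurable ?_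
    filter_upwards [hEb] with ω hω using hω
  have e1 := condExp_mul_of_stronglyMeasurable_right (m := m)
    (stronglyMeasurable_condExp (f := F) (m := m) (μ := μ)) i1 hgi
  have e2 := condExp_mul_of_stronglyMeasurable_left (m := m)
    (stronglyMeasurable_condExp (f := g) (m := m) (μ := μ)) i2 hF
  have e3 := integral_condExp hm (μ := μ) (f := g * μ[F | m])
  have e4 := integral_condExp hm (μ := μ) (f := μ[g | m] * F)
  have e5 : ∫ ω, (μ[g * μ[F | m] | m]) ω ∂μ = ∫ ω, (μ[μ[g | m] * F | m]) ω ∂μ := by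
    refine integral_congr_ae ?_
    filter_upwards [e1, e2] with ω b1 b2
    rw [b1, b2]
  have e6 : ∫ ω, g ω * (μ[F | m]) ω ∂μ = ∫ ω, (g * μ[F | m]) ω ∂μ := rfl
  have e7 : ∫ ω, (μ[g | m]) ω * F ω ∂μ = ∫ ω, (μ[g | m] * F) ω ∂μ := rfl
  rw [e6, e7, ← e3, ← e4, e5]

/-- if all sets of a generating π-system have the same conditional probability given `m1 ≤ m2`,
then every integrable `m2`-measurable function is a.e. `m1`-measurable -/
theorem condExp_eq_self_of_pi [IsProbabilityMeasure μ] (h1 : m1 ≤ m0) (h2 : m2 ≤ m0)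
    (C : Set (Set Ω)) (hC : IsPiSystem C)
    (hg : m0 = MeasurableSpace.generateFrom C) (hu : Set.univ ∈ C)
    (h : ∀ A ∈ C, μ[A.indicator (fun _ => (1 : ℝ)) | m2] =ᵐ[μ]
      μ[A.indicator (fun _ => (1 : ℝ)) | m1]) {F : Ω → ℝ} (hF : Integrable F μ)
    (hFm : StronglyMeasurable[m2] F) : μ[F | m1] =ᵐ[μ] F := by
  have hE : Integrable (μ[F | m1]) μ := integrable_condExp
  have key : (fun ω => (μ[F | m1]) ω - F ω) =ᵐ[μ] 0 := by
    refine ae_zero_of_pi C hC hg hu (hE.sub hF) fun A hA => ?_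
    have hAm : MeasurableSet[m0] A := by
      rw [hg]; exact MeasurableSpace.measurableSet_generateFrom hA
    have hgm : AEStronglyMeasurable (A.indicator (fun _ => (1 : ℝ))) μ :=
      (stronglyMeasurable_const.indicator hAm).aestronglyMeasurable
    have hgb : ∀ᵐ ω ∂μ, |A.indicator (fun _ => (1 : ℝ)) ω| ≤ 1 :=
      Eventually.of_forall fun ω => by
        by_cases hω : ω ∈ A <;> simp [hω]
    have e1 := condExp_adj (μ := μ) h1 hF hgm hgb
    have e2 := condExp_adj (μ := μ) h2 hF hgm hgb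
    have e3 : μ[F | m2] = F := condExp_of_stronglyMeasurable h2 hFm hF
    rw [e3] at e2
    have e4 : ∫ ω, (μ[A.indicator (fun _ => (1 : ℝ)) | m2]) ω * F ω ∂μ =
        ∫ ω, (μ[A.indicator (fun _ => (1 : ℝ)) | m1]) ω * F ω ∂μ := by
      refine integral_congr_ae ?_
      filter_upwards [h A hA] with ω hω
      rw [hω]
    have e5 : ∀ G : Ω → ℝ, ∫ ω in A, G ω ∂μ =
        ∫ ω, A.indicator (fun _ => (1 : ℝ)) ω * G ω ∂μ := by
      intro G
      rw [← integral_indicator hAm]
      refine integral_congr_ae (Eventually.of_forall fun ω => ?_)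
      by_cases hω : ω ∈ A <;> simp [hω]
    rw [integral_sub hE.integrableOn hF.integrableOn, e5, e5, e1, e2, e4, sub_self]
  filter_upwards [key] with ω hω
  have : (μ[F | m1]) ω - F ω = 0 := hω
  linarith

end soft

section seq

variable {ι : Type*} [Fintype ι] [mι : MeasurableSpace ι] [DiscreteMeasurableSpace ι]

/-- the cylinders -/
def Cyl (ι : Type*) : Set (Set (ℕ → ι)) := {A | ∃ n, ∃ u : Fin n → ι, A = pre n ⁻¹' {u}}

theorem cyl_pi : IsPiSystem (Cyl ι) := by
  rintro s ⟨n, u, rfl⟩ t ⟨k, v, rfl⟩ ⟨w, hw1, hw2⟩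
  have hu : pre n w = u := hw1
  have hv : pre k w = v := hw2
  rcases le_total n k with h | h
  · refine ⟨k, v, ?_⟩
    ext x
    constructor
    · intro hx; exact hx.2
    · intro hx
      refine ⟨?_, hx⟩
      have hx' : pre k x = pre k w := by rw [hv]; exact hx
      show pre n x = u
      rw [← hu]
      funext j
      exact congrFun hx' ⟨j, lt_of_lt_of_le j.2 h⟩
  · refine ⟨n, u, ?_⟩
    ext x
    constructor
    · intro hx; exact hx.1
    · intro hx
      refine ⟨hx, ?_⟩
      have hx' : pre n x = pre n w := by rw [hu]; exact hx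
      show pre k x = v
      rw [← hv]
      funext j
      exact congrFun hx' ⟨j, lt_of_lt_of_le j.2 h⟩

theorem cyl_univ : Set.univ ∈ Cyl ι := by
  refine ⟨0, fun j => j.elim0, ?_⟩
  ext x
  simp only [Set.mem_univ, Set.mem_preimage, Set.mem_singleton_iff, true_iff]
  funext j; exact j.elim0

theorem cyl_gen : (MeasurableSpace.pi : MeasurableSpace (ℕ → ι)) =
    MeasurableSpace.generateFrom (Cyl ι) := by
  refine le_antisymm ?_ ?_
  · refine iSup_le fun j => ?_
    rintro _ ⟨B, _, rfl⟩
    have e : (fun w : ℕ → ι => w j) ⁻¹' B =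
        ⋃ u ∈ {u : Fin (j + 1) → ι | u (Fin.last j) ∈ B}, pre (j + 1) ⁻¹' {u} := by
      ext w
      simp only [Set.mem_preimage, Set.mem_iUnion, Set.mem_singleton_iff, exists_prop,
        Set.mem_ofPred_eq]
      constructor
      · intro h
        exact ⟨pre (j + 1) w, h, rfl⟩
      · rintro ⟨u, hu, rfl⟩
        exact hu
    rw [e]
    refine MeasurableSet.biUnion (Set.to_countable _) fun u _ => ?_
    exact MeasurableSpace.measurableSet_generateFrom ⟨_, u, rfl⟩
  · refine MeasurableSpace.generateFrom_le ?_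
    rintro _ ⟨n, u, rfl⟩
    exact measurable_pre n (measurableSet_singleton u)

/-- the first letter and the tail are independent -/
theorem mp_head_tail {p : ι → ℝ} (hp : (∀ i, 0 ≤ p i) ∧ ∑ i, p i = 1) :
    MeasurePreserving (fun w : ℕ → ι => (w 0, sh 1 w)) (PP p) ((letterMeas p).prod (PP p)) := by
  have := isProb_letterMeas hp
  have := isProb_PP hp
  have hm : Measurable (fun w : ℕ → ι => (w 0, sh 1 w)) :=
    (measurable_pi_apply 0).prodMk (measurable_sh 1)
  refine ⟨hm, ?_⟩
  symm
  refine Measure.prod_eq fun s t hs ht => ?_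
  classical
  rw [Measure.map_apply hm (hs.prod ht)]
  have hms : MeasurableSet ((fun w : ℕ → ι => (w 0, sh 1 w)) ⁻¹' s ×ˢ t) := hm (hs.prod ht)
  conv_lhs => rw [PP_cons hp]
  simp only [Measure.coe_finsetSum, Finset.sum_apply, Measure.smul_apply, smul_eq_mul]
  rw [letterMeas_apply p s, Finset.sum_mul]
  refine Finset.sum_congr rfl fun a _ => ?_
  rw [Measure.map_apply (measurable_scons a) hms]
  by_cases ha : a ∈ s
  · rw [if_pos ha]
    congr 2
    ext w
    simp [ha]
  · rw [if_neg ha, zero_mul]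
    have : (scons a) ⁻¹' ((fun w : ℕ → ι => (w 0, sh 1 w)) ⁻¹' s ×ˢ t) = ∅ := by
      ext w
      simp [ha]
    rw [this]
    simp

variable {E : Type*} [mE : MeasurableSpace E]

/-- a process: `Φ (i w) = B_i (Φ w)` with measurable embeddings `B_i` -/
structure IsProc (Φ : (ℕ → ι) → E) (B : ι → E → E) : Prop where
  meas : Measurable Φ
  emb : ∀ i, MeasurableEmbedding (B i)
  eq : ∀ w, Φ w = B (w 0) (Φ (sh 1 w))

/-- information of the first letter about `Φ` -/
def alpha (p : ι → ℝ) (Φ : (ℕ → ι) → E) : ℝ :=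
  ∑ i, negMulLog (p i) - Hc (PP p) (MeasurableSpace.comap Φ mE) (fun w => w 0)

/-- `σ(Φ, w_0) = σ(Φ ∘ T, w_0)` -/
theorem comap_proc {Φ : (ℕ → ι) → E} {B : ι → E → E} (h : IsProc Φ B) :
    MeasurableSpace.comap Φ mE ⊔ MeasurableSpace.comap (fun w : ℕ → ι => w 0) mι =
      MeasurableSpace.comap (fun w : ℕ → ι => (w 0, sh 1 w))
        (mι.prod (MeasurableSpace.comap Φ mE)) := by
  have e1 : MeasurableSpace.comap (fun w : ℕ → ι => (w 0, sh 1 w))
        (mι.prod (MeasurableSpace.comap Φ mE)) =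
      MeasurableSpace.comap (fun w : ℕ → ι => (w 0, Φ (sh 1 w))) (mι.prod mE) := by
    rw [MeasurableSpace.comap_prodMk, MeasurableSpace.comap_comp,
      @MeasurableSpace.comap_prodMk (ℕ → ι) ι E mι mE]
    rfl
  have hG : MeasurableEmbedding (fun x : ι × E => (x.1, B x.1 x.2)) := by
    refine ⟨?_, ?_, ?_⟩
    · rintro ⟨a, x⟩ ⟨b, y⟩ hab
      have h1 : a = b := congrArg Prod.fst hab
      subst h1
      have h2 : B a x = B a y := congrArg Prod.snd hab
      rw [(h.emb a).injective h2]
    · refine measurable_from_prod_countable_right fun a => ?_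
      exact measurable_const.prodMk (h.emb a).measurable
    · intro s hs
      have e : (fun x : ι × E => (x.1, B x.1 x.2)) '' s =
          ⋃ a : ι, {a} ×ˢ (B a '' ((fun x : E => (a, x)) ⁻¹' s)) := by
        ext ⟨a, y⟩
        simp only [Set.mem_image, Set.mem_iUnion, Set.mem_prod, Set.mem_singleton_iff,
          Set.mem_preimage, Prod.mk.injEq, Prod.exists]
        constructor
        · rintro ⟨b, x, hx, rfl, rfl⟩
          exact ⟨b, rfl, x, hx, rfl⟩
        · rintro ⟨b, rfl, x, hx, rfl⟩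
          exact ⟨a, x, hx, rfl, rfl⟩
      rw [e]
      refine MeasurableSet.iUnion fun a => ?_
      refine (measurableSet_singleton a).prod ?_
      exact (h.emb a).measurableSet_image.2 (measurable_prodMk_left hs)
  have e2 : (fun w : ℕ → ι => (w 0, Φ w)) =
      (fun x : ι × E => (x.1, B x.1 x.2)) ∘ fun w : ℕ → ι => (w 0, Φ (sh 1 w)) := by
    funext w
    show (w 0, Φ w) = (w 0, B (w 0) (Φ (sh 1 w)))
    rw [← h.eq w]
  rw [e1, sup_comm, ← MeasurableSpace.comap_prodMk, e2, ← MeasurableSpace.comap_comp]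
  congr 1
  exact hG.comap_eq

theorem pre_succ_eq (n : ℕ) (w : ℕ → ι) :
    pre (n + 1) w = (Fin.cons (w 0) (pre n (sh 1 w)) : Fin (n + 1) → ι) := by
  conv_lhs => rw [← scons_sh w]
  rw [pre_succ_scons]

/-- **the conditional entropy of the prefix is linear** -/
theorem Hc_pre {p : ι → ℝ} (hp : (∀ i, 0 ≤ p i) ∧ ∑ i, p i = 1) {Φ : (ℕ → ι) → E}
    {B : ι → E → E} (h : IsProc Φ B) (n : ℕ) :
    Hc (PP p) (MeasurableSpace.comap Φ mE) (pre n) =
      n * Hc (PP p) (MeasurableSpace.comap Φ mE) (fun w => w 0) := by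
  have := isProb_letterMeas hp
  have := isProb_PP hp
  have hm : MeasurableSpace.comap Φ mE ≤ MeasurableSpace.pi := h.meas.comap_le
  induction n with
  | zero =>
    rw [Nat.cast_zero, zero_mul]
    refine Hc_self hm ?_
    have : (pre 0 : (ℕ → ι) → Fin 0 → ι) = fun _ => fun j => j.elim0 := by
      funext w j; exact j.elim0
    rw [this]
    exact measurable_const
  | succ n ih =>
    have e1 : Hc (PP p) (MeasurableSpace.comap Φ mE) (pre (n + 1)) =
        Hc (PP p) (MeasurableSpace.comap Φ mE) (fun w : ℕ → ι => (w 0, pre n (sh 1 w))) := by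
      rw [← Hc_equiv (Fin.consEquiv fun _ : Fin (n + 1) => ι)]
      congr 1
      funext w
      exact pre_succ_eq n w
    have hpn : Measurable (fun w : ℕ → ι => pre n (sh 1 w)) :=
      (measurable_pre n).comp (measurable_sh 1)
    rw [e1, Hc_chain (measurable_pi_apply 0) hpn hm]
    have e2 := comap_proc h
    have e3 : Hc (PP p) (MeasurableSpace.comap Φ mE ⊔
        MeasurableSpace.comap (fun w : ℕ → ι => w 0) mι) (fun w => pre n (sh 1 w)) =
        Hc (PP p) (MeasurableSpace.comap Φ mE) (pre n) := by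
      rw [e2]
      have hle : mι.prod (MeasurableSpace.comap Φ mE) ≤
          (inferInstance : MeasurableSpace (ι × (ℕ → ι))) :=
        sup_le_sup le_rfl (MeasurableSpace.comap_mono hm)
      have e4 := Hc_comap (mp_head_tail hp) hle ((measurable_pre n).comp measurable_snd)
      have e5 := Hc_prod (κ := letterMeas p) (ρ := PP p) hm (measurable_pre (ι := ι) n)
      exact e4.trans e5
    rw [e3, ih]
    push_cast
    ring

/-- entropy of the prefix -/
theorem Hc_pre_bot {p : ι → ℝ} (hp : (∀ i, 0 ≤ p i) ∧ ∑ i, p i = 1) (n : ℕ) :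
    Hc (PP p) ⊥ (pre n) = n * ∑ i, negMulLog (p i) := by
  have := isProb_letterMeas hp
  have := isProb_PP hp
  have h : IsProc (ι := ι) (fun _ => ()) (fun _ x => x) :=
    ⟨measurable_const, fun _ => MeasurableEmbedding.id, fun _ => rfl⟩
  have e : MeasurableSpace.comap (fun _ : ℕ → ι => ()) inferInstance = ⊥ :=
    MeasurableSpace.comap_const ()
  have h1 := Hc_pre hp h n
  rw [e] at h1
  have h00 : Measurable (fun w : ℕ → ι => w 0) := measurable_pi_apply 0
  rw [h1, Hc_bot (μ := PP p) h00]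
  congr 1
  refine Finset.sum_congr rfl fun i _ => ?_
  congr 1
  have h2 : (fun w : ℕ → ι => w 0) ⁻¹' {i} = {w | pre 1 w = fun _ => i} := by
    ext w
    simp only [Set.mem_preimage, Set.mem_singleton_iff, Set.mem_ofPred_eq]
    constructor
    · intro h
      funext j
      have : j = 0 := Subsingleton.elim _ _
      subst this
      exact h
    · intro h
      exact congrFun h 0
  rw [h2, Measure.real, PP_pre hp]
  have h3 : pw p (fun _ : Fin 1 => i) = p i := by simp [pw]
  rw [h3, ENNReal.toReal_ofReal (hp.1 i)]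

/-- **`I(w|_n; Φ) = n α_Φ`** -/
theorem info_pre {p : ι → ℝ} (hp : (∀ i, 0 ≤ p i) ∧ ∑ i, p i = 1) {Φ : (ℕ → ι) → E}
    {B : ι → E → E} (h : IsProc Φ B) (n : ℕ) :
    Hc (PP p) ⊥ (pre n) - Hc (PP p) (MeasurableSpace.comap Φ mE) (pre n) = n * alpha p Φ := by
  rw [Hc_pre hp h, Hc_pre_bot hp]
  unfold alpha
  ring




variable {E' : Type*} [mE' : MeasurableSpace E']

/-- monotonicity of `α` -/
theorem alpha_mono {p : ι → ℝ} (hp : (∀ i, 0 ≤ p i) ∧ ∑ i, p i = 1) {Φ : (ℕ → ι) → E}
    {Φ₁ : (ℕ → ι) → E'} (h : Measurable Φ)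
    (hle : MeasurableSpace.comap Φ₁ mE' ≤ MeasurableSpace.comap Φ mE) :
    alpha p Φ₁ ≤ alpha p Φ := by
  have := isProb_PP hp
  have := Hc_anti (μ := PP p) hle h.comap_le
    (measurable_pi_apply (X := fun _ : ℕ => ι) 0)
  unfold alpha
  linarith

/-- **(F2)**: equal information rates: `Φ` is a.e. a function of `Φ₁` -/
theorem F2 {p : ι → ℝ} (hp : (∀ i, 0 ≤ p i) ∧ ∑ i, p i = 1) {Φ : (ℕ → ι) → E} {B : ι → E → E}
    (h : IsProc Φ B) {Φ₁ : (ℕ → ι) → E'} {B₁ : ι → E' → E'} (h₁ : IsProc Φ₁ B₁)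
    (hle : MeasurableSpace.comap Φ₁ mE' ≤ MeasurableSpace.comap Φ mE)
    (hα : alpha p Φ ≤ alpha p Φ₁) {F : (ℕ → ι) → ℝ} (hF : Integrable F (PP p))
    (hFm : StronglyMeasurable[MeasurableSpace.comap Φ mE] F) :
    (PP p)[F | MeasurableSpace.comap Φ₁ mE'] =ᵐ[PP p] F := by
  have := isProb_PP hp
  refine condExp_eq_self_of_pi h₁.meas.comap_le h.meas.comap_le (Cyl ι) cyl_pi cyl_gen cyl_univ
    ?_ hF hFm
  rintro _ ⟨n, u, rfl⟩
  have h1 : Hc (PP p) (MeasurableSpace.comap Φ₁ mE') (pre n) ≤
      Hc (PP p) (MeasurableSpace.comap Φ mE) (pre n) := by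
    rw [Hc_pre hp h, Hc_pre hp h₁]
    refine mul_le_mul_of_nonneg_left ?_ (Nat.cast_nonneg n)
    unfold alpha at hα
    linarith
  exact cp_eq_of_Hc_le hle h.meas.comap_le (measurable_pre n) h1 u

/-- (F2) with a conclusion in terms of almost everywhere measurability -/
theorem F2_aesm {p : ι → ℝ} (hp : (∀ i, 0 ≤ p i) ∧ ∑ i, p i = 1) {Φ : (ℕ → ι) → E}
    {B : ι → E → E}
    (h : IsProc Φ B) {Φ₁ : (ℕ → ι) → E'} {B₁ : ι → E' → E'} (h₁ : IsProc Φ₁ B₁)
    (hle : MeasurableSpace.comap Φ₁ mE' ≤ MeasurableSpace.comap Φ mE)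
    (hα : alpha p Φ ≤ alpha p Φ₁) {G : E → ℝ} (hG : Measurable G)
    (hF : Integrable (fun w => G (Φ w)) (PP p)) :
    AEStronglyMeasurable[MeasurableSpace.comap Φ₁ mE'] (fun w => G (Φ w)) (PP p) := by
  have hFm : StronglyMeasurable[MeasurableSpace.comap Φ mE] (fun w => G (Φ w)) := by
    have : Measurable[MeasurableSpace.comap Φ mE] (fun w => G (Φ w)) :=
      hG.comp (comap_measurable Φ)
    exact this.stronglyMeasurable
  exact ⟨_, stronglyMeasurable_condExp, (F2 hp h h₁ hle hα hF hFm).symm⟩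

end seq

end

end Crest.Agent.R98.F
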