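import Mathlib
import Crest.Agent.R098.UpperA
import Crest.Agent.R98.FB

-- ▼ part R98/FDEnt
section

/-!
# Row 98: entropy of finite-valued maps on a probability space (helper896, module FD)
-/

set_option autoImplicit false
set_option linter.unusedSectionVars false
set_option linter.unusedVariables false

namespace Crest.Agent.R98.FD

open MeasureTheory Real

section Table

variable {α β : Type*}

/-- table inequality (submodularity of entropy, one conditioning value) -/
theorem table (s : Finset α) (t : Finset β) (m : α → β → ℝ) (hm : ∀ a b, 0 ≤ m a b) :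
    ∑ a ∈ s, ∑ b ∈ t, negMulLog (m a b) + negMulLog (∑ a ∈ s, ∑ b ∈ t, m a b) ≤
      ∑ a ∈ s, negMulLog (∑ b ∈ t, m a b) + ∑ b ∈ t, negMulLog (∑ a ∈ s, m a b) := by
  set R : α → ℝ := fun a => ∑ b ∈ t, m a b with hR
  set C : β → ℝ := fun b => ∑ a ∈ s, m a b with hC
  set M : ℝ := ∑ a ∈ s, ∑ b ∈ t, m a b with hM
  have hR0 : ∀ a, 0 ≤ R a := fun a => Finset.sum_nonneg fun b _ => hm a b
  have hC0 : ∀ b, 0 ≤ C b := fun b => Finset.sum_nonneg fun a _ => hm a b
  have hM0 : 0 ≤ M := Finset.sum_nonneg fun a _ => hR0 a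
  have hsumR : ∑ a ∈ s, R a = M := rfl
  have hsumC : ∑ b ∈ t, C b = M := Finset.sum_comm
  rcases hM0.eq_or_lt with h0 | hpos
  · -- everything vanishes
    have hRz : ∀ a ∈ s, R a = 0 := by
      intro a ha
      exact (Finset.sum_eq_zero_iff_of_nonneg (fun a _ => hR0 a)).1 (hsumR.trans h0.symm) a ha
    have hmz : ∀ a ∈ s, ∀ b ∈ t, m a b = 0 := by
      intro a ha b hb
      exact (Finset.sum_eq_zero_iff_of_nonneg (fun b _ => hm a b)).1 (hRz a ha) b hb
    have hCz : ∀ b ∈ t, C b = 0 := by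
      intro b hb
      exact Finset.sum_eq_zero fun a ha => hmz a ha b hb
    have e1 : ∑ a ∈ s, ∑ b ∈ t, negMulLog (m a b) = 0 :=
      Finset.sum_eq_zero fun a ha => Finset.sum_eq_zero fun b hb => by rw [hmz a ha b hb]; simp
    have e2 : ∑ a ∈ s, negMulLog (R a) = 0 :=
      Finset.sum_eq_zero fun a ha => by rw [hRz a ha]; simp
    have e3 : ∑ b ∈ t, negMulLog (C b) = 0 :=
      Finset.sum_eq_zero fun b hb => by rw [hCz b hb]; simp
    rw [e1, e2, e3, ← h0]; simp
  · have hterm : ∀ a ∈ s, ∀ b ∈ t,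
        negMulLog (m a b) + m a b * log (R a) + m a b * log (C b) - m a b * log M
          ≤ R a * C b / M - m a b := by
      intro a ha b hb
      rcases (hm a b).eq_or_lt with h | h
      · rw [← h]
        simp only [negMulLog_zero, zero_mul, add_zero, sub_zero]
        exact div_nonneg (mul_nonneg (hR0 a) (hC0 b)) hM0
      · have hRp : 0 < R a := lt_of_lt_of_le h
          (Finset.single_le_sum (f := fun b => m a b) (fun b _ => hm a b) hb)
        have hCp : 0 < C b := lt_of_lt_of_le h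
          (Finset.single_le_sum (f := fun a => m a b) (fun a _ => hm a b) ha)
        have hx : 0 < R a * C b / (m a b * M) := by positivity
        have hlog := log_le_sub_one_of_pos hx
        have e : log (R a * C b / (m a b * M)) = log (R a) + log (C b) - log (m a b) - log M := by
          rw [log_div (by positivity) (by positivity), log_mul hRp.ne' hCp.ne',
            log_mul h.ne' hpos.ne']
          ring
        rw [e] at hlog
        have := mul_le_mul_of_nonneg_left hlog h.le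
        have e2 : m a b * (R a * C b / (m a b * M) - 1) = R a * C b / M - m a b := by
          field_simp
        rw [e2] at this
        rw [negMulLog]
        linarith
    have hsum := Finset.sum_le_sum fun a ha => Finset.sum_le_sum fun b hb => hterm a ha b hb
    have eR : ∑ a ∈ s, negMulLog (R a) = - ∑ a ∈ s, ∑ b ∈ t, m a b * log (R a) := by
      rw [← Finset.sum_neg_distrib]
      refine Finset.sum_congr rfl fun a _ => ?_
      rw [← Finset.sum_mul, negMulLog]; ring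
    have eC : ∑ b ∈ t, negMulLog (C b) = - ∑ a ∈ s, ∑ b ∈ t, m a b * log (C b) := by
      rw [Finset.sum_comm, ← Finset.sum_neg_distrib]
      refine Finset.sum_congr rfl fun b _ => ?_
      rw [← Finset.sum_mul, negMulLog]; ring
    have eM : negMulLog M = - ∑ a ∈ s, ∑ b ∈ t, m a b * log M := by
      have : ∑ a ∈ s, ∑ b ∈ t, m a b * log M = M * log M := by
        rw [hM, Finset.sum_mul]
        exact Finset.sum_congr rfl fun a _ => (Finset.sum_mul _ _ _).symm
      rw [this, negMulLog]; ring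
    have eRHS : ∑ a ∈ s, ∑ b ∈ t, (R a * C b / M - m a b) = 0 := by
      have h1 : ∑ a ∈ s, ∑ b ∈ t, (R a * C b / M - m a b)
          = (∑ a ∈ s, R a) * (∑ b ∈ t, C b) / M - M := by
        rw [Finset.sum_mul_sum, Finset.sum_div, hM, ← Finset.sum_sub_distrib]
        refine Finset.sum_congr rfl fun a _ => ?_
        rw [Finset.sum_div, ← Finset.sum_sub_distrib]
      rw [h1, hsumR, hsumC]
      field_simp
      ring
    have eLHS : ∑ a ∈ s, ∑ b ∈ t,
        (negMulLog (m a b) + m a b * log (R a) + m a b * log (C b) - m a b * log M)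
        = ∑ a ∈ s, ∑ b ∈ t, negMulLog (m a b) + ∑ a ∈ s, ∑ b ∈ t, m a b * log (R a)
          + ∑ a ∈ s, ∑ b ∈ t, m a b * log (C b) - ∑ a ∈ s, ∑ b ∈ t, m a b * log M := by
      simp only [Finset.sum_add_distrib, Finset.sum_sub_distrib]
    rw [eLHS, eRHS] at hsum
    rw [eR, eC, eM]
    linarith

/-- conditional cardinality bound -/
theorem sum_negMulLog_le_log_card (s : Finset α) (m : α → ℝ) (hm : ∀ a ∈ s, 0 ≤ m a) {M : ℝ}
    (hM : 1 ≤ M) (hcard : ((s.filter fun a => m a ≠ 0).card : ℝ) ≤ M) :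
    ∑ a ∈ s, negMulLog (m a) ≤ negMulLog (∑ a ∈ s, m a) + (∑ a ∈ s, m a) * log M := by
  set T : ℝ := ∑ a ∈ s, m a with hT
  have hT0 : 0 ≤ T := Finset.sum_nonneg hm
  rcases hT0.eq_or_lt with h0 | hpos
  · have hz : ∀ a ∈ s, m a = 0 := (Finset.sum_eq_zero_iff_of_nonneg hm).1 h0.symm
    rw [← h0, Finset.sum_eq_zero fun a ha => by rw [hz a ha]; simp]
    simp
  · have hMpos : 0 < M := by linarith
    have hterm : ∀ a ∈ s, negMulLog (m a) + m a * log T - m a * log M
        ≤ (if m a ≠ 0 then T / M else 0) - m a := by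
      intro a ha
      split_ifs with h
      · have hp : 0 < m a := lt_of_le_of_ne (hm a ha) (Ne.symm h)
        have hx : 0 < T / (m a * M) := by positivity
        have hlog := log_le_sub_one_of_pos hx
        have e : log (T / (m a * M)) = log T - log (m a) - log M := by
          rw [log_div (by positivity) (by positivity), log_mul hp.ne' hMpos.ne']; ring
        rw [e] at hlog
        have := mul_le_mul_of_nonneg_left hlog hp.le
        have e2 : m a * (T / (m a * M) - 1) = T / M - m a := by field_simp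
        rw [e2] at this
        rw [negMulLog]; linarith
      · rw [not_not.1 h]; simp
    have hsum := Finset.sum_le_sum hterm
    have e1 : ∑ a ∈ s, ((if m a ≠ 0 then T / M else 0) - m a)
        = (s.filter fun a => m a ≠ 0).card * (T / M) - T := by
      rw [Finset.sum_sub_distrib, ← Finset.sum_filter, Finset.sum_const, nsmul_eq_mul]
    have e2 : ∑ a ∈ s, (negMulLog (m a) + m a * log T - m a * log M)
        = ∑ a ∈ s, negMulLog (m a) + T * log T - T * log M := by
      rw [Finset.sum_sub_distrib, Finset.sum_add_distrib, ← Finset.sum_mul, ← Finset.sum_mul]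
    rw [e1, e2] at hsum
    have h3 : ((s.filter fun a => m a ≠ 0).card : ℝ) * (T / M) - T ≤ 0 := by
      have : ((s.filter fun a => m a ≠ 0).card : ℝ) * (T / M) ≤ M * (T / M) :=
        mul_le_mul_of_nonneg_right hcard (by positivity)
      have e : M * (T / M) = T := by field_simp
      linarith
    rw [negMulLog]
    linarith

end Table

section HPdef

variable {Ω : Type*} [MeasurableSpace Ω] {γ δ ε : Type*}

/-- finite range, measurable fibres -/
structure FV (f : Ω → γ) : Prop where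
  fin : (Set.range f).Finite
  meas : ∀ v, MeasurableSet (f ⁻¹' {v})

/-- entropy of a finite-valued map -/
noncomputable def HP (P : Measure Ω) (f : Ω → γ) : ℝ := ∑' v, negMulLog (P.real (f ⁻¹' {v}))

/-- pairing -/
def pr (f : Ω → γ) (g : Ω → δ) : Ω → γ × δ := fun ω => (f ω, g ω)

theorem pr_preimage (f : Ω → γ) (g : Ω → δ) (a : γ) (b : δ) :
    pr f g ⁻¹' {(a, b)} = f ⁻¹' {a} ∩ g ⁻¹' {b} := by
  ext ω; simp [pr, Prod.ext_iff]

theorem FV.pair {f : Ω → γ} {g : Ω → δ} (hf : FV f) (hg : FV g) : FV (pr f g) := by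
  refine ⟨(hf.fin.prod hg.fin).subset ?_, ?_⟩
  · rintro _ ⟨ω, rfl⟩
    exact ⟨⟨ω, rfl⟩, ⟨ω, rfl⟩⟩
  · rintro ⟨a, b⟩
    rw [pr_preimage]
    exact (hf.meas a).inter (hg.meas b)

theorem preimage_eq_empty_of_notMem {f : Ω → γ} {v : γ} (h : v ∉ Set.range f) :
    f ⁻¹' {v} = ∅ := by
  ext ω
  simp only [Set.mem_preimage, Set.mem_singleton_iff, Set.mem_empty_iff_false, iff_false]
  intro h'
  exact h ⟨ω, h'⟩

theorem FV.meas_set {f : Ω → γ} (hf : FV f) (S : Set γ) : MeasurableSet (f ⁻¹' S) := by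
  have : f ⁻¹' S = ⋃ v ∈ Set.range f ∩ S, f ⁻¹' {v} := by
    ext ω
    simp only [Set.mem_preimage, Set.mem_iUnion, Set.mem_singleton_iff, exists_prop]
    constructor
    · intro h; exact ⟨f ω, ⟨⟨ω, rfl⟩, h⟩, rfl⟩
    · rintro ⟨v, ⟨_, hv⟩, rfl⟩; exact hv
  rw [this]
  exact (hf.fin.inter_of_left S).measurableSet_biUnion fun v _ => hf.meas v

theorem FV.comp {f : Ω → γ} (hf : FV f) (φ : γ → δ) : FV (fun ω => φ (f ω)) := by
  refine ⟨?_, fun v => ?_⟩
  · have : Set.range (fun ω => φ (f ω)) = φ '' Set.range f := by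
      rw [← Set.range_comp]; rfl
    rw [this]
    exact hf.fin.image φ
  · exact hf.meas_set (φ ⁻¹' {v})

/-- `g` is a function of `f` -/
def Det (f : Ω → γ) (g : Ω → δ) : Prop := ∀ ω ω', f ω = f ω' → g ω = g ω'

theorem Det.fac {f : Ω → γ} {g : Ω → δ} [Nonempty Ω] (h : Det f g) :
    ∃ φ : γ → δ, ∀ ω, g ω = φ (f ω) := by
  classical
  obtain ⟨ω0⟩ := ‹Nonempty Ω›
  refine ⟨fun v => if hv : ∃ ω, f ω = v then g hv.choose else g ω0, fun ω => ?_⟩
  have hv : ∃ ω', f ω' = f ω := ⟨ω, rfl⟩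
  show g ω = if hv : ∃ ω', f ω' = f ω then g hv.choose else g ω0
  rw [dif_pos hv]
  exact (h _ _ hv.choose_spec).symm

theorem HP_eq (P : Measure Ω) {f : Ω → γ} (s : Finset γ) (hs : ∀ ω, f ω ∈ s) :
    HP P f = ∑ v ∈ s, negMulLog (P.real (f ⁻¹' {v})) := by
  unfold HP
  refine tsum_eq_sum fun v hv => ?_
  rw [preimage_eq_empty_of_notMem]
  · simp
  · rintro ⟨ω, rfl⟩; exact hv (hs ω)

theorem FV.exists_finset {f : Ω → γ} (hf : FV f) : ∃ s : Finset γ, ∀ ω, f ω ∈ s :=
  ⟨hf.fin.toFinset, fun ω => by simp⟩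

theorem HP_pair_eq (P : Measure Ω) {f : Ω → γ} {g : Ω → δ} (s : Finset γ) (t : Finset δ)
    (hs : ∀ ω, f ω ∈ s) (ht : ∀ ω, g ω ∈ t) :
    HP P (pr f g) = ∑ a ∈ s, ∑ b ∈ t, negMulLog (P.real (f ⁻¹' {a} ∩ g ⁻¹' {b})) := by
  rw [HP_eq P (s ×ˢ t) (fun ω => Finset.mem_product.2 ⟨hs ω, ht ω⟩), Finset.sum_product]
  refine Finset.sum_congr rfl fun a _ => Finset.sum_congr rfl fun b _ => ?_
  rw [pr_preimage]

theorem sum_real (P : Measure Ω) [IsFiniteMeasure P] {g : Ω → δ} (hg : FV g) (t : Finset δ)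
    (ht : ∀ ω, g ω ∈ t) (A : Set Ω) : ∑ b ∈ t, P.real (A ∩ g ⁻¹' {b}) = P.real A := by
  have h1 : A = ⋃ b ∈ t, A ∩ g ⁻¹' {b} := by
    ext ω
    simp only [Set.mem_iUnion, Set.mem_inter_iff, Set.mem_preimage, Set.mem_singleton_iff,
      exists_prop]
    exact ⟨fun h => ⟨g ω, ht ω, h, rfl⟩, fun ⟨_, _, h, _⟩ => h⟩
  have h2 : P.restrict A Set.univ = P A := by simp
  have h3 : (Set.univ : Set Ω) = ⋃ b ∈ t, g ⁻¹' {b} := by
    ext ω
    simp only [Set.mem_iUnion, Set.mem_preimage, Set.mem_singleton_iff, exists_prop]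
    exact ⟨fun _ => ⟨g ω, ht ω, rfl⟩, fun _ => Set.mem_univ ω⟩
  have h4 : (P.restrict A).real Set.univ = ∑ b ∈ t, (P.restrict A).real (g ⁻¹' {b}) := by
    conv_lhs => rw [h3]
    refine measureReal_biUnion_finset ?_ fun b _ => hg.meas b
    intro a _ b _ hab
    refine Set.disjoint_left.2 fun ω ha hb => hab ?_
    simp only [Set.mem_preimage, Set.mem_singleton_iff] at ha hb
    rw [← ha, ← hb]
  have h5 : ∀ b, (P.restrict A).real (g ⁻¹' {b}) = P.real (A ∩ g ⁻¹' {b}) := by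
    intro b
    rw [measureReal_restrict_apply (hg.meas b), Set.inter_comm]
  rw [← Finset.sum_congr rfl fun b _ => h5 b, ← h4, measureReal_def, h2, measureReal_def]

theorem HP_nonneg (P : Measure Ω) [IsProbabilityMeasure P] (f : Ω → γ) : 0 ≤ HP P f :=
  tsum_nonneg fun _ => negMulLog_nonneg measureReal_nonneg measureReal_le_one

theorem negMulLog_sum_le (s : Finset γ) (m : γ → ℝ) (hm : ∀ a ∈ s, 0 ≤ m a) :
    negMulLog (∑ a ∈ s, m a) ≤ ∑ a ∈ s, negMulLog (m a) := by
  rw [negMulLog, ← neg_mul_eq_neg_mul, Finset.sum_mul, ← Finset.sum_neg_distrib]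
  refine Finset.sum_le_sum fun a ha => ?_
  rcases (hm a ha).eq_or_lt with h | h
  · rw [← h]; simp
  · rw [negMulLog, neg_mul, neg_le_neg_iff]
    exact mul_le_mul_of_nonneg_left
      (log_le_log h (Finset.single_le_sum hm ha)) h.le

variable (P : Measure Ω) [IsProbabilityMeasure P]

theorem HP_le_pair_right {f : Ω → γ} {g : Ω → δ} (hf : FV f) (hg : FV g) :
    HP P g ≤ HP P (pr f g) := by
  obtain ⟨s, hs⟩ := hf.exists_finset
  obtain ⟨t, ht⟩ := hg.exists_finset
  rw [HP_pair_eq P s t hs ht, HP_eq P t ht, Finset.sum_comm]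
  refine Finset.sum_le_sum fun b _ => ?_
  rw [← sum_real P hf s hs (g ⁻¹' {b})]
  refine (negMulLog_sum_le _ _ fun _ _ => measureReal_nonneg).trans_eq ?_
  exact Finset.sum_congr rfl fun a _ => by rw [Set.inter_comm]

/-- two maps with the same fibres have the same entropy -/
theorem HP_congr {f : Ω → γ} {g : Ω → δ} (hf : FV f) (hg : FV g)
    (h : ∀ ω ω', f ω = f ω' ↔ g ω = g ω') : HP P f = HP P g := by
  classical
  obtain ⟨ω0⟩ : Nonempty Ω := ⟨(nonempty_of_isProbabilityMeasure P).some⟩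
  have : Nonempty Ω := ⟨ω0⟩
  obtain ⟨φ, hφ⟩ := Det.fac (f := f) (g := g) fun ω ω' hh => (h ω ω').1 hh
  set s := hf.fin.toFinset with hs
  have hsm : ∀ ω, f ω ∈ s := fun ω => by simp [hs]
  have hinj : Set.InjOn φ s := by
    intro a ha b hb hab
    rw [hs, Set.Finite.coe_toFinset] at ha hb
    obtain ⟨ω, rfl⟩ := ha
    obtain ⟨ω', rfl⟩ := hb
    rw [← hφ, ← hφ] at hab
    exact (h ω ω').2 hab
  rw [HP_eq P s hsm, HP_eq P (s.image φ) (fun ω => by
    rw [hφ]; exact Finset.mem_image_of_mem _ (hsm ω)), Finset.sum_image hinj]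
  refine Finset.sum_congr rfl fun a ha => ?_
  rw [hs, Set.Finite.mem_toFinset] at ha
  obtain ⟨ω, rfl⟩ := ha
  congr 2
  ext ω'
  simp only [Set.mem_preimage, Set.mem_singleton_iff]
  rw [h ω' ω, hφ ω]

theorem HP_le_of_det {f : Ω → γ} {g : Ω → δ} (hf : FV f) (hg : FV g) (h : Det f g) :
    HP P g ≤ HP P f := by
  refine (HP_le_pair_right P hf hg).trans_eq (HP_congr P (hf.pair hg) hf fun ω ω' => ?_)
  simp only [pr, Prod.mk.injEq]
  exact ⟨fun hh => hh.1, fun hh => ⟨hh, h _ _ hh⟩⟩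

/-- **submodularity** -/
theorem HP_submod {f : Ω → γ} {g : Ω → δ} {k : Ω → ε} (hf : FV f) (hg : FV g) (hk : FV k) :
    HP P (pr k (pr f g)) + HP P k ≤ HP P (pr k f) + HP P (pr k g) := by
  obtain ⟨s, hs⟩ := hf.exists_finset
  obtain ⟨t, ht⟩ := hg.exists_finset
  obtain ⟨r, hr⟩ := hk.exists_finset
  have e1 : HP P (pr k (pr f g)) = ∑ c ∈ r, ∑ a ∈ s, ∑ b ∈ t,
      negMulLog (P.real (k ⁻¹' {c} ∩ (f ⁻¹' {a} ∩ g ⁻¹' {b}))) := by
    rw [HP_pair_eq P r (s ×ˢ t) hr fun ω => Finset.mem_product.2 ⟨hs ω, ht ω⟩]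
    refine Finset.sum_congr rfl fun c _ => ?_
    rw [Finset.sum_product]
    refine Finset.sum_congr rfl fun a _ => Finset.sum_congr rfl fun b _ => ?_
    rw [pr_preimage]
  rw [e1, HP_eq P r hr, HP_pair_eq P r s hr hs, HP_pair_eq P r t hr ht, ← Finset.sum_add_distrib,
    ← Finset.sum_add_distrib]
  refine Finset.sum_le_sum fun c _ => ?_
  have h := table s t (fun a b => P.real (k ⁻¹' {c} ∩ (f ⁻¹' {a} ∩ g ⁻¹' {b})))
    fun _ _ => measureReal_nonneg
  have h1 : ∀ a, ∑ b ∈ t, P.real (k ⁻¹' {c} ∩ (f ⁻¹' {a} ∩ g ⁻¹' {b}))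
      = P.real (k ⁻¹' {c} ∩ f ⁻¹' {a}) := by
    intro a
    rw [← sum_real P hg t ht (k ⁻¹' {c} ∩ f ⁻¹' {a})]
    exact Finset.sum_congr rfl fun b _ => by rw [Set.inter_assoc]
  have h2 : ∀ b, ∑ a ∈ s, P.real (k ⁻¹' {c} ∩ (f ⁻¹' {a} ∩ g ⁻¹' {b}))
      = P.real (k ⁻¹' {c} ∩ g ⁻¹' {b}) := by
    intro b
    rw [← sum_real P hf s hs (k ⁻¹' {c} ∩ g ⁻¹' {b})]
    refine Finset.sum_congr rfl fun a _ => ?_
    congr 1
    ext ω
    simp only [Set.mem_inter_iff]
    tauto
  simp only [h1, h2] at h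
  rw [sum_real P hf s hs] at h
  exact h

/-- **conditional cardinality bound** -/
theorem HP_pair_le_card {f : Ω → γ} {g : Ω → δ} (hf : FV f) (hg : FV g) (t : Finset δ)
    (ht : ∀ ω, g ω ∈ t) (M : δ → ℝ) (hM : ∀ b ∈ t, 1 ≤ M b)
    (h : ∀ b ∈ t, ((f '' (g ⁻¹' {b})).ncard : ℝ) ≤ M b) :
    HP P (pr f g) ≤ HP P g + ∑ b ∈ t, P.real (g ⁻¹' {b}) * log (M b) := by
  classical
  obtain ⟨s, hs⟩ := hf.exists_finset
  rw [HP_pair_eq P s t hs ht, HP_eq P t ht, Finset.sum_comm, ← Finset.sum_add_distrib]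
  refine Finset.sum_le_sum fun b hb => ?_
  have h1 : ∑ a ∈ s, P.real (f ⁻¹' {a} ∩ g ⁻¹' {b}) = P.real (g ⁻¹' {b}) := by
    rw [← sum_real P hf s hs (g ⁻¹' {b})]
    exact Finset.sum_congr rfl fun a _ => by rw [Set.inter_comm]
  have hcard : (((s.filter fun a => P.real (f ⁻¹' {a} ∩ g ⁻¹' {b}) ≠ 0).card : ℕ) : ℝ)
      ≤ M b := by
    refine le_trans ?_ (h b hb)
    rw [Nat.cast_le, ← Set.ncard_coe_finset]
    refine Set.ncard_le_ncard ?_ (hf.fin.subset (Set.image_subset_range _ _))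
    intro a ha
    rw [Finset.mem_coe, Finset.mem_filter] at ha
    have : (f ⁻¹' {a} ∩ g ⁻¹' {b}).Nonempty := by
      by_contra hne
      rw [Set.not_nonempty_iff_eq_empty] at hne
      exact ha.2 (by rw [hne]; simp)
    obtain ⟨ω, hω1, hω2⟩ := this
    exact ⟨ω, hω2, hω1⟩
  have := sum_negMulLog_le_log_card s (fun a => P.real (f ⁻¹' {a} ∩ g ⁻¹' {b}))
    (fun _ _ => measureReal_nonneg) (hM b hb) hcard
  rw [h1] at this
  exact this

theorem sum_real_univ {g : Ω → δ} (hg : FV g) (t : Finset δ) (ht : ∀ ω, g ω ∈ t) :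
    ∑ b ∈ t, P.real (g ⁻¹' {b}) = 1 := by
  have := sum_real P hg t ht Set.univ
  simpa using this

/-- uniform conditional cardinality bound -/
theorem HP_pair_le_log {f : Ω → γ} {g : Ω → δ} (hf : FV f) (hg : FV g) {M : ℝ} (hM : 1 ≤ M)
    (h : ∀ b, ((f '' (g ⁻¹' {b})).ncard : ℝ) ≤ M) :
    HP P (pr f g) ≤ HP P g + log M := by
  obtain ⟨t, ht⟩ := hg.exists_finset
  have := HP_pair_le_card P hf hg t ht (fun _ => M) (fun _ _ => hM) fun b _ => h b
  rwa [← Finset.sum_mul, sum_real_univ P hg t ht, one_mul] at this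

theorem HP_const (c : γ) : HP P (fun _ : Ω => c) = 0 := by
  classical
  rw [HP_eq P {c} fun _ => by simp, Finset.sum_singleton]
  have : (fun _ : Ω => c) ⁻¹' {c} = Set.univ := by ext; simp
  rw [this]; simp

theorem FV.const (c : γ) : FV (fun _ : Ω => c) :=
  ⟨(Set.finite_singleton c).subset (by rintro _ ⟨_, rfl⟩; rfl), fun v => by
    by_cases h : c = v
    · have : (fun _ : Ω => c) ⁻¹' {v} = Set.univ := by ext; simp [h]
      rw [this]; exact MeasurableSet.univ
    · have : (fun _ : Ω => c) ⁻¹' {v} = ∅ := by ext; simp [h]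
      rw [this]; exact MeasurableSet.empty⟩

theorem HP_comm {f : Ω → γ} {g : Ω → δ} (hf : FV f) (hg : FV g) :
    HP P (pr f g) = HP P (pr g f) :=
  HP_congr P (hf.pair hg) (hg.pair hf) fun ω ω' => by
    simp only [pr, Prod.mk.injEq]; tauto

theorem HP_pair_le_add {f : Ω → γ} {g : Ω → δ} (hf : FV f) (hg : FV g) :
    HP P (pr f g) ≤ HP P f + HP P g := by
  have h := HP_submod P hf hg (FV.const (Ω := Ω) ())
  rw [HP_const, add_zero] at h
  have e1 : HP P (pr (fun _ : Ω => ()) (pr f g)) = HP P (pr f g) :=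
    HP_congr P ((FV.const ()).pair (hf.pair hg)) (hf.pair hg) fun ω ω' => by simp [pr]
  have e2 : HP P (pr (fun _ : Ω => ()) f) = HP P f :=
    HP_congr P ((FV.const ()).pair hf) hf fun ω ω' => by simp [pr]
  have e3 : HP P (pr (fun _ : Ω => ()) g) = HP P g :=
    HP_congr P ((FV.const ()).pair hg) hg fun ω ω' => by simp [pr]
  rw [e1, e2, e3] at h
  exact h

theorem HP_le_pair_left {f : Ω → γ} {g : Ω → δ} (hf : FV f) (hg : FV g) :
    HP P f ≤ HP P (pr f g) := by
  rw [HP_comm P hf hg]; exact HP_le_pair_right P hg hf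

/-- entropy of an independent pair -/
theorem HP_indep {f : Ω → γ} {g : Ω → δ} (hf : FV f) (hg : FV g)
    (h : ∀ a b, P.real (f ⁻¹' {a} ∩ g ⁻¹' {b}) = P.real (f ⁻¹' {a}) * P.real (g ⁻¹' {b})) :
    HP P (pr f g) = HP P f + HP P g := by
  obtain ⟨s, hs⟩ := hf.exists_finset
  obtain ⟨t, ht⟩ := hg.exists_finset
  rw [HP_pair_eq P s t hs ht, HP_eq P s hs, HP_eq P t ht]
  have h1 := sum_real_univ P hf s hs
  have h2 := sum_real_univ P hg t ht
  calc ∑ a ∈ s, ∑ b ∈ t, negMulLog (P.real (f ⁻¹' {a} ∩ g ⁻¹' {b}))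
      = ∑ a ∈ s, ∑ b ∈ t, (negMulLog (P.real (f ⁻¹' {a})) * P.real (g ⁻¹' {b})
          + P.real (f ⁻¹' {a}) * negMulLog (P.real (g ⁻¹' {b}))) := by
        refine Finset.sum_congr rfl fun a _ => Finset.sum_congr rfl fun b _ => ?_
        rw [h, negMulLog_mul]; ring
    _ = ∑ a ∈ s, (negMulLog (P.real (f ⁻¹' {a}))
          + P.real (f ⁻¹' {a}) * ∑ b ∈ t, negMulLog (P.real (g ⁻¹' {b}))) := by
        refine Finset.sum_congr rfl fun a _ => ?_
        rw [Finset.sum_add_distrib, ← Finset.mul_sum, ← Finset.mul_sum, h2, mul_one]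
    _ = _ := by
        rw [Finset.sum_add_distrib, ← Finset.sum_mul, h1, one_mul]

end HPdef

end Crest.Agent.R98.FD
end

-- ▼ part R98/FDCell
section

/-!
# Row 98: cells, flows, word measure, self-similar processes (helper896, module FD)
-/

set_option autoImplicit false
set_option linter.unusedSectionVars false
set_option linter.unusedVariables false

namespace Crest.Agent.R98.FD

open MeasureTheory Real
open Crest.Agent.R098.Upper (pw sw pw_nonneg sum_succ pw_cons sw_cons sum_pw)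

/-! ### integer vectors -/

section Cells

variable {Ω : Type*} [MeasurableSpace Ω] {κ : Type*} [Fintype κ] {γ δ : Type*}

theorem ncard_int_box {κ : Type*} [Fintype κ] (c : κ → ℤ) {R : ℝ} (hR : 0 ≤ R)
    (S : Set (κ → ℤ)) (hS : ∀ v ∈ S, ∀ k, |((v k - c k : ℤ) : ℝ)| ≤ R) :
    (S.ncard : ℝ) ≤ (2 * R + 1) ^ Fintype.card κ := by
  classical
  have hsub : S ⊆ ((Fintype.piFinset fun k => Finset.Icc (c k - ⌊R⌋) (c k + ⌊R⌋) : Finset (κ → ℤ)) :
      Set (κ → ℤ)) := by
    intro v hv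
    rw [Finset.mem_coe, Fintype.mem_piFinset]
    intro k
    have h := abs_le.1 (hS v hv k)
    rw [Finset.mem_Icc]
    have h1 : v k - c k ≤ ⌊R⌋ := Int.le_floor.2 h.2
    have h2 : -(v k - c k) ≤ ⌊R⌋ := Int.le_floor.2 (by push_cast; push_cast at h; linarith [h.1])
    constructor <;> linarith
  have h1 : (S.ncard : ℝ) ≤
      ((Fintype.piFinset fun k => Finset.Icc (c k - ⌊R⌋) (c k + ⌊R⌋) : Finset (κ → ℤ)).card : ℝ) := by
    rw [Nat.cast_le, ← Set.ncard_coe_finset]
    exact Set.ncard_le_ncard hsub (Finset.finite_toSet _)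
  refine h1.trans ?_
  rw [Fintype.card_piFinset]
  push_cast
  rw [← Finset.card_univ (α := κ), ← Finset.prod_const]
  refine Finset.prod_le_prod (fun _ _ => Nat.cast_nonneg _) fun k _ => ?_
  rw [Int.card_Icc]
  have h0 : (0:ℤ) ≤ ⌊R⌋ := Int.floor_nonneg.2 hR
  have h2 : (((c k + ⌊R⌋ + 1 - (c k - ⌊R⌋)).toNat : ℕ) : ℝ)
      = ((c k + ⌊R⌋ + 1 - (c k - ⌊R⌋) : ℤ) : ℝ) := by
    rw [← Int.cast_natCast, Int.toNat_of_nonneg (by linarith)]
  rw [h2]
  push_cast
  have := Int.floor_le R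
  linarith

/-- cell vector -/
noncomputable def fl (Y : Ω → κ → ℝ) : Ω → κ → ℤ := fun ω k => ⌊Y ω k⌋

theorem FV_fl {Y : Ω → κ → ℝ} (hY : Measurable Y) {B : ℝ} (hB : ∀ ω, ‖Y ω‖ ≤ B) : FV (fl Y) := by
  classical
  constructor
  · refine Set.Finite.subset (Finset.finite_toSet
      (Fintype.piFinset fun _ : κ => Finset.Icc (⌊-B⌋) (⌊B⌋) : Finset (κ → ℤ))) ?_
    rintro _ ⟨ω, rfl⟩
    rw [Finset.mem_coe, Fintype.mem_piFinset]
    intro k
    have h := abs_le.1 (((norm_le_pi_norm (Y ω) k).trans (hB ω)))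
    rw [Finset.mem_Icc]
    exact ⟨Int.floor_le_floor h.1, Int.floor_le_floor h.2⟩
  · intro v
    have : Measurable (fl Y) := by
      rw [measurable_pi_iff]
      intro k
      exact ((measurable_pi_iff.1 hY) k).floor
    exact this (measurableSet_singleton v)

theorem fl_eq_dist {Y : Ω → κ → ℝ} {ω ω' : Ω} (h : fl Y ω = fl Y ω') : ‖Y ω - Y ω'‖ ≤ 1 := by
  rw [pi_norm_le_iff_of_nonneg zero_le_one]
  intro k
  have hk : ⌊Y ω k⌋ = ⌊Y ω' k⌋ := congrFun h k
  have := Int.abs_sub_lt_one_of_floor_eq_floor hk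
  exact this.le

variable (P : Measure Ω) [IsProbabilityMeasure P]

/-- **comparison lemma** -/
theorem HP_fl_pair_le {Y : Ω → κ → ℝ} {g : Ω → δ} (hY : FV (fl Y)) (hg : FV g) {R : ℝ}
    (hR : 0 ≤ R) (h : ∀ ω ω', g ω = g ω' → ‖Y ω - Y ω'‖ ≤ R) :
    HP P (pr (fl Y) g) ≤ HP P g + Fintype.card κ * log (2 * R + 3) := by
  have e : (Fintype.card κ : ℝ) * log (2 * R + 3) = log ((2 * R + 3) ^ Fintype.card κ) := by
    rw [log_pow]
  rw [e]
  refine HP_pair_le_log P hY hg (one_le_pow₀ (by linarith)) fun b => ?_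
  rcases (g ⁻¹' {b}).eq_empty_or_nonempty with h0 | ⟨ω0, hω0⟩
  · rw [h0]
    simp only [Set.image_empty, Set.ncard_empty, Nat.cast_zero]
    positivity
  · have := ncard_int_box (fl Y ω0) (R := R + 1) (by linarith) (fl Y '' (g ⁻¹' {b})) ?_
    · refine this.trans_eq ?_
      congr 1; ring
    · rintro _ ⟨ω, hω, rfl⟩ k
      have h1 : g ω = g ω0 := by
        rw [Set.mem_preimage, Set.mem_singleton_iff] at hω hω0
        rw [hω, hω0]
      have h2 := (norm_le_pi_norm (Y ω - Y ω0) k).trans (h ω ω0 h1)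
      rw [Pi.sub_apply, Real.norm_eq_abs, abs_le] at h2
      have h3 := Int.floor_le (Y ω k)
      have h4 := Int.lt_floor_add_one (Y ω k)
      have h5 := Int.floor_le (Y ω0 k)
      have h6 := Int.lt_floor_add_one (Y ω0 k)
      show |((⌊Y ω k⌋ - ⌊Y ω0 k⌋ : ℤ) : ℝ)| ≤ R + 1
      push_cast
      rw [abs_le]
      constructor <;> linarith

theorem HP_fl_le {Y : Ω → κ → ℝ} {g : Ω → δ} (hY : FV (fl Y)) (hg : FV g) {R : ℝ}
    (hR : 0 ≤ R) (h : ∀ ω ω', g ω = g ω' → ‖Y ω - Y ω'‖ ≤ R) :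
    HP P (fl Y) ≤ HP P g + Fintype.card κ * log (2 * R + 3) :=
  (HP_le_pair_left P hY hg).trans (HP_fl_pair_le P hY hg hR h)

/-- trivial bound -/
theorem HP_fl_le_log {Y : Ω → κ → ℝ} (hY : FV (fl Y)) {R : ℝ} (hR : 0 ≤ R)
    (h : ∀ ω, ‖Y ω‖ ≤ R) : HP P (fl Y) ≤ Fintype.card κ * log (4 * R + 3) := by
  have := HP_fl_le P hY (FV.const (Ω := Ω) ()) (R := 2 * R) (by linarith) fun ω ω' _ =>
    (norm_sub_le _ _).trans (by linarith [h ω, h ω'])
  rw [HP_const, zero_add] at this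
  refine this.trans_eq ?_
  congr 2; ring

end Cells

/-! ### words -/

section Words

variable {ι : Type*}

/-- prepend a letter -/
def cs (i : ι) (w : ℕ → ι) : ℕ → ι := fun n => Nat.casesOn n i w

/-- shift -/
def sh (w : ℕ → ι) : ℕ → ι := fun n => w (n + 1)

@[simp] theorem cs_zero (i : ι) (w : ℕ → ι) : cs i w 0 = i := rfl
@[simp] theorem cs_succ (i : ι) (w : ℕ → ι) (n : ℕ) : cs i w (n + 1) = w n := rfl
@[simp] theorem sh_cs (i : ι) (w : ℕ → ι) : sh (cs i w) = w := rfl
theorem cs_sh (w : ℕ → ι) : cs (w 0) (sh w) = w := by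
  funext n; cases n <;> rfl

/-- prepend a word -/
def app : {n : ℕ} → (Fin n → ι) → (ℕ → ι) → (ℕ → ι)
  | 0, _, w => w
  | _ + 1, u, w => cs (u 0) (app (Fin.tail u) w)

/-- first letters -/
def pre (n : ℕ) (w : ℕ → ι) : Fin n → ι := fun j => w j

theorem app_cons {n : ℕ} (i : ι) (u : Fin n → ι) (w : ℕ → ι) :
    app (Fin.cons i u : Fin (n + 1) → ι) w = cs i (app u w) := by
  simp [app]

theorem pre_succ (n : ℕ) (w : ℕ → ι) :
    pre (n + 1) w = (Fin.cons (w 0) (pre n (sh w)) : Fin (n + 1) → ι) := by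
  funext j
  refine Fin.cases ?_ (fun j => ?_) j
  · simp [pre]
  · simp [pre, sh]

theorem pre_app {n : ℕ} (u : Fin n → ι) (w : ℕ → ι) : pre n (app u w) = u := by
  induction n with
  | zero => exact Subsingleton.elim _ _
  | succ n ih =>
    rw [pre_succ]
    have h : app u w = cs (u 0) (app (Fin.tail u) w) := rfl
    rw [h, cs_zero, sh_cs, ih]
    exact Fin.cons_self_tail u

theorem sh_app {n : ℕ} (u : Fin n → ι) (w : ℕ → ι) : sh^[n] (app u w) = w := by
  induction n with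
  | zero => rfl
  | succ n ih =>
    have h : app u w = cs (u 0) (app (Fin.tail u) w) := rfl
    rw [h, Function.iterate_succ_apply, sh_cs, ih]

theorem app_pre (n : ℕ) (w : ℕ → ι) : app (pre n w) (sh^[n] w) = w := by
  induction n generalizing w with
  | zero => rfl
  | succ n ih =>
    rw [pre_succ, app_cons, Function.iterate_succ_apply, ih, cs_sh]

variable [MeasurableSpace ι]

theorem measurable_cs (i : ι) : Measurable (cs i : (ℕ → ι) → (ℕ → ι)) := by
  rw [measurable_pi_iff]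
  intro n
  cases n with
  | zero => exact measurable_const
  | succ n => exact measurable_pi_apply n

theorem measurable_sh : Measurable (sh : (ℕ → ι) → (ℕ → ι)) := by
  rw [measurable_pi_iff]
  intro n
  exact measurable_pi_apply (n + 1)

theorem measurable_app {n : ℕ} (u : Fin n → ι) : Measurable (app u : (ℕ → ι) → (ℕ → ι)) := by
  induction n with
  | zero => exact measurable_id
  | succ n ih => exact (measurable_cs (u 0)).comp (ih (Fin.tail u))

theorem measurable_pre (n : ℕ) : Measurable (pre n : (ℕ → ι) → (Fin n → ι)) := by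
  rw [measurable_pi_iff]
  intro j
  exact measurable_pi_apply _

variable [Fintype ι]

/-- the word measure -/
def WM (p : ι → ℝ) (P : Measure (ℕ → ι)) : Prop :=
  ∀ A, MeasurableSet A → P.real A = ∑ i, p i * P.real (cs i ⁻¹' A)

variable {p : ι → ℝ} {P : Measure (ℕ → ι)}

theorem WM.words (hP : WM p P) (n : ℕ) {A : Set (ℕ → ι)} (hA : MeasurableSet A) :
    P.real A = ∑ u : Fin n → ι, pw p u * P.real (app u ⁻¹' A) := by
  induction n generalizing A with
  | zero =>
    have e : ∀ u : Fin 0 → ι, (app u : (ℕ → ι) → ℕ → ι) ⁻¹' A = A := fun u => rfl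
    simp [pw, e]
  | succ n ih =>
    rw [sum_succ, hP A hA]
    refine Finset.sum_congr rfl fun i _ => ?_
    rw [ih (A := cs i ⁻¹' A) (measurable_cs i hA), Finset.mul_sum]
    refine Finset.sum_congr rfl fun u _ => ?_
    rw [pw_cons, mul_assoc]
    rfl

variable {γ δ : Type*} [MeasurableSingletonClass ι]

theorem FV_pre (n : ℕ) : FV (pre n : (ℕ → ι) → (Fin n → ι)) :=
  ⟨Set.toFinite _, fun v => measurable_pre n (measurableSet_singleton v)⟩

theorem FV.app {f : (ℕ → ι) → γ} (hf : FV f) {n : ℕ} (u : Fin n → ι) :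
    FV (fun w => f (app u w)) :=
  ⟨hf.fin.subset (by rintro _ ⟨w, rfl⟩; exact ⟨_, rfl⟩), fun v => measurable_app u (hf.meas v)⟩

theorem FV.sh {f : (ℕ → ι) → γ} (hf : FV f) (n : ℕ) : FV (fun w => f (sh^[n] w)) :=
  ⟨hf.fin.subset (by rintro _ ⟨w, rfl⟩; exact ⟨_, rfl⟩), fun v =>
    (measurable_sh.iterate n) (hf.meas v)⟩

/-- probability of a finite-word event and an event -/
theorem WM.real_pre_inter (hP : WM p P) {n : ℕ} (u : Fin n → ι) {A : Set (ℕ → ι)}
    (hA : MeasurableSet A) : P.real (pre n ⁻¹' {u} ∩ A) = pw p u * P.real (Crest.Agent.R98.FD.app u ⁻¹' A) := by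
  classical
  rw [hP.words n ((measurable_pre n (measurableSet_singleton u)).inter hA)]
  rw [Finset.sum_eq_single u]
  · congr 2
    ext w
    simp [pre_app]
  · intro v _ hv
    have : Crest.Agent.R98.FD.app v ⁻¹' (pre n ⁻¹' {u} ∩ A) = ∅ := by
      ext w
      simp only [Set.mem_preimage, Set.mem_inter_iff, Set.mem_singleton_iff, pre_app,
        Set.mem_empty_iff_false, iff_false, not_and]
      intro h; exact absurd h hv
    rw [this]; simp
  · intro h; exact absurd (Finset.mem_univ _) h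

variable [IsProbabilityMeasure P]

theorem WM.real_pre (hP : WM p P) {n : ℕ} (u : Fin n → ι) : P.real (pre n ⁻¹' {u}) = pw p u := by
  have := hP.real_pre_inter u MeasurableSet.univ
  simpa using this

theorem WM.HP_pre (hP : WM p P) (n : ℕ) :
    HP P (pre n : (ℕ → ι) → (Fin n → ι)) = ∑ u : Fin n → ι, negMulLog (pw p u) := by
  rw [HP_eq P Finset.univ fun _ => Finset.mem_univ _]
  exact Finset.sum_congr rfl fun u _ => by rw [hP.real_pre u]

/-- chain rule with respect to the first letters -/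
theorem WM.HP_pre_pair (hP : WM p P) (n : ℕ) {f : (ℕ → ι) → γ} (hf : FV f) :
    HP P (pr (pre n) f) = HP P (pre n : (ℕ → ι) → (Fin n → ι))
      + ∑ u : Fin n → ι, pw p u * HP P (fun w => f (Crest.Agent.R98.FD.app u w)) := by
  obtain ⟨s, hs⟩ := hf.exists_finset
  rw [HP_pair_eq P Finset.univ s (fun _ => Finset.mem_univ _) hs, hP.HP_pre n,
    ← Finset.sum_add_distrib]
  refine Finset.sum_congr rfl fun u _ => ?_
  rw [HP_eq P s (f := fun w => f (Crest.Agent.R98.FD.app u w)) (fun w => hs _)]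
  have h1 := sum_real_univ P (hf.app u) s fun w => hs _
  calc ∑ b ∈ s, negMulLog (P.real (pre n ⁻¹' {u} ∩ f ⁻¹' {b}))
      = ∑ b ∈ s, (negMulLog (pw p u) *
          P.real ((fun w => f (Crest.Agent.R98.FD.app u w)) ⁻¹' {b})
          + pw p u * negMulLog (P.real ((fun w => f (Crest.Agent.R98.FD.app u w)) ⁻¹' {b}))) := by
        refine Finset.sum_congr rfl fun b _ => ?_
        rw [hP.real_pre_inter u (hf.meas b), negMulLog_mul]
        have : Crest.Agent.R98.FD.app u ⁻¹' (f ⁻¹' {b}) = (fun w => f (Crest.Agent.R98.FD.app u w)) ⁻¹' {b} := rfl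
        rw [this]
        ring
    _ = _ := by
        rw [Finset.sum_add_distrib, ← Finset.mul_sum, ← Finset.mul_sum, h1, mul_one]

/-- mutual information of the first letters with `f` -/
noncomputable def MI (P : Measure (ℕ → ι)) (n : ℕ) (f : (ℕ → ι) → γ) : ℝ :=
  HP P (pre n : (ℕ → ι) → (Fin n → ι)) + HP P f - HP P (pr (pre n) f)

theorem WM.HP_eq_MI (hP : WM p P) (n : ℕ) {f : (ℕ → ι) → γ} (hf : FV f) :
    HP P f = MI P n f + ∑ u : Fin n → ι, pw p u * HP P (fun w => f (Crest.Agent.R98.FD.app u w)) := by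
  rw [MI, hP.HP_pre_pair n hf]; ring



/-- if `g` is determined by `f` up to entropy `c`, then `MI n g ≤ MI n f + c` -/
theorem MI_le_of_pair (n : ℕ) {f : (ℕ → ι) → γ} {g : (ℕ → ι) → δ} (hf : FV f) (hg : FV g)
    {c : ℝ} (h : HP P (pr g f) ≤ HP P f + c) : MI P n g ≤ MI P n f + c := by
  have h1 := HP_submod P (FV_pre (ι := ι) n) hf hg
  -- HP (g, (pre, f)) + HP g ≤ HP (g, pre) + HP (g, f)
  have h2 : HP P (pr (pre n) f) ≤ HP P (pr g (pr (pre n) f)) :=
    HP_le_pair_right P hg ((FV_pre n).pair hf)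
  have h3 : HP P (pr g (pre n)) = HP P (pr (pre n) g) := HP_comm P hg (FV_pre n)
  rw [MI, MI]
  linarith

end Words

end Crest.Agent.R98.FD
private theorem rz_668cd17067 : type_of% @_root_.Crest.Agent.R98.FD.app.eq_def := @_root_.Crest.Agent.R98.FD.app.eq_def -- L151
private theorem rz_490393657a : type_of% @_root_.Crest.Agent.R98.FD.app.eq_1 := @_root_.Crest.Agent.R98.FD.app.eq_1 -- L151
end

-- ▼ part R98/FDProc
section

/-!
# Row 98: flows, self-similar processes, the renewal inequality (helper896, module FD)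
-/

set_option autoImplicit false
set_option linter.unusedSectionVars false
set_option linter.unusedVariables false

namespace Crest.Agent.R98.FD

open MeasureTheory Real
open Crest.Agent.R098.Upper (pw sw pw_nonneg sum_succ pw_cons sw_cons sum_pw)

/-- a linear flow, close to `exp (-x)` -/
structure Flow (κ : Type*) [Fintype κ] where
  A : ℝ → (κ → ℝ) →ₗ[ℝ] (κ → ℝ)
  zero : ∀ v, A 0 v = v
  add : ∀ x y v, A (x + y) v = A x (A y v)
  C : ℝ
  d : ℝ
  hC : 1 ≤ C
  hd0 : 0 ≤ d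
  hd : d ≤ 1 / 2
  bd : ∀ x, 0 ≤ x → ∀ v, ‖A x v‖ ≤ C * exp (-((1 - d) * x)) * ‖v‖
  bd' : ∀ x, 0 ≤ x → ∀ v, ‖A (-x) v‖ ≤ C * exp ((1 + d) * x) * ‖v‖

namespace Flow

variable {κ : Type*} [Fintype κ] (F : Flow κ)

theorem hC0 : 0 < F.C := lt_of_lt_of_le one_pos F.hC

theorem cancel (x : ℝ) (v : κ → ℝ) : F.A x (F.A (-x) v) = v := by
  rw [← F.add, add_neg_cancel, F.zero]

theorem cancel' (x : ℝ) (v : κ → ℝ) : F.A (-x) (F.A x v) = v := by
  rw [← F.add, neg_add_cancel, F.zero]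

theorem bd1 {x : ℝ} (hx : 0 ≤ x) (v : κ → ℝ) : ‖F.A x v‖ ≤ F.C * ‖v‖ := by
  refine (F.bd x hx v).trans ?_
  have h : exp (-((1 - F.d) * x)) ≤ 1 := by
    rw [exp_le_one_iff]
    have : 0 ≤ (1 - F.d) * x := mul_nonneg (by linarith [F.hd]) hx
    linarith
  calc F.C * exp (-((1 - F.d) * x)) * ‖v‖ ≤ F.C * 1 * ‖v‖ := by
        gcongr
        exact F.hC0.le
    _ = _ := by ring

theorem bd2 {x : ℝ} (hx : 0 ≤ x) (v : κ → ℝ) : ‖F.A (-x) v‖ ≤ F.C * exp (2 * x) * ‖v‖ := by
  refine (F.bd' x hx v).trans ?_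
  have h : exp ((1 + F.d) * x) ≤ exp (2 * x) := by
    rw [exp_le_exp]
    nlinarith [F.hd]
  gcongr
  exact F.hC0.le

theorem bd3 (x : ℝ) (v : κ → ℝ) : ‖F.A (-x) v‖ ≤ F.C * exp (2 * max x 0) * ‖v‖ := by
  rcases le_total 0 x with hx | hx
  · rw [max_eq_left hx]; exact F.bd2 hx v
  · rw [max_eq_right hx, mul_zero, exp_zero, mul_one]
    exact F.bd1 (by linarith) v

theorem measurable (x : ℝ) : Measurable (F.A x) :=
  ((F.A x).continuous_of_finiteDimensional).measurable

end Flow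

/-- a self-similar process -/
structure Proc {ι : Type*} [MeasurableSpace ι] (l sg : ι → ℝ) (κ : Type*) [Fintype κ] where
  F : Flow κ
  b : ι → κ → ℝ
  Φ : (ℕ → ι) → κ → ℝ
  B : ℝ
  meas : Measurable Φ
  hB : ∀ w, ‖Φ w‖ ≤ B
  rec' : ∀ i w, Φ (cs i w) = sg i • F.A (l i) (Φ w) + b i

namespace Proc

variable {ι : Type*} [Fintype ι] [MeasurableSpace ι] [MeasurableSingletonClass ι]
  {l sg : ι → ℝ} {κ : Type*} [Fintype κ] (X : Proc l sg κ)

/-- finite words -/
def fin (X : Proc l sg κ) : {n : ℕ} → (Fin n → ι) → κ → ℝ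
  | 0, _ => 0
  | _ + 1, u => sg (u 0) • X.F.A (l (u 0)) (X.fin (Fin.tail u)) + X.b (u 0)

theorem Φ_app {n : ℕ} (u : Fin n → ι) (w : ℕ → ι) :
    X.Φ (app u w) = X.fin u + pw sg u • X.F.A (sw l u) (X.Φ w) := by
  induction n with
  | zero => simp [app, fin, pw, sw, X.F.zero]
  | succ n ih =>
    have hcons : u = (Fin.cons (u 0) (Fin.tail u) : Fin (n + 1) → ι) :=
      (Fin.cons_self_tail u).symm
    have e1 : pw sg u = sg (u 0) * pw sg (Fin.tail u) := by
      conv_lhs => rw [hcons]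
      rw [pw_cons]
    have e2 : sw l u = l (u 0) + sw l (Fin.tail u) := by
      conv_lhs => rw [hcons]
      rw [sw_cons]
    have e3 : app u w = cs (u 0) (app (Fin.tail u) w) := rfl
    have e4 : X.fin u = sg (u 0) • X.F.A (l (u 0)) (X.fin (Fin.tail u)) + X.b (u 0) := rfl
    rw [e3, X.rec', ih, e1, e2, e4, X.F.add, map_add, map_smul, smul_add, smul_smul]
    abel

/-- scaled process -/
noncomputable def sc (x : ℝ) (w : ℕ → ι) : κ → ℝ := X.F.A (-x) (X.Φ w)

/-- cells -/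
noncomputable def cell (x : ℝ) : (ℕ → ι) → κ → ℤ := fl (X.sc x)

theorem B_nonneg [Nonempty ι] : 0 ≤ X.B := by
  obtain ⟨i⟩ := ‹Nonempty ι›
  exact (norm_nonneg _).trans (X.hB fun _ => i)

theorem meas_sc (x : ℝ) : Measurable (X.sc x) := (X.F.measurable (-x)).comp X.meas

theorem norm_sc_le (x : ℝ) (w : ℕ → ι) : ‖X.sc x w‖ ≤ X.F.C * exp (2 * max x 0) * X.B := by
  refine (X.F.bd3 x _).trans ?_
  have := X.hB w
  have := X.F.hC0
  gcongr

theorem FV_cell (x : ℝ) : FV (X.cell x) := FV_fl (X.meas_sc x) (X.norm_sc_le x)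

variable {p : ι → ℝ} {P : Measure (ℕ → ι)} [IsProbabilityMeasure P]

/-- entropy of the cell at level `x` -/
noncomputable def h (P : Measure (ℕ → ι)) (x : ℝ) : ℝ := HP P (X.cell x)

theorem h_nonneg (x : ℝ) : 0 ≤ X.h P x := HP_nonneg P _

theorem h_le [Nonempty ι] (x : ℝ) :
    X.h P x ≤ Fintype.card κ * (log (4 * (X.F.C * X.B) + 3) + 2 * max x 0) := by
  have hCB : 0 ≤ X.F.C * X.B := mul_nonneg X.F.hC0.le X.B_nonneg
  refine (HP_fl_le_log P (X.FV_cell x) (R := X.F.C * exp (2 * max x 0) * X.B) ?_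
    (X.norm_sc_le x)).trans ?_
  · have := X.F.hC0; have := X.B_nonneg; positivity
  · refine mul_le_mul_of_nonneg_left ?_ (Nat.cast_nonneg _)
    have h1 : 1 ≤ exp (2 * max x 0) := one_le_exp (by positivity)
    have h2 : 4 * (X.F.C * exp (2 * max x 0) * X.B) + 3
        ≤ (4 * (X.F.C * X.B) + 3) * exp (2 * max x 0) := by nlinarith
    have h3 : 0 < 4 * (X.F.C * exp (2 * max x 0) * X.B) + 3 := by
      have := X.F.hC0; have := X.B_nonneg; positivity
    refine (log_le_log h3 h2).trans_eq ?_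
    rw [log_mul (by positivity) (exp_pos _).ne', log_exp]

/-- **monotonicity**: the cell at level `y` is almost determined by the cell at level `x ≥ y` -/
theorem mono {x y : ℝ} (hxy : y ≤ x) :
    HP P (pr (X.cell y) (X.cell x)) ≤ X.h P x + Fintype.card κ * log (2 * X.F.C + 3) := by
  refine HP_fl_pair_le P (X.FV_cell y) (X.FV_cell x) X.F.hC0.le fun w w' hw => ?_
  have h1 : ‖X.sc x w - X.sc x w'‖ ≤ 1 := fl_eq_dist hw
  have h2 : ∀ w, X.sc y w = X.F.A (x - y) (X.sc x w) := by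
    intro w
    unfold sc
    rw [← X.F.add]; congr 2; ring
  rw [h2, h2, ← map_sub]
  refine (X.F.bd1 (by linarith) _).trans ?_
  have := X.F.hC0
  nlinarith


/-- the information about the first letters is almost monotone -/
theorem MI_mono (n : ℕ) {x y : ℝ} (hxy : y ≤ x) :
    MI P n (X.cell y) ≤ MI P n (X.cell x) + Fintype.card κ * log (2 * X.F.C + 3) :=
  MI_le_of_pair n (X.FV_cell x) (X.FV_cell y) (X.mono hxy)

theorem abs_pw (hsg : ∀ i, |sg i| = 1) {n : ℕ} (u : Fin n → ι) : |pw sg u| = 1 := by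
  rw [pw, Finset.abs_prod]
  exact Finset.prod_eq_one fun j _ => hsg _

/-- **renewal inequality** -/
theorem core (hP : WM p P) (hsg : ∀ i, |sg i| = 1) (hp : ∀ i, 0 ≤ p i) (hp1 : ∑ i, p i = 1)
    (n : ℕ) (x : ℝ) :
    |X.h P x - (MI P n (X.cell x) + ∑ u : Fin n → ι, pw p u * X.h P (x - sw l u))|
      ≤ Fintype.card κ * log 5 := by
  have hlog : (Fintype.card κ : ℝ) * log 5 = Fintype.card κ * log (2 * 1 + 3) := by norm_num
  have key : ∀ u : Fin n → ι, |HP P (fun w => X.cell x (app u w)) - X.h P (x - sw l u)|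
      ≤ Fintype.card κ * log 5 := by
    intro u
    have hY : FV (fl fun w => X.sc x (app u w)) := (X.FV_cell x).app u
    have hd : ∀ w w', ‖X.sc x (app u w) - X.sc x (app u w')‖
        = ‖X.sc (x - sw l u) w - X.sc (x - sw l u) w'‖ := by
      intro w w'
      have e : X.sc x (app u w) - X.sc x (app u w')
          = pw sg u • (X.sc (x - sw l u) w - X.sc (x - sw l u) w') := by
        unfold sc
        rw [← map_sub, X.Φ_app, X.Φ_app, add_sub_add_left_eq_sub, ← smul_sub, ← map_sub,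
          map_smul, ← X.F.add, ← map_sub]
        congr 3; ring
      rw [e, norm_smul, Real.norm_eq_abs, abs_pw hsg, one_mul]
    have e1 : (fun w => X.cell x (app u w)) = fl fun w => X.sc x (app u w) := rfl
    rw [e1, hlog, abs_le]
    constructor
    · have := HP_fl_le P (X.FV_cell (x - sw l u)) hY zero_le_one fun w w' hw => by
        rw [← hd]; exact fl_eq_dist hw
      have e2 : X.h P (x - sw l u) = HP P (fl (X.sc (x - sw l u))) := rfl
      rw [e2]; linarith
    · have := HP_fl_le P hY (X.FV_cell (x - sw l u)) zero_le_one fun w w' hw => by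
        show ‖X.sc x (app u w) - X.sc x (app u w')‖ ≤ 1
        rw [hd]; exact fl_eq_dist hw
      have e2 : X.h P (x - sw l u) = HP P (X.cell (x - sw l u)) := rfl
      rw [e2]; linarith
  have e := hP.HP_eq_MI n (X.FV_cell x)
  have e3 : X.h P x = HP P (X.cell x) := rfl
  rw [e3, e, add_sub_add_left_eq_sub, ← Finset.sum_sub_distrib]
  refine (Finset.abs_sum_le_sum_abs _ _).trans ?_
  calc ∑ u : Fin n → ι, |pw p u * HP P (fun w => X.cell x (app u w))
        - pw p u * X.h P (x - sw l u)|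
      ≤ ∑ u : Fin n → ι, pw p u * (Fintype.card κ * log 5) := by
        refine Finset.sum_le_sum fun u _ => ?_
        rw [← mul_sub, abs_mul, abs_of_nonneg (pw_nonneg hp u)]
        exact mul_le_mul_of_nonneg_left (key u) (pw_nonneg hp u)
    _ = _ := by rw [← Finset.sum_mul, sum_pw hp1, one_mul]

end Proc

end Crest.Agent.R98.FD
private theorem rz_9eb450d0da : type_of% @_root_.Crest.Agent.R98.FD.Proc.fin.eq_def := @_root_.Crest.Agent.R98.FD.Proc.fin.eq_def -- L87
private theorem rz_a4299bfbf9 : type_of% @_root_.Crest.Agent.R98.FD.Proc.fin.eq_1 := @_root_.Crest.Agent.R98.FD.Proc.fin.eq_1 -- L87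
end

-- ▼ part R98/FDLim
section

/-!
# Row 98: renewal principle and the uniform lower bound (helper896, module FD)
-/

set_option autoImplicit false
set_option linter.unusedSectionVars false
set_option linter.unusedVariables false

namespace Crest.Agent.R98.FD

open MeasureTheory Real
open Crest.Agent.R098.Upper (pw sw pw_nonneg sum_succ pw_cons sw_cons sum_pw chebyshev)

/-! ### renewal principle -/

section Renewal

variable {U : Type*} [Fintype U]

theorem renewal_lower (q L : U → ℝ) (hq0 : ∀ u, 0 ≤ q u) (hq1 : ∑ u, q u = 1) {a M : ℝ}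
    (ha : 0 < a) (hL : ∀ u, a ≤ L u) (hM : ∀ u, L u ≤ M) (h : ℝ → ℝ) {s x0 B : ℝ}
    (hb : ∀ x, x0 - M ≤ x → x ≤ x0 → -B ≤ h x - s * x)
    (hrec : ∀ x, x0 ≤ x → s * ∑ u, q u * L u + ∑ u, q u * h (x - L u) ≤ h x) :
    ∀ x, x0 - M ≤ x → -B ≤ h x - s * x := by
  have key : ∀ n : ℕ, ∀ x, x0 - M ≤ x → x ≤ x0 + n * a → -B ≤ h x - s * x := by
    intro n
    induction n with
    | zero =>
      intro x h1 h2
      exact hb x h1 (by simpa using h2)
    | succ n ih =>
      intro x h1 h2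
      rcases le_or_gt x (x0 + n * a) with h3 | h3
      · exact ih x h1 h3
      · have hx0 : x0 ≤ x := by
          have : 0 ≤ (n : ℝ) * a := by positivity
          linarith
        have hg := hrec x hx0
        have e : ∑ u, q u * (h (x - L u) - s * (x - L u))
            = s * ∑ u, q u * L u + ∑ u, q u * h (x - L u) - s * x := by
          have : ∀ u, q u * (h (x - L u) - s * (x - L u))
              = s * (q u * L u) + q u * h (x - L u) - q u * (s * x) := fun u => by ring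
          rw [Finset.sum_congr rfl fun u _ => this u, Finset.sum_sub_distrib,
            Finset.sum_add_distrib, ← Finset.mul_sum, ← Finset.sum_mul, hq1, one_mul]
        have h4 : -B ≤ ∑ u, q u * (h (x - L u) - s * (x - L u)) := by
          have : ∑ u, q u * (-B) ≤ ∑ u, q u * (h (x - L u) - s * (x - L u)) := by
            refine Finset.sum_le_sum fun u _ => mul_le_mul_of_nonneg_left ?_ (hq0 u)
            refine ih _ (by linarith [hM u]) ?_
            have := hL u
            push_cast at h2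
            linarith
          rwa [← Finset.sum_mul, hq1, one_mul] at this
        linarith
  intro x hx
  obtain ⟨n, hn⟩ := exists_nat_ge ((x - x0) / a)
  refine key n x hx ?_
  rw [div_le_iff₀ ha] at hn
  linarith

theorem renewal_upper (q L : U → ℝ) (hq0 : ∀ u, 0 ≤ q u) (hq1 : ∑ u, q u = 1) {a M : ℝ}
    (ha : 0 < a) (hL : ∀ u, a ≤ L u) (hM : ∀ u, L u ≤ M) (h : ℝ → ℝ) {s x0 B : ℝ}
    (hb : ∀ x, x0 - M ≤ x → x ≤ x0 → h x - s * x ≤ B)
    (hrec : ∀ x, x0 ≤ x → h x ≤ s * ∑ u, q u * L u + ∑ u, q u * h (x - L u)) :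
    ∀ x, x0 - M ≤ x → h x - s * x ≤ B := by
  intro x hx
  have := renewal_lower q L hq0 hq1 ha hL hM (fun x => -h x) (s := -s) (x0 := x0) (B := B)
    (fun x h1 h2 => by linarith [hb x h1 h2]) (fun x h1 => by
      have h2 := hrec x h1
      have e : ∑ u, q u * -h (x - L u) = - ∑ u, q u * h (x - L u) := by
        rw [← Finset.sum_neg_distrib]; exact Finset.sum_congr rfl fun u _ => by ring
      rw [e]; linarith) x hx
  linarith

end Renewal

section Expect

variable {ι : Type*} [Fintype ι] {p l : ι → ℝ}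

theorem sum_pw_sw' (hp1 : ∑ i, p i = 1) (n : ℕ) :
    ∑ u : Fin n → ι, pw p u * sw l u = n * ∑ i, p i * l i := by
  induction n with
  | zero => simp [sw]
  | succ n ih =>
    rw [sum_succ]
    have : ∀ a : ι, ∑ w : Fin n → ι, pw p (Fin.cons a w : Fin (n+1) → ι) *
        sw l (Fin.cons a w : Fin (n+1) → ι) = p a * l a + p a * (n * ∑ i, p i * l i) := by
      intro a
      simp_rw [pw_cons, sw_cons]
      have h1 : ∀ w : Fin n → ι, p a * pw p w * (l a + sw l w)
          = p a * l a * pw p w + p a * (pw p w * sw l w) := by intro w; ring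
      simp_rw [h1, Finset.sum_add_distrib, ← Finset.mul_sum, ih, sum_pw hp1]
      ring
    simp_rw [this, Finset.sum_add_distrib, ← Finset.sum_mul, hp1]
    push_cast; ring

theorem exists_bounds [Nonempty ι] (hl : ∀ i, 0 < l i) :
    ∃ a M : ℝ, 0 < a ∧ (∀ i, a ≤ l i) ∧ (∀ i, l i ≤ M) := by
  obtain ⟨i, hi⟩ := Finite.exists_min l
  obtain ⟨j, hj⟩ := Finite.exists_max l
  exact ⟨l i, l j, hl i, hi, hj⟩

theorem le_sw {a : ℝ} (ha : ∀ i, a ≤ l i) {n : ℕ} (u : Fin n → ι) : n * a ≤ sw l u := by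
  have := Finset.sum_le_sum (s := (Finset.univ : Finset (Fin n))) (f := fun _ => a)
    (g := fun j => l (u j)) fun j _ => ha _
  simpa [sw] using this

theorem sw_le {M : ℝ} (hM : ∀ i, l i ≤ M) {n : ℕ} (u : Fin n → ι) : sw l u ≤ n * M := by
  have := Finset.sum_le_sum (s := (Finset.univ : Finset (Fin n))) (f := fun j => l (u j))
    (g := fun _ => M) fun j _ => hM _
  simpa [sw] using this

end Expect

namespace Proc

variable {ι : Type*} [Fintype ι] [Nonempty ι] [MeasurableSpace ι] [MeasurableSingletonClass ι]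
  {l sg : ι → ℝ} {κ : Type*} [Fintype κ]
  {p : ι → ℝ} {P : Measure (ℕ → ι)} [IsProbabilityMeasure P]

/-- linear lower bound from the information at one level -/
theorem h_lower (hP : WM p P) (hsg : ∀ i, |sg i| = 1) (hp : ∀ i, 0 ≤ p i) (hp1 : ∑ i, p i = 1)
    {a M : ℝ} (ha : 0 < a) (hal : ∀ i, a ≤ l i) (hM : ∀ i, l i ≤ M)
    (X : Proc l sg κ) {n : ℕ} (hn : 0 < n) {x0 s : ℝ} (hx0 : 0 ≤ x0)
    (hs : s * (n * ∑ i, p i * l i) ≤ MI P n (X.cell x0) - Fintype.card κ * log (2 * X.F.C + 3)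
      - Fintype.card κ * log 5) (x : ℝ) (hx : 0 ≤ x) :
    s * x - |s| * (x0 + n * M) ≤ X.h P x := by
  have hMpos : 0 < M := by
    obtain ⟨i⟩ := ‹Nonempty ι›
    exact lt_of_lt_of_le ha ((hal i).trans (hM i))
  have hnM : 0 ≤ (n : ℝ) * M := by positivity
  have key := renewal_lower (fun u : Fin n → ι => pw p u) (fun u => sw l u)
    (fun u => pw_nonneg hp u) (sum_pw hp1 n) (a := n * a) (M := n * M) (by positivity)
    (fun u => le_sw hal u) (fun u => sw_le hM u) (fun x => X.h P x) (s := s) (x0 := x0)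
    (B := |s| * (x0 + n * M)) ?_ ?_
  · rcases le_total x (x0 - n * M) with h1 | h1
    · have h2 := X.h_nonneg (P := P) x
      have h3 : s * x ≤ |s| * x := mul_le_mul_of_nonneg_right (le_abs_self s) hx
      have h4 : |s| * x ≤ |s| * (x0 + n * M) :=
        mul_le_mul_of_nonneg_left (by linarith) (abs_nonneg s)
      linarith
    · have := key x h1
      linarith
  · intro x h1 h2
    have h3 := X.h_nonneg (P := P) x
    have h4 : s * x ≤ |s| * (x0 + n * M) := by
      refine (le_abs_self _).trans ?_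
      rw [abs_mul]
      refine mul_le_mul_of_nonneg_left ?_ (abs_nonneg s)
      rw [abs_le]
      constructor <;> linarith
    linarith
  · intro x h1
    have h2 := X.MI_mono (P := P) n h1
    have h3 := (abs_le.1 (X.core hP hsg hp hp1 n x)).1
    rw [sum_pw_sw' hp1 n]
    linarith

/-- **uniform lower bound near a process** -/
theorem h_lower_unif (hP : WM p P) (hsg : ∀ i, |sg i| = 1) (hl : ∀ i, 0 < l i)
    (hp : ∀ i, 0 ≤ p i) (hp1 : ∑ i, p i = 1) (X : Proc l sg κ) {α c0 : ℝ}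
    (hα : ∀ n : ℕ, ∃ x0, 0 ≤ x0 ∧ n * α - c0 ≤ MI P n (X.cell x0))
    {ε : ℝ} (hε : 0 < ε) (C : ℝ) :
    ∃ x0 D : ℝ, ∀ Y : Proc l sg κ, Y.F.C ≤ C → (∀ w, ‖Y.sc x0 w - X.sc x0 w‖ ≤ 1) →
      ∀ x, 0 ≤ x → (α - ε) / (∑ i, p i * l i) * x - D ≤ Y.h P x := by
  obtain ⟨a, M, ha, hal, hM⟩ := exists_bounds hl
  have hχ : 0 < ∑ i, p i * l i := by
    have h1 : ∑ i, p i * a ≤ ∑ i, p i * l i :=
      Finset.sum_le_sum fun i _ => mul_le_mul_of_nonneg_left (hal i) (hp i)
    rw [← Finset.sum_mul, hp1, one_mul] at h1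
    linarith
  set c : ℝ := c0 + Fintype.card κ * log 9 + Fintype.card κ * log (2 * max C 1 + 3)
    + Fintype.card κ * log 5 with hc
  obtain ⟨n, hn⟩ := exists_nat_gt (max (c / ε) 0)
  have hn0 : 0 < (n : ℝ) := lt_of_le_of_lt (le_max_right _ _) hn
  have hn1 : c < n * ε := by
    have := lt_of_le_of_lt (le_max_left _ _) hn
    rwa [div_lt_iff₀ hε] at this
  obtain ⟨x0, hx0, hMI⟩ := hα n
  refine ⟨x0, |(α - ε) / (∑ i, p i * l i)| * (x0 + n * M), fun Y hY hclose x hx => ?_⟩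
  refine Y.h_lower hP hsg hp hp1 ha hal hM (by exact_mod_cast hn0) hx0 ?_ x hx
  have h1 : MI P n (X.cell x0) ≤ MI P n (Y.cell x0) + Fintype.card κ * log 9 := by
    refine MI_le_of_pair n (Y.FV_cell x0) (X.FV_cell x0) ?_
    have h2 := HP_fl_pair_le P (X.FV_cell x0) (Y.FV_cell x0) (R := 3) (by norm_num)
      (fun w w' hw => by
        have h3 : ‖Y.sc x0 w - Y.sc x0 w'‖ ≤ 1 := fl_eq_dist hw
        have h4 := hclose w
        have h5 := hclose w'
        have e : X.sc x0 w - X.sc x0 w' = (Y.sc x0 w - Y.sc x0 w') - (Y.sc x0 w - X.sc x0 w)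
            + (Y.sc x0 w' - X.sc x0 w') := by abel
        rw [e]
        refine (norm_add_le _ _).trans ?_
        have := norm_sub_le (Y.sc x0 w - Y.sc x0 w') (Y.sc x0 w - X.sc x0 w)
        linarith)
    have e9 : (2 * 3 + 3 : ℝ) = 9 := by norm_num
    rw [e9] at h2
    exact h2
  have h6 : log (2 * Y.F.C + 3) ≤ log (2 * max C 1 + 3) := by
    refine log_le_log (by linarith [Y.F.hC0]) ?_
    have := le_max_left C 1
    linarith
  have h7 : (Fintype.card κ : ℝ) * log (2 * Y.F.C + 3)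
      ≤ Fintype.card κ * log (2 * max C 1 + 3) :=
    mul_le_mul_of_nonneg_left h6 (Nat.cast_nonneg _)
  have e : (α - ε) / (∑ i, p i * l i) * (n * ∑ i, p i * l i) = n * (α - ε) := by
    field_simp
  rw [e]
  have : (n : ℝ) * (α - ε) = n * α - n * ε := by ring
  rw [this]
  linarith

/-- linear upper bound from the information bound -/
theorem h_upper (hP : WM p P) (hsg : ∀ i, |sg i| = 1) (hl : ∀ i, 0 < l i)
    (hp : ∀ i, 0 ≤ p i) (hp1 : ∑ i, p i = 1) (X : Proc l sg κ) {α : ℝ}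
    (hα : ∀ n : ℕ, ∀ x, MI P n (X.cell x) ≤ n * α) {ε : ℝ} (hε : 0 < ε) :
    ∃ D : ℝ, ∀ x, 0 ≤ x → X.h P x ≤ (α + ε) / (∑ i, p i * l i) * x + D := by
  obtain ⟨a, M, ha, hal, hM⟩ := exists_bounds hl
  have hMpos : 0 < M := by
    obtain ⟨i⟩ := ‹Nonempty ι›
    exact lt_of_lt_of_le ha ((hal i).trans (hM i))
  have hχ : 0 < ∑ i, p i * l i := by
    have h1 : ∑ i, p i * a ≤ ∑ i, p i * l i :=
      Finset.sum_le_sum fun i _ => mul_le_mul_of_nonneg_left (hal i) (hp i)
    rw [← Finset.sum_mul, hp1, one_mul] at h1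
    linarith
  obtain ⟨n, hn⟩ := exists_nat_gt (max (Fintype.card κ * log 5 / ε) 0)
  have hn0 : 0 < (n : ℝ) := lt_of_le_of_lt (le_max_right _ _) hn
  have hn1 : Fintype.card κ * log 5 < n * ε := by
    have := lt_of_le_of_lt (le_max_left _ _) hn
    rwa [div_lt_iff₀ hε] at this
  set s : ℝ := (α + ε) / (∑ i, p i * l i) with hs
  refine ⟨Fintype.card κ * (log (4 * (X.F.C * X.B) + 3)) + |s| * (n * M), fun x hx => ?_⟩
  have key := renewal_upper (fun u : Fin n → ι => pw p u) (fun u => sw l u)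
    (fun u => pw_nonneg hp u) (sum_pw hp1 n) (a := n * a) (M := n * M) (by positivity)
    (fun u => le_sw hal u) (fun u => sw_le hM u) (fun x => X.h P x) (s := s) (x0 := 0)
    (B := Fintype.card κ * (log (4 * (X.F.C * X.B) + 3)) + |s| * (n * M)) ?_ ?_ x
    (by have : 0 ≤ (n:ℝ) * M := by positivity
        linarith)
  · linarith
  · intro y h1 h2
    have h3 := X.h_le (P := P) y
    rw [max_eq_right h2, mul_zero, add_zero] at h3
    have h4 : -(s * y) ≤ |s| * (n * M) := by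
      refine (neg_le_abs _).trans ?_
      rw [abs_mul]
      refine mul_le_mul_of_nonneg_left ?_ (abs_nonneg s)
      have : 0 ≤ (n:ℝ) * M := by positivity
      rw [abs_le]
      constructor <;> linarith
    linarith
  · intro y h1
    have h2 := hα n y
    have h3 := (abs_le.1 (X.core hP hsg hp hp1 n y)).2
    rw [sum_pw_sw' hp1 n]
    have e : s * (n * ∑ i, p i * l i) = n * (α + ε) := by rw [hs]; field_simp
    rw [e]
    have : (n : ℝ) * (α + ε) = n * α + n * ε := by ring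
    rw [this]
    linarith

/-! ### finite words -/

/-- cells of finite words, as a function on infinite words -/
noncomputable def fcell (X : Proc l sg κ) (n : ℕ) (x : ℝ) : (ℕ → ι) → κ → ℤ :=
  fl fun w => X.F.A (-x) (X.fin (pre n w))

theorem FV_fcell (X : Proc l sg κ) (n : ℕ) (x : ℝ) : FV (X.fcell n x) :=
  (FV_pre (ι := ι) n).comp fun u => fun k => ⌊X.F.A (-x) (X.fin u) k⌋

theorem sc_sub_fin (hsg : ∀ i, |sg i| = 1) (X : Proc l sg κ) {n : ℕ} {x : ℝ} {w : ℕ → ι}
    (hx : x ≤ sw l (pre n w)) :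
    ‖X.sc x w - X.F.A (-x) (X.fin (pre n w))‖ ≤ X.F.C * X.B := by
  have h1 : X.Φ w = X.fin (pre n w) + pw sg (pre n w) • X.F.A (sw l (pre n w)) (X.Φ (sh^[n] w)) := by
    conv_lhs => rw [← app_pre n w]
    rw [X.Φ_app]
  have h2 : X.sc x w - X.F.A (-x) (X.fin (pre n w))
      = pw sg (pre n w) • X.F.A (sw l (pre n w) - x) (X.Φ (sh^[n] w)) := by
    unfold sc
    rw [← map_sub, h1, add_sub_cancel_left, map_smul, ← X.F.add]
    congr 3; ring
  rw [h2, norm_smul, Real.norm_eq_abs, abs_pw hsg, one_mul]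
  refine (X.F.bd1 (by linarith) _).trans ?_
  exact mul_le_mul_of_nonneg_left (X.hB _) X.F.hC0.le

end Proc

/-- comparison lemma with variable radius -/
theorem HP_fl_pair_le_var {Ω : Type*} [MeasurableSpace Ω] {κ : Type*} [Fintype κ] {δ : Type*}
    (P : Measure Ω) [IsProbabilityMeasure P] {Y : Ω → κ → ℝ} {g : Ω → δ} (hY : FV (fl Y))
    (hg : FV g) (t : Finset δ) (ht : ∀ ω, g ω ∈ t) {R : δ → ℝ}
    (hR : ∀ b, 0 ≤ R b) (h : ∀ ω ω', g ω = g ω' → ‖Y ω - Y ω'‖ ≤ R (g ω)) :
    HP P (pr (fl Y) g) ≤ HP P g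
      + ∑ b ∈ t, P.real (g ⁻¹' {b}) * (Fintype.card κ * log (2 * R b + 3)) := by
  have e : ∀ b, (Fintype.card κ : ℝ) * log (2 * R b + 3)
      = log ((2 * R b + 3) ^ Fintype.card κ) := fun b => by rw [log_pow]
  simp only [e]
  refine HP_pair_le_card P hY hg t ht (fun b => (2 * R b + 3) ^ Fintype.card κ)
    (fun b _ => one_le_pow₀ (by linarith [hR b])) fun b _ => ?_
  rcases (g ⁻¹' {b}).eq_empty_or_nonempty with h0 | ⟨ω0, hω0⟩
  · rw [h0]
    simp only [Set.image_empty, Set.ncard_empty, Nat.cast_zero]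
    have := hR b
    positivity
  · have := ncard_int_box (fl Y ω0) (R := R b + 1) (by linarith [hR b]) (fl Y '' (g ⁻¹' {b})) ?_
    · refine this.trans_eq ?_
      congr 1; ring
    · rintro _ ⟨ω, hω, rfl⟩ k
      rw [Set.mem_preimage, Set.mem_singleton_iff] at hω hω0
      have h1 : g ω = g ω0 := by rw [hω, hω0]
      have h2 := (norm_le_pi_norm (Y ω - Y ω0) k).trans (h ω ω0 h1)
      rw [hω, Pi.sub_apply, Real.norm_eq_abs, abs_le] at h2
      have h3 := Int.floor_le (Y ω k)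
      have h4 := Int.lt_floor_add_one (Y ω k)
      have h5 := Int.floor_le (Y ω0 k)
      have h6 := Int.lt_floor_add_one (Y ω0 k)
      show |((⌊Y ω k⌋ - ⌊Y ω0 k⌋ : ℤ) : ℝ)| ≤ R b + 1
      push_cast
      rw [abs_le]
      constructor <;> linarith

namespace Proc

variable {ι : Type*} [Fintype ι] [Nonempty ι] [MeasurableSpace ι] [MeasurableSingletonClass ι]
  {l sg : ι → ℝ} {κ : Type*} [Fintype κ]
  {p : ι → ℝ} {P : Measure (ℕ → ι)} [IsProbabilityMeasure P]

theorem real_pre_set (hP : WM p P) {n : ℕ} (S : Finset (Fin n → ι)) :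
    P.real (pre n ⁻¹' (S : Set (Fin n → ι))) = ∑ u ∈ S, pw p u := by
  have : pre n ⁻¹' (S : Set (Fin n → ι)) = ⋃ u ∈ S, (pre n ⁻¹' {u} : Set (ℕ → ι)) := by
    ext w; simp
  rw [this, measureReal_biUnion_finset]
  · exact Finset.sum_congr rfl fun u _ => hP.real_pre u
  · intro a _ b _ hab
    refine Set.disjoint_left.2 fun w ha hb => hab ?_
    simp only [Set.mem_preimage, Set.mem_singleton_iff] at ha hb
    rw [← ha, ← hb]
  · intro u _
    exact (FV_pre (ι := ι) n).meas u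

/-- the cell of the infinite word costs at most a constant more than that of the finite word -/
theorem h_le_fcell (hP : WM p P) (hsg : ∀ i, |sg i| = 1) (X : Proc l sg κ) (n : ℕ) {x : ℝ}
    (hx : 0 ≤ x) {θ : ℝ} (hθ : ∑ u ∈ (Finset.univ.filter fun u : Fin n → ι => sw l u < x), pw p u
      ≤ θ) :
    X.h P x ≤ HP P (X.fcell n x) + log 2 + Fintype.card κ * log (4 * (X.F.C * X.B) + 5)
      + θ * (Fintype.card κ * (log (4 * (X.F.C * X.B) + 3) + 2 * x)) := by
  classical
  have hC0 := X.F.hC0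
  have hB0 := X.B_nonneg
  have hCB : 0 ≤ X.F.C * X.B := mul_nonneg hC0.le hB0
  set G : (ℕ → ι) → Bool := fun w => decide (x ≤ sw l (pre n w)) with hG
  have hFG : FV G := (FV_pre (ι := ι) n).comp fun u => decide (x ≤ sw l u)
  set g := pr (X.fcell n x) G with hg
  have hFg : FV g := (X.FV_fcell n x).pair hFG
  obtain ⟨s, hs⟩ := (X.FV_fcell n x).exists_finset
  have ht : ∀ w, g w ∈ s ×ˢ (Finset.univ : Finset Bool) := fun w =>
    Finset.mem_product.2 ⟨hs w, Finset.mem_univ _⟩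
  set R1 : ℝ := 2 * (X.F.C * X.B) + 1 with hR1
  set R2 : ℝ := 2 * (X.F.C * exp (2 * max x 0) * X.B) with hR2
  set R : (κ → ℤ) × Bool → ℝ := fun b => if b.2 = true then R1 else R2 with hR
  have hR10 : 0 ≤ R1 := by positivity
  have hR20 : 0 ≤ R2 := by positivity
  have h1 := HP_fl_pair_le_var P (Y := X.sc x) (g := g) (X.FV_cell x) hFg _ ht (R := R)
    (fun b => by simp only [hR]; split_ifs <;> assumption) (fun w w' hw => by
      have hw1 : X.fcell n x w = X.fcell n x w' := congrArg Prod.fst hw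
      have hw2 : G w = G w' := congrArg Prod.snd hw
      have e2 : (g w).2 = G w := rfl
      simp only [hR, e2]
      split_ifs with hGw
      · have hxw : x ≤ sw l (pre n w) := by simpa [hG] using hGw
        have hxw' : x ≤ sw l (pre n w') := by rw [hw2] at hGw; simpa [hG] using hGw
        have a1 := X.sc_sub_fin hsg hxw
        have a2 := X.sc_sub_fin hsg hxw'
        have a3 : ‖X.F.A (-x) (X.fin (pre n w)) - X.F.A (-x) (X.fin (pre n w'))‖ ≤ 1 :=
          fl_eq_dist hw1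
        have e : X.sc x w - X.sc x w' = (X.sc x w - X.F.A (-x) (X.fin (pre n w)))
            - (X.sc x w' - X.F.A (-x) (X.fin (pre n w')))
            + (X.F.A (-x) (X.fin (pre n w)) - X.F.A (-x) (X.fin (pre n w'))) := by abel
        rw [e]
        refine (norm_add_le _ _).trans ?_
        have := norm_sub_le (X.sc x w - X.F.A (-x) (X.fin (pre n w)))
          (X.sc x w' - X.F.A (-x) (X.fin (pre n w')))
        linarith
      · have a1 := X.norm_sc_le x w
        have a2 := X.norm_sc_le x w'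
        refine (norm_sub_le _ _).trans ?_
        linarith)
  have h2 : X.h P x ≤ HP P (pr (fl (X.sc x)) g) := HP_le_pair_left P (X.FV_cell x) hFg
  have h3 : HP P g ≤ HP P (X.fcell n x) + log 2 := by
    have h4 := HP_pair_le_add P (X.FV_fcell n x) hFG
    have h5 : HP P G ≤ log 2 := by
      have h6 := HP_pair_le_log P hFG (FV.const (Ω := ℕ → ι) ()) (M := 2) (by norm_num)
        (fun b => by
          have h7 : (G '' ((fun _ : ℕ → ι => ()) ⁻¹' {b})).ncard ≤ (Set.univ : Set Bool).ncard :=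
            Set.ncard_le_ncard (Set.subset_univ _) Set.finite_univ
          have h8 : (Set.univ : Set Bool).ncard = 2 := by
            rw [Set.ncard_univ]; simp
          rw [h8] at h7
          exact_mod_cast h7)
      rw [HP_const, zero_add] at h6
      exact (HP_le_pair_left P hFG (FV.const ())).trans h6
    linarith
  -- the sum
  have hGm : ∀ c : Bool, ∑ a ∈ s, P.real (g ⁻¹' {(a, c)}) = P.real (G ⁻¹' {c}) := by
    intro c
    rw [← sum_real P (X.FV_fcell n x) s hs (G ⁻¹' {c})]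
    refine Finset.sum_congr rfl fun a _ => ?_
    rw [hg, pr_preimage, Set.inter_comm]
  have h4 : ∑ b ∈ s ×ˢ (Finset.univ : Finset Bool),
      P.real (g ⁻¹' {b}) * (Fintype.card κ * log (2 * R b + 3))
      = P.real (G ⁻¹' {true}) * (Fintype.card κ * log (2 * R1 + 3))
        + P.real (G ⁻¹' {false}) * (Fintype.card κ * log (2 * R2 + 3)) := by
    rw [Finset.sum_product_right, Fintype.sum_bool]
    congr 1
    · rw [← hGm true, Finset.sum_mul]
      exact Finset.sum_congr rfl fun a _ => by simp [hR]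
    · rw [← hGm false, Finset.sum_mul]
      exact Finset.sum_congr rfl fun a _ => by simp [hR]
  have h5 : P.real (G ⁻¹' {true}) * (Fintype.card κ * log (2 * R1 + 3))
      ≤ Fintype.card κ * log (4 * (X.F.C * X.B) + 5) := by
    have e : 2 * R1 + 3 = 4 * (X.F.C * X.B) + 5 := by rw [hR1]; ring
    rw [e]
    have h6 : 0 ≤ (Fintype.card κ : ℝ) * log (4 * (X.F.C * X.B) + 5) :=
      mul_nonneg (Nat.cast_nonneg _) (log_nonneg (by linarith))
    calc _ ≤ 1 * ((Fintype.card κ : ℝ) * log (4 * (X.F.C * X.B) + 5)) :=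
          mul_le_mul_of_nonneg_right measureReal_le_one h6
      _ = _ := one_mul _
  have h6 : P.real (G ⁻¹' {false}) ≤ θ := by
    have e : G ⁻¹' {false} = pre n ⁻¹' ((Finset.univ.filter fun u : Fin n → ι => sw l u < x :
        Finset (Fin n → ι)) : Set (Fin n → ι)) := by
      ext w
      simp [hG]
    rw [e, real_pre_set hP]
    exact hθ
  have h7 : (Fintype.card κ : ℝ) * log (2 * R2 + 3)
      ≤ Fintype.card κ * (log (4 * (X.F.C * X.B) + 3) + 2 * x) := by
    refine mul_le_mul_of_nonneg_left ?_ (Nat.cast_nonneg _)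
    have h1 : 1 ≤ exp (2 * max x 0) := one_le_exp (by positivity)
    have h2 : 2 * R2 + 3 ≤ (4 * (X.F.C * X.B) + 3) * exp (2 * max x 0) := by
      rw [hR2]; nlinarith
    refine (log_le_log (by positivity) h2).trans_eq ?_
    rw [log_mul (by positivity) (exp_pos _).ne', log_exp, max_eq_left hx]
  have h8 : 0 ≤ (Fintype.card κ : ℝ) * log (2 * R2 + 3) :=
    mul_nonneg (Nat.cast_nonneg _) (log_nonneg (by linarith))
  have h9 : P.real (G ⁻¹' {false}) * (Fintype.card κ * log (2 * R2 + 3))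
      ≤ θ * (Fintype.card κ * (log (4 * (X.F.C * X.B) + 3) + 2 * x)) :=
    mul_le_mul h6 h7 h8 (measureReal_nonneg.trans h6)
  rw [h4] at h1
  linarith

/-- **law of large numbers form** -/
theorem h_le_fcell_lln (hP : WM p P) (hsg : ∀ i, |sg i| = 1) (hl : ∀ i, 0 < l i)
    (hp : ∀ i, 0 ≤ p i) (hp1 : ∑ i, p i = 1) {η : ℝ} (hη : 0 < η) (C B : ℝ) :
    ∃ D : ℝ, ∀ X : Proc l sg κ, X.F.C ≤ C → X.B ≤ B → ∀ n : ℕ, 0 < n → ∀ x, 0 ≤ x →
      x ≤ ((∑ i, p i * l i) - η) * n → X.h P x ≤ HP P (X.fcell n x) + D := by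
  classical
  set χ := ∑ i, p i * l i with hχ
  set V := ∑ i, p i * (l i - χ) ^ 2 with hV
  have hV0 : 0 ≤ V := Finset.sum_nonneg fun i _ => mul_nonneg (hp i) (sq_nonneg _)
  have hχ0 : 0 ≤ χ := Finset.sum_nonneg fun i _ => mul_nonneg (hp i) (hl i).le
  set K : ℝ := (Fintype.card κ : ℝ) with hK
  have hK0 : 0 ≤ K := Nat.cast_nonneg _
  set E : ℝ := max C 0 * max B 0 with hE
  have hE0 : 0 ≤ E := by positivity
  refine ⟨log 2 + K * log (4 * E + 5) + V / η ^ 2 * (K * (log (4 * E + 3) + 2 * χ)), ?_⟩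
  intro X hC hB n hn x hx hxn
  have hn' : (0:ℝ) < n := by exact_mod_cast hn
  have hn1 : (1:ℝ) ≤ n := by exact_mod_cast hn
  have hCB : X.F.C * X.B ≤ E :=
    mul_le_mul (hC.trans (le_max_left _ _)) (hB.trans (le_max_left _ _)) X.B_nonneg
      (le_max_right _ _)
  have hCB0 : 0 ≤ X.F.C * X.B := mul_nonneg X.F.hC0.le X.B_nonneg
  have hY : ∑ i, p i * (l i - χ) = 0 := by
    simp_rw [mul_sub, Finset.sum_sub_distrib, ← Finset.sum_mul, hp1]
    rw [hχ]; ring
  have hcheb := chebyshev (κ := ι) hp hp1 hY n hn hη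
  have hθ : ∑ u ∈ (Finset.univ.filter fun u : Fin n → ι => sw l u < x), pw p u
      ≤ V / (n * η ^ 2) := by
    refine le_trans (Finset.sum_le_sum_of_subset_of_nonneg ?_ fun u _ _ => pw_nonneg hp u) hcheb
    intro u hu
    rw [Finset.mem_filter] at hu ⊢
    refine ⟨Finset.mem_univ _, ?_⟩
    have e : sw (fun i => l i - χ) u = sw l u - n * χ := by
      simp [sw, Finset.sum_sub_distrib]
    rw [e]
    have h1 : sw l u - n * χ ≤ -(n * η) := by nlinarith [hu.2]
    have h2 := neg_le_abs (sw l u - n * χ)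
    linarith
  have h1 := X.h_le_fcell hP hsg n hx hθ
  have h2 : log (4 * (X.F.C * X.B) + 5) ≤ log (4 * E + 5) :=
    log_le_log (by linarith) (by linarith)
  have h3 : log (4 * (X.F.C * X.B) + 3) ≤ log (4 * E + 3) :=
    log_le_log (by linarith) (by linarith)
  have h4 : K * log (4 * (X.F.C * X.B) + 5) ≤ K * log (4 * E + 5) :=
    mul_le_mul_of_nonneg_left h2 hK0
  have h0 : 0 ≤ log (4 * E + 3) := log_nonneg (by linarith)
  have h5 : V / (n * η ^ 2) * (K * (log (4 * (X.F.C * X.B) + 3) + 2 * x))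
      ≤ V / η ^ 2 * (K * (log (4 * E + 3) + 2 * χ)) := by
    have hxχ : x ≤ χ * n := by nlinarith
    have h6 : K * (log (4 * (X.F.C * X.B) + 3) + 2 * x)
        ≤ n * (K * (log (4 * E + 3) + 2 * χ)) := by
      have h7 : log (4 * (X.F.C * X.B) + 3) + 2 * x ≤ n * (log (4 * E + 3) + 2 * χ) := by
        nlinarith
      calc K * (log (4 * (X.F.C * X.B) + 3) + 2 * x)
          ≤ K * (n * (log (4 * E + 3) + 2 * χ)) := mul_le_mul_of_nonneg_left h7 hK0
        _ = _ := by ring
    calc V / (n * η ^ 2) * (K * (log (4 * (X.F.C * X.B) + 3) + 2 * x))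
        ≤ V / (n * η ^ 2) * (n * (K * (log (4 * E + 3) + 2 * χ))) :=
          mul_le_mul_of_nonneg_left h6 (by positivity)
      _ = _ := by field_simp
  linarith

/-- **F4/F5, cell form**: uniform lower bound for the entropy of finite words near a process -/
theorem fcell_lower (hP : WM p P) (hsg : ∀ i, |sg i| = 1) (hl : ∀ i, 0 < l i)
    (hp : ∀ i, 0 ≤ p i) (hp1 : ∑ i, p i = 1) (X : Proc l sg κ) {α c0 : ℝ}
    (hα : ∀ n : ℕ, ∃ x0, 0 ≤ x0 ∧ n * α - c0 ≤ MI P n (X.cell x0))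
    {ε : ℝ} (hε : 0 < ε) :
    ∃ η : ℝ, 0 < η ∧ η < ∑ i, p i * l i ∧ ∀ C B : ℝ, ∃ x0 : ℝ, ∃ n0 : ℕ, ∀ Y : Proc l sg κ,
      Y.F.C ≤ C → Y.B ≤ B → (∀ w, ‖Y.sc x0 w - X.sc x0 w‖ ≤ 1) → ∀ n : ℕ, n0 ≤ n →
      (α - ε) * n ≤ HP P (Y.fcell n (((∑ i, p i * l i) - η) * n)) := by
  obtain ⟨a, M, ha, hal, hM⟩ := exists_bounds hl
  have hχ : 0 < ∑ i, p i * l i := by
    have h1 : ∑ i, p i * a ≤ ∑ i, p i * l i :=
      Finset.sum_le_sum fun i _ => mul_le_mul_of_nonneg_left (hal i) (hp i)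
    rw [← Finset.sum_mul, hp1, one_mul] at h1
    linarith
  set χ := ∑ i, p i * l i with hχd
  set T : ℝ := |α - ε / 4| + 1 with hT
  have hT0 : 0 < T := by have := abs_nonneg (α - ε / 4); linarith
  set η : ℝ := min (χ / 2) (χ * (ε / (4 * T))) with hηd
  have hη : 0 < η := lt_min (by linarith) (by positivity)
  have hη2 : η < χ := lt_of_le_of_lt (min_le_left _ _) (by linarith)
  refine ⟨η, hη, hη2, fun C B => ?_⟩
  obtain ⟨x0, D1, hD1⟩ := X.h_lower_unif hP hsg hl hp hp1 hα (ε := ε / 4) (by linarith) C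
  obtain ⟨D2, hD2⟩ := h_le_fcell_lln (κ := κ) (sg := sg) hP hsg hl hp hp1 hη C B
  obtain ⟨n0, hn0⟩ := exists_nat_gt (max ((D1 + D2) / (ε / 2)) 0)
  refine ⟨x0, n0, fun Y hC hB hclose n hn => ?_⟩
  have hn' : (n0 : ℝ) ≤ n := by exact_mod_cast hn
  have hnpos : (0:ℝ) < n := lt_of_lt_of_le (lt_of_le_of_lt (le_max_right _ _) hn0) hn'
  have hnD : D1 + D2 < n * (ε / 2) := by
    have h1 : (D1 + D2) / (ε / 2) < n := lt_of_lt_of_le (lt_of_le_of_lt (le_max_left _ _) hn0) hn'
    rwa [div_lt_iff₀ (by linarith)] at h1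
  have hx : 0 ≤ (χ - η) * n := mul_nonneg (by linarith) hnpos.le
  have h1 := hD1 Y hC hclose ((χ - η) * n) hx
  have h2 := hD2 Y hC hB n (by exact_mod_cast hnpos) ((χ - η) * n) hx le_rfl
  have e : (α - ε / 4) / χ * ((χ - η) * n) = (α - ε / 4) * n - (α - ε / 4) * (η / χ) * n := by
    field_simp
  have h3 : (α - ε / 4) * (η / χ) ≤ ε / 4 := by
    have h4 : η / χ ≤ ε / (4 * T) := by
      rw [div_le_iff₀ hχ, mul_comm]
      exact min_le_right _ _
    have h5 : 0 ≤ η / χ := by positivity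
    calc (α - ε / 4) * (η / χ) ≤ T * (η / χ) := by
          refine mul_le_mul_of_nonneg_right ?_ h5
          have := le_abs_self (α - ε / 4); linarith
      _ ≤ T * (ε / (4 * T)) := mul_le_mul_of_nonneg_left h4 hT0.le
      _ = ε / 4 := by field_simp
  have h4 : (α - ε / 4) * (η / χ) * n ≤ ε / 4 * n := mul_le_mul_of_nonneg_right h3 hnpos.le
  rw [e] at h1
  nlinarith

end Proc

end Crest.Agent.R98.FD
end

-- ▼ part R98/FDMesh

/-!
# Row 98: the information rate of a process and the entropies of the cells (helper896, FD)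
-/

set_option autoImplicit false
set_option linter.unusedSectionVars false
set_option linter.unusedVariables false

namespace Crest.Agent.R98.FD

open MeasureTheory Real Filter Topology
open Crest.Agent.R098.Upper (pw sw pw_nonneg sum_succ pw_cons sw_cons sum_pw)
open Crest.Agent.R98 (PP scons isProb_PP PP_cons)

section WMPP

variable {ι : Type*}

theorem cs_eq_scons (i : ι) (w : ℕ → ι) : cs i w = scons i w := by
  funext n; cases n <;> rfl




variable [Fintype ι] [MeasurableSpace ι] [DiscreteMeasurableSpace ι]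

theorem WM_PP {p : ι → ℝ} (hp : (∀ i, 0 ≤ p i) ∧ ∑ i, p i = 1) : WM p (PP p) := by
  intro A hA
  have := isProb_PP hp
  have h : (PP p) A = ∑ a, ENNReal.ofReal (p a) * (PP p) (scons a ⁻¹' A) := by
    conv_lhs => rw [PP_cons hp]
    simp only [Measure.coe_finsetSum, Finset.sum_apply, Measure.smul_apply, smul_eq_mul]
    refine Finset.sum_congr rfl fun a _ => ?_
    rw [Measure.map_apply (Crest.Agent.R98.measurable_scons a) hA]
  rw [measureReal_def, h, ENNReal.toReal_sum]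
  · refine Finset.sum_congr rfl fun a _ => ?_
    rw [ENNReal.toReal_mul, ENNReal.toReal_ofReal (hp.1 a), measureReal_def]
    have : (cs a : (ℕ → ι) → ℕ → ι) = scons a := by funext w; exact cs_eq_scons a w
    rw [this]
  · intro a _
    exact ENNReal.mul_ne_top ENNReal.ofReal_ne_top (measure_ne_top _ _)

end WMPP

/-! ### conditional entropy given a finite-valued map -/

section Link

variable {Ω : Type*} [mΩ : MeasurableSpace Ω] {γ T : Type*} [Fintype T] [mT : MeasurableSpace T]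
  [MeasurableSingletonClass T] (P : Measure Ω) [IsProbabilityMeasure P]

/-- the corestriction of a finite-range map -/
noncomputable def cor {Ω γ : Type*} {f : Ω → γ} (hf : (Set.range f).Finite) (ω : Ω) :
    {v // v ∈ hf.toFinset} :=
  ⟨f ω, by simp⟩

theorem measurable_cor {f : Ω → γ} (hf : FV f) : @Measurable _ _ mΩ ⊤ (cor hf.fin) := by
  intro S _
  have : cor hf.fin ⁻¹' S = f ⁻¹' (Subtype.val '' S) := by
    ext ω
    simp only [Set.mem_preimage, Set.mem_image]
    constructor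
    · intro h; exact ⟨_, h, rfl⟩
    · rintro ⟨x, hx, hxe⟩
      have : x = cor hf.fin ω := Subtype.ext hxe
      rwa [this] at hx
  rw [this]
  exact hf.meas_set _

theorem comap_cor_le {Ω γ : Type*} {f : Ω → γ} (hf : (Set.range f).Finite)
    {m : MeasurableSpace Ω}
    (h : ∀ v, MeasurableSet[m] (f ⁻¹' {v})) : MeasurableSpace.comap (cor hf) ⊤ ≤ m := by
  rintro _ ⟨S, -, rfl⟩
  have : cor hf ⁻¹' S = ⋃ v ∈ Set.range f ∩ (Subtype.val '' S), f ⁻¹' {v} := by
    ext ω
    simp only [Set.mem_preimage, Set.mem_iUnion, Set.mem_singleton_iff, exists_prop,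
      Set.mem_inter_iff, Set.mem_image]
    constructor
    · intro h; exact ⟨f ω, ⟨⟨ω, rfl⟩, ⟨_, h, rfl⟩⟩, rfl⟩
    · rintro ⟨v, ⟨_, ⟨x, hx, hxe⟩⟩, hv⟩
      have : x = cor hf ω := Subtype.ext (hxe.trans hv.symm)
      rwa [this] at hx
  rw [this]
  exact (hf.inter_of_left _).measurableSet_biUnion fun v _ => h v

theorem HP_eq_sum_cor {f : Ω → γ} (hf : FV f) :
    HP P f = ∑ v : {v // v ∈ hf.fin.toFinset}, negMulLog (P.real (cor hf.fin ⁻¹' {v})) := by
  rw [HP_eq P hf.fin.toFinset fun ω => by simp, ← Finset.sum_coe_sort]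
  refine Finset.sum_congr rfl fun v _ => ?_
  congr 2
  ext ω
  simp only [Set.mem_preimage, Set.mem_singleton_iff]
  constructor
  · intro h; exact Subtype.ext h
  · intro h; exact congrArg Subtype.val h

/-- conditional entropy given a finite-valued map -/
theorem Hc_cor {f : Ω → γ} (hf : FV f) {Z : Ω → T} (hZ : Measurable Z) :
    F.Hc P (MeasurableSpace.comap (cor hf.fin) ⊤) Z = HP P (pr Z f) - HP P f := by
  let _ : MeasurableSpace {v // v ∈ hf.fin.toFinset} := ⊤
  have hc : Measurable (cor hf.fin) := measurable_cor hf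
  have hFZ : FV Z := ⟨Set.toFinite _, fun v => hZ (measurableSet_singleton v)⟩
  have h1 := F.Hc_chain (μ := P) (m := ⊥) (f := cor hf.fin) (g := Z) hc hZ bot_le
  rw [bot_sup_eq, F.Hc_bot hc, F.Hc_bot (hc.prodMk hZ)] at h1
  have e1 : ∑ z : {v // v ∈ hf.fin.toFinset}, negMulLog (P.real (cor hf.fin ⁻¹' {z})) = HP P f :=
    (HP_eq_sum_cor P hf).symm
  have e2 : ∑ z : {v // v ∈ hf.fin.toFinset} × T,
      negMulLog (P.real ((fun ω => (cor hf.fin ω, Z ω)) ⁻¹' {z})) = HP P (pr Z f) := by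
    have hcf : FV (cor hf.fin) := ⟨Set.toFinite _, fun v => hc (measurableSet_singleton v)⟩
    rw [← HP_eq P (f := fun ω => (cor hf.fin ω, Z ω)) Finset.univ fun _ => Finset.mem_univ _]
    refine HP_congr P (hcf.pair hFZ) (hFZ.pair hf) fun ω ω' => ?_
    simp only [pr, Prod.mk.injEq, cor, Subtype.mk.injEq]
    tauto
  rw [e1, e2] at h1
  linarith

end Link

section MIlink

variable {ι : Type*} [Fintype ι] [MeasurableSpace ι] [DiscreteMeasurableSpace ι] {p : ι → ℝ}
  {γ : Type*}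

theorem HP_pre_eq_Hc (hp : (∀ i, 0 ≤ p i) ∧ ∑ i, p i = 1) (n : ℕ) :
    F.Hc (PP p) ⊥ (Crest.Agent.R98.pre n) = HP (PP p) (pre n : (ℕ → ι) → Fin n → ι) := by
  have := isProb_PP hp
  rw [F.Hc_bot (Crest.Agent.R98.measurable_pre n), HP_eq (PP p) Finset.univ fun _ => Finset.mem_univ _]
  rfl

theorem MI_eq (hp : (∀ i, 0 ≤ p i) ∧ ∑ i, p i = 1) (n : ℕ) {f : (ℕ → ι) → γ} (hf : FV f) :
    MI (PP p) n f = F.Hc (PP p) ⊥ (Crest.Agent.R98.pre n)
      - F.Hc (PP p) (MeasurableSpace.comap (cor hf.fin) ⊤) (Crest.Agent.R98.pre n) := by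
  have := isProb_PP hp
  rw [HP_pre_eq_Hc hp, Hc_cor (PP p) hf (Crest.Agent.R98.measurable_pre n), MI]
  have : pr (Crest.Agent.R98.pre n) f = pr (pre n : (ℕ → ι) → Fin n → ι) f := rfl
  rw [this]
  ring

variable {E : Type*} [mE : MeasurableSpace E]

/-- upper bound by data processing -/
theorem MI_le_alpha (hp : (∀ i, 0 ≤ p i) ∧ ∑ i, p i = 1) {Φ : (ℕ → ι) → E} {B : ι → E → E}
    (h : F.IsProc Φ B) (n : ℕ) {f : (ℕ → ι) → γ} (hf : FV f)
    (hm : ∀ v, MeasurableSet[MeasurableSpace.comap Φ mE] (f ⁻¹' {v})) :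
    MI (PP p) n f ≤ n * F.alpha p Φ := by
  have := isProb_PP hp
  rw [MI_eq hp n hf, ← F.info_pre hp h n]
  have := F.Hc_anti (μ := PP p) (comap_cor_le hf.fin hm) h.meas.comap_le
    (f := (Crest.Agent.R98.pre n : (ℕ → ι) → Fin n → ι)) (measurable_pre n)
  linarith

end MIlink

/-! ### dyadic cells -/

section Dyadic

variable {ι : Type*} [Fintype ι] [MeasurableSpace ι] [DiscreteMeasurableSpace ι] {p : ι → ℝ}
  {κ : Type*} [Fintype κ]

/-- dyadic cells -/
noncomputable def dy (Φ : (ℕ → ι) → κ → ℝ) (m : ℕ) : (ℕ → ι) → κ → ℤ :=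
  fl fun w => (2:ℝ) ^ m • Φ w

theorem measurable_dy_comap (Φ : (ℕ → ι) → κ → ℝ) (m : ℕ) :
    Measurable[MeasurableSpace.comap Φ MeasurableSpace.pi] (dy Φ m) := by
  have h1 : Measurable[MeasurableSpace.comap Φ MeasurableSpace.pi] Φ := comap_measurable Φ
  have h2 : Measurable fun v : κ → ℝ => fun k => ⌊(2:ℝ) ^ m * v k⌋ := by
    rw [measurable_pi_iff]
    intro k
    exact ((measurable_pi_apply k).const_mul _).floor
  exact h2.comp h1

theorem floor_half (y : ℝ) (m : ℕ) : ⌊(2:ℝ) ^ m * y⌋ = ⌊(2:ℝ) ^ (m + 1) * y⌋ / 2 := by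
  have h := Int.floor_div_natCast ((2:ℝ) ^ (m + 1) * y) 2
  have e : (2:ℝ) ^ (m + 1) * y / ((2:ℕ):ℝ) = (2:ℝ) ^ m * y := by
    push_cast; rw [pow_succ]; ring
  rw [e] at h
  exact_mod_cast h

/-- the dyadic filtration of a bounded process -/
noncomputable def dyF (Φ : (ℕ → ι) → κ → ℝ) (hΦ : Measurable Φ) :
    Filtration ℕ (MeasurableSpace.pi : MeasurableSpace (ℕ → ι)) where
  seq := fun m => MeasurableSpace.comap (dy Φ m) MeasurableSpace.pi
  mono' := by
    refine monotone_nat_of_le_succ fun m => ?_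
    have h1 : dy Φ m = (fun v : κ → ℤ => fun k => v k / 2) ∘ dy Φ (m + 1) := by
      funext w k
      exact floor_half (Φ w k) m
    have h2 : Measurable fun v : κ → ℤ => fun k => v k / 2 := by
      rw [measurable_pi_iff]
      intro k
      exact (measurable_of_countable (fun z : ℤ => z / 2)).comp (measurable_pi_apply k)
    rw [h1, ← MeasurableSpace.comap_comp]
    exact MeasurableSpace.comap_mono h2.comap_le
  le' := fun m => ((measurable_dy_comap Φ m).mono hΦ.comap_le le_rfl).comap_le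

theorem iSup_dyF (Φ : (ℕ → ι) → κ → ℝ) (hΦ : Measurable Φ) :
    ⨆ m, dyF Φ hΦ m = MeasurableSpace.comap Φ MeasurableSpace.pi := by
  refine le_antisymm (iSup_le fun m => (measurable_dy_comap Φ m).comap_le) ?_
  have hm : ∀ m, Measurable[⨆ m, dyF Φ hΦ m] (dy Φ m) := fun m =>
    (comap_measurable (dy Φ m)).mono (le_iSup (fun m => dyF Φ hΦ m) m) le_rfl
  have h1 : ∀ m : ℕ, Measurable[⨆ m, dyF Φ hΦ m]
      (fun w => fun k => ((dy Φ m w k : ℤ) : ℝ) / 2 ^ m) := by
    intro m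
    have h2 : Measurable fun v : κ → ℤ => fun k => ((v k : ℤ) : ℝ) / 2 ^ m := by
      rw [measurable_pi_iff]
      intro k
      exact (measurable_of_countable (fun z : ℤ => (z : ℝ) / 2 ^ m)).comp (measurable_pi_apply k)
    exact h2.comp (hm m)
  have h3 : Tendsto (fun m : ℕ => fun w => fun k => ((dy Φ m w k : ℤ) : ℝ) / 2 ^ m) atTop
      (𝓝 Φ) := by
    rw [tendsto_pi_nhds]
    intro w
    rw [tendsto_pi_nhds]
    intro k
    have h4 : Tendsto (fun m : ℕ => ((1:ℝ) / 2) ^ m) atTop (𝓝 0) :=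
      tendsto_pow_atTop_nhds_zero_of_lt_one (by norm_num) (by norm_num)
    rw [tendsto_iff_dist_tendsto_zero]
    refine squeeze_zero (fun _ => dist_nonneg) (fun m => ?_) h4
    rw [Real.dist_eq]
    have h5 : dy Φ m w k = ⌊(2:ℝ) ^ m * Φ w k⌋ := rfl
    have h6 := Int.floor_le ((2:ℝ) ^ m * Φ w k)
    have h7 := Int.lt_floor_add_one ((2:ℝ) ^ m * Φ w k)
    have h8 : (0:ℝ) < 2 ^ m := by positivity
    rw [h5]
    have e : ((⌊(2:ℝ) ^ m * Φ w k⌋ : ℤ) : ℝ) / 2 ^ m - Φ w k
        = (((⌊(2:ℝ) ^ m * Φ w k⌋ : ℤ) : ℝ) - 2 ^ m * Φ w k) / 2 ^ m := by field_simp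
    rw [e, abs_div, abs_of_pos h8, one_div, inv_pow, div_le_iff₀ h8,
      inv_mul_cancel₀ h8.ne', abs_le]
    constructor <;> linarith
  have := @measurable_of_tendsto_metrizable (ℕ → ι) (κ → ℝ) (⨆ m, dyF Φ hΦ m) _ _ _ _ _ _ h1 h3
  exact this.comap_le

/-- the dyadic cells carry almost all the information -/
theorem exists_dy (hp : (∀ i, 0 ≤ p i) ∧ ∑ i, p i = 1) {Φ : (ℕ → ι) → κ → ℝ}
    {B : ι → (κ → ℝ) → (κ → ℝ)} (h : F.IsProc Φ B) (hfv : ∀ m, FV (dy Φ m)) (n : ℕ) {ε : ℝ}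
    (hε : 0 < ε) : ∃ m : ℕ, n * F.alpha p Φ - ε ≤ MI (PP p) n (dy Φ m) := by
  have := isProb_PP hp
  have ht := F.Hc_tendsto (μ := PP p) (dyF Φ h.meas)
    (f := (Crest.Agent.R98.pre n : (ℕ → ι) → Fin n → ι)) (measurable_pre n)
  rw [iSup_dyF] at ht
  have hev := (tendsto_order.1 ht).2 (F.Hc (PP p) (MeasurableSpace.comap Φ MeasurableSpace.pi)
    (Crest.Agent.R98.pre n) + ε) (by linarith)
  obtain ⟨m, hm⟩ := hev.exists
  refine ⟨m, ?_⟩
  rw [MI_eq hp n (hfv m), ← F.info_pre hp h n]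
  have hle : dyF Φ h.meas m ≤ MeasurableSpace.comap (cor (hfv m).fin) ⊤ := by
    have h2 : Measurable[MeasurableSpace.comap (cor (hfv m).fin) ⊤] (dy Φ m) := by
      intro S _
      exact ⟨Subtype.val ⁻¹' S, trivial, rfl⟩
    exact h2.comap_le
  have hcl : MeasurableSpace.comap (cor (hfv m).fin) ⊤ ≤
      (MeasurableSpace.pi : MeasurableSpace (ℕ → ι)) :=
    comap_cor_le (hfv m).fin (hfv m).meas
  have := F.Hc_anti (μ := PP p) hle hcl
    (f := (Crest.Agent.R98.pre n : (ℕ → ι) → Fin n → ι)) (measurable_pre n)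
  linarith

end Dyadic

namespace Proc

variable {ι : Type*} [Fintype ι] [Nonempty ι] [MeasurableSpace ι] [DiscreteMeasurableSpace ι]
  {l sg : ι → ℝ} {κ : Type*} [Fintype κ] {p : ι → ℝ}

/-- letter maps -/
noncomputable def Bm (X : Proc l sg κ) (i : ι) (v : κ → ℝ) : κ → ℝ := sg i • X.F.A (l i) v + X.b i

theorem isProc (hsg : ∀ i, |sg i| = 1) (X : Proc l sg κ) : F.IsProc X.Φ X.Bm where
  meas := X.meas
  emb := by
    intro i
    have hsi : sg i ≠ 0 := by
      intro h; have := hsg i; rw [h] at this; simp at this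
    have hc : ∀ x, Continuous (X.F.A x) := fun x => (X.F.A x).continuous_of_finiteDimensional
    let e : (κ → ℝ) ≃ₜ (κ → ℝ) :=
      { toFun := X.Bm i
        invFun := fun v => X.F.A (-(l i)) ((sg i)⁻¹ • (v - X.b i))
        left_inv := fun v => by
          show X.F.A (-(l i)) ((sg i)⁻¹ • (X.Bm i v - X.b i)) = v
          unfold Bm
          rw [add_sub_cancel_right, smul_smul, inv_mul_cancel₀ hsi, one_smul, X.F.cancel']
        right_inv := fun v => by
          show X.Bm i (X.F.A (-(l i)) ((sg i)⁻¹ • (v - X.b i))) = v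
          unfold Bm
          rw [X.F.cancel, smul_smul, mul_inv_cancel₀ hsi, one_smul, sub_add_cancel]
        continuous_toFun := by
          have h1 : Continuous fun v : κ → ℝ => sg i • v + X.b i := by fun_prop
          exact h1.comp (hc (l i))
        continuous_invFun := by
          have h1 : Continuous fun v : κ → ℝ => (sg i)⁻¹ • (v - X.b i) := by fun_prop
          exact (hc (-(l i))).comp h1 }
    exact e.measurableEmbedding
  eq := by
    intro w
    have h1 : w = cs (w 0) (Crest.Agent.R98.sh 1 w) := by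
      rw [cs_eq_scons, Crest.Agent.R98.scons_sh]
    conv_lhs => rw [h1]
    rw [X.rec']
    rfl

theorem FV_dy (X : Proc l sg κ) (m : ℕ) : FV (dy X.Φ m) := by
  refine FV_fl (B := 2 ^ m * X.B) ?_ ?_
  · have h1 : Measurable fun v : κ → ℝ => (2:ℝ) ^ m • v := by fun_prop
    exact h1.comp X.meas
  · intro w
    rw [norm_smul, norm_pow, Real.norm_eq_abs, abs_two]
    exact mul_le_mul_of_nonneg_left (X.hB w) (by positivity)

/-- **upper information bound** -/
theorem MI_cell_le (hp : (∀ i, 0 ≤ p i) ∧ ∑ i, p i = 1) (hsg : ∀ i, |sg i| = 1)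
    (X : Proc l sg κ) (n : ℕ) (x : ℝ) : MI (PP p) n (X.cell x) ≤ n * F.alpha p X.Φ := by
  refine MI_le_alpha hp (X.isProc hsg) n (X.FV_cell x) fun v => ?_
  have h1 : Measurable[MeasurableSpace.comap X.Φ MeasurableSpace.pi] (X.cell x) := by
    have h2 : Measurable fun v : κ → ℝ => fun k => ⌊X.F.A (-x) v k⌋ := by
      rw [measurable_pi_iff]
      intro k
      exact ((measurable_pi_apply k).comp (X.F.measurable (-x))).floor
    exact h2.comp (comap_measurable X.Φ)
  exact h1 (measurableSet_singleton v)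

/-- **lower information bound** -/
theorem exists_MI_cell_ge (hp : (∀ i, 0 ≤ p i) ∧ ∑ i, p i = 1) (hsg : ∀ i, |sg i| = 1)
    (X : Proc l sg κ) (n : ℕ) : ∃ x0, 0 ≤ x0 ∧
      n * F.alpha p X.Φ - (1 + Fintype.card κ * log 5) ≤ MI (PP p) n (X.cell x0) := by
  have := isProb_PP hp
  obtain ⟨m, hm⟩ := exists_dy hp (X.isProc hsg) X.FV_dy n one_pos
  -- choose the level
  have hC := X.F.hC0
  set x0 : ℝ := max 0 (2 * log (2 ^ m * X.F.C)) with hx0
  have hx00 : 0 ≤ x0 := le_max_left _ _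
  refine ⟨x0, hx00, ?_⟩
  have h1 : HP (PP p) (pr (dy X.Φ m) (X.cell x0)) ≤ HP (PP p) (X.cell x0)
      + Fintype.card κ * log 5 := by
    have h2 := HP_fl_pair_le (PP p) (Y := fun w => (2:ℝ) ^ m • X.Φ w) (X.FV_dy m) (X.FV_cell x0)
      zero_le_one (fun w w' hw => by
        have h3 : ‖X.sc x0 w - X.sc x0 w'‖ ≤ 1 := fl_eq_dist hw
        have h4 : ∀ w, X.Φ w = X.F.A x0 (X.sc x0 w) := fun w => (X.F.cancel x0 _).symm
        show ‖(2:ℝ) ^ m • X.Φ w - (2:ℝ) ^ m • X.Φ w'‖ ≤ 1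
        rw [← smul_sub, h4 w, h4 w', ← map_sub, norm_smul, norm_pow, Real.norm_eq_abs, abs_two]
        have h5 := X.F.bd x0 hx00 (X.sc x0 w - X.sc x0 w')
        have h6 : exp (-((1 - X.F.d) * x0)) ≤ exp (-(log (2 ^ m * X.F.C))) := by
          rw [exp_le_exp, neg_le_neg_iff]
          have h7 : 2 * log (2 ^ m * X.F.C) ≤ x0 := le_max_right _ _
          have h8 := X.F.hd
          nlinarith
        have h9 : exp (-(log (2 ^ m * X.F.C))) = (2 ^ m * X.F.C)⁻¹ := by
          rw [exp_neg, exp_log (by positivity)]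
        rw [h9] at h6
        calc (2:ℝ) ^ m * ‖X.F.A x0 (X.sc x0 w - X.sc x0 w')‖
            ≤ 2 ^ m * (X.F.C * (2 ^ m * X.F.C)⁻¹ * 1) := by
              refine mul_le_mul_of_nonneg_left (h5.trans ?_) (by positivity)
              refine mul_le_mul (mul_le_mul_of_nonneg_left h6 hC.le) h3 (norm_nonneg _)
                (by positivity)
          _ = 1 := by field_simp)
    have e : (2 * 1 + 3 : ℝ) = 5 := by norm_num
    rw [e] at h2
    exact h2
  have h10 := MI_le_of_pair (P := PP p) n (X.FV_cell x0) (X.FV_dy m) h1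
  linarith

end Proc

end Crest.Agent.R98.FD
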