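import Mathlib

-- ▼ part R98/MultBinom
section

/-!
Row 98, module MULT, part 1: elementary bounds for binomial coefficients.
-/

set_option autoImplicit false

open Finset

namespace Crest.Agent.R98.Mult

/-- `centralBinom n / 4^n ≤ 1/√(2n+1)`, in squared form. -/
lemma centralBinom_sq_le (n : ℕ) :
    (Nat.centralBinom n : ℝ) ^ 2 * (2 * n + 1) ≤ (4 ^ n) ^ 2 := by
  induction n with
  | zero => simp
  | succ n ih =>
    have h := Nat.succ_mul_centralBinom_succ n
    have h' : ((n : ℝ) + 1) * (Nat.centralBinom (n + 1) : ℝ)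
        = 2 * (2 * n + 1) * (Nat.centralBinom n : ℝ) := by
      exact_mod_cast h
    have hn : (0 : ℝ) < (n : ℝ) + 1 := by positivity
    have e : (Nat.centralBinom (n + 1) : ℝ)
        = 2 * (2 * n + 1) * (Nat.centralBinom n : ℝ) / ((n : ℝ) + 1) := by
      field_simp
      linarith
    rw [e]
    push_cast
    have h0 : (0 : ℝ) ≤ (n : ℝ) := Nat.cast_nonneg n
    rw [div_pow, div_mul_eq_mul_div, div_le_iff₀ (by positivity)]
    have key : (2 * (2 * (n : ℝ) + 1)) ^ 2 * (2 * ((n : ℝ) + 1) + 1) * (Nat.centralBinom n : ℝ) ^ 2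
        ≤ (16 * ((n : ℝ) + 1) ^ 2) * ((Nat.centralBinom n : ℝ) ^ 2 * (2 * n + 1)) := by
      have : (2 * (2 * (n : ℝ) + 1)) ^ 2 * (2 * ((n : ℝ) + 1) + 1)
          ≤ (16 * ((n : ℝ) + 1) ^ 2) * (2 * n + 1) := by nlinarith
      calc _ ≤ (16 * ((n : ℝ) + 1) ^ 2) * (2 * n + 1) * (Nat.centralBinom n : ℝ) ^ 2 :=
            mul_le_mul_of_nonneg_right this (by positivity)
        _ = _ := by ring
    calc (2 * (2 * (n : ℝ) + 1) * (Nat.centralBinom n : ℝ)) ^ 2 * (2 * ((n : ℝ) + 1) + 1)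
        = (2 * (2 * (n : ℝ) + 1)) ^ 2 * (2 * ((n : ℝ) + 1) + 1) * (Nat.centralBinom n : ℝ) ^ 2 := by
          ring
      _ ≤ (16 * ((n : ℝ) + 1) ^ 2) * ((Nat.centralBinom n : ℝ) ^ 2 * (2 * n + 1)) := key
      _ ≤ (16 * ((n : ℝ) + 1) ^ 2) * (4 ^ n) ^ 2 :=
          mul_le_mul_of_nonneg_left ih (by positivity)
      _ = (4 ^ (n + 1)) ^ 2 * ((n : ℝ) + 1) ^ 2 := by ring

/-- `C(m,k) 2^{-m} ≤ 1/√(m+1)`, squared form. -/
lemma choose_sq_le (m k : ℕ) :
    ((m.choose k : ℝ) / 2 ^ m) ^ 2 * (m + 1) ≤ 1 := by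
  have h1 : (m.choose k : ℝ) ≤ (m.choose (m / 2) : ℝ) := by
    exact_mod_cast Nat.choose_le_middle k m
  have h2 : ((m.choose (m / 2) : ℝ) / 2 ^ m) ^ 2 * (m + 1) ≤ 1 := by
    rcases Nat.even_or_odd' m with ⟨n, rfl | rfl⟩
    · have := centralBinom_sq_le n
      have e : (2 * n) / 2 = n := by omega
      rw [e, ← Nat.centralBinom_eq_two_mul_choose, div_pow, div_mul_eq_mul_div,
        div_le_one (by positivity)]
      push_cast
      calc (Nat.centralBinom n : ℝ) ^ 2 * (2 * n + 1) ≤ (4 ^ n) ^ 2 := this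
        _ = (2 ^ (2 * n)) ^ 2 := by rw [pow_mul (2 : ℝ) 2 n]; norm_num
    · have := centralBinom_sq_le (n + 1)
      have e : (2 * n + 1) / 2 = n := by omega
      have hc : Nat.centralBinom (n + 1) = 2 * (2 * n + 1).choose n := by
        rw [Nat.centralBinom_eq_two_mul_choose]
        have : 2 * (n + 1) = (2 * n + 1) + 1 := by ring
        rw [this, Nat.choose_succ_succ' (2 * n + 1) n]
        have h3 : (2 * n + 1).choose (n + 1) = (2 * n + 1).choose n := by
          have := Nat.choose_symm_half n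
          exact this
        rw [h3]; ring
      rw [e, div_pow, div_mul_eq_mul_div, div_le_one (by positivity)]
      rw [hc] at this
      push_cast at this ⊢
      have h4 : ((2 : ℝ) * ((2 * n + 1).choose n : ℝ)) ^ 2 * (2 * n + 1 + 1)
          ≤ (4 ^ (n + 1)) ^ 2 := by
        refine le_trans ?_ this
        apply mul_le_mul_of_nonneg_left _ (by positivity)
        linarith
      have h5 : ((4 : ℝ) ^ (n + 1)) ^ 2 = 4 * (2 ^ (2 * n + 1)) ^ 2 := by
        have : (4 : ℝ) = 2 ^ 2 := by norm_num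
        rw [this, ← pow_mul, ← pow_mul, ← pow_mul, ← pow_add]
        congr 1; ring
      rw [h5] at h4
      nlinarith
  refine le_trans ?_ h2
  apply mul_le_mul_of_nonneg_right _ (by positivity)
  apply pow_le_pow_left₀ (by positivity)
  apply div_le_div_of_nonneg_right h1 (by positivity)

lemma choose_le_inv_sqrt (m k : ℕ) :
    (m.choose k : ℝ) / 2 ^ m ≤ 1 / Real.sqrt (m + 1) := by
  have h := choose_sq_le m k
  have h0 : (0 : ℝ) < (m : ℝ) + 1 := by positivity
  rw [le_div_iff₀ (Real.sqrt_pos.2 h0)]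
  have h1 : ((m.choose k : ℝ) / 2 ^ m * Real.sqrt (m + 1)) ^ 2 ≤ 1 ^ 2 := by
    rw [mul_pow, Real.sq_sqrt h0.le]; simpa using h
  exact (pow_le_pow_iff_left₀ (by positivity) (by norm_num) (by norm_num)).1 h1

/-- `∑_m C(n,m) P^m (1-P)^{n-m}/(m+1) ≤ 1/((n+1)P)`. -/
lemma sum_inv_le (n : ℕ) (P : ℝ) (hP : 0 < P) (hP1 : P ≤ 1) :
    ∑ m ∈ range (n + 1), (n.choose m : ℝ) * P ^ m * (1 - P) ^ (n - m) * (1 / ((m : ℝ) + 1))
      ≤ 1 / (((n : ℝ) + 1) * P) := by
  have hQ : 0 ≤ 1 - P := by linarith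
  have hn : (0 : ℝ) < (n : ℝ) + 1 := by positivity
  have e : ∀ m ∈ range (n + 1),
      (n.choose m : ℝ) * P ^ m * (1 - P) ^ (n - m) * (1 / ((m : ℝ) + 1))
        = (1 / (((n : ℝ) + 1) * P)) *
          (((n + 1).choose (m + 1) : ℝ) * P ^ (m + 1) * (1 - P) ^ ((n + 1) - (m + 1))) := by
    intro m _
    have h := Nat.add_one_mul_choose_eq n m
    have h' : ((n : ℝ) + 1) * (n.choose m : ℝ) = ((n + 1).choose (m + 1) : ℝ) * ((m : ℝ) + 1) := by
      exact_mod_cast h
    have hm : (0 : ℝ) < (m : ℝ) + 1 := by positivity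
    have h3 : (n + 1) - (m + 1) = n - m := by omega
    have h4 : ((n + 1).choose (m + 1) : ℝ) = ((n : ℝ) + 1) * (n.choose m : ℝ) / ((m : ℝ) + 1) := by
      field_simp; linarith
    rw [h3, h4]
    field_simp
    try ring
  rw [Finset.sum_congr rfl e, ← Finset.mul_sum]
  have hsum : ∑ m ∈ range (n + 1), (((n + 1).choose (m + 1) : ℝ) * P ^ (m + 1) *
      (1 - P) ^ ((n + 1) - (m + 1))) ≤ 1 := by
    have hb : ∑ m ∈ range (n + 1 + 1), (P ^ m * (1 - P) ^ (n + 1 - m) * ((n + 1).choose m : ℝ))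
        = 1 := by
      rw [← add_pow]; simp
    rw [Finset.sum_range_succ'] at hb
    have h0 : (0 : ℝ) ≤ P ^ 0 * (1 - P) ^ (n + 1 - 0) * ((n + 1).choose 0 : ℝ) := by
      positivity
    have : ∑ m ∈ range (n + 1), (((n + 1).choose (m + 1) : ℝ) * P ^ (m + 1) *
      (1 - P) ^ ((n + 1) - (m + 1))) = ∑ m ∈ range (n + 1),
        (P ^ (m + 1) * (1 - P) ^ (n + 1 - (m + 1)) * ((n + 1).choose (m + 1) : ℝ)) := by
      apply Finset.sum_congr rfl; intro m _; ring
    rw [this]; linarith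
  have hc : 0 ≤ 1 / (((n : ℝ) + 1) * P) := by positivity
  calc _ ≤ (1 / (((n : ℝ) + 1) * P)) * 1 := mul_le_mul_of_nonneg_left hsum hc
    _ = _ := by ring


/-- `∑_m C(n,m) P^m (1-P)^{n-m}/√(m+1) ≤ 1/√((n+1)P)`. -/
lemma sum_inv_sqrt_le (n : ℕ) (P : ℝ) (hP : 0 < P) (hP1 : P ≤ 1) :
    ∑ m ∈ range (n + 1), (n.choose m : ℝ) * P ^ m * (1 - P) ^ (n - m) *
        (1 / Real.sqrt ((m : ℝ) + 1))
      ≤ 1 / Real.sqrt (((n : ℝ) + 1) * P) := by
  have hQ : 0 ≤ 1 - P := by linarith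
  have hn : (0 : ℝ) < ((n : ℝ) + 1) * P := by positivity
  set t : ℝ := Real.sqrt (((n : ℝ) + 1) * P) with ht
  have ht0 : 0 < t := Real.sqrt_pos.2 hn
  have ht2 : t * t = ((n : ℝ) + 1) * P := Real.mul_self_sqrt hn.le
  have hpt : ∀ m : ℕ, 1 / Real.sqrt ((m : ℝ) + 1) ≤ (1 / 2) * (t * (1 / ((m : ℝ) + 1)) + 1 / t) := by
    intro m
    have hm : (0 : ℝ) < (m : ℝ) + 1 := by positivity
    set r : ℝ := Real.sqrt ((m : ℝ) + 1) with hr
    have hr0 : 0 < r := Real.sqrt_pos.2 hm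
    have hr2 : r * r = (m : ℝ) + 1 := Real.mul_self_sqrt hm.le
    rw [← hr2]
    have : (1 / 2) * (t * (1 / (r * r)) + 1 / t) - 1 / r
        = (t - r) ^ 2 / (2 * t * (r * r)) := by
      field_simp
      ring
    have h2 : 0 ≤ (t - r) ^ 2 / (2 * t * (r * r)) := by positivity
    linarith
  have hb : ∑ m ∈ range (n + 1), ((n.choose m : ℝ) * P ^ m * (1 - P) ^ (n - m)) = 1 := by
    have : ∑ m ∈ range (n + 1), (P ^ m * (1 - P) ^ (n - m) * (n.choose m : ℝ)) = 1 := by
      rw [← add_pow]; simp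
    refine Eq.trans ?_ this
    apply Finset.sum_congr rfl; intro m _; ring
  calc ∑ m ∈ range (n + 1), (n.choose m : ℝ) * P ^ m * (1 - P) ^ (n - m) *
        (1 / Real.sqrt ((m : ℝ) + 1))
      ≤ ∑ m ∈ range (n + 1), (n.choose m : ℝ) * P ^ m * (1 - P) ^ (n - m) *
        ((1 / 2) * (t * (1 / ((m : ℝ) + 1)) + 1 / t)) := by
        apply Finset.sum_le_sum; intro m _
        exact mul_le_mul_of_nonneg_left (hpt m) (by positivity)
    _ = (1 / 2) * (t * ∑ m ∈ range (n + 1), (n.choose m : ℝ) * P ^ m * (1 - P) ^ (n - m) *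
          (1 / ((m : ℝ) + 1)) + (1 / t) *
          ∑ m ∈ range (n + 1), ((n.choose m : ℝ) * P ^ m * (1 - P) ^ (n - m))) := by
        rw [Finset.mul_sum, Finset.mul_sum, ← Finset.sum_add_distrib, Finset.mul_sum]
        apply Finset.sum_congr rfl; intro m _; ring
    _ ≤ (1 / 2) * (t * (1 / (((n : ℝ) + 1) * P)) + (1 / t) * 1) := by
        rw [hb]
        have := sum_inv_le n P hP hP1
        have h3 := mul_le_mul_of_nonneg_left this ht0.le
        linarith
    _ = 1 / t := by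
        rw [← ht2]; field_simp; norm_num

open Polynomial in
/-- sup-norm times total mass bound for products of polynomials with nonnegative coefficients. -/
lemma coeff_mul_le (f g : ℝ[X]) (M : ℝ) (hf0 : ∀ i, 0 ≤ f.coeff i) (hf : ∀ i, f.coeff i ≤ M)
    (hg : ∀ i, 0 ≤ g.coeff i) (k : ℕ) : (f * g).coeff k ≤ M * g.eval 1 := by
  have hM : 0 ≤ M := le_trans (hf0 0) (hf 0)
  rw [coeff_mul, Finset.Nat.sum_antidiagonal_eq_sum_range_succ (fun i j => f.coeff i * g.coeff j)]
  have h1 : ∑ i ∈ range (k + 1), f.coeff i * g.coeff (k - i)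
      ≤ ∑ i ∈ range (k + 1), M * g.coeff (k - i) := by
    apply Finset.sum_le_sum; intro i _
    exact mul_le_mul_of_nonneg_right (hf i) (hg _)
  refine le_trans h1 ?_
  rw [← Finset.mul_sum]
  apply mul_le_mul_of_nonneg_left _ hM
  have h2 : ∑ i ∈ range (k + 1), g.coeff (k - i) = ∑ i ∈ range (k + 1), g.coeff i := by
    have := Finset.sum_range_reflect (fun i => g.coeff i) (k + 1)
    simpa using this
  rw [h2, eval_eq_sum_range' (n := max (k + 1) (g.natDegree + 1)) (by omega)]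
  simp only [one_pow, mul_one]
  apply Finset.sum_le_sum_of_subset_of_nonneg
  · intro i hi; simp only [Finset.mem_range] at *; omega
  · intro i _ _; exact hg i

open Polynomial in
lemma coeff_nonneg_mul (f g : ℝ[X]) (hf : ∀ i, 0 ≤ f.coeff i) (hg : ∀ i, 0 ≤ g.coeff i) :
    ∀ i, 0 ≤ (f * g).coeff i := by
  intro i; rw [coeff_mul]; exact Finset.sum_nonneg fun x _ => mul_nonneg (hf _) (hg _)

open Polynomial in
lemma coeff_nonneg_pow (f : ℝ[X]) (hf : ∀ i, 0 ≤ f.coeff i) (n : ℕ) :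
    ∀ i, 0 ≤ (f ^ n).coeff i := by
  induction n with
  | zero => intro i; simp only [pow_zero, coeff_one]; split_ifs <;> norm_num
  | succ n ih => rw [pow_succ]; exact coeff_nonneg_mul _ _ ih hf

/-- binomial probabilities. -/
noncomputable def bin (n : ℕ) (P : ℝ) (k : ℕ) : ℝ := (n.choose k : ℝ) * P ^ k * (1 - P) ^ (n - k)

open Polynomial in
lemma coeff_lin_pow (n : ℕ) (P : ℝ) (k : ℕ) :
    ((C P * X + C (1 - P)) ^ n).coeff k = bin n P k := by
  rw [add_pow, finsetSum_coeff]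
  simp only [mul_pow, ← C_pow, bin]
  have e : ∀ m ∈ range (n + 1),
      (C (P ^ m) * X ^ m * C ((1 - P) ^ (n - m)) * (n.choose m : ℝ[X])).coeff k
        = if k = m then (n.choose m : ℝ) * P ^ m * (1 - P) ^ (n - m) else 0 := by
    intro m _
    have : (C (P ^ m) * X ^ m * C ((1 - P) ^ (n - m)) * (n.choose m : ℝ[X]))
        = C ((n.choose m : ℝ) * P ^ m * (1 - P) ^ (n - m)) * X ^ m := by
      rw [← C_eq_natCast]
      simp only [map_mul]
      push_cast
      ring
    rw [this, coeff_C_mul_X_pow]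
  rw [Finset.sum_congr rfl e, Finset.sum_ite_eq]
  split_ifs with h
  · rfl
  · have : n < k := by simpa using h
    rw [Nat.choose_eq_zero_of_lt this]; simp

open Polynomial in
/-- sup bound for binomial probabilities, uniformly in `k`. -/
lemma bin_le (n : ℕ) (P : ℝ) (hP : 0 < P) (hP1 : P < 1) (k : ℕ) :
    bin n P k ≤ 1 / Real.sqrt (((n : ℝ) + 1) * (2 * (P * (1 - P)))) := by
  set d : ℝ := P * (1 - P) with hd
  have hQ : 0 < 1 - P := by linarith
  have hd0 : 0 < d := by positivity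
  have hd1 : 2 * d ≤ 1 := by nlinarith [sq_nonneg (P - 1 / 2)]
  have h1 : 0 ≤ P - d := by nlinarith
  have h2 : 0 ≤ 1 - P - d := by nlinarith
  set f : ℝ[X] := C (1 / 2) * X + C (1 - 1 / 2) with hf
  set g : ℝ[X] := C (P - d) * X + C (1 - P - d) with hg
  have hfg : (C P * X + C (1 - P) : ℝ[X]) = C (2 * d) * f + g := by
    have e1 : (C P * X + C (1 - P) : ℝ[X]) = C (2 * d * (1 / 2) + (P - d)) * X
        + C (2 * d * (1 - 1 / 2) + (1 - P - d)) := by
      congr 2
      · congr 1; ring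
      · congr 1; ring
    rw [e1, hf, hg]
    simp only [map_add, map_mul]
    ring
  have hg0 : ∀ i, 0 ≤ g.coeff i := by
    intro i
    rw [hg, coeff_add, coeff_C_mul, coeff_X, coeff_C]
    split_ifs <;> simp <;> linarith
  have hf0 : ∀ m i, 0 ≤ (f ^ m).coeff i := by
    intro m
    apply coeff_nonneg_pow
    intro i
    rw [hf, coeff_add, coeff_C_mul, coeff_X, coeff_C]
    split_ifs <;> norm_num
  have hfm : ∀ (m i : ℕ), (f ^ m).coeff i ≤ 1 / Real.sqrt ((m : ℝ) + 1) := by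
    intro m i
    rw [hf, coeff_lin_pow, bin]
    rcases le_or_gt i m with him | him
    · have e : (m.choose i : ℝ) * (1 / 2) ^ i * (1 - 1 / 2) ^ (m - i)
          = (m.choose i : ℝ) / 2 ^ m := by
        have : (1 - 1 / 2 : ℝ) = 1 / 2 := by norm_num
        rw [this, mul_assoc, ← pow_add]
        have : i + (m - i) = m := by omega
        rw [this, one_div, inv_pow]; rfl
      rw [e]; exact choose_le_inv_sqrt m i
    · rw [Nat.choose_eq_zero_of_lt him]
      simp only [Nat.cast_zero, zero_mul]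
      positivity
  have hg1 : g.eval 1 = 1 - 2 * d := by
    rw [hg]; simp; ring
  rw [← coeff_lin_pow, hfg, add_pow, finsetSum_coeff]
  have hterm : ∀ m ∈ range (n + 1),
      ((C (2 * d) * f) ^ m * g ^ (n - m) * (n.choose m : ℝ[X])).coeff k
        ≤ (n.choose m : ℝ) * (2 * d) ^ m * (1 - 2 * d) ^ (n - m) *
          (1 / Real.sqrt ((m : ℝ) + 1)) := by
    intro m _
    have e : ((C (2 * d) * f) ^ m * g ^ (n - m) * (n.choose m : ℝ[X]))
        = C ((n.choose m : ℝ) * (2 * d) ^ m) * (f ^ m * g ^ (n - m)) := by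
      rw [← C_eq_natCast, mul_pow, ← C_pow]
      simp only [map_mul]
      push_cast
      ring
    rw [e, coeff_C_mul]
    have h3 := coeff_mul_le (f ^ m) (g ^ (n - m)) (1 / Real.sqrt ((m : ℝ) + 1)) (hf0 m) (hfm m)
      (coeff_nonneg_pow g hg0 _) k
    rw [eval_pow, hg1] at h3
    calc (n.choose m : ℝ) * (2 * d) ^ m * (f ^ m * g ^ (n - m)).coeff k
        ≤ (n.choose m : ℝ) * (2 * d) ^ m *
          (1 / Real.sqrt ((m : ℝ) + 1) * (1 - 2 * d) ^ (n - m)) :=
          mul_le_mul_of_nonneg_left h3 (by positivity)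
      _ = _ := by ring
  refine le_trans (Finset.sum_le_sum hterm) ?_
  exact sum_inv_sqrt_le n (2 * d) (by positivity) hd1

lemma bin_nonneg (n : ℕ) (P : ℝ) (hP : 0 ≤ P) (hP1 : P ≤ 1) (k : ℕ) : 0 ≤ bin n P k := by
  unfold bin
  have : 0 ≤ 1 - P := by linarith
  positivity

/-- the two-dimensional local bound. -/
lemma bin_bin_le (n : ℕ) (P p₁ : ℝ) (hP : 0 < P) (hP1 : P < 1) (hp : 0 < p₁) (hp1 : p₁ < 1)
    (k a : ℕ) (hk : k ≤ n) :
    bin n P k * bin k p₁ a ≤
      (1 / (2 * P * Real.sqrt ((1 - P) * (p₁ * (1 - p₁))))) / ((n : ℝ) + 1) := by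
  have hQ : 0 < 1 - P := by linarith
  have hq : 0 < 1 - p₁ := by linarith
  have hn : (0 : ℝ) < (n : ℝ) + 1 := by positivity
  have hkk : (0 : ℝ) < (k : ℝ) + 1 := by positivity
  have hA0 := bin_nonneg n P hP.le hP1.le k
  have hB0 := bin_nonneg k p₁ hp.le hp1.le a
  have hA := bin_le n P hP hP1 k
  have hA' := bin_le (n + 1) P hP hP1 (k + 1)
  have hB := bin_le k p₁ hp hp1 a
  set A := bin n P k
  set B := bin k p₁ a
  set A' := bin (n + 1) P (k + 1)
  have hA'0 : 0 ≤ A' := bin_nonneg (n + 1) P hP.le hP1.le (k + 1)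
  have hrel : A * ((n + 1) * P) = A' * (k + 1) := by
    have h := Nat.add_one_mul_choose_eq n k
    have h' : ((n : ℝ) + 1) * (n.choose k : ℝ) = ((n + 1).choose (k + 1) : ℝ) * ((k : ℝ) + 1) := by
      exact_mod_cast h
    change (n.choose k : ℝ) * P ^ k * (1 - P) ^ (n - k) * ((n + 1) * P)
      = ((n + 1).choose (k + 1) : ℝ) * P ^ (k + 1) * (1 - P) ^ ((n + 1) - (k + 1)) * (k + 1)
    have h3 : (n + 1) - (k + 1) = n - k := by omega
    rw [h3]
    calc (n.choose k : ℝ) * P ^ k * (1 - P) ^ (n - k) * ((n + 1) * P)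
        = (((n : ℝ) + 1) * (n.choose k : ℝ)) * (P ^ (k + 1) * (1 - P) ^ (n - k)) := by ring
      _ = _ := by rw [h']; ring
  -- squares
  have sq_bound : ∀ (x c : ℝ), 0 ≤ x → 0 < c → x ≤ 1 / Real.sqrt c → x ^ 2 * c ≤ 1 := by
    intro x c hx hc h
    have h1 : x * Real.sqrt c ≤ 1 := by
      rwa [le_div_iff₀ (Real.sqrt_pos.2 hc)] at h
    have h2 : (x * Real.sqrt c) ^ 2 ≤ 1 ^ 2 :=
      pow_le_pow_left₀ (by positivity) h1 2
    rw [mul_pow, Real.sq_sqrt hc.le] at h2
    simpa using h2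
  have hA2 : A ^ 2 * (((n : ℝ) + 1) * (2 * (P * (1 - P)))) ≤ 1 :=
    sq_bound _ _ hA0 (by positivity) hA
  have hA'2 : A' ^ 2 * (((n : ℝ) + 1) * (2 * (P * (1 - P)))) ≤ 1 := by
    have := sq_bound _ _ hA'0 (by positivity) hA'
    refine le_trans ?_ this
    apply mul_le_mul_of_nonneg_left _ (by positivity)
    apply mul_le_mul_of_nonneg_right _ (by positivity)
    push_cast; linarith
  have hB2 : B ^ 2 * (((k : ℝ) + 1) * (2 * (p₁ * (1 - p₁)))) ≤ 1 :=
    sq_bound _ _ hB0 (by positivity) hB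
  have hAA : A * A' * (((n : ℝ) + 1) * (2 * (P * (1 - P)))) ≤ 1 := by
    have : A * A' ≤ (A ^ 2 + A' ^ 2) / 2 := by nlinarith [sq_nonneg (A - A')]
    have h3 := mul_le_mul_of_nonneg_right this
      (show 0 ≤ (((n : ℝ) + 1) * (2 * (P * (1 - P)))) by positivity)
    linarith
  -- (A B)^2 (n+1)^2 * (4 P^2 (1-P) p₁ (1-p₁)) ≤ 1
  have hfin : (A * B * ((n : ℝ) + 1) * (2 * P)) ^ 2 * ((1 - P) * (p₁ * (1 - p₁))) ≤ 1 := by
    have e : (A * B * ((n : ℝ) + 1) * (2 * P)) ^ 2 * ((1 - P) * (p₁ * (1 - p₁)))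
        = (A * ((n + 1) * P)) * (A * (((n : ℝ) + 1) * (2 * (P * (1 - P))))) *
          (B ^ 2 * (2 * (p₁ * (1 - p₁)))) := by ring
    rw [e, hrel]
    have e2 : A' * (k + 1) * (A * (((n : ℝ) + 1) * (2 * (P * (1 - P))))) *
          (B ^ 2 * (2 * (p₁ * (1 - p₁))))
        = (A * A' * (((n : ℝ) + 1) * (2 * (P * (1 - P))))) *
          (B ^ 2 * (((k : ℝ) + 1) * (2 * (p₁ * (1 - p₁))))) := by ring
    rw [e2]
    have hnn : 0 ≤ A * A' * (((n : ℝ) + 1) * (2 * (P * (1 - P)))) := by positivity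
    calc _ ≤ 1 * 1 := mul_le_mul hAA hB2 (by positivity) (by norm_num)
      _ = 1 := by norm_num
  have hc : 0 < (1 - P) * (p₁ * (1 - p₁)) := by positivity
  set c := (1 - P) * (p₁ * (1 - p₁)) with hcdef
  have hs : 0 < Real.sqrt c := Real.sqrt_pos.2 hc
  have h5 : A * B * ((n : ℝ) + 1) * (2 * P) * Real.sqrt c ≤ 1 := by
    have : (A * B * ((n : ℝ) + 1) * (2 * P) * Real.sqrt c) ^ 2 ≤ 1 ^ 2 := by
      rw [mul_pow, Real.sq_sqrt hc.le]; simpa using hfin
    exact (pow_le_pow_iff_left₀ (by positivity) (by norm_num) (by norm_num)).1 this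
  rw [div_div, le_div_iff₀ (by positivity)]
  calc A * B * (2 * P * Real.sqrt c * ((n : ℝ) + 1))
      = A * B * ((n : ℝ) + 1) * (2 * P) * Real.sqrt c := by ring
    _ ≤ 1 := h5

end Crest.Agent.R98.Mult
end

-- ▼ part R98/MultVisit
section

/-!
Row 98, module MULT, part 2: exact formula (upper bound) for the probability that a random word of
length `n` has `a₁` letters `i₁`, `a₂` letters `i₂` and the subword `b` of the other letters, and
the local bound `≤ C/(n+1) * p(b)`.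
-/

set_option autoImplicit false

open Finset

namespace Crest.Agent.R98.Mult

variable {ι : Type*} [DecidableEq ι]

/-- number of letters `i` in the word `w`. -/
def cnt (i : ι) {n : ℕ} (w : Fin n → ι) : ℕ := (List.ofFn w).count i

/-- subword of the letters different from `i₁`, `i₂`. -/
def oth (i₁ i₂ : ι) {n : ℕ} (w : Fin n → ι) : List ι :=
  (List.ofFn w).filter (fun i => decide (i ≠ i₁ ∧ i ≠ i₂))

lemma cnt_cons (i x : ι) {n : ℕ} (w : Fin n → ι) :
    cnt i (Fin.cons x w : Fin (n + 1) → ι) = cnt i w + if x = i then 1 else 0 := by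
  unfold cnt
  rw [List.ofFn_cons, List.count_cons]
  simp [beq_iff_eq]

lemma oth_cons (i₁ i₂ x : ι) {n : ℕ} (w : Fin n → ι) :
    oth i₁ i₂ (Fin.cons x w : Fin (n + 1) → ι)
      = if x ≠ i₁ ∧ x ≠ i₂ then x :: oth i₁ i₂ w else oth i₁ i₂ w := by
  unfold oth
  rw [List.ofFn_cons, List.filter_cons]
  by_cases h : x ≠ i₁ ∧ x ≠ i₂
  · simp [h]
  · simp only [h, if_false, decide_false]
    simp

lemma cnt_add_length (i₁ i₂ : ι) (h : i₁ ≠ i₂) {n : ℕ} (w : Fin n → ι) :
    cnt i₁ w + cnt i₂ w + (oth i₁ i₂ w).length = n := by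
  induction n with
  | zero => simp [cnt, oth]
  | succ n ih =>
    rw [← Fin.cons_self_tail w, cnt_cons, cnt_cons, oth_cons]
    have := ih (Fin.tail w)
    by_cases h1 : w 0 = i₁
    · have h2 : w 0 ≠ i₂ := by rw [h1]; exact h
      have h3 : ¬ (w 0 ≠ i₁ ∧ w 0 ≠ i₂) := by tauto
      rw [if_pos h1, if_neg h2, if_neg h3]; omega
    · by_cases h2 : w 0 = i₂
      · have h3 : ¬ (w 0 ≠ i₁ ∧ w 0 ≠ i₂) := by tauto
        rw [if_neg h1, if_pos h2, if_neg h3]; omega
      · have h3 : (w 0 ≠ i₁ ∧ w 0 ≠ i₂) := ⟨h1, h2⟩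
        rw [if_neg h1, if_neg h2, if_pos h3, List.length_cons]; omega

/-- the weight of all words with given `(a₁, a₂, b)`. -/
noncomputable def Wt [Fintype ι] (p : ι → ℝ) (i₁ i₂ : ι) (n a₁ a₂ : ℕ) (b : List ι) : ℝ :=
  ∑ w : Fin n → ι, if cnt i₁ w = a₁ ∧ cnt i₂ w = a₂ ∧ oth i₁ i₂ w = b then ∏ j, p (w j) else 0

/-- the product of weights of a word. -/
def pl (p : ι → ℝ) (b : List ι) : ℝ := (b.map p).prod

omit [DecidableEq ι] in
lemma pl_nonneg (p : ι → ℝ) (hp : ∀ i, 0 ≤ p i) (b : List ι) : 0 ≤ pl p b := by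
  unfold pl
  apply List.prod_nonneg
  intro x hx
  obtain ⟨i, _, rfl⟩ := List.mem_map.1 hx
  exact hp i

/-- explicit multinomial form. -/
noncomputable def Tt (p : ι → ℝ) (i₁ i₂ : ι) (a₁ a₂ : ℕ) (b : List ι) : ℝ :=
  ((a₁ + a₂ + b.length).choose b.length : ℝ) * ((a₁ + a₂).choose a₁ : ℝ) *
    (p i₁ ^ a₁ * p i₂ ^ a₂ * pl p b)

lemma Tt_nonneg (p : ι → ℝ) (hp : ∀ i, 0 ≤ p i) (i₁ i₂ : ι) (a₁ a₂ : ℕ) (b : List ι) :
    0 ≤ Tt p i₁ i₂ a₁ a₂ b := by
  unfold Tt
  have := hp i₁; have := hp i₂; have := pl_nonneg p hp b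
  positivity

/-- Pascal for the trinomial coefficient. -/
lemma pascal3 (a₁ a₂ β : ℕ) (h : 0 < a₁ + a₂ + β) :
    (((a₁ + a₂ + β).choose β : ℝ) * ((a₁ + a₂).choose a₁ : ℝ)) =
      (if 0 < a₁ then (((a₁ - 1 + a₂ + β).choose β : ℝ) * ((a₁ - 1 + a₂).choose (a₁ - 1) : ℝ)) else 0)
      + (if 0 < a₂ then (((a₁ + (a₂ - 1) + β).choose β : ℝ) * ((a₁ + (a₂ - 1)).choose a₁ : ℝ))
          else 0)
      + (if 0 < β then (((a₁ + a₂ + (β - 1)).choose (β - 1) : ℝ) * ((a₁ + a₂).choose a₁ : ℝ))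
          else 0) := by
  rcases Nat.eq_zero_or_pos a₁ with h1 | h1 <;> rcases Nat.eq_zero_or_pos a₂ with h2 | h2 <;>
    rcases Nat.eq_zero_or_pos β with h3 | h3
  · omega
  · subst h1; subst h2
    simp [h3]
  · subst h1; subst h3
    simp [h2]
  · subst h1
    obtain ⟨a, rfl⟩ : ∃ a, a₂ = a + 1 := ⟨a₂ - 1, by omega⟩
    obtain ⟨β', rfl⟩ : ∃ b', β = b' + 1 := ⟨β - 1, by omega⟩
    simp only [lt_self_iff_false, if_false, Nat.succ_pos, if_true, zero_add, Nat.add_sub_cancel,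
      Nat.choose_zero_right, Nat.cast_one, mul_one]
    have e : a + 1 + (β' + 1) = (a + 1 + β') + 1 := by ring
    rw [e, Nat.choose_succ_succ']
    have e2 : a + (β' + 1) = a + 1 + β' := by ring
    rw [e2]; push_cast; ring
  · subst h2; subst h3
    simp [h1]
  · subst h2
    obtain ⟨a, rfl⟩ : ∃ a, a₁ = a + 1 := ⟨a₁ - 1, by omega⟩
    obtain ⟨β', rfl⟩ : ∃ b', β = b' + 1 := ⟨β - 1, by omega⟩
    simp only [lt_self_iff_false, if_false, Nat.succ_pos, if_true, add_zero, Nat.add_sub_cancel,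
      Nat.choose_self, Nat.cast_one, mul_one]
    have e : a + 1 + (β' + 1) = (a + 1 + β') + 1 := by ring
    rw [e, Nat.choose_succ_succ']
    have e2 : a + (β' + 1) = a + 1 + β' := by ring
    rw [e2]; push_cast; ring
  · subst h3
    obtain ⟨a, rfl⟩ : ∃ a, a₁ = a + 1 := ⟨a₁ - 1, by omega⟩
    obtain ⟨b, rfl⟩ : ∃ b, a₂ = b + 1 := ⟨a₂ - 1, by omega⟩
    simp only [lt_self_iff_false, if_false, Nat.succ_pos, if_true, add_zero, Nat.add_sub_cancel,
      Nat.choose_zero_right, Nat.cast_one, one_mul]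
    have e : a + 1 + (b + 1) = (a + (b + 1)) + 1 := by ring
    rw [e, Nat.choose_succ_succ']
    have e2 : a + 1 + b = a + (b + 1) := by ring
    rw [e2]; push_cast; ring
  · obtain ⟨a, rfl⟩ : ∃ a, a₁ = a + 1 := ⟨a₁ - 1, by omega⟩
    obtain ⟨b, rfl⟩ : ∃ b, a₂ = b + 1 := ⟨a₂ - 1, by omega⟩
    obtain ⟨β', rfl⟩ : ∃ b', β = b' + 1 := ⟨β - 1, by omega⟩
    simp only [Nat.succ_pos, if_true, Nat.add_sub_cancel]
    have e : a + 1 + (b + 1) + (β' + 1) = (a + 1 + (b + 1) + β') + 1 := by ring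
    have e1 : a + (b + 1) + (β' + 1) = a + 1 + (b + 1) + β' := by ring
    have e2 : a + 1 + b + (β' + 1) = a + 1 + (b + 1) + β' := by ring
    have e3 : a + 1 + (b + 1) = (a + (b + 1)) + 1 := by ring
    have e4 : a + 1 + b = a + (b + 1) := by ring
    rw [e, e1, e2, Nat.choose_succ_succ' (a + 1 + (b + 1) + β') β']
    have h5 : ((a + 1 + (b + 1)).choose (a + 1)) = (a + (b + 1)).choose a
        + (a + (b + 1)).choose (a + 1) := by
      rw [e3, Nat.choose_succ_succ']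
    rw [h5, e4]
    push_cast; ring

variable [Fintype ι]

omit [DecidableEq ι] in
lemma sum_cons {n : ℕ} (F : (Fin (n + 1) → ι) → ℝ) :
    ∑ w : Fin (n + 1) → ι, F w = ∑ x : ι, ∑ w : Fin n → ι, F (Fin.cons x w : Fin (n + 1) → ι) := by
  rw [← Fintype.sum_prod_type']
  exact (Fintype.sum_equiv (Fin.consEquiv (fun _ : Fin (n + 1) => ι)) _ _ (fun _ => rfl)).symm

lemma Wt_succ (p : ι → ℝ) (i₁ i₂ : ι) (h : i₁ ≠ i₂) (n a₁ a₂ : ℕ) (b : List ι) :
    Wt p i₁ i₂ (n + 1) a₁ a₂ b =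
      (if 0 < a₁ then p i₁ * Wt p i₁ i₂ n (a₁ - 1) a₂ b else 0)
      + (if 0 < a₂ then p i₂ * Wt p i₁ i₂ n a₁ (a₂ - 1) b else 0)
      + ∑ x ∈ univ.filter (fun x => x ≠ i₁ ∧ x ≠ i₂),
          ∑ w : Fin n → ι, (if cnt i₁ w = a₁ ∧ cnt i₂ w = a₂ ∧ x :: oth i₁ i₂ w = b then
            p x * ∏ j, p (w j) else 0) := by
  unfold Wt
  rw [sum_cons]
  have hsplit : ∀ G : ι → ℝ, ∑ x, G x = G i₁ + G i₂ + ∑ x ∈ univ.filter (fun x => x ≠ i₁ ∧ x ≠ i₂), G x := by
    intro G
    rw [← Finset.sum_filter_add_sum_filter_not univ (fun x => x ≠ i₁ ∧ x ≠ i₂) G, add_comm]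
    congr 1
    have : univ.filter (fun x => ¬ (x ≠ i₁ ∧ x ≠ i₂)) = {i₁, i₂} := by
      ext x; simp only [Finset.mem_filter, Finset.mem_univ, true_and, Finset.mem_insert,
        Finset.mem_singleton]; tauto
    rw [this, Finset.sum_pair h]
  rw [hsplit]
  congr 1
  · congr 1
    · -- i₁
      have h3 : ¬ (i₁ ≠ i₁ ∧ i₁ ≠ i₂) := by tauto
      simp only [cnt_cons, oth_cons, if_neg h3, if_true, if_neg h, Fin.prod_univ_succ,
        Fin.cons_zero, Fin.cons_succ, add_zero]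
      rcases Nat.eq_zero_or_pos a₁ with h1 | h1
      · subst h1; simp
      · rw [if_pos h1, Finset.mul_sum]
        apply Finset.sum_congr rfl
        intro w _
        have : (cnt i₁ w + 1 = a₁) ↔ (cnt i₁ w = a₁ - 1) := by omega
        simp only [this]
        split_ifs <;> simp
    · have h3 : ¬ (i₂ ≠ i₁ ∧ i₂ ≠ i₂) := by tauto
      simp only [cnt_cons, oth_cons, if_neg h3, if_true, if_neg (Ne.symm h), Fin.prod_univ_succ,
        Fin.cons_zero, Fin.cons_succ, add_zero]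
      rcases Nat.eq_zero_or_pos a₂ with h1 | h1
      · subst h1; simp
      · rw [if_pos h1, Finset.mul_sum]
        apply Finset.sum_congr rfl
        intro w _
        have : (cnt i₂ w + 1 = a₂) ↔ (cnt i₂ w = a₂ - 1) := by omega
        simp only [this]
        split_ifs <;> simp
  · apply Finset.sum_congr rfl
    intro x hx
    simp only [Finset.mem_filter, Finset.mem_univ, true_and] at hx
    apply Finset.sum_congr rfl
    intro w _
    simp only [cnt_cons, oth_cons, if_pos hx, if_neg hx.1, if_neg hx.2, add_zero,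
      Fin.prod_univ_succ, Fin.cons_zero, Fin.cons_succ]

lemma Wt_le (p : ι → ℝ) (hp : ∀ i, 0 ≤ p i) (i₁ i₂ : ι) (h : i₁ ≠ i₂) (n : ℕ) :
    ∀ (a₁ a₂ : ℕ) (b : List ι), Wt p i₁ i₂ n a₁ a₂ b ≤ Tt p i₁ i₂ a₁ a₂ b := by
  induction n with
  | zero =>
    intro a₁ a₂ b
    unfold Wt
    rw [Fintype.sum_unique]
    by_cases hc : cnt i₁ (default : Fin 0 → ι) = a₁ ∧ cnt i₂ (default : Fin 0 → ι) = a₂ ∧
        oth i₁ i₂ (default : Fin 0 → ι) = b
    · rw [if_pos hc]
      have h1 : a₁ = 0 := by rw [← hc.1]; simp [cnt]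
      have h2 : a₂ = 0 := by rw [← hc.2.1]; simp [cnt]
      have h3 : b = [] := by rw [← hc.2.2]; simp [oth]
      subst h1; subst h2; subst h3
      simp [Tt, pl]
    · rw [if_neg hc]; exact Tt_nonneg p hp i₁ i₂ a₁ a₂ b
  | succ n ih =>
    intro a₁ a₂ b
    rw [Wt_succ p i₁ i₂ h]
    rcases Nat.eq_zero_or_pos (a₁ + a₂ + b.length) with h0 | h0
    · have h1 : a₁ = 0 := by omega
      have h2 : a₂ = 0 := by omega
      have h3 : b = [] := List.eq_nil_of_length_eq_zero (by omega)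
      subst h1; subst h2; subst h3
      simp only [lt_self_iff_false, if_false, zero_add]
      refine le_trans (le_of_eq ?_) (Tt_nonneg p hp i₁ i₂ 0 0 [])
      apply Finset.sum_eq_zero; intro x _
      apply Finset.sum_eq_zero; intro w _
      rw [if_neg]; simp
    -- the three bounds
    have hA : (if 0 < a₁ then p i₁ * Wt p i₁ i₂ n (a₁ - 1) a₂ b else 0)
        ≤ (if 0 < a₁ then (((a₁ - 1 + a₂ + b.length).choose b.length : ℝ) *
          ((a₁ - 1 + a₂).choose (a₁ - 1) : ℝ)) else 0) * (p i₁ ^ a₁ * p i₂ ^ a₂ * pl p b) := by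
      split_ifs with h1
      · have := mul_le_mul_of_nonneg_left (ih (a₁ - 1) a₂ b) (hp i₁)
        refine le_trans this (le_of_eq ?_)
        unfold Tt
        have e : p i₁ ^ a₁ = p i₁ * p i₁ ^ (a₁ - 1) := by
          rw [← pow_succ']; congr 1; omega
        rw [e]; ring
      · simp
    have hB : (if 0 < a₂ then p i₂ * Wt p i₁ i₂ n a₁ (a₂ - 1) b else 0)
        ≤ (if 0 < a₂ then (((a₁ + (a₂ - 1) + b.length).choose b.length : ℝ) *
          ((a₁ + (a₂ - 1)).choose a₁ : ℝ)) else 0) * (p i₁ ^ a₁ * p i₂ ^ a₂ * pl p b) := by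
      split_ifs with h1
      · have := mul_le_mul_of_nonneg_left (ih a₁ (a₂ - 1) b) (hp i₂)
        refine le_trans this (le_of_eq ?_)
        unfold Tt
        have e : p i₂ ^ a₂ = p i₂ * p i₂ ^ (a₂ - 1) := by
          rw [← pow_succ']; congr 1; omega
        rw [e]; ring
      · simp
    have hC : ∑ x ∈ univ.filter (fun x => x ≠ i₁ ∧ x ≠ i₂),
          ∑ w : Fin n → ι, (if cnt i₁ w = a₁ ∧ cnt i₂ w = a₂ ∧ x :: oth i₁ i₂ w = b then
            p x * ∏ j, p (w j) else 0)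
        ≤ (if 0 < b.length then (((a₁ + a₂ + (b.length - 1)).choose (b.length - 1) : ℝ) *
          ((a₁ + a₂).choose a₁ : ℝ)) else 0) * (p i₁ ^ a₁ * p i₂ ^ a₂ * pl p b) := by
      cases b with
      | nil =>
        simp
      | cons y b' =>
        have e1 : ∀ x ∈ univ.filter (fun x => x ≠ i₁ ∧ x ≠ i₂), x ≠ y →
            ∑ w : Fin n → ι, (if cnt i₁ w = a₁ ∧ cnt i₂ w = a₂ ∧ x :: oth i₁ i₂ w = y :: b' then
            p x * ∏ j, p (w j) else 0) = 0 := by
          intro x _ hxy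
          apply Finset.sum_eq_zero; intro w _
          rw [if_neg]
          rintro ⟨_, _, h4⟩
          exact hxy (List.cons.inj h4).1
        have e2 : ∑ w : Fin n → ι, (if cnt i₁ w = a₁ ∧ cnt i₂ w = a₂ ∧
            y :: oth i₁ i₂ w = y :: b' then p y * ∏ j, p (w j) else 0)
            = p y * Wt p i₁ i₂ n a₁ a₂ b' := by
          unfold Wt
          rw [Finset.mul_sum]
          apply Finset.sum_congr rfl; intro w _
          have : (y :: oth i₁ i₂ w = y :: b') ↔ (oth i₁ i₂ w = b') := by simp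
          simp only [this]
          split_ifs <;> simp
        have e3 : 0 ≤ p y * Wt p i₁ i₂ n a₁ a₂ b' := by
          apply mul_nonneg (hp y)
          unfold Wt
          apply Finset.sum_nonneg; intro w _
          split_ifs
          · exact Finset.prod_nonneg fun j _ => hp _
          · exact le_rfl
        have e4 : ∑ x ∈ univ.filter (fun x => x ≠ i₁ ∧ x ≠ i₂),
          ∑ w : Fin n → ι, (if cnt i₁ w = a₁ ∧ cnt i₂ w = a₂ ∧ x :: oth i₁ i₂ w = y :: b' then
            p x * ∏ j, p (w j) else 0) ≤ p y * Wt p i₁ i₂ n a₁ a₂ b' := by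
          by_cases hy : y ∈ univ.filter (fun x => x ≠ i₁ ∧ x ≠ i₂)
          · rw [Finset.sum_eq_single_of_mem y hy (fun x hx hxy => e1 x hx hxy), e2]
          · rw [Finset.sum_eq_zero]
            · exact e3
            · intro x hx
              apply e1 x hx
              rintro rfl; exact hy hx
        refine le_trans e4 ?_
        have := mul_le_mul_of_nonneg_left (ih a₁ a₂ b') (hp y)
        refine le_trans this (le_of_eq ?_)
        unfold Tt pl
        simp only [List.length_cons, Nat.succ_pos, if_true, Nat.add_sub_cancel, List.map_cons,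
          List.prod_cons]
        ring
    calc _ ≤ _ := add_le_add (add_le_add hA hB) hC
      _ = Tt p i₁ i₂ a₁ a₂ b := by
        rw [← add_mul, ← add_mul, ← pascal3 a₁ a₂ b.length h0]
        rfl

omit [DecidableEq ι] [Fintype ι] in
lemma pl_div (p : ι → ℝ) (c : ℝ) (b : List ι) :
    pl (fun i => p i / c) b = pl p b / c ^ b.length := by
  unfold pl
  induction b with
  | nil => simp
  | cons x b ih =>
    simp only [List.map_cons, List.prod_cons, List.length_cons, ih, pow_succ]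
    rw [div_mul_div_comm]; congr 1; ring

/-- LOCAL BOUND (M*), case of at least three letters. -/
theorem visit_le (p : ι → ℝ) (hp : ∀ i, 0 < p i) (hp1 : ∑ i, p i = 1) (i₁ i₂ : ι) (h : i₁ ≠ i₂)
    (h3 : p i₁ + p i₂ < 1) (n a₁ a₂ : ℕ) (b : List ι) :
    Wt p i₁ i₂ n a₁ a₂ b ≤
      (1 / (2 * Real.sqrt ((1 - (p i₁ + p i₂)) * (p i₁ * p i₂)))) / ((n : ℝ) + 1) *
        pl (fun i => p i / (1 - (p i₁ + p i₂))) b := by
  have hq : 0 < 1 - (p i₁ + p i₂) := by linarith
  have hp0 : ∀ i, 0 ≤ p i := fun i => (hp i).le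
  have hplq : 0 ≤ pl (fun i => p i / (1 - (p i₁ + p i₂))) b :=
    pl_nonneg _ (fun i => div_nonneg (hp0 i) hq.le) b
  have hp₁ := hp i₁
  have hp₂ := hp i₂
  by_cases hn : a₁ + a₂ + b.length = n
  · refine le_trans (Wt_le p hp0 i₁ i₂ h n a₁ a₂ b) ?_
    set P : ℝ := p i₁ + p i₂ with hP
    have hPpos : 0 < P := by positivity
    set k : ℕ := a₁ + a₂ with hk
    have hkn : k ≤ n := by omega
    have hb : b.length = n - k := by omega
    have hlt : p i₁ / P < 1 := by rw [div_lt_one hPpos]; linarith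
    have key := bin_bin_le n P (p i₁ / P) hPpos h3 (by positivity) hlt k a₁ hkn
    have e1 : Tt p i₁ i₂ a₁ a₂ b = (bin n P k * bin k (p i₁ / P) a₁) *
        pl (fun i => p i / (1 - P)) b := by
      unfold Tt bin
      have hN : a₁ + a₂ + (n - k) = n := by omega
      rw [pl_div, hb, hN, Nat.choose_symm hkn, ← hk]
      have e2 : 1 - p i₁ / P = p i₂ / P := by
        rw [eq_div_iff hPpos.ne', sub_mul, div_mul_cancel₀ _ hPpos.ne', hP]; ring
      have e3 : k - a₁ = a₂ := by omega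
      rw [e2, e3, div_pow, div_pow]
      have e4 : P ^ k = P ^ a₁ * P ^ a₂ := by rw [hk, pow_add]
      rw [e4]
      have hPa : P ^ a₁ ≠ 0 := by positivity
      have hPb : P ^ a₂ ≠ 0 := by positivity
      have hQ : (1 - P) ^ (n - k) ≠ 0 := by positivity
      field_simp
    rw [e1]
    apply mul_le_mul_of_nonneg_right _ hplq
    refine le_trans key (le_of_eq ?_)
    have e5 : 2 * P * Real.sqrt ((1 - P) * (p i₁ / P * (1 - p i₁ / P)))
        = 2 * Real.sqrt ((1 - P) * (p i₁ * p i₂)) := by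
      have e2 : 1 - p i₁ / P = p i₂ / P := by
        rw [eq_div_iff hPpos.ne', sub_mul, div_mul_cancel₀ _ hPpos.ne', hP]; ring
      rw [e2]
      have e6 : (1 - P) * (p i₁ * p i₂) = P ^ 2 * ((1 - P) * (p i₁ / P * (p i₂ / P))) := by
        field_simp
      rw [e6, Real.sqrt_mul (sq_nonneg P), Real.sqrt_sq hPpos.le]; ring
    rw [e5]
  · have : Wt p i₁ i₂ n a₁ a₂ b = 0 := by
      unfold Wt
      apply Finset.sum_eq_zero; intro w _
      rw [if_neg]
      rintro ⟨rfl, rfl, rfl⟩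
      exact hn (cnt_add_length i₁ i₂ h w)
    rw [this]
    positivity

/-- LOCAL BOUND (M*), two letters only. -/
theorem visit_le_two (p : ι → ℝ) (hp : ∀ i, 0 < p i) (i₁ i₂ : ι) (h : i₁ ≠ i₂)
    (h3 : p i₁ + p i₂ = 1) (n a₁ a₂ : ℕ) :
    Wt p i₁ i₂ n a₁ a₂ [] ≤
      1 / Real.sqrt (((n : ℝ) + 1) * (2 * (p i₁ * p i₂))) := by
  have hp0 : ∀ i, 0 ≤ p i := fun i => (hp i).le
  by_cases hn : a₁ + a₂ = n
  · refine le_trans (Wt_le p hp0 i₁ i₂ h n a₁ a₂ []) ?_
    have hp₁ := hp i₁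
    have hp₂ := hp i₂
    have e2 : p i₂ = 1 - p i₁ := by linarith
    have key := bin_le n (p i₁) hp₁ (by linarith) a₁
    have e : Tt p i₁ i₂ a₁ a₂ [] = bin n (p i₁) a₁ := by
      unfold Tt bin pl
      have e3 : n - a₁ = a₂ := by omega
      rw [e3, ← e2, ← hn]
      simp
      ring
    rw [e, e2]; exact key
  · have : Wt p i₁ i₂ n a₁ a₂ [] = 0 := by
      unfold Wt
      apply Finset.sum_eq_zero; intro w _
      rw [if_neg]
      rintro ⟨rfl, rfl, h5⟩
      have := cnt_add_length i₁ i₂ h w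
      rw [h5] at this
      simp at this
      exact hn this
    rw [this]
    positivity

end Crest.Agent.R98.Mult
end

-- ▼ part R98/MultTail

/-!
Row 98, module MULT, part 3: exponential tails for words (Chernoff) and typicality of stopped words.
-/

set_option autoImplicit false

open Finset

namespace Crest.Agent.R98.Mult

variable {ι : Type*} [Fintype ι]

open Classical in
/-- `Pr p n E` is the total weight of the words of length `n` satisfying `E`. -/
noncomputable def Pr (p : ι → ℝ) (n : ℕ) (E : (Fin n → ι) → Prop) : ℝ :=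
  ∑ w : Fin n → ι, if E w then ∏ j, p (w j) else 0

lemma Pr_nonneg (p : ι → ℝ) (hp : ∀ i, 0 ≤ p i) (n : ℕ) (E : (Fin n → ι) → Prop) :
    0 ≤ Pr p n E := by
  unfold Pr
  apply Finset.sum_nonneg; intro w _
  split_ifs
  · exact Finset.prod_nonneg fun j _ => hp _
  · exact le_rfl

lemma Pr_mono (p : ι → ℝ) (hp : ∀ i, 0 ≤ p i) (n : ℕ) {E F : (Fin n → ι) → Prop}
    (h : ∀ w, E w → F w) : Pr p n E ≤ Pr p n F := by
  unfold Pr
  apply Finset.sum_le_sum; intro w _
  have h0 : 0 ≤ ∏ j, p (w j) := Finset.prod_nonneg fun j _ => hp _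
  by_cases h1 : E w
  · rw [if_pos h1, if_pos (h w h1)]
  · rw [if_neg h1]; split_ifs <;> simp [h0]

lemma Pr_or (p : ι → ℝ) (hp : ∀ i, 0 ≤ p i) (n : ℕ) (E F : (Fin n → ι) → Prop) :
    Pr p n (fun w => E w ∨ F w) ≤ Pr p n E + Pr p n F := by
  unfold Pr
  rw [← Finset.sum_add_distrib]
  apply Finset.sum_le_sum; intro w _
  have h0 : 0 ≤ ∏ j, p (w j) := Finset.prod_nonneg fun j _ => hp _
  by_cases h1 : E w <;> by_cases h2 : F w <;> simp [h1, h2, h0]

open Classical in
lemma Pr_exists (p : ι → ℝ) (hp : ∀ i, 0 ≤ p i) (n : ℕ) {κ : Type*} [Fintype κ]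
    (E : κ → (Fin n → ι) → Prop) :
    Pr p n (fun w => ∃ k, E k w) ≤ ∑ k, Pr p n (E k) := by
  unfold Pr
  rw [Finset.sum_comm]
  apply Finset.sum_le_sum; intro w _
  have h0 : 0 ≤ ∏ j, p (w j) := Finset.prod_nonneg fun j _ => hp _
  by_cases h1 : ∃ k, E k w
  · obtain ⟨k, hk⟩ := h1
    rw [if_pos ⟨k, hk⟩]
    refine le_trans ?_ (Finset.single_le_sum (f := fun k => if E k w then ∏ j, p (w j) else 0)
      ?_ (Finset.mem_univ k))
    · simp [hk]
    · intro k _
      by_cases h : E k w <;> simp [h, h0]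
  · rw [if_neg h1]
    apply Finset.sum_nonneg; intro k _
    by_cases h : E k w <;> simp [h, h0]

lemma Pr_eq_zero (p : ι → ℝ) (n : ℕ) (E : (Fin n → ι) → Prop) (h : ∀ w, ¬ E w) :
    Pr p n E = 0 := by
  unfold Pr
  apply Finset.sum_eq_zero; intro w _
  rw [if_neg (h w)]

/-- one-sided Chernoff bound. -/
lemma chernoff_upper (p : ι → ℝ) (hp : ∀ i, 0 ≤ p i) (hp1 : ∑ i, p i = 1) (x : ι → ℝ) (m L : ℝ)
    (hm : ∑ i, p i * x i = m) (hL : 0 < L) (hx : ∀ i, |x i - m| ≤ L) (n : ℕ) (hn : 0 < n)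
    (t : ℝ) (ht : 0 ≤ t) :
    Pr p n (fun w => t ≤ ∑ j, (x (w j) - m)) ≤ Real.exp (-(t ^ 2 / (4 * n * L ^ 2))) := by
  have hn' : (0 : ℝ) < n := by exact_mod_cast hn
  rcases lt_or_ge (n * L) t with hbig | hsmall
  · rw [Pr_eq_zero]
    · positivity
    · intro w h
      have : ∑ j, (x (w j) - m) ≤ ∑ _j : Fin n, L :=
        Finset.sum_le_sum fun j _ => (le_abs_self _).trans (hx _)
      rw [Finset.sum_const, Finset.card_univ, Fintype.card_fin, nsmul_eq_mul] at this
      linarith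
  · set lam : ℝ := t / (2 * n * L ^ 2) with hlam
    have hlam0 : 0 ≤ lam := by positivity
    have hlamL : lam * L ≤ 1 / 2 := by
      rw [hlam, div_mul_eq_mul_div, div_le_iff₀ (by positivity)]
      nlinarith
    have h1 : Pr p n (fun w => t ≤ ∑ j, (x (w j) - m)) ≤
        ∑ w : Fin n → ι, (∏ j, p (w j)) * Real.exp (lam * (∑ j, (x (w j) - m) - t)) := by
      unfold Pr
      apply Finset.sum_le_sum; intro w _
      have h0 : 0 ≤ ∏ j, p (w j) := Finset.prod_nonneg fun j _ => hp _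
      split_ifs with h
      · have : 1 ≤ Real.exp (lam * (∑ j, (x (w j) - m) - t)) := by
          apply Real.one_le_exp
          apply mul_nonneg hlam0; linarith
        calc ∏ j, p (w j) = (∏ j, p (w j)) * 1 := by ring
          _ ≤ _ := mul_le_mul_of_nonneg_left this h0
      · positivity
    have h2 : ∑ w : Fin n → ι, (∏ j, p (w j)) * Real.exp (lam * (∑ j, (x (w j) - m) - t))
        = Real.exp (-(lam * t)) * (∑ i, p i * Real.exp (lam * (x i - m))) ^ n := by
      rw [Fintype.sum_pow, Finset.mul_sum]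
      apply Finset.sum_congr rfl; intro w _
      rw [Finset.prod_mul_distrib, ← Real.exp_sum, mul_sub, Real.exp_sub, Finset.mul_sum,
        Real.exp_neg]
      ring
    have h3 : ∑ i, p i * Real.exp (lam * (x i - m)) ≤ Real.exp ((lam * L) ^ 2) := by
      have hb : ∀ i, Real.exp (lam * (x i - m)) ≤ 1 + lam * (x i - m) + (lam * L) ^ 2 := by
        intro i
        have ha : |lam * (x i - m)| ≤ lam * L := by
          rw [abs_mul, abs_of_nonneg hlam0]
          exact mul_le_mul_of_nonneg_left (hx i) hlam0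
        have hle1 : |lam * (x i - m)| ≤ 1 := by linarith
        have := Real.abs_exp_sub_one_sub_id_le hle1
        have h4 := (abs_le.1 this).2
        have h5 : (lam * (x i - m)) ^ 2 ≤ (lam * L) ^ 2 := by
          rw [← sq_abs (lam * (x i - m))]
          exact pow_le_pow_left₀ (abs_nonneg _) ha 2
        linarith
      calc ∑ i, p i * Real.exp (lam * (x i - m))
          ≤ ∑ i, p i * (1 + lam * (x i - m) + (lam * L) ^ 2) :=
            Finset.sum_le_sum fun i _ => mul_le_mul_of_nonneg_left (hb i) (hp i)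
        _ = (∑ i, p i) + lam * ((∑ i, p i * x i) - m * ∑ i, p i) + (lam * L) ^ 2 * ∑ i, p i := by
            rw [Finset.mul_sum, ← Finset.sum_sub_distrib, Finset.mul_sum, Finset.mul_sum,
              ← Finset.sum_add_distrib, ← Finset.sum_add_distrib]
            apply Finset.sum_congr rfl; intro i _; ring
        _ = 1 + (lam * L) ^ 2 := by rw [hp1, hm]; ring
        _ ≤ Real.exp ((lam * L) ^ 2) := by
            have := Real.add_one_le_exp ((lam * L) ^ 2); linarith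
    have h3' : 0 ≤ ∑ i, p i * Real.exp (lam * (x i - m)) :=
      Finset.sum_nonneg fun i _ => mul_nonneg (hp i) (Real.exp_pos _).le
    calc Pr p n (fun w => t ≤ ∑ j, (x (w j) - m)) ≤ _ := h1
      _ = _ := h2
      _ ≤ Real.exp (-(lam * t)) * (Real.exp ((lam * L) ^ 2)) ^ n :=
          mul_le_mul_of_nonneg_left (pow_le_pow_left₀ h3' h3 n) (Real.exp_pos _).le
      _ = Real.exp (-(lam * t) + n * (lam * L) ^ 2) := by
          rw [← Real.exp_nat_mul, ← Real.exp_add]
      _ = Real.exp (-(t ^ 2 / (4 * n * L ^ 2))) := by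
          congr 1
          rw [hlam]; field_simp; ring

/-- two-sided Chernoff bound. -/
lemma chernoff (p : ι → ℝ) (hp : ∀ i, 0 ≤ p i) (hp1 : ∑ i, p i = 1) (x : ι → ℝ) (m L : ℝ)
    (hm : ∑ i, p i * x i = m) (hL : 0 < L) (hx : ∀ i, |x i - m| ≤ L) (n : ℕ) (hn : 0 < n)
    (t : ℝ) (ht : 0 ≤ t) :
    Pr p n (fun w => t ≤ |∑ j, x (w j) - n * m|) ≤ 2 * Real.exp (-(t ^ 2 / (4 * n * L ^ 2))) := by
  have h1 := chernoff_upper p hp hp1 x m L hm hL hx n hn t ht
  have h2 := chernoff_upper p hp hp1 (fun i => -x i) (-m) L (by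
      rw [← hm, ← Finset.sum_neg_distrib]; apply Finset.sum_congr rfl; intro i _; ring) hL (by
      intro i
      have := hx i
      rwa [show -x i - -m = -(x i - m) by ring, abs_neg]) n hn t ht
  have h3 : Pr p n (fun w => t ≤ |∑ j, x (w j) - n * m|) ≤
      Pr p n (fun w => (t ≤ ∑ j, (x (w j) - m)) ∨ (t ≤ ∑ j, (-x (w j) - -m))) := by
    apply Pr_mono p hp
    intro w hw
    have e1 : ∑ j, (x (w j) - m) = ∑ j, x (w j) - n * m := by
      rw [Finset.sum_sub_distrib]; simp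
    have e2 : ∑ j, (-x (w j) - -m) = -(∑ j, x (w j) - n * m) := by
      rw [← e1, ← Finset.sum_neg_distrib]; apply Finset.sum_congr rfl; intro j _; ring
    rw [e1, e2]
    rcases le_abs.1 hw with h | h
    · left; exact h
    · right; exact h
  calc _ ≤ _ := h3
    _ ≤ _ := Pr_or p hp n _ _
    _ ≤ _ := by linarith

/-- `cnt` as a sum. -/
lemma cnt_eq_sum [DecidableEq ι] (i : ι) {n : ℕ} (w : Fin n → ι) :
    (cnt i w : ℝ) = ∑ j, (if w j = i then (1 : ℝ) else 0) := by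
  induction n with
  | zero => simp [cnt]
  | succ n ih =>
    rw [Fin.sum_univ_succ]
    have := ih (Fin.tail w)
    have h2 := cnt_cons i (w 0) (Fin.tail w)
    rw [Fin.cons_self_tail] at h2
    rw [h2]
    push_cast
    rw [this, add_comm]
    rfl

/-- TAIL (M**): words whose length functional `S` lies in `[s, s+L]` are typical. -/
theorem tail [DecidableEq ι] (p l : ι → ℝ) (hp : ∀ i, 0 < p i) (hp1 : ∑ i, p i = 1)
    (L l0 : ℝ) (hl0 : 0 < l0) (hl : ∀ i, l0 ≤ l i) (hL : ∀ i, l i ≤ L) (chi : ℝ)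
    (hchi : chi = ∑ i, p i * l i) :
    ∃ C : ℝ, 0 < C ∧ ∃ s0 : ℝ, 2 ≤ s0 ∧ ∀ s : ℝ, s0 ≤ s → ∀ n : ℕ,
      Pr p n (fun w => s ≤ ∑ j, l (w j) ∧ ∑ j, l (w j) ≤ s + L ∧
        ¬ (|(n : ℝ) - s / chi| ≤ C * (Real.sqrt s * Real.log s) ∧
          ∀ i, |(cnt i w : ℝ) - s * p i / chi| ≤ C * (Real.sqrt s * Real.log s))) ≤ 1 / s ^ 3 := by
  have hne : Nonempty ι := by
    by_contra h
    rw [not_nonempty_iff] at h
    simp at hp1
  have hp0 : ∀ i, 0 ≤ p i := fun i => (hp i).le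
  have hchi0 : l0 ≤ chi := by
    rw [hchi]
    calc l0 = ∑ i, p i * l0 := by rw [← Finset.sum_mul, hp1, one_mul]
      _ ≤ _ := Finset.sum_le_sum fun i _ => mul_le_mul_of_nonneg_left (hl i) (hp0 i)
  have hchiL : chi ≤ L := by
    rw [hchi]
    calc ∑ i, p i * l i ≤ ∑ i, p i * L :=
          Finset.sum_le_sum fun i _ => mul_le_mul_of_nonneg_left (hL i) (hp0 i)
      _ = L := by rw [← Finset.sum_mul, hp1, one_mul]
  have hchipos : 0 < chi := lt_of_lt_of_le hl0 hchi0
  have hLpos : 0 < L := lt_of_lt_of_le hchipos hchiL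
  set K : ℝ := (Fintype.card ι : ℝ) with hK
  have hK1 : 1 ≤ K := by
    rw [hK]; exact_mod_cast Fintype.card_pos
  -- constants
  set L1 : ℝ := L + 1 with hL1
  have hL1pos : 0 < L1 := by linarith
  -- R with R^2 * l0 / (8 L1^2) ≥ 4
  set R : ℝ := Real.sqrt (32 * L1 ^ 2 / l0) with hR
  have hR2 : R ^ 2 = 32 * L1 ^ 2 / l0 := Real.sq_sqrt (by positivity)
  have hRpos : 0 < R := Real.sqrt_pos.2 (by positivity)
  set C : ℝ := R + (R + L) / chi with hC
  have hCpos : 0 < C := by positivity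
  refine ⟨C, hCpos, max 3 (max L (2 * (K + 1))), ?_, ?_⟩
  · exact le_trans (by norm_num) (le_max_left _ _)
  intro s hs n
  have hs3 : 3 ≤ s := le_trans (le_max_left _ _) hs
  have hsL : L ≤ s := le_trans (le_trans (le_max_left _ _) (le_max_right _ _)) hs
  have hsK : 2 * (K + 1) ≤ s := le_trans (le_trans (le_max_right _ _) (le_max_right _ _)) hs
  have hspos : 0 < s := by linarith
  have hlog1 : 1 ≤ Real.log s := by
    rw [Real.le_log_iff_exp_le hspos]
    have := Real.exp_one_lt_d9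
    linarith
  have hsqrt1 : 1 ≤ Real.sqrt s := by
    rw [Real.one_le_sqrt]; linarith
  set T : ℝ := R * (Real.sqrt s * Real.log s) with hT
  have hTpos : 0 < T := by positivity
  rcases Nat.eq_zero_or_pos n with h0 | hnpos
  · subst h0
    rw [Pr_eq_zero]
    · positivity
    · rintro w ⟨h1, _, _⟩
      simp at h1; linarith
  have hn' : (0 : ℝ) < n := by exact_mod_cast hnpos
  rcases lt_or_ge (s + L) (n * l0) with hbig | hsmall
  · rw [Pr_eq_zero]
    · positivity
    · rintro w ⟨_, h1, _⟩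
      have : ∑ _j : Fin n, l0 ≤ ∑ j, l (w j) := Finset.sum_le_sum fun j _ => hl _
      simp at this
      linarith
  have hnle : (n : ℝ) ≤ 2 * s / l0 := by
    rw [le_div_iff₀ hl0]; linarith
  -- the tail exponent
  have hexp : ∀ M : ℝ, 0 < M → M ≤ L1 →
      Real.exp (-(T ^ 2 / (4 * n * M ^ 2))) ≤ 1 / s ^ 4 := by
    intro M hM hML
    have h1 : 4 * Real.log s ≤ T ^ 2 / (4 * n * M ^ 2) := by
      rw [le_div_iff₀ (by positivity)]
      have hT2 : T ^ 2 = 32 * L1 ^ 2 / l0 * (s * Real.log s ^ 2) := by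
        rw [hT, mul_pow, mul_pow, hR2, Real.sq_sqrt hspos.le]
      rw [hT2]
      have h2 : (n : ℝ) * M ^ 2 ≤ 2 * s / l0 * L1 ^ 2 := by
        apply mul_le_mul hnle (pow_le_pow_left₀ hM.le hML 2) (by positivity) (by positivity)
      have h3 : Real.log s ≤ Real.log s ^ 2 := by nlinarith
      calc 4 * Real.log s * (4 * n * M ^ 2) = 16 * Real.log s * (n * M ^ 2) := by ring
        _ ≤ 16 * Real.log s * (2 * s / l0 * L1 ^ 2) :=
            mul_le_mul_of_nonneg_left h2 (by positivity)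
        _ = 32 * L1 ^ 2 / l0 * (s * Real.log s) := by ring
        _ ≤ 32 * L1 ^ 2 / l0 * (s * Real.log s ^ 2) := by
            apply mul_le_mul_of_nonneg_left _ (by positivity)
            exact mul_le_mul_of_nonneg_left h3 hspos.le
    calc Real.exp (-(T ^ 2 / (4 * n * M ^ 2))) ≤ Real.exp (-(4 * Real.log s)) := by
          apply Real.exp_le_exp.2; linarith
      _ = 1 / s ^ 4 := by
          have : 4 * Real.log s = Real.log (s ^ 4) := by
            rw [Real.log_pow]; norm_num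
          rw [Real.exp_neg, this, Real.exp_log (by positivity), one_div]
  have hS := chernoff p hp0 hp1 l chi L1 hchi.symm hL1pos (by
      intro i
      rw [abs_le]; constructor
      · have := hl i; linarith
      · have := hL i; linarith) n hnpos T hTpos.le
  have hcnt : ∀ i, Pr p n (fun w => T ≤ |∑ j, (fun k => if k = i then (1 : ℝ) else 0) (w j)
      - n * p i|) ≤ 2 * Real.exp (-(T ^ 2 / (4 * n * 1 ^ 2))) := by
    intro i
    refine chernoff p hp0 hp1 (fun k => if k = i then (1 : ℝ) else 0) (p i) 1 (by simp)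
      one_pos ?_ n hnpos T hTpos.le
    intro k
    have hpi : p i ≤ 1 := by
      rw [← hp1]; exact Finset.single_le_sum (fun j _ => hp0 j) (Finset.mem_univ i)
    have := hp i
    split_ifs
    · rw [abs_le]; constructor <;> linarith
    · rw [abs_le]; constructor <;> linarith
  -- combine
  have hincl : Pr p n (fun w => s ≤ ∑ j, l (w j) ∧ ∑ j, l (w j) ≤ s + L ∧
        ¬ (|(n : ℝ) - s / chi| ≤ C * (Real.sqrt s * Real.log s) ∧
          ∀ i, |(cnt i w : ℝ) - s * p i / chi| ≤ C * (Real.sqrt s * Real.log s)))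
      ≤ Pr p n (fun w => (T ≤ |∑ j, l (w j) - n * chi|) ∨
        ∃ i, T ≤ |∑ j, (fun k => if k = i then (1 : ℝ) else 0) (w j) - n * p i|) := by
    apply Pr_mono p hp0
    rintro w ⟨h1, h2, h3⟩
    by_contra hcon
    push Not at hcon
    obtain ⟨h4, h5⟩ := hcon
    apply h3
    have hSL : 1 ≤ Real.sqrt s * Real.log s := by nlinarith
    have hnch : |(n : ℝ) * chi - s| ≤ T + L := by
      have h6 := abs_lt.1 h4
      rw [abs_le]; constructor <;> linarith
    have hnn : |(n : ℝ) - s / chi| ≤ (T + L) / chi := by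
      have : (n : ℝ) - s / chi = (n * chi - s) / chi := by field_simp
      rw [this, abs_div, abs_of_pos hchipos]
      exact div_le_div_of_nonneg_right hnch hchipos.le
    have hTL : (T + L) / chi ≤ (R + L) / chi * (Real.sqrt s * Real.log s) := by
      rw [div_mul_eq_mul_div]
      apply div_le_div_of_nonneg_right _ hchipos.le
      rw [hT]; nlinarith
    refine ⟨?_, ?_⟩
    · refine le_trans hnn (le_trans hTL ?_)
      apply mul_le_mul_of_nonneg_right _ (by positivity)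
      rw [hC]; linarith
    · intro i
      have h6 := h5 i
      have hpi : p i ≤ 1 := by
        rw [← hp1]; exact Finset.single_le_sum (fun j _ => hp0 j) (Finset.mem_univ i)
      rw [cnt_eq_sum]
      have e : (∑ j, (if w j = i then (1 : ℝ) else 0)) - s * p i / chi
          = ((∑ j, (if w j = i then (1 : ℝ) else 0)) - n * p i) + p i * ((n : ℝ) - s / chi) := by
        ring
      rw [e]
      calc _ ≤ |(∑ j, (if w j = i then (1 : ℝ) else 0)) - n * p i| + |p i * ((n : ℝ) - s / chi)| :=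
            abs_add_le _ _
        _ ≤ T + 1 * ((R + L) / chi * (Real.sqrt s * Real.log s)) := by
            apply add_le_add h6.le
            rw [abs_mul, abs_of_pos (hp i)]
            exact mul_le_mul hpi (le_trans hnn hTL) (abs_nonneg _) (by norm_num)
        _ = C * (Real.sqrt s * Real.log s) := by rw [hT, hC]; ring
  refine le_trans hincl (le_trans (Pr_or p hp0 n _ _) ?_)
  have hex := Pr_exists p hp0 n (fun (i : ι) (w : Fin n → ι) =>
    T ≤ |∑ j, (fun k => if k = i then (1 : ℝ) else 0) (w j) - n * p i|)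
  have hsum : ∑ i, Pr p n (fun w => T ≤ |∑ j, (fun k => if k = i then (1 : ℝ) else 0) (w j)
      - n * p i|) ≤ ∑ _i : ι, 2 * (1 / s ^ 4) := by
    apply Finset.sum_le_sum; intro i _
    refine le_trans (hcnt i) ?_
    exact mul_le_mul_of_nonneg_left (hexp 1 one_pos (by linarith)) (by norm_num)
  have hS' : Pr p n (fun w => T ≤ |∑ j, l (w j) - n * chi|) ≤ 2 * (1 / s ^ 4) :=
    le_trans hS (mul_le_mul_of_nonneg_left (hexp L1 hL1pos le_rfl) (by norm_num))
  calc _ ≤ 2 * (1 / s ^ 4) + ∑ _i : ι, 2 * (1 / s ^ 4) := add_le_add hS' (le_trans hex hsum)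
    _ = (2 * (K + 1)) / s ^ 4 := by
        rw [Finset.sum_const, Finset.card_univ, nsmul_eq_mul, ← hK]; ring
    _ ≤ s / s ^ 4 := div_le_div_of_nonneg_right hsK (by positivity)
    _ = 1 / s ^ 3 := by field_simp

/-- no word of length `n > (s+L)/l0` has `S ≤ s + L`. -/
lemma Pr_long_eq_zero (p l : ι → ℝ) (L l0 s : ℝ) (hl : ∀ i, l0 ≤ l i) (n : ℕ)
    (hn : s + L < n * l0) (E : (Fin n → ι) → Prop) (hE : ∀ w, E w → ∑ j, l (w j) ≤ s + L) :
    Pr p n E = 0 := by
  apply Pr_eq_zero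
  intro w hw
  have h1 := hE w hw
  have : ∑ _j : Fin n, l0 ≤ ∑ j, l (w j) := Finset.sum_le_sum fun j _ => hl _
  simp at this
  linarith

/-- the total weight (over all lengths) of atypical words with `S ∈ [s, s+L]` is at most `C'/s²`. -/
theorem tail_sum [DecidableEq ι] (p l : ι → ℝ) (hp : ∀ i, 0 < p i) (hp1 : ∑ i, p i = 1)
    (L l0 : ℝ) (hl0 : 0 < l0) (hl : ∀ i, l0 ≤ l i) (hL : ∀ i, l i ≤ L) (chi : ℝ)
    (hchi : chi = ∑ i, p i * l i) :
    ∃ C : ℝ, 0 < C ∧ ∃ s0 : ℝ, 2 ≤ s0 ∧ ∀ s : ℝ, s0 ≤ s → ∀ M : ℕ,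
      ∑ n ∈ range M, Pr p n (fun w => s ≤ ∑ j, l (w j) ∧ ∑ j, l (w j) ≤ s + L ∧
        ¬ (|(n : ℝ) - s / chi| ≤ C * (Real.sqrt s * Real.log s) ∧
          ∀ i, |(cnt i w : ℝ) - s * p i / chi| ≤ C * (Real.sqrt s * Real.log s))) ≤ C / s ^ 2 := by
  obtain ⟨C, hC, s0, hs0, h⟩ := tail p l hp hp1 L l0 hl0 hl hL chi hchi
  have hne : Nonempty ι := by
    by_contra h
    rw [not_nonempty_iff] at h
    simp at hp1
  have hLpos : 0 < L := by
    obtain ⟨i⟩ := hne
    exact lt_of_lt_of_le hl0 (le_trans (hl i) (hL i))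
  have hchi0 : 0 < chi := by
    rw [hchi]
    apply Finset.sum_pos (fun i _ => mul_pos (hp i) (lt_of_lt_of_le hl0 (hl i)))
    exact Finset.univ_nonempty
  set C2 : ℝ := max C (2 / l0 + 2) with hC2
  refine ⟨C2, lt_of_lt_of_le hC (le_max_left _ _), max s0 L, le_trans hs0 (le_max_left _ _), ?_⟩
  intro s hs M
  have hs1 : s0 ≤ s := le_trans (le_max_left _ _) hs
  have hs2 : L ≤ s := le_trans (le_max_right _ _) hs
  have hspos : 0 < s := by linarith
  have hs2' : 2 ≤ s := by linarith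
  have hlog : 0 ≤ Real.log s := Real.log_nonneg (by linarith)
  have hterm : ∀ n ∈ range M, Pr p n (fun w => s ≤ ∑ j, l (w j) ∧ ∑ j, l (w j) ≤ s + L ∧
        ¬ (|(n : ℝ) - s / chi| ≤ C2 * (Real.sqrt s * Real.log s) ∧
          ∀ i, |(cnt i w : ℝ) - s * p i / chi| ≤ C2 * (Real.sqrt s * Real.log s)))
        ≤ if n < ⌈2 * s / l0⌉₊ + 1 then 1 / s ^ 3 else 0 := by
    intro n _
    split_ifs with hn
    · refine le_trans (Pr_mono p (fun i => (hp i).le) n ?_) (h s hs1 n)
      rintro w ⟨h1, h2, h3⟩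
      refine ⟨h1, h2, fun h4 => h3 ⟨le_trans h4.1 ?_, fun i => le_trans (h4.2 i) ?_⟩⟩ <;>
      · apply mul_le_mul_of_nonneg_right (le_max_left _ _) (by positivity)
    · rw [Pr_long_eq_zero p l L l0 s hl n ?_ _ (fun w hw => hw.2.1)]
      push Not at hn
      have h5 : (2 * s / l0 : ℝ) < n := by
        calc (2 * s / l0 : ℝ) ≤ (⌈2 * s / l0⌉₊ : ℝ) := Nat.le_ceil _
          _ < ((⌈2 * s / l0⌉₊ + 1 : ℕ) : ℝ) := by push_cast; linarith
          _ ≤ n := by exact_mod_cast hn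
      rw [div_lt_iff₀ hl0] at h5
      linarith
  refine le_trans (Finset.sum_le_sum hterm) ?_
  rw [← Finset.sum_filter]
  rw [Finset.sum_const, nsmul_eq_mul]
  have hcard : ((range M).filter (fun n => n < ⌈2 * s / l0⌉₊ + 1)).card ≤ ⌈2 * s / l0⌉₊ + 1 := by
    calc _ ≤ (range (⌈2 * s / l0⌉₊ + 1)).card := by
          apply Finset.card_le_card
          intro n hn
          simp only [Finset.mem_filter, Finset.mem_range] at *
          exact hn.2
      _ = _ := Finset.card_range _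
  have hc2 : ((((range M).filter (fun n => n < ⌈2 * s / l0⌉₊ + 1)).card : ℕ) : ℝ) ≤ C2 * s := by
    calc ((((range M).filter (fun n => n < ⌈2 * s / l0⌉₊ + 1)).card : ℕ) : ℝ)
        ≤ (⌈2 * s / l0⌉₊ : ℝ) + 1 := by exact_mod_cast hcard
      _ ≤ (2 * s / l0 + 1) + 1 := by
          have := (Nat.ceil_lt_add_one (show (0 : ℝ) ≤ 2 * s / l0 by positivity)).le
          linarith
      _ ≤ (2 / l0 + 2) * s := by
          have : 2 * s / l0 = 2 / l0 * s := by ring
          rw [this]; nlinarith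
      _ ≤ C2 * s := mul_le_mul_of_nonneg_right (le_max_right _ _) hspos.le
  calc _ ≤ (C2 * s) * (1 / s ^ 3) := mul_le_mul_of_nonneg_right hc2 (by positivity)
    _ = C2 / s ^ 2 := by field_simp

end Crest.Agent.R98.Mult
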