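import Crest.Agent.R98.Word4
import Crest.Agent.R98.MultTail
import Crest.Agent.R98.MultNT

-- ▼ part R98/KStop
section

/-!
Row 98 (S0129), rank ≥ 2 plan (notes 10295/10296), module STOP: the finite family of first passage
words. (helper430)

`stp ℓ n s`   words stopped at the first passage of their length over `s` (fuel `n`)
`wtL p Q`     weight of a word (list)
`LL ℓ Q`      length `∑ ℓ` of a word (list)
-/

set_option autoImplicit false

namespace Crest.Agent.R98.K

open Finset Crest.AnalysisR MeasureTheory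

variable {ι : Type*}

/-- weight of a word -/
def wtL (p : ι → ℝ) (Q : List ι) : ℝ := (Q.map p).prod

/-- length of a word -/
def LL (ℓ : ι → ℝ) (Q : List ι) : ℝ := (Q.map ℓ).sum

@[simp] lemma wtL_nil (p : ι → ℝ) : wtL p [] = 1 := rfl
@[simp] lemma wtL_cons (p : ι → ℝ) (a : ι) (Q : List ι) : wtL p (a :: Q) = p a * wtL p Q := by
  simp [wtL]
@[simp] lemma LL_nil (ℓ : ι → ℝ) : LL ℓ [] = 0 := rfl
@[simp] lemma LL_cons (ℓ : ι → ℝ) (a : ι) (Q : List ι) : LL ℓ (a :: Q) = ℓ a + LL ℓ Q := by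
  simp [LL]

lemma wtL_nonneg {p : ι → ℝ} (hp : ∀ i, 0 ≤ p i) (Q : List ι) : 0 ≤ wtL p Q := by
  induction Q with
  | nil => simp
  | cons a Q ih => rw [wtL_cons]; exact mul_nonneg (hp a) ih


variable [Fintype ι]

open Classical in
/-- first passage words over `s`, with fuel `n` (the fuel plays no role if `s ≤ n * min ℓ`) -/
noncomputable def stp (ℓ : ι → ℝ) : ℕ → ℝ → Finset (List ι)
  | 0, _ => {[]}
  | n + 1, s => if s ≤ 0 then {[]} else
      univ.biUnion fun a => (stp ℓ n (s - ℓ a)).image (List.cons a)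

lemma stp_zero (ℓ : ι → ℝ) (s : ℝ) : stp ℓ 0 s = {[]} := rfl

lemma stp_of_nonpos (ℓ : ι → ℝ) (n : ℕ) {s : ℝ} (hs : s ≤ 0) : stp ℓ n s = {[]} := by
  cases n with
  | zero => rfl
  | succ n => simp [stp, hs]

lemma sum_stp {M : Type*} [AddCommMonoid M] (ℓ : ι → ℝ) (n : ℕ) {s : ℝ} (hs : 0 < s)
    (F : List ι → M) :
    ∑ Q ∈ stp ℓ (n+1) s, F Q = ∑ a, ∑ Q ∈ stp ℓ n (s - ℓ a), F (a :: Q) := by
  classical
  have h : stp ℓ (n+1) s = univ.biUnion fun a => (stp ℓ n (s - ℓ a)).image (List.cons a) := by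
    simp [stp, not_le.2 hs]
  rw [h, Finset.sum_biUnion]
  · refine Finset.sum_congr rfl fun a _ => ?_
    rw [Finset.sum_image]
    intro Q _ Q' _ hQ
    exact (List.cons.inj hQ).2
  · intro a _ b _ hab
    rw [Function.onFun, Finset.disjoint_left]
    intro Q hQ hQ'
    rw [Finset.mem_image] at hQ hQ'
    obtain ⟨Q1, _, rfl⟩ := hQ
    obtain ⟨Q2, _, h2⟩ := hQ'
    exact hab (List.cons.inj h2).1.symm

lemma mem_stp_succ {ℓ : ι → ℝ} {n : ℕ} {s : ℝ} (hs : 0 < s) {Q : List ι} :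
    Q ∈ stp ℓ (n+1) s ↔ ∃ a Q', Q' ∈ stp ℓ n (s - ℓ a) ∧ Q = a :: Q' := by
  classical
  simp only [stp, not_le.2 hs, if_false, Finset.mem_biUnion, Finset.mem_univ, true_and,
    Finset.mem_image]
  constructor
  · rintro ⟨a, Q', h, rfl⟩; exact ⟨a, Q', h, rfl⟩
  · rintro ⟨a, Q', h, rfl⟩; exact ⟨a, Q', h, rfl⟩

/-- total weight one -/
lemma sum_stp_wtL (ℓ : ι → ℝ) {p : ι → ℝ} (hp1 : ∑ i, p i = 1) (n : ℕ) (s : ℝ) :
    ∑ Q ∈ stp ℓ n s, wtL p Q = 1 := by
  induction n generalizing s with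
  | zero => simp [stp_zero]
  | succ n ih =>
    rcases le_or_gt s 0 with hs | hs
    · rw [stp_of_nonpos ℓ _ hs]; simp
    · rw [sum_stp ℓ n hs]
      simp only [wtL_cons, ← Finset.mul_sum, ih, mul_one, hp1]


omit [Fintype ι] in
lemma LL_nonneg {ℓ : ι → ℝ} (hℓ : ∀ i, 0 ≤ ℓ i) (Q : List ι) : 0 ≤ LL ℓ Q := by
  induction Q with
  | nil => simp
  | cons a Q ih => rw [LL_cons]; exact add_nonneg (hℓ a) ih

/-- the length has passed `s` -/
lemma le_LL_of_mem {ℓ : ι → ℝ} {ℓ0 : ℝ} (hℓ : ∀ i, ℓ0 ≤ ℓ i) (h0 : 0 ≤ ℓ0) {n : ℕ} {s : ℝ}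
    (hn : s ≤ n * ℓ0) {Q : List ι} (h : Q ∈ stp ℓ n s) : s ≤ LL ℓ Q := by
  induction n generalizing s Q with
  | zero =>
    have := LL_nonneg (fun i => h0.trans (hℓ i)) Q
    simp at hn
    linarith
  | succ n ih =>
    rcases le_or_gt s 0 with hs | hs
    · exact hs.trans (LL_nonneg (fun i => h0.trans (hℓ i)) Q)
    · obtain ⟨a, Q', h', rfl⟩ := (mem_stp_succ hs).1 h
      have := ih (s := s - ℓ a) (by push_cast at hn; have := hℓ a; linarith) h'
      rw [LL_cons]; linarith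

/-- the overshoot is at most one letter -/
lemma LL_le_of_mem {ℓ : ι → ℝ} {ℓ1 : ℝ} (hℓ1 : ∀ i, ℓ i ≤ ℓ1) (h1 : 0 ≤ ℓ1) {n : ℕ} {s : ℝ}
    (hs0 : 0 ≤ s) {Q : List ι} (h : Q ∈ stp ℓ n s) : LL ℓ Q ≤ s + ℓ1 := by
  -- stronger form for all `s ≥ -ℓ1`
  have key : ∀ (n : ℕ) (s : ℝ) (Q : List ι), Q ∈ stp ℓ n s → -ℓ1 ≤ s → LL ℓ Q ≤ s + ℓ1 := by
    intro n
    induction n with
    | zero =>
      intro s Q h hs
      rw [stp_zero, Finset.mem_singleton] at h
      rw [h, LL_nil]; linarith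
    | succ n ih =>
      intro s Q h hs'
      rcases le_or_gt s 0 with hs | hs
      · rw [stp_of_nonpos ℓ _ hs, Finset.mem_singleton] at h
        rw [h, LL_nil]; linarith
      · obtain ⟨a, Q', h', rfl⟩ := (mem_stp_succ hs).1 h
        have := ih (s - ℓ a) Q' h' (by have := hℓ1 a; linarith)
        rw [LL_cons]; linarith
  exact key n s Q h (by linarith)

/-- generic decomposition along the stopped words -/
lemma stp_decomp {M : Type*} [AddCommMonoid M] [Module NNReal M] (ℓ : ι → ℝ) (p : ι → NNReal)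
    (F : List ι → M) (hF : ∀ Q, F Q = ∑ a, p a • F (Q ++ [a])) (n : ℕ) (s : ℝ) (Q : List ι) :
    F Q = ∑ Q' ∈ stp ℓ n s, (Q'.map p).prod • F (Q ++ Q') := by
  induction n generalizing s Q with
  | zero => simp [stp_zero]
  | succ n ih =>
    rcases le_or_gt s 0 with hs | hs
    · rw [stp_of_nonpos ℓ _ hs]; simp
    · rw [sum_stp ℓ n hs, hF Q]
      refine Finset.sum_congr rfl fun a _ => ?_
      conv_lhs => rw [ih (s - ℓ a) (Q ++ [a])]
      rw [Finset.smul_sum]
      refine Finset.sum_congr rfl fun Q' _ => ?_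
      rw [smul_smul]
      simp [List.append_assoc]


/-- superharmonic version: if `∑ p_a F(Qa) ≤ F(Q)` then `∑ p_{Q'} F(QQ') ≤ F(Q)` -/
lemma stp_super (ℓ : ι → ℝ) {p : ι → ℝ} (hp : ∀ i, 0 ≤ p i) (F : List ι → ℝ)
    (hF : ∀ Q, ∑ a, p a * F (Q ++ [a]) ≤ F Q) (n : ℕ) (s : ℝ) (Q : List ι) :
    ∑ Q' ∈ stp ℓ n s, wtL p Q' * F (Q ++ Q') ≤ F Q := by
  induction n generalizing s Q with
  | zero => simp [stp_zero]
  | succ n ih =>
    rcases le_or_gt s 0 with hs | hs
    · rw [stp_of_nonpos ℓ _ hs]; simp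
    · rw [sum_stp ℓ n hs]
      refine le_trans (Finset.sum_le_sum fun a _ => ?_) (hF Q)
      have h1 := mul_le_mul_of_nonneg_left (ih (s - ℓ a) (Q ++ [a])) (hp a)
      refine le_trans (le_of_eq ?_) h1
      rw [Finset.mul_sum]
      refine Finset.sum_congr rfl fun Q' _ => ?_
      rw [wtL_cons]
      simp [List.append_assoc, mul_assoc]

/-- Wald's identity for the stopped words -/
lemma sum_stp_LL (ℓ : ι → ℝ) {p : ι → ℝ} (hp1 : ∑ i, p i = 1) (n : ℕ) (s : ℝ) (X : ι → ℝ) :
    ∑ Q ∈ stp ℓ n s, wtL p Q * LL X Q = (∑ i, p i * X i) * ∑ Q ∈ stp ℓ n s, wtL p Q * Q.length := by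
  induction n generalizing s with
  | zero => simp [stp_zero]
  | succ n ih =>
    rcases le_or_gt s 0 with hs | hs
    · rw [stp_of_nonpos ℓ _ hs]; simp
    · rw [sum_stp ℓ n hs, sum_stp ℓ n hs]
      simp only [wtL_cons, LL_cons, List.length_cons, mul_add, Finset.sum_add_distrib]
      have h1 : ∀ a, ∑ Q ∈ stp ℓ n (s - ℓ a), p a * wtL p Q * X a = p a * X a := by
        intro a
        rw [← Finset.sum_mul, ← Finset.mul_sum, sum_stp_wtL ℓ hp1]; ring
      have h2 : ∀ a, ∑ Q ∈ stp ℓ n (s - ℓ a), p a * wtL p Q * LL X Q =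
          (∑ i, p i * X i) * ∑ Q ∈ stp ℓ n (s - ℓ a), p a * wtL p Q * (Q.length : ℝ) := by
        intro a
        have := ih (s - ℓ a)
        simp only [mul_assoc, ← Finset.mul_sum]
        rw [this]; ring
      have h3 : ∀ a, ∑ Q ∈ stp ℓ n (s - ℓ a), p a * wtL p Q * ((Q.length + 1 : ℕ) : ℝ) =
          ∑ Q ∈ stp ℓ n (s - ℓ a), p a * wtL p Q * (Q.length : ℝ) + p a := by
        intro a
        push_cast
        simp only [mul_add, mul_one, Finset.sum_add_distrib]
        rw [← Finset.mul_sum (a := p a), sum_stp_wtL ℓ hp1, mul_one]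
      simp only [h1, h2, h3, Finset.sum_add_distrib, hp1, ← Finset.mul_sum, mul_add, mul_one]
      ring

/-- a word of length `n+1` is a letter followed by a word of length `n` -/
lemma Pr_succ (p : ι → ℝ) (n : ℕ) (E : (Fin (n+1) → ι) → Prop) :
    Mult.Pr p (n+1) E = ∑ a, p a * Mult.Pr p n (fun w => E (Fin.cons a w)) := by
  classical
  unfold Mult.Pr
  rw [Crest.Agent.R098.Upper.sum_succ']
  refine Finset.sum_congr rfl fun a _ => ?_
  rw [Finset.mul_sum]
  refine Finset.sum_congr rfl fun w _ => ?_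
  rw [Fin.prod_univ_succ]
  by_cases h : E (Fin.cons a w)
  · simp [h]
  · simp [h]

/-- HITTING BOUND: the law of the length of the stopped word is dominated by the Green function -/
theorem stp_hit (ℓ : ι → ℝ) {p : ι → ℝ} (hp : ∀ i, 0 ≤ p i) (I : Set ℝ) [DecidablePred (· ∈ I)]
    (n : ℕ) (s : ℝ) :
    ∑ Q ∈ (stp ℓ n s).filter (fun Q => LL ℓ Q ∈ I), wtL p Q ≤
      ∑ j ∈ range (n+1), Mult.Pr p j (fun w => ∑ k, ℓ (w k) ∈ I) := by
  classical
  -- with a shift `x` of the starting point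
  have key : ∀ (n : ℕ) (s x : ℝ),
      ∑ Q ∈ stp ℓ n s, (if x + LL ℓ Q ∈ I then wtL p Q else 0) ≤
        ∑ j ∈ range (n+1), Mult.Pr p j (fun w => x + ∑ k, ℓ (w k) ∈ I) := by
    have h0 : ∀ x : ℝ, (if x + LL ℓ ([] : List ι) ∈ I then wtL p ([] : List ι) else 0) ≤
        Mult.Pr p 0 (fun w => x + ∑ k, ℓ (w k) ∈ I) := by
      intro x
      unfold Mult.Pr
      simp
    have hnn : ∀ (j : ℕ) (E : (Fin j → ι) → Prop), 0 ≤ Mult.Pr p j E :=
      fun j E => Mult.Pr_nonneg p hp j E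
    intro n
    induction n with
    | zero =>
      intro s x
      rw [stp_zero, Finset.sum_singleton, Finset.sum_range_one]
      exact h0 x
    | succ n ih =>
      intro s x
      rcases le_or_gt s 0 with hs | hs
      · rw [stp_of_nonpos ℓ _ hs, Finset.sum_singleton]
        refine (h0 x).trans ?_
        exact Finset.single_le_sum (f := fun j => Mult.Pr p j (fun w => x + ∑ k, ℓ (w k) ∈ I))
          (fun j _ => hnn j _) (Finset.mem_range.2 (Nat.succ_pos _))
      · rw [sum_stp ℓ n hs]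
        have h1 : ∀ a, ∑ Q ∈ stp ℓ n (s - ℓ a),
            (if x + LL ℓ (a :: Q) ∈ I then wtL p (a :: Q) else 0) ≤
            p a * ∑ j ∈ range (n+1), Mult.Pr p j (fun w => (x + ℓ a) + ∑ k, ℓ (w k) ∈ I) := by
          intro a
          refine le_trans (le_of_eq ?_) (mul_le_mul_of_nonneg_left (ih (s - ℓ a) (x + ℓ a)) (hp a))
          rw [Finset.mul_sum]
          refine Finset.sum_congr rfl fun Q _ => ?_
          rw [LL_cons, ← add_assoc]
          by_cases h : x + ℓ a + LL ℓ Q ∈ I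
          · simp [h]
          · simp [h]
        refine (Finset.sum_le_sum fun a _ => h1 a).trans ?_
        have h2 : ∑ a, p a * ∑ j ∈ range (n+1),
            Mult.Pr p j (fun w => (x + ℓ a) + ∑ k, ℓ (w k) ∈ I) =
            ∑ j ∈ range (n+1), Mult.Pr p (j+1) (fun w => x + ∑ k, ℓ (w k) ∈ I) := by
          simp only [Finset.mul_sum]
          rw [Finset.sum_comm]
          refine Finset.sum_congr rfl fun j _ => ?_
          rw [Pr_succ]
          refine Finset.sum_congr rfl fun a _ => ?_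
          congr 2
          funext w
          rw [Fin.sum_univ_succ]
          simp [add_assoc]
        rw [h2, Finset.sum_range_succ' _ (n+1)]
        exact le_add_of_nonneg_right (hnn 0 _)
  have := key n s 0
  simp only [zero_add] at this
  rw [Finset.sum_filter]
  exact this

/-! ### self-similar measures along the stopped words -/

section Meas

variable {r t p : ι → ℝ}

omit [Fintype ι] in
/-- the map of a concatenation -/
lemma affineWordMap_append (r t : ι → ℝ) (Q Q' : List ι) :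
    affineWordMap r t (Q ++ Q') = affineWordMap r t Q ∘ affineWordMap r t Q' := by
  induction Q with
  | nil => rfl
  | cons a Q ih =>
    funext x
    have h1 : affineWordMap r t ((a :: Q) ++ Q') x = r a * affineWordMap r t (Q ++ Q') x + t a := rfl
    have h2 : affineWordMap r t (a :: Q) (affineWordMap r t Q' x) =
        r a * affineWordMap r t Q (affineWordMap r t Q' x) + t a := rfl
    rw [Function.comp_apply, h1, h2, ih]
    rfl

omit [Fintype ι] in
/-- the map of a word is affine with slope `(Q.map r).prod` -/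
lemma affineWordMap_affine (r t : ι → ℝ) (Q : List ι) (x : ℝ) :
    affineWordMap r t Q x = (Q.map r).prod * x + affineWordMap r t Q 0 := by
  induction Q generalizing x with
  | nil => simp [affineWordMap]
  | cons a Q ih =>
    have h1 : ∀ x, affineWordMap r t (a :: Q) x = r a * affineWordMap r t Q x + t a := fun _ => rfl
    rw [h1, h1, ih x, List.map_cons, List.prod_cons]
    ring

omit [Fintype ι] in
lemma measurable_affineWordMap (r t : ι → ℝ) (Q : List ι) : Measurable (affineWordMap r t Q) := by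
  have : affineWordMap r t Q = fun x => (Q.map r).prod * x + affineWordMap r t Q 0 :=
    funext (affineWordMap_affine r t Q)
  rw [this]
  fun_prop

omit [Fintype ι] in
/-- slope of a word in terms of `ℓ_i = -log |r_i|` -/
lemma abs_prod_eq_exp {r : ι → ℝ} (hr : ∀ i, r i ≠ 0) (Q : List ι) :
    |(Q.map r).prod| = Real.exp (-LL (fun i => -Real.log |r i|) Q) := by
  induction Q with
  | nil => simp
  | cons a Q ih =>
    rw [List.map_cons, List.prod_cons, abs_mul, ih, LL_cons, neg_add, Real.exp_add, neg_neg,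
      Real.exp_log (abs_pos.2 (hr a))]

/-- `μ = ∑_Q p_Q f_Q μ` over the stopped words -/
theorem selfSimilar_stp {μ : Measure ℝ} (hp : ∀ i, 0 ≤ p i) (hμ : IsSelfSimilarMeasure r t p μ)
    (ℓ : ι → ℝ) (n : ℕ) (s : ℝ) :
    μ = ∑ Q ∈ stp ℓ n s, ENNReal.ofReal (wtL p Q) • μ.map (affineWordMap r t Q) := by
  have hm : ∀ Q, Measurable (affineWordMap r t Q) := measurable_affineWordMap r t
  have hstep : ∀ Q : List ι, μ.map (affineWordMap r t Q) =
      ∑ a, (p a).toNNReal • μ.map (affineWordMap r t (Q ++ [a])) := by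
    intro Q
    conv_lhs => rw [hμ.2]
    rw [Measure.map_finset_sum' (hm Q).aemeasurable]
    refine Finset.sum_congr rfl fun a _ => ?_
    have hma : Measurable fun x : ℝ => r a * x + t a := by fun_prop
    rw [Measure.map_smul, Measure.map_map (hm Q) hma, affineWordMap_append]
    rfl
  have h := stp_decomp ℓ (fun a => (p a).toNNReal) (fun Q => μ.map (affineWordMap r t Q)) hstep n s []
  have h0 : affineWordMap r t ([] : List ι) = id := rfl
  simp only [h0, Measure.map_id, List.nil_append] at h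
  conv_lhs => rw [h]
  refine Finset.sum_congr rfl fun Q _ => ?_
  have hw : ∀ Q : List ι, ENNReal.ofReal (wtL p Q) =
      (((Q.map fun a => (p a).toNNReal).prod : NNReal) : ENNReal) := by
    intro Q
    induction Q with
    | nil => simp
    | cons a Q ih =>
      rw [wtL_cons, ENNReal.ofReal_mul (hp a), ih, List.map_cons, List.prod_cons, ENNReal.coe_mul]
      rfl
  rw [hw]
  rfl

end Meas

end Crest.Agent.R98.K
private theorem rz_bca57f1d43 : type_of% @_root_.Crest.Agent.R98.K.stp.eq_def := @_root_.Crest.Agent.R98.K.stp.eq_def -- L48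
private theorem rz_dc961a3951 : type_of% @_root_.Crest.Agent.R98.K.stp.eq_1 := @_root_.Crest.Agent.R98.K.stp.eq_1 -- L48
end

-- ▼ part R98/KConv

/-!
R98 / KConv (helper399): infinitely many denominators `q` such that `|u l₁ + v l₂| ≥ l₂/(2q)` for all
integers `(u, v) ≠ 0`, `|u| < q`.
-/

set_option autoImplicit false

namespace Crest.Agent.R98.K

open Crest.Agent.R98.Mult

/-- arbitrarily large `q` with all the multiples `h θ`, `0 < |h| < q`, at distance `≥ 1/(2q)` from
the integers -/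
theorem exists_conv_mod {θ : ℝ} (hθ : Irrational θ) (Q₀ : ℕ) :
    ∃ q : ℕ, Q₀ ≤ q ∧ 1 ≤ q ∧
      (∀ h k : ℤ, h ≠ 0 → |h| < (q : ℤ) → 1 / (2 * (q : ℝ)) ≤ |(h : ℝ) * θ - k|) := by
  classical
  -- the minimum over the small multiples
  have hmin : ∃ η₀ : ℝ, 0 < η₀ ∧ ∀ (q : ℕ) (P : ℤ), 1 ≤ q → q ≤ Q₀ → η₀ ≤ |(q : ℝ) * θ - P| := by
    rcases Nat.eq_zero_or_pos Q₀ with h0 | h0
    · exact ⟨1, one_pos, fun q P h1 h2 => by omega⟩
    obtain ⟨q₁, P₁, h1, h2, h3, h4, h5, h6⟩ := exists_best hθ (W := Q₀) h0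
    refine ⟨_, h3, fun q P hq1 hq2 => ?_⟩
    have := h5 q P (by omega) (by
      rw [abs_of_nonneg (by omega)]; omega)
    simpa using this
  obtain ⟨η₀, hη₀, hsmall⟩ := hmin
  obtain ⟨W₀, hW₀⟩ := exists_nat_gt (1 / η₀)
  obtain ⟨q, P, h1, h2, h3, h4, h5, h6⟩ := exists_best hθ (W := W₀ + 1) (by omega)
  refine ⟨q, ?_, h1, h6⟩
  by_contra hcon
  have h7 := hsmall q P h1 (by omega)
  have h8 : (1 : ℝ) / ((W₀ + 1 : ℕ) + 1) < η₀ := by
    rw [div_lt_iff₀ (by positivity)]
    rw [div_lt_iff₀ hη₀] at hW₀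
    push_cast
    nlinarith
  linarith


end Crest.Agent.R98.K
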