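import Crest.Agent.R98.Ent3
import Crest.Agent.R98.HsCell

-- ▼ part R98/KDetA
section

/-!
R98 / KDetA (helper9): the detection lemma (note 10296 of helper383), part A: joint functional of
`(k, x, z)`, `z` uniform in `(v_k + ρ x - r, v_k + ρ x]`, the bad set.
-/

set_option autoImplicit false
set_option linter.unusedVariables false
set_option linter.unusedSectionVars false

open MeasureTheory Set Real
open scoped ENNReal

namespace Crest.Agent.R98.K

/-- the law of `ρ X` -/
noncomputable def scal (ρ : ℝ) (μ : Measure ℝ) : Measure ℝ := μ.map fun x => ρ * x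

instance (ρ : ℝ) (μ : Measure ℝ) [IsProbabilityMeasure μ] : IsProbabilityMeasure (scal ρ μ) :=
  Measure.isProbabilityMeasure_map (by fun_prop)

theorem bsupp_scal {μ : Measure ℝ} (hμ : BSupp μ) (ρ : ℝ) : BSupp (scal ρ μ) := by
  have h := hμ.map_affine ρ 0
  simpa [scal] using h

theorem Hs_scal {ρ : ℝ} (hρ : ρ ≠ 0) (μ : Measure ℝ) [IsFiniteMeasure μ] (d : ℝ) :
    Hs (scal ρ μ) d = Hs μ (d / |ρ|) := by
  have h := Hs_map hρ 0 μ (d / |ρ|)
  have h2 : |ρ| * (d / |ρ|) = d := by
    have : |ρ| ≠ 0 := abs_ne_zero.mpr hρ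
    field_simp
  rw [h2] at h
  simpa [scal] using h

/-- the event `a + ρ x ∈ [z, z + r)` -/
def S (ρ a r z : ℝ) : Set ℝ := {x | z ≤ a + ρ * x ∧ a + ρ * x < z + r}

theorem measurableSet_SS (ρ a r : ℝ) :
    MeasurableSet {w : ℝ × ℝ | w.2 ∈ S ρ a r w.1} := by
  have h : {w : ℝ × ℝ | w.2 ∈ S ρ a r w.1} =
      {w : ℝ × ℝ | w.1 ≤ a + ρ * w.2} ∩ {w : ℝ × ℝ | a + ρ * w.2 < w.1 + r} := by
    ext w; rfl
  rw [h]
  exact (measurableSet_le (by fun_prop) (by fun_prop)).inter
    (measurableSet_lt (by fun_prop) (by fun_prop))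

theorem measurableSet_S (ρ a r z : ℝ) : MeasurableSet (S ρ a r z) :=
  measurable_prodMk_left (measurableSet_SS ρ a r)

theorem mem_S_iff (ρ a r z x : ℝ) : x ∈ S ρ a r z ↔ z ∈ Ioc (a + ρ * x - r) (a + ρ * x) := by
  unfold S
  simp only [mem_ofPred_eq, mem_Ioc]
  constructor
  · rintro ⟨h1, h2⟩; exact ⟨by linarith, h1⟩
  · rintro ⟨h1, h2⟩; exact ⟨h2, by linarith⟩

/-- swapping the joint functional -/
theorem lint_swap (μ : Measure ℝ) [SFinite μ] (ρ a r : ℝ) {F : ℝ → ℝ → ℝ≥0∞}
    (hF : Measurable (Function.uncurry F)) :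
    ∫⁻ z, (∫⁻ x in S ρ a r z, F z x ∂μ) =
      ∫⁻ x, (∫⁻ z in Ioc (a + ρ * x - r) (a + ρ * x), F z x) ∂μ := by
  have h1 : ∀ z, ∫⁻ x in S ρ a r z, F z x ∂μ = ∫⁻ x, (S ρ a r z).indicator (F z) x ∂μ := fun z =>
    (lintegral_indicator (measurableSet_S ρ a r z) _).symm
  simp only [h1]
  rw [lintegral_lintegral_swap]
  · refine lintegral_congr fun x => ?_
    rw [← lintegral_indicator measurableSet_Ioc]
    refine lintegral_congr fun z => ?_
    by_cases hx : x ∈ S ρ a r z
    · rw [indicator_of_mem hx, indicator_of_mem ((mem_S_iff ρ a r z x).mp hx)]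
    · rw [indicator_of_notMem hx, indicator_of_notMem fun h => hx ((mem_S_iff ρ a r z x).mpr h)]
  · have : (Function.uncurry fun (z x : ℝ) => (S ρ a r z).indicator (F z) x) =
        {w : ℝ × ℝ | w.2 ∈ S ρ a r w.1}.indicator (Function.uncurry F) := by
      funext w
      simp only [Function.uncurry]
      by_cases hw : w.2 ∈ S ρ a r w.1
      · rw [indicator_of_mem hw, indicator_of_mem (show w ∈ {w : ℝ × ℝ | w.2 ∈ S ρ a r w.1} from hw)]
        rfl
      · rw [indicator_of_notMem hw,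
          indicator_of_notMem (show w ∉ {w : ℝ × ℝ | w.2 ∈ S ρ a r w.1} from hw)]
    rw [this]
    exact (hF.indicator (measurableSet_SS ρ a r)).aemeasurable

/-- the joint functional of a function of `x` only -/
theorem lint_x (μ : Measure ℝ) [SFinite μ] (ρ a : ℝ) {r : ℝ} (hr : 0 ≤ r) {f : ℝ → ℝ≥0∞}
    (hf : Measurable f) :
    ∫⁻ z, (∫⁻ x in S ρ a r z, f x ∂μ) = ENNReal.ofReal r * ∫⁻ x, f x ∂μ := by
  rw [lint_swap μ ρ a r (F := fun _ x => f x) (hf.comp measurable_snd)]
  simp only [lintegral_const, Measure.restrict_apply MeasurableSet.univ, univ_inter, Real.volume_Ioc,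
    sub_sub_cancel]
  rw [← lintegral_const_mul _ hf]
  refine lintegral_congr fun x => ?_
  rw [mul_comm]

/-- the joint functional of a function of `z` only -/
theorem lint_z (μ : Measure ℝ) [IsFiniteMeasure μ] (ρ a r : ℝ) (g : ℝ → ℝ≥0∞) :
    ∫⁻ z, (∫⁻ x in S ρ a r z, g z ∂μ) = ∫⁻ z, g z * ENNReal.ofReal (μ.real (S ρ a r z)) := by
  refine lintegral_congr fun z => ?_
  rw [setLIntegral_const, Measure.real, ENNReal.ofReal_toReal (measure_ne_top _ _)]

variable {κ : Type*} [Fintype κ]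

/-- mass of the cell `[z, z + r)` under the law of `v + ρ X` -/
noncomputable def m (c v : κ → ℝ) (ρ r : ℝ) (μ : Measure ℝ) (z : ℝ) : ℝ :=
  ∑ k, c k * μ.real (S ρ (v k) r z)

theorem addLaw_real {c : κ → ℝ} (hc : ∀ k, 0 ≤ c k) (v : κ → ℝ) (ρ r : ℝ) (μ : Measure ℝ)
    [IsProbabilityMeasure μ] (z : ℝ) :
    (addLaw c v (scal ρ μ)).real (Ico z (z + r)) = m c v ρ r μ z := by
  unfold addLaw m
  rw [mix_real hc]
  refine Finset.sum_congr rfl fun k _ => ?_
  rw [shift_real]
  congr 1
  unfold scal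
  rw [Measure.real, Measure.real, Measure.map_apply (by fun_prop) measurableSet_Ico]
  congr 2
  ext x
  simp only [mem_preimage, mem_Ico, S, mem_ofPred_eq]
  constructor
  · rintro ⟨h1, h2⟩; constructor <;> linarith
  · rintro ⟨h1, h2⟩; constructor <;> linarith

theorem measurable_real_section {μ : Measure ℝ} [IsFiniteMeasure μ] {A : Set (ℝ × ℝ)}
    (hA : MeasurableSet A) : Measurable fun z => μ.real {x | (z, x) ∈ A} :=
  (measurable_measure_prodMk_left (ν := μ) hA).ennreal_toReal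

theorem measurable_m (c v : κ → ℝ) (ρ r : ℝ) (μ : Measure ℝ) [IsFiniteMeasure μ] :
    Measurable (m c v ρ r μ) :=
  Finset.measurable_sum _ fun k _ =>
    (measurable_real_section (measurableSet_SS ρ (v k) r)).const_mul _

theorem m_nonneg {c : κ → ℝ} (hc : ∀ k, 0 ≤ c k) (v : κ → ℝ) (ρ r : ℝ) (μ : Measure ℝ) (z : ℝ) :
    0 ≤ m c v ρ r μ z :=
  Finset.sum_nonneg fun k _ => mul_nonneg (hc k) measureReal_nonneg

theorem integrable_m {c : κ → ℝ} (hc : ∀ k, 0 ≤ c k) (v : κ → ℝ) (ρ r : ℝ) {μ : Measure ℝ}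
    [IsProbabilityMeasure μ] (hμ : BSupp μ) : Integrable (m c v ρ r μ) := by
  have h := integrable_cell ((bsupp_scal hμ ρ).addLaw c v) r
  simpa only [addLaw_real hc] using h

theorem integral_m {c : κ → ℝ} (hc : ∀ k, 0 ≤ c k) (v : κ → ℝ) (ρ : ℝ) {r : ℝ} (hr : 0 ≤ r)
    {μ : Measure ℝ} [IsProbabilityMeasure μ] : ∫ z, m c v ρ r μ z = r * ∑ k, c k := by
  have h := integral_cell (μ := addLaw c v (scal ρ μ)) hr
  simp only [addLaw_real hc] at h
  rw [h]
  congr 1
  unfold addLaw
  rw [mix_real hc]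
  simp

theorem ofReal_m {c : κ → ℝ} (hc : ∀ k, 0 ≤ c k) (v : κ → ℝ) (ρ r : ℝ) (μ : Measure ℝ) (z : ℝ) :
    ENNReal.ofReal (m c v ρ r μ z) =
      ∑ k, ENNReal.ofReal (c k) * ENNReal.ofReal (μ.real (S ρ (v k) r z)) := by
  unfold m
  rw [ENNReal.ofReal_sum_of_nonneg fun k _ => mul_nonneg (hc k) measureReal_nonneg]
  exact Finset.sum_congr rfl fun k _ => ENNReal.ofReal_mul (hc k)

/-- `β(x) = μ(B(x, D₀))` -/
noncomputable def bet (μ : Measure ℝ) (D₀ x : ℝ) : ℝ := μ.real (Icc (x - D₀) (x + D₀))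

theorem measurable_bet (μ : Measure ℝ) [IsFiniteMeasure μ] (D₀ : ℝ) : Measurable (bet μ D₀) := by
  have h : MeasurableSet ({w : ℝ × ℝ | w.1 - D₀ ≤ w.2} ∩ {w : ℝ × ℝ | w.2 ≤ w.1 + D₀}) :=
    (measurableSet_le (by fun_prop) (by fun_prop)).inter
      (measurableSet_le (by fun_prop) (by fun_prop))
  exact measurable_real_section h

theorem bet_nonneg (μ : Measure ℝ) (D₀ x : ℝ) : 0 ≤ bet μ D₀ x := measureReal_nonneg

theorem bet_le_one (μ : Measure ℝ) [IsProbabilityMeasure μ] (D₀ x : ℝ) : bet μ D₀ x ≤ 1 := by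
  have := measureReal_mono (μ := μ) (subset_univ (Icc (x - D₀) (x + D₀)))
  rwa [probReal_univ] at this

theorem S_subset {ρ a a' r z x D₀ : ℝ} (hρ : ρ ≠ 0) (hx : x ∈ S ρ a r z)
    (hd : |a - a'| + r ≤ D₀ * |ρ|) : S ρ a' r z ⊆ Icc (x - D₀) (x + D₀) := by
  intro x' hx'
  have h1 : |ρ * (x' - x)| ≤ D₀ * |ρ| := by
    refine le_trans ?_ hd
    have h2 : |(a' + ρ * x') - (a + ρ * x)| ≤ r := by
      rw [abs_le]; constructor <;> linarith [hx.1, hx.2, hx'.1, hx'.2]
    have h3 : ρ * (x' - x) = ((a' + ρ * x') - (a + ρ * x)) + (a - a') := by ring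
    rw [h3]
    have := abs_add_le ((a' + ρ * x') - (a + ρ * x)) (a - a')
    linarith
  rw [abs_mul, mul_comm] at h1
  have h4 : |x' - x| ≤ D₀ := le_of_mul_le_mul_right h1 (abs_pos.mpr hρ)
  rw [abs_le] at h4
  constructor <;> linarith [h4.1, h4.2]

theorem m_le_bet {c v : κ → ℝ} (hc : ∀ k, 0 ≤ c k) (hc1 : ∑ k, c k ≤ 1) {ρ r z D₀ : ℝ}
    {μ : Measure ℝ} [IsProbabilityMeasure μ] (hρ : ρ ≠ 0) {a x : ℝ}
    (hd : ∀ k', c k' ≠ 0 → |a - v k'| + r ≤ D₀ * |ρ|) (hx : x ∈ S ρ a r z) :
    m c v ρ r μ z ≤ bet μ D₀ x := by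
  have h1 : m c v ρ r μ z ≤ ∑ k, c k * bet μ D₀ x := by
    refine Finset.sum_le_sum fun k _ => ?_
    rcases eq_or_ne (c k) 0 with h0 | h0
    · rw [h0, zero_mul, zero_mul]
    · exact mul_le_mul_of_nonneg_left (measureReal_mono (S_subset hρ hx (hd k h0))) (hc k)
  rw [← Finset.sum_mul] at h1
  have h2 := mul_le_mul_of_nonneg_right hc1 (bet_nonneg μ D₀ x)
  linarith

/-- the set where `β(x) ≤ e^T P(z)` -/
def okSet (c v : κ → ℝ) (ρ r : ℝ) (μ : Measure ℝ) (D₀ T z : ℝ) : Set ℝ :=
  {x | bet μ D₀ x ≤ exp T * m c v ρ r μ z}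

theorem measurableSet_ok (c v : κ → ℝ) (ρ r : ℝ) (μ : Measure ℝ) [IsFiniteMeasure μ] (D₀ T : ℝ) :
    MeasurableSet {w : ℝ × ℝ | w.2 ∈ okSet c v ρ r μ D₀ T w.1} :=
  measurableSet_le ((measurable_bet μ D₀).comp measurable_snd)
    (((measurable_m c v ρ r μ).comp measurable_fst).const_mul _)

/-- mass of the bad part -/
noncomputable def mbad (c v : κ → ℝ) (ρ r : ℝ) (μ : Measure ℝ) (D₀ T z : ℝ) : ℝ :=
  ∑ k, c k * μ.real (S ρ (v k) r z \ okSet c v ρ r μ D₀ T z)

/-- mass of the good part (atoms `k` with weight `c' k`) -/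
noncomputable def mgood (c c' v : κ → ℝ) (ρ r : ℝ) (μ : Measure ℝ) (D₀ T z : ℝ) : ℝ :=
  ∑ k, c' k * μ.real (S ρ (v k) r z ∩ okSet c v ρ r μ D₀ T z)

theorem measurable_mbad (c v : κ → ℝ) (ρ r : ℝ) (μ : Measure ℝ) [IsFiniteMeasure μ] (D₀ T : ℝ) :
    Measurable (mbad c v ρ r μ D₀ T) :=
  Finset.measurable_sum _ fun k _ =>
    (measurable_real_section ((measurableSet_SS ρ (v k) r).diff
      (measurableSet_ok c v ρ r μ D₀ T))).const_mul _

theorem measurable_mgood (c c' v : κ → ℝ) (ρ r : ℝ) (μ : Measure ℝ) [IsFiniteMeasure μ]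
    (D₀ T : ℝ) : Measurable (mgood c c' v ρ r μ D₀ T) :=
  Finset.measurable_sum _ fun k _ =>
    (measurable_real_section ((measurableSet_SS ρ (v k) r).inter
      (measurableSet_ok c v ρ r μ D₀ T))).const_mul _

theorem mbad_nonneg {c : κ → ℝ} (hc : ∀ k, 0 ≤ c k) (v : κ → ℝ) (ρ r : ℝ) (μ : Measure ℝ)
    (D₀ T z : ℝ) : 0 ≤ mbad c v ρ r μ D₀ T z :=
  Finset.sum_nonneg fun k _ => mul_nonneg (hc k) measureReal_nonneg

theorem mgood_nonneg {c c' : κ → ℝ} (hc : ∀ k, 0 ≤ c' k) (v : κ → ℝ) (ρ r : ℝ) (μ : Measure ℝ)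
    (D₀ T z : ℝ) : 0 ≤ mgood c c' v ρ r μ D₀ T z :=
  Finset.sum_nonneg fun k _ => mul_nonneg (hc k) measureReal_nonneg

theorem mbad_le {c : κ → ℝ} (hc : ∀ k, 0 ≤ c k) (v : κ → ℝ) (ρ r : ℝ) (μ : Measure ℝ)
    [IsFiniteMeasure μ] (D₀ T z : ℝ) : mbad c v ρ r μ D₀ T z ≤ m c v ρ r μ z :=
  Finset.sum_le_sum fun k _ =>
    mul_le_mul_of_nonneg_left (measureReal_mono sdiff_subset) (hc k)

theorem mgood_le {c c' : κ → ℝ} (hc' : ∀ k, 0 ≤ c' k) (hcc : ∀ k, c' k ≤ c k) (v : κ → ℝ)
    (ρ r : ℝ) (μ : Measure ℝ)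
    [IsFiniteMeasure μ] (D₀ T z : ℝ) : mgood c c' v ρ r μ D₀ T z ≤ m c v ρ r μ z :=
  Finset.sum_le_sum fun k _ =>
    mul_le_mul (hcc k) (measureReal_mono inter_subset_left) measureReal_nonneg
      ((hc' k).trans (hcc k))

/-- `P ≤ good + near + bad` -/
theorem m_le_add {c c' : κ → ℝ} (hc' : ∀ k, 0 ≤ c' k) (hcc : ∀ k, c' k ≤ c k) (v : κ → ℝ)
    (ρ r : ℝ) (μ : Measure ℝ) [IsFiniteMeasure μ] (D₀ T z : ℝ) :
    m c v ρ r μ z ≤ mgood c c' v ρ r μ D₀ T z + m (fun k => c k - c' k) v ρ r μ z +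
      mbad c v ρ r μ D₀ T z := by
  unfold m mgood mbad
  rw [← Finset.sum_add_distrib, ← Finset.sum_add_distrib]
  refine Finset.sum_le_sum fun k _ => ?_
  set A := S ρ (v k) r z
  set O := okSet c v ρ r μ D₀ T z
  have h1 : μ.real A ≤ μ.real (A ∩ O) + μ.real (A \ O) := by
    calc μ.real A = μ.real ((A ∩ O) ∪ (A \ O)) := by rw [inter_union_sdiff]
      _ ≤ _ := measureReal_union_le _ _
  have h2 : 0 ≤ μ.real (A \ O) := measureReal_nonneg
  have h3 := mul_le_mul_of_nonneg_left h1 (hc' k)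
  have h4 := mul_le_mul_of_nonneg_right (hcc k) h2
  nlinarith

/-- the mean of `log 1/β` (extended) -/
noncomputable def Lb (μ : Measure ℝ) (D₀ : ℝ) : ℝ≥0∞ := ∫⁻ x, nlog (bet μ D₀ x) ∂μ

/-- **the bad set is small** (Markov) -/
theorem mbad_mass {c v : κ → ℝ} (hc : ∀ k, 0 ≤ c k) (hc1 : ∑ k, c k = 1) {ρ r D₀ T E₁ : ℝ}
    {μ : Measure ℝ} [IsProbabilityMeasure μ] (hμ : BSupp μ) (hρ : ρ ≠ 0) (hr : 0 < r)
    (hd : ∀ k, c k ≠ 0 → ∀ k', c k' ≠ 0 → |v k - v k'| + r ≤ D₀ * |ρ|) (hT : 0 < T)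
    (hL : Lb μ D₀ ≠ ⊤)
    (hE : Hs (addLaw c v (scal ρ μ)) r ≤ (Lb μ D₀).toReal + E₁) :
    T * ∫ z, mbad c v ρ r μ D₀ T z ≤ r * E₁ := by
  set P := m c v ρ r μ with hP
  have hPm : Measurable P := measurable_m c v ρ r μ
  have hP0 : ∀ z, 0 ≤ P z := m_nonneg hc v ρ r μ
  have hprob : IsProbabilityMeasure (addLaw c v (scal ρ μ)) := isProbabilityMeasure_addLaw hc hc1 _ _
  have hbs : BSupp (addLaw c v (scal ρ μ)) := (bsupp_scal hμ ρ).addLaw c v
  have hbint : Integrable (mbad c v ρ r μ D₀ T) :=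
    (integrable_m hc v ρ r hμ).mono' (measurable_mbad c v ρ r μ D₀ T).aestronglyMeasurable
      (Filter.Eventually.of_forall fun z => by
        rw [Real.norm_eq_abs, abs_of_nonneg (mbad_nonneg hc v ρ r μ D₀ T z)]
        exact mbad_le hc v ρ r μ D₀ T z)
  -- right-hand side
  have hR : ENNReal.ofReal (r * Hs (addLaw c v (scal ρ μ)) r) =
      ∑ k, ENNReal.ofReal (c k) * ∫⁻ z, (∫⁻ x in S ρ (v k) r z, nlog (P z) ∂μ) := by
    rw [ofReal_mul_Hs hbs hr]
    simp only [addLaw_real hc, lint_z]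
    have : ∀ k, ENNReal.ofReal (c k) *
        ∫⁻ z, nlog (P z) * ENNReal.ofReal (μ.real (S ρ (v k) r z)) =
        ∫⁻ z, ENNReal.ofReal (c k) * (nlog (P z) * ENNReal.ofReal (μ.real (S ρ (v k) r z))) :=
      fun k => (lintegral_const_mul' _ _ ENNReal.ofReal_ne_top).symm
    simp only [this]
    rw [← lintegral_finsetSum]
    · refine lintegral_congr fun z => ?_
      rw [ofReal_negMulLog (m_nonneg hc v ρ r μ z), ofReal_m hc, Finset.sum_mul]
      refine Finset.sum_congr rfl fun k _ => ?_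
      rw [mul_assoc]; congr 1; rw [mul_comm]
    · intro k _
      exact ((measurable_nlog.comp hPm).mul (measurable_real_section
        (measurableSet_SS ρ (v k) r)).ennreal_ofReal).const_mul _
  -- left-hand side
  have hok : ∀ z, MeasurableSet (okSet c v ρ r μ D₀ T z) := fun z =>
    measurable_prodMk_left (measurableSet_ok c v ρ r μ D₀ T)
  have hL1 : ∑ k, ENNReal.ofReal (c k) * ∫⁻ z, (∫⁻ x in S ρ (v k) r z,
      (nlog (bet μ D₀ x) + ENNReal.ofReal T *
        (okSet c v ρ r μ D₀ T z)ᶜ.indicator (fun _ => 1) x) ∂μ) =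
      ENNReal.ofReal r * Lb μ D₀ +
        ENNReal.ofReal T * ENNReal.ofReal (∫ z, mbad c v ρ r μ D₀ T z) := by
    have hnb : Measurable fun x => nlog (bet μ D₀ x) := measurable_nlog.comp (measurable_bet μ D₀)
    have h1 : ∀ k, ∫⁻ z, (∫⁻ x in S ρ (v k) r z,
      (nlog (bet μ D₀ x) + ENNReal.ofReal T *
        (okSet c v ρ r μ D₀ T z)ᶜ.indicator (fun _ => 1) x) ∂μ) =
        ENNReal.ofReal r * Lb μ D₀ + ENNReal.ofReal T *
          ∫⁻ z, ENNReal.ofReal (μ.real (S ρ (v k) r z \ okSet c v ρ r μ D₀ T z)) := by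
      intro k
      have h2 : ∀ z, ∫⁻ x in S ρ (v k) r z, (nlog (bet μ D₀ x) + ENNReal.ofReal T *
          (okSet c v ρ r μ D₀ T z)ᶜ.indicator (fun _ => 1) x) ∂μ =
          (∫⁻ x in S ρ (v k) r z, nlog (bet μ D₀ x) ∂μ) + ENNReal.ofReal T *
            ENNReal.ofReal (μ.real (S ρ (v k) r z \ okSet c v ρ r μ D₀ T z)) := by
        intro z
        rw [lintegral_add_left hnb, lintegral_const_mul' _ _ ENNReal.ofReal_ne_top,
          lintegral_indicator (hok z).compl, setLIntegral_const, one_mul,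
          Measure.restrict_apply (hok z).compl, Measure.real,
          ENNReal.ofReal_toReal (measure_ne_top _ _), inter_comm]
        rfl
      simp only [h2]
      rw [lintegral_add_right, lint_x μ ρ (v k) hr.le hnb,
        lintegral_const_mul' _ _ ENNReal.ofReal_ne_top]
      · rfl
      · exact ((measurable_real_section ((measurableSet_SS ρ (v k) r).diff
          (measurableSet_ok c v ρ r μ D₀ T))).ennreal_ofReal).const_mul _
    simp only [h1, mul_add, Finset.sum_add_distrib]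
    congr 1
    · rw [← Finset.sum_mul, ← ENNReal.ofReal_sum_of_nonneg fun k _ => hc k, hc1,
        ENNReal.ofReal_one, one_mul]
    · have h3 : ∀ k, ENNReal.ofReal (c k) * (ENNReal.ofReal T *
          ∫⁻ z, ENNReal.ofReal (μ.real (S ρ (v k) r z \ okSet c v ρ r μ D₀ T z))) =
          ENNReal.ofReal T * ∫⁻ z, ENNReal.ofReal (c k) *
            ENNReal.ofReal (μ.real (S ρ (v k) r z \ okSet c v ρ r μ D₀ T z)) := by
        intro k
        rw [lintegral_const_mul' _ _ ENNReal.ofReal_ne_top]; ring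
      simp only [h3]
      rw [← Finset.mul_sum, ← lintegral_finsetSum, ofReal_integral_eq_lintegral_ofReal hbint
        (Filter.Eventually.of_forall fun z => mbad_nonneg hc v ρ r μ D₀ T z)]
      · congr 1
        refine lintegral_congr fun z => ?_
        unfold mbad
        rw [ENNReal.ofReal_sum_of_nonneg fun k _ => mul_nonneg (hc k) measureReal_nonneg]
        exact Finset.sum_congr rfl fun k _ => (ENNReal.ofReal_mul (hc k)).symm
      · intro k _
        exact ((measurable_real_section ((measurableSet_SS ρ (v k) r).diff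
          (measurableSet_ok c v ρ r μ D₀ T))).ennreal_ofReal).const_mul _
  -- pointwise comparison
  have hpt : ∀ k, c k ≠ 0 → ∀ z, ∀ x ∈ S ρ (v k) r z,
      nlog (bet μ D₀ x) + ENNReal.ofReal T *
        (okSet c v ρ r μ D₀ T z)ᶜ.indicator (fun _ => 1) x ≤ nlog (P z) := by
    intro k hk z x hx
    have h1 : P z ≤ bet μ D₀ x := m_le_bet hc hc1.le hρ (hd k hk) hx
    rcases (hP0 z).eq_or_lt with h0 | h0
    · rw [← h0]
      have : nlog 0 = ⊤ := by unfold nlog; rw [if_pos rfl]
      rw [this]; exact le_top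
    by_cases hx2 : x ∈ okSet c v ρ r μ D₀ T z
    · rw [indicator_of_notMem (show x ∉ (okSet c v ρ r μ D₀ T z)ᶜ from fun h => h hx2), mul_zero,
        add_zero]
      exact nlog_anti h0.le h1
    · rw [indicator_of_mem (show x ∈ (okSet c v ρ r μ D₀ T z)ᶜ from hx2), mul_one]
      have h2 : exp T * P z < bet μ D₀ x := not_le.mp hx2
      have hb : 0 < bet μ D₀ x := h0.trans_le h1
      unfold nlog
      rw [if_neg hb.ne', if_neg h0.ne', ← ENNReal.ofReal_add _ hT.le]
      · refine ENNReal.ofReal_le_ofReal ?_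
        have h3 := log_le_log (by positivity) h2.le
        rw [log_mul (exp_pos T).ne' h0.ne', log_exp] at h3
        linarith
      · have := log_nonpos hb.le (bet_le_one μ D₀ x)
        linarith
  have hcmp : ENNReal.ofReal r * Lb μ D₀ +
        ENNReal.ofReal T * ENNReal.ofReal (∫ z, mbad c v ρ r μ D₀ T z) ≤
      ENNReal.ofReal (r * Hs (addLaw c v (scal ρ μ)) r) := by
    rw [← hL1, hR]
    refine Finset.sum_le_sum fun k _ => ?_
    rcases eq_or_ne (c k) 0 with h0 | h0
    · rw [h0, ENNReal.ofReal_zero, zero_mul, zero_mul]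
    · refine mul_le_mul_right ?_ _
      refine lintegral_mono fun z => ?_
      exact setLIntegral_mono' (measurableSet_S ρ (v k) r z) fun x hx => hpt k h0 z x hx
  have hbad0 : 0 ≤ ∫ z, mbad c v ρ r μ D₀ T z :=
    integral_nonneg fun z => mbad_nonneg hc v ρ r μ D₀ T z
  rw [← ENNReal.ofReal_toReal hL, ← ENNReal.ofReal_mul hr.le, ← ENNReal.ofReal_mul hT.le,
    ← ENNReal.ofReal_add (by positivity) (by positivity),
    ENNReal.ofReal_le_ofReal_iff (mul_nonneg hr.le (Hs_nonneg (by rw [probReal_univ]) hr.le))]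
    at hcmp
  have := mul_le_mul_of_nonneg_left hE hr.le
  nlinarith

end Crest.Agent.R98.K
end

-- ▼ part R98/KDetB
section

/-!
R98 / KDetB (helper9): the detection lemma, part B: first moment and Jensen (tangent lines).
-/

set_option autoImplicit false
set_option linter.unusedVariables false
set_option linter.unusedSectionVars false

open MeasureTheory Set Real
open scoped ENNReal

namespace Crest.Agent.R98.K

variable {κ : Type*} [Fintype κ]

section first

/-- the concentration of the multipliers, seen from two atoms at distance at least `b` -/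
theorem conc_apply {𝒬 : Type*} [Fintype 𝒬] {p ρ : 𝒬 → ℝ} (hp : ∀ Q, 0 ≤ p Q)
    (hρ : ∀ Q, ρ Q ≠ 0) {r b Λ : ℝ} (hr : 0 < r) (hb : 2 * r ≤ b)
    (hconc : ∀ a : ℝ, ∑ Q, (if a ≤ log |ρ Q| ∧ log |ρ Q| ≤ a + 4 * r / b then p Q else 0) ≤ Λ)
    {Δ y : ℝ} (hΔ : b ≤ |Δ|) (R : 𝒬 → Prop) [DecidablePred R]
    (hR : ∀ Q, R Q → |ρ Q * y - Δ| < r) :
    ∑ Q, (if R Q then p Q else 0) ≤ Λ := by
  have hb0 : 0 < b := by linarith
  have hΔr : r < |Δ| := by linarith
  rcases eq_or_ne y 0 with hy | hy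
  · have h0 : 0 ≤ Λ := le_trans (Finset.sum_nonneg fun Q _ => by split_ifs <;> [exact hp Q; exact le_rfl]) (hconc 0)
    have h1 : ∑ Q, (if R Q then p Q else 0) = 0 := by
      refine Finset.sum_eq_zero fun Q _ => ?_
      rw [if_neg]
      intro h
      have := hR Q h
      rw [hy, mul_zero, zero_sub, abs_neg] at this
      linarith
    rw [h1]; exact h0
  have hy0 : 0 < |y| := abs_pos.mpr hy
  refine le_trans (Finset.sum_le_sum fun Q _ => ?_) (hconc (log ((|Δ| - r) / |y|)))
  by_cases h : R Q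
  · rw [if_pos h, if_pos]
    have h1 := hR Q h
    have hρ0 : 0 < |ρ Q| := abs_pos.mpr (hρ Q)
    have h2 : |Δ| - r ≤ |ρ Q| * |y| := by
      rw [← abs_mul]
      have := abs_sub_abs_le_abs_sub Δ (ρ Q * y)
      rw [abs_sub_comm] at this
      linarith
    have h3 : |ρ Q| * |y| ≤ |Δ| + r := by
      rw [← abs_mul]
      have := abs_sub_abs_le_abs_sub (ρ Q * y) Δ
      linarith
    constructor
    · refine log_le_log (div_pos (by linarith) hy0) ?_
      rw [div_le_iff₀ hy0]; exact h2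
    · have h4 : log |ρ Q| ≤ log ((|Δ| + r) / |y|) := by
        refine log_le_log hρ0 ?_
        rw [le_div_iff₀ hy0]; exact h3
      have h5 : log ((|Δ| + r) / |y|) = log ((|Δ| - r) / |y|) + log ((|Δ| + r) / (|Δ| - r)) := by
        rw [log_div (by linarith) hy0.ne', log_div (by linarith) hy0.ne',
          log_div (by linarith) (by linarith)]
        ring
      have h6 : log ((|Δ| + r) / (|Δ| - r)) ≤ 4 * r / b := by
        have h7 := log_le_sub_one_of_pos (show 0 < (|Δ| + r) / (|Δ| - r) from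
          div_pos (by linarith) (by linarith))
        refine h7.trans ?_
        rw [div_sub_one (by linarith), div_le_div_iff₀ (by linarith) hb0]
        nlinarith
      rw [h5] at h4
      linarith
  · rw [if_neg h]
    split_ifs
    · exact hp Q
    · exact le_rfl

theorem measurableSet_near (ρ a a' r x : ℝ) :
    MeasurableSet {x' : ℝ | |ρ * (x' - x) - (a - a')| < r} :=
  measurableSet_lt (by fun_prop) measurable_const

/-- the other atoms seen from `(k, x)` -/
theorem lint_other (μ : Measure ℝ) [IsProbabilityMeasure μ] {bw : κ → ℝ} (hb : ∀ k, 0 ≤ bw k)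
    (v : κ → ℝ) (ρ a : ℝ) {r : ℝ} (hr : 0 < r) (x : ℝ) :
    ∫⁻ z in Ioc (a + ρ * x - r) (a + ρ * x), ENNReal.ofReal (m bw v ρ r μ z) ≤
      ENNReal.ofReal r * ∑ j, ENNReal.ofReal (bw j) *
        μ {x' : ℝ | |ρ * (x' - x) - (a - v j)| < r} := by
  have h1 : ∀ z ∈ Ioc (a + ρ * x - r) (a + ρ * x), ENNReal.ofReal (m bw v ρ r μ z) ≤
      ∑ j, ENNReal.ofReal (bw j) * μ {x' : ℝ | |ρ * (x' - x) - (a - v j)| < r} := by
    intro z hz
    rw [ofReal_m hb]
    refine Finset.sum_le_sum fun j _ => mul_le_mul_right ?_ _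
    rw [Measure.real, ENNReal.ofReal_toReal (measure_ne_top _ _)]
    refine measure_mono fun x' hx' => ?_
    simp only [mem_ofPred_eq]
    have h2 : ρ * (x' - x) - (a - v j) = (v j + ρ * x') - (a + ρ * x) := by ring
    rw [h2, abs_lt]
    constructor
    · linarith [hx'.1, hz.1]
    · linarith [hx'.2, hz.2]
  refine (setLIntegral_mono' measurableSet_Ioc h1).trans ?_
  rw [setLIntegral_const, Real.volume_Ioc, sub_sub_cancel, mul_comm]

/-- **first moment**: the mean over the multipliers of `∫ G A / P` -/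
theorem first_moment {𝒬 : Type*} [Fintype 𝒬] {μ : Measure ℝ} [IsProbabilityMeasure μ]
    (hμ : BSupp μ) {c c' bw v : κ → ℝ}
    (hc : ∀ k, 0 ≤ c k) (hc1 : ∑ k, c k = 1) (hc' : ∀ k, 0 ≤ c' k) (hcc : ∀ k, c' k ≤ c k)
    (hbw : ∀ k, 0 ≤ bw k) (hbw1 : ∑ k, bw k ≤ 1)
    {p ρ : 𝒬 → ℝ} (hp : ∀ Q, 0 ≤ p Q) (hρ : ∀ Q, ρ Q ≠ 0)
    {r b D₀ T Λ : ℝ} (hr : 0 < r) (hb : 2 * r ≤ b)
    (hd : ∀ Q k, c k ≠ 0 → ∀ k', c k' ≠ 0 → |v k - v k'| + r ≤ D₀ * |ρ Q|)
    (hd' : ∀ Q k, c k ≠ 0 → ∀ j, bw j ≠ 0 → |v k - v j| + r ≤ D₀ * |ρ Q|)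
    (hsep : ∀ k, c' k ≠ 0 → ∀ j, bw j ≠ 0 → b ≤ |v k - v j|)
    (hconc : ∀ a : ℝ, ∑ Q, (if a ≤ log |ρ Q| ∧ log |ρ Q| ≤ a + 4 * r / b then p Q else 0) ≤ Λ) :
    ∑ Q, p Q * ∫ z, mgood c c' v (ρ Q) r μ D₀ T z * (m bw v (ρ Q) r μ z / m c v (ρ Q) r μ z) ≤
      r * (exp T * Λ) := by
  classical
  have hΛ0 : 0 ≤ Λ :=
    le_trans (Finset.sum_nonneg fun Q _ => by split_ifs <;> [exact hp Q; exact le_rfl]) (hconc 0)
  have hcne : ∀ k, c' k ≠ 0 → c k ≠ 0 := fun k h h0 => h (le_antisymm (h0 ▸ hcc k) (hc' k))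
  -- integrability
  have hint : ∀ Q, Integrable fun z => mgood c c' v (ρ Q) r μ D₀ T z *
      (m bw v (ρ Q) r μ z / m c v (ρ Q) r μ z) := by
    intro Q
    refine (integrable_m hbw v (ρ Q) r hμ).mono' ?_ ?_
    · exact ((measurable_mgood c c' v (ρ Q) r μ D₀ T).mul
        ((measurable_m bw v (ρ Q) r μ).div (measurable_m c v (ρ Q) r μ))).aestronglyMeasurable
    · refine Filter.Eventually.of_forall fun z => ?_
      have hG0 := mgood_nonneg (c := c) hc' v (ρ Q) r μ D₀ T z
      have hG1 := mgood_le hc' hcc v (ρ Q) r μ D₀ T z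
      have hA0 := m_nonneg hbw v (ρ Q) r μ z
      have hP0 := m_nonneg hc v (ρ Q) r μ z
      rw [Real.norm_eq_abs, abs_of_nonneg (mul_nonneg hG0 (div_nonneg hA0 hP0))]
      rcases hP0.eq_or_lt with h0 | h0
      · rw [← h0, div_zero, mul_zero]; exact hA0
      · rw [mul_div_assoc', div_le_iff₀ h0, mul_comm (mgood _ _ _ _ _ _ _ _ _)]
        exact mul_le_mul_of_nonneg_left hG1 hA0
  have hnn : ∀ Q z, 0 ≤ mgood c c' v (ρ Q) r μ D₀ T z *
      (m bw v (ρ Q) r μ z / m c v (ρ Q) r μ z) := fun Q z =>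
    mul_nonneg (mgood_nonneg hc' v (ρ Q) r μ D₀ T z)
      (div_nonneg (m_nonneg hbw v (ρ Q) r μ z) (m_nonneg hc v (ρ Q) r μ z))
  -- one multiplier
  have hone : ∀ Q, ENNReal.ofReal (∫ z, mgood c c' v (ρ Q) r μ D₀ T z *
      (m bw v (ρ Q) r μ z / m c v (ρ Q) r μ z)) ≤
      ∑ k, ENNReal.ofReal (c' k) * ∫⁻ x, ENNReal.ofReal (exp T / bet μ D₀ x) *
        (ENNReal.ofReal r * ∑ j, ENNReal.ofReal (bw j) *
          μ {x' : ℝ | |ρ Q * (x' - x) - (v k - v j)| < r}) ∂μ := by
    intro Q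
    rw [ofReal_integral_eq_lintegral_ofReal (hint Q) (Filter.Eventually.of_forall (hnn Q))]
    have hmz : Measurable fun z => m bw v (ρ Q) r μ z := measurable_m bw v (ρ Q) r μ
    have hstep : ∀ z, ENNReal.ofReal (mgood c c' v (ρ Q) r μ D₀ T z *
        (m bw v (ρ Q) r μ z / m c v (ρ Q) r μ z)) ≤
        ∑ k, ENNReal.ofReal (c' k) * ∫⁻ x in S (ρ Q) (v k) r z,
          ENNReal.ofReal (exp T / bet μ D₀ x) * ENNReal.ofReal (m bw v (ρ Q) r μ z) ∂μ := by
      intro z
      have hA0 := m_nonneg hbw v (ρ Q) r μ z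
      have hP0 := m_nonneg hc v (ρ Q) r μ z
      unfold mgood
      rw [Finset.sum_mul, ENNReal.ofReal_sum_of_nonneg fun (k : κ) _ =>
        mul_nonneg (mul_nonneg (hc' k) measureReal_nonneg) (div_nonneg hA0 hP0)]
      refine Finset.sum_le_sum fun k _ => ?_
      rw [mul_assoc, ENNReal.ofReal_mul (hc' k)]
      rcases eq_or_ne (c' k) 0 with h0 | h0
      · rw [h0, ENNReal.ofReal_zero, zero_mul, zero_mul]
      refine mul_le_mul_right ?_ _
      rw [ENNReal.ofReal_mul measureReal_nonneg, Measure.real,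
        ENNReal.ofReal_toReal (measure_ne_top _ _), mul_comm]
      rw [← setLIntegral_const (μ := μ) (S (ρ Q) (v k) r z ∩ okSet c v (ρ Q) r μ D₀ T z)]
      have hmeas : MeasurableSet (S (ρ Q) (v k) r z ∩ okSet c v (ρ Q) r μ D₀ T z) :=
        (measurableSet_S _ _ _ _).inter (measurable_prodMk_left (measurableSet_ok c v (ρ Q) r μ D₀ T))
      refine (setLIntegral_mono' hmeas (g := fun x => ENNReal.ofReal (exp T / bet μ D₀ x) *
        ENNReal.ofReal (m bw v (ρ Q) r μ z)) fun x hx => ?_).trans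
        (lintegral_mono_set inter_subset_left)
      rw [← ENNReal.ofReal_mul (div_nonneg (exp_pos T).le (bet_nonneg μ D₀ x))]
      refine ENNReal.ofReal_le_ofReal ?_
      have h1 : m c v (ρ Q) r μ z ≤ bet μ D₀ x :=
        m_le_bet hc hc1.le (hρ Q) (hd Q k (hcne k h0)) hx.1
      have h2 : bet μ D₀ x ≤ exp T * m c v (ρ Q) r μ z := hx.2
      rcases hP0.eq_or_lt with hz | hz
      · rw [← hz, div_zero]
        exact mul_nonneg (div_nonneg (exp_pos T).le (bet_nonneg μ D₀ x)) hA0
      · rw [div_mul_eq_mul_div, div_le_div_iff₀ hz (hz.trans_le h1)]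
        have := mul_le_mul_of_nonneg_left h2 hA0
        linarith
    refine (lintegral_mono hstep).trans ?_
    have hF : Measurable (Function.uncurry fun (z x : ℝ) =>
        ENNReal.ofReal (exp T / bet μ D₀ x) * ENNReal.ofReal (m bw v (ρ Q) r μ z)) :=
      ((measurable_const.div (measurable_bet μ D₀)).ennreal_ofReal.comp measurable_snd).mul
        (hmz.ennreal_ofReal.comp measurable_fst)
    rw [lintegral_finsetSum']
    · refine Finset.sum_le_sum fun k _ => ?_
      rw [lintegral_const_mul' _ _ ENNReal.ofReal_ne_top, lint_swap μ (ρ Q) (v k) r hF]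
      refine mul_le_mul_right ?_ _
      refine lintegral_mono fun x => ?_
      rw [lintegral_const_mul' _ _ ENNReal.ofReal_ne_top]
      exact mul_le_mul_right (lint_other μ hbw v (ρ Q) (v k) hr x) _
    · intro k _
      refine (AEMeasurable.const_mul ?_ _)
      have : (fun z => ∫⁻ x in S (ρ Q) (v k) r z, ENNReal.ofReal (exp T / bet μ D₀ x) *
          ENNReal.ofReal (m bw v (ρ Q) r μ z) ∂μ) = fun z =>
          ∫⁻ x, {w : ℝ × ℝ | w.2 ∈ S (ρ Q) (v k) r w.1}.indicator
            (Function.uncurry fun (z x : ℝ) => ENNReal.ofReal (exp T / bet μ D₀ x) *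
              ENNReal.ofReal (m bw v (ρ Q) r μ z)) (z, x) ∂μ := by
        funext z
        rw [← lintegral_indicator (measurableSet_S _ _ _ _)]
        refine lintegral_congr fun x => ?_
        by_cases hx : x ∈ S (ρ Q) (v k) r z
        · rw [indicator_of_mem hx,
            indicator_of_mem (show (z, x) ∈ {w : ℝ × ℝ | w.2 ∈ S (ρ Q) (v k) r w.1} from hx)]
          rfl
        · rw [indicator_of_notMem hx,
            indicator_of_notMem (show (z, x) ∉ {w : ℝ × ℝ | w.2 ∈ S (ρ Q) (v k) r w.1} from hx)]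
      rw [this]
      exact ((hF.indicator (measurableSet_SS (ρ Q) (v k) r)).lintegral_prod_right').aemeasurable
  -- sum over the multipliers
  have hsum : ∑ Q, ENNReal.ofReal (p Q) * ENNReal.ofReal (∫ z, mgood c c' v (ρ Q) r μ D₀ T z *
      (m bw v (ρ Q) r μ z / m c v (ρ Q) r μ z)) ≤ ENNReal.ofReal (r * (exp T * Λ)) := by
    calc ∑ Q, ENNReal.ofReal (p Q) * ENNReal.ofReal (∫ z, mgood c c' v (ρ Q) r μ D₀ T z *
          (m bw v (ρ Q) r μ z / m c v (ρ Q) r μ z))
        ≤ ∑ Q, ENNReal.ofReal (p Q) * ∑ k, ENNReal.ofReal (c' k) *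
          ∫⁻ x, ENNReal.ofReal (exp T / bet μ D₀ x) *
            (ENNReal.ofReal r * ∑ j, ENNReal.ofReal (bw j) *
              μ {x' : ℝ | |ρ Q * (x' - x) - (v k - v j)| < r}) ∂μ :=
          Finset.sum_le_sum fun Q _ => mul_le_mul_right (hone Q) _
      _ = ∑ k, ENNReal.ofReal (c' k) * ∑ Q, ENNReal.ofReal (p Q) *
          ∫⁻ x, ENNReal.ofReal (exp T / bet μ D₀ x) *
            (ENNReal.ofReal r * ∑ j, ENNReal.ofReal (bw j) *
              μ {x' : ℝ | |ρ Q * (x' - x) - (v k - v j)| < r}) ∂μ := by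
          simp only [Finset.mul_sum]
          rw [Finset.sum_comm]
          refine Finset.sum_congr rfl fun k _ => Finset.sum_congr rfl fun Q _ => ?_
          ring
      _ ≤ ∑ k, ENNReal.ofReal (c' k) * ENNReal.ofReal (r * (exp T * Λ)) := by
          refine Finset.sum_le_sum fun k _ => ?_
          rcases eq_or_ne (c' k) 0 with h0 | h0
          · rw [h0, ENNReal.ofReal_zero, zero_mul, zero_mul]
          refine mul_le_mul_right ?_ _
          have hmeas : ∀ Q j, Measurable fun x =>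
              μ {x' : ℝ | |ρ Q * (x' - x) - (v k - v j)| < r} := by
            intro Q j
            have h : MeasurableSet {w : ℝ × ℝ | |ρ Q * (w.2 - w.1) - (v k - v j)| < r} :=
              measurableSet_lt (by fun_prop) measurable_const
            exact measurable_measure_prodMk_left (ν := μ) h
          have e1 : ∀ Q, ENNReal.ofReal (p Q) * ∫⁻ x, ENNReal.ofReal (exp T / bet μ D₀ x) *
              (ENNReal.ofReal r * ∑ j, ENNReal.ofReal (bw j) *
                μ {x' : ℝ | |ρ Q * (x' - x) - (v k - v j)| < r}) ∂μ =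
              ∫⁻ x, ENNReal.ofReal (p Q) * (ENNReal.ofReal (exp T / bet μ D₀ x) *
              (ENNReal.ofReal r * ∑ j, ENNReal.ofReal (bw j) *
                μ {x' : ℝ | |ρ Q * (x' - x) - (v k - v j)| < r})) ∂μ := fun Q =>
            (lintegral_const_mul' _ _ ENNReal.ofReal_ne_top).symm
          simp only [e1]
          rw [← lintegral_finsetSum]
          · refine (lintegral_mono (g := fun _ => ENNReal.ofReal (r * (exp T * Λ))) fun x => ?_).trans
              (by rw [lintegral_const, measure_univ, mul_one])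
            -- pointwise in x
            have hj : ∀ j, bw j ≠ 0 → ∑ Q, ENNReal.ofReal (p Q) *
                μ {x' : ℝ | |ρ Q * (x' - x) - (v k - v j)| < r} ≤
                ENNReal.ofReal Λ * ENNReal.ofReal (bet μ D₀ x) := by
              intro j hj0
              have e2 : ∀ Q, ENNReal.ofReal (p Q) *
                  μ {x' : ℝ | |ρ Q * (x' - x) - (v k - v j)| < r} =
                  ∫⁻ x', ENNReal.ofReal (if |ρ Q * (x' - x) - (v k - v j)| < r then p Q else 0) ∂μ := by
                intro Q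
                rw [← setLIntegral_const (μ := μ) {x' : ℝ | |ρ Q * (x' - x) - (v k - v j)| < r},
                  ← lintegral_indicator (measurableSet_near _ _ _ _ _)]
                refine lintegral_congr fun x' => ?_
                by_cases hx' : |ρ Q * (x' - x) - (v k - v j)| < r
                · rw [indicator_of_mem (show x' ∈ {x' : ℝ | |ρ Q * (x' - x) - (v k - v j)| < r} from hx'),
                    if_pos hx']
                · rw [indicator_of_notMem (show x' ∉ {x' : ℝ | |ρ Q * (x' - x) - (v k - v j)| < r} from hx'),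
                    if_neg hx', ENNReal.ofReal_zero]
              simp only [e2]
              rw [← lintegral_finsetSum]
              · have h3 : ∀ x', ∑ Q, ENNReal.ofReal
                    (if |ρ Q * (x' - x) - (v k - v j)| < r then p Q else 0) ≤
                    (Icc (x - D₀) (x + D₀)).indicator (fun _ => ENNReal.ofReal Λ) x' := by
                  intro x'
                  rw [← ENNReal.ofReal_sum_of_nonneg fun Q _ => by
                    split_ifs <;> [exact hp Q; exact le_rfl]]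
                  by_cases hx' : x' ∈ Icc (x - D₀) (x + D₀)
                  · rw [indicator_of_mem hx']
                    refine ENNReal.ofReal_le_ofReal ?_
                    exact conc_apply hp hρ hr hb hconc (hsep k h0 j hj0)
                      (fun Q => |ρ Q * (x' - x) - (v k - v j)| < r) fun Q h => h
                  · rw [indicator_of_notMem hx']
                    refine le_of_eq ?_
                    rw [ENNReal.ofReal_eq_zero]
                    refine le_of_eq (Finset.sum_eq_zero fun Q _ => ?_)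
                    rw [if_neg]
                    intro h
                    apply hx'
                    have h4 : |ρ Q| * |x' - x| ≤ D₀ * |ρ Q| := by
                      rw [← abs_mul]
                      have h5 := abs_sub_abs_le_abs_sub (ρ Q * (x' - x)) (v k - v j)
                      have h6 := hd' Q k (hcne k h0) j hj0
                      linarith
                    rw [mul_comm] at h4
                    have h7 : |x' - x| ≤ D₀ := le_of_mul_le_mul_right h4 (abs_pos.mpr (hρ Q))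
                    rw [abs_le] at h7
                    constructor <;> linarith [h7.1, h7.2]
                refine (lintegral_mono h3).trans ?_
                rw [lintegral_indicator measurableSet_Icc, setLIntegral_const]
                unfold bet
                rw [Measure.real, ENNReal.ofReal_toReal (measure_ne_top _ _)]
              · intro Q _
                refine ENNReal.measurable_ofReal.comp (Measurable.ite (measurableSet_near _ _ _ _ _)
                  measurable_const measurable_const)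
            calc ∑ Q, ENNReal.ofReal (p Q) * (ENNReal.ofReal (exp T / bet μ D₀ x) *
                  (ENNReal.ofReal r * ∑ j, ENNReal.ofReal (bw j) *
                    μ {x' : ℝ | |ρ Q * (x' - x) - (v k - v j)| < r}))
                = ENNReal.ofReal (exp T / bet μ D₀ x) * (ENNReal.ofReal r *
                  ∑ j, ENNReal.ofReal (bw j) * ∑ Q, ENNReal.ofReal (p Q) *
                    μ {x' : ℝ | |ρ Q * (x' - x) - (v k - v j)| < r}) := by
                  simp only [Finset.mul_sum]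
                  rw [Finset.sum_comm]
                  refine Finset.sum_congr rfl fun j _ => Finset.sum_congr rfl fun Q _ => ?_
                  ring
              _ ≤ ENNReal.ofReal (exp T / bet μ D₀ x) * (ENNReal.ofReal r *
                  ∑ j, ENNReal.ofReal (bw j) * (ENNReal.ofReal Λ * ENNReal.ofReal (bet μ D₀ x))) := by
                  refine mul_le_mul_right (mul_le_mul_right (Finset.sum_le_sum fun j _ => ?_) _) _
                  rcases eq_or_ne (bw j) 0 with h | h
                  · rw [h, ENNReal.ofReal_zero, zero_mul, zero_mul]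
                  · exact mul_le_mul_right (hj j h) _
              _ ≤ ENNReal.ofReal (r * (exp T * Λ)) := by
                  rw [← Finset.sum_mul, ← ENNReal.ofReal_sum_of_nonneg fun j _ => hbw j,
                    ← ENNReal.ofReal_mul hΛ0, ← ENNReal.ofReal_mul (Finset.sum_nonneg fun j _ => hbw j),
                    ← ENNReal.ofReal_mul hr.le,
                    ← ENNReal.ofReal_mul (div_nonneg (exp_pos T).le (bet_nonneg μ D₀ x))]
                  refine ENNReal.ofReal_le_ofReal ?_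
                  have hb0 := bet_nonneg μ D₀ x
                  rcases hb0.eq_or_lt with h | h
                  · rw [← h, div_zero, zero_mul]; positivity
                  · have h8 : exp T / bet μ D₀ x * (r * ((∑ i, bw i) * (Λ * bet μ D₀ x))) =
                        (∑ i, bw i) * (r * (exp T * Λ)) := by
                      field_simp
                    rw [h8]
                    have h9 : 0 ≤ r * (exp T * Λ) := by positivity
                    nlinarith
          · intro Q _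
            refine Measurable.const_mul (Measurable.mul ?_ (Measurable.const_mul ?_ _)) _
            · exact (measurable_const.div (measurable_bet μ D₀)).ennreal_ofReal
            · exact Finset.measurable_sum _ fun j _ => (hmeas Q j).const_mul _
      _ ≤ ENNReal.ofReal (r * (exp T * Λ)) := by
          rw [← Finset.sum_mul, ← ENNReal.ofReal_sum_of_nonneg fun k _ => hc' k]
          have h1 : ∑ k, c' k ≤ 1 := (Finset.sum_le_sum fun k _ => hcc k).trans hc1.le
          calc ENNReal.ofReal (∑ k, c' k) * ENNReal.ofReal (r * (exp T * Λ))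
              ≤ 1 * ENNReal.ofReal (r * (exp T * Λ)) :=
                mul_le_mul_left (by rw [← ENNReal.ofReal_one]; exact ENNReal.ofReal_le_ofReal h1) _
            _ = _ := one_mul _
  have hI0 : ∀ Q, 0 ≤ ∫ z, mgood c c' v (ρ Q) r μ D₀ T z *
      (m bw v (ρ Q) r μ z / m c v (ρ Q) r μ z) := fun Q => integral_nonneg (hnn Q)
  have h2 : ∑ Q, ENNReal.ofReal (p Q) * ENNReal.ofReal (∫ z, mgood c c' v (ρ Q) r μ D₀ T z *
      (m bw v (ρ Q) r μ z / m c v (ρ Q) r μ z)) =
      ENNReal.ofReal (∑ Q, p Q * ∫ z, mgood c c' v (ρ Q) r μ D₀ T z *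
      (m bw v (ρ Q) r μ z / m c v (ρ Q) r μ z)) := by
    rw [ENNReal.ofReal_sum_of_nonneg fun Q _ => mul_nonneg (hp Q) (hI0 Q)]
    exact Finset.sum_congr rfl fun Q _ => (ENNReal.ofReal_mul (hp Q)).symm
  rw [h2] at hsum
  rwa [ENNReal.ofReal_le_ofReal_iff (by positivity)] at hsum

end first

end Crest.Agent.R98.K
end

-- ▼ part R98/KDetC

/-!
R98 / KDetC (helper9): the detection lemma, part C: the information of a child.
-/

set_option autoImplicit false
set_option linter.unusedVariables false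
set_option linter.unusedSectionVars false

open MeasureTheory Set Real
open scoped ENNReal

namespace Crest.Agent.R98.K

section scalar

/-- tangent line of `log (1 + t)` -/
theorem log_tangent {t t₀ : ℝ} (ht : 0 ≤ t) (h0 : 0 ≤ t₀) :
    log (1 + t) ≤ log (1 + t₀) + (t - t₀) / (1 + t₀) := by
  have h1 : 0 < 1 + t₀ := by linarith
  have h2 : 0 < 1 + t := by linarith
  have h3 := log_le_sub_one_of_pos (div_pos h2 h1)
  rw [log_div h2.ne' h1.ne'] at h3
  have h4 : (1 + t) / (1 + t₀) - 1 = (t - t₀) / (1 + t₀) := by field_simp; ring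
  linarith

/-- the pointwise inequality: `P log(1 + A/(nP))` is split in a good and a bad part -/
theorem pt_bound {P A G n y : ℝ} (hP : 0 ≤ P) (hA : 0 ≤ A) (hG : 0 ≤ G) (hGP : G ≤ P)
    (hn : 0 < n) (hn1 : n ≤ 1) (hy : 0 ≤ y) :
    P * log (1 + A / (n * P)) ≤ (P - G) * (-log n) + (P * log 2 + (A - P) / 2) +
      (G * log (1 + y) + ((G * (A / P)) / n - G * y) / (1 + y)) := by
  have hln : 0 ≤ -log n := by have := log_nonpos hn.le hn1; linarith
  have hy1 : 0 < 1 + y := by linarith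
  have hly : 0 ≤ log (1 + y) := log_nonneg (by linarith)
  rcases hP.eq_or_lt with h0 | h0
  · have hG0 : G = 0 := le_antisymm (h0 ▸ hGP) hG
    rw [← h0, hG0]
    simp only [zero_mul, mul_zero, sub_zero, zero_div, sub_self, add_zero, zero_add]
    positivity
  have hAP : 0 ≤ A / P := div_nonneg hA hP
  have hAn : A / (n * P) = (A / P) / n := by field_simp
  have h1 : log (1 + A / (n * P)) ≤ -log n + log (1 + A / P) := by
    have h2 : 1 + A / (n * P) ≤ (1 + A / P) / n := by
      rw [hAn, le_div_iff₀ hn]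
      have : A / P / n * n = A / P := by field_simp
      nlinarith
    have h3 := log_le_log (by positivity) h2
    rw [log_div (by positivity) hn.ne'] at h3
    linarith
  have h4 : log (1 + A / P) ≤ log 2 + (A / P - 1) / 2 := by
    have := log_tangent hAP (zero_le_one' ℝ)
    norm_num at this
    linarith
  have h4' : P * log (1 + A / P) ≤ P * log 2 + (A - P) / 2 := by
    have h5 := mul_le_mul_of_nonneg_left h4 hP
    have h6 : P * (log 2 + (A / P - 1) / 2) = P * log 2 + (A - P) / 2 := by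
      field_simp
    linarith
  have h7 : (P - G) * log (1 + A / P) ≤ P * log (1 + A / P) :=
    mul_le_mul_of_nonneg_right (by linarith) (log_nonneg (by linarith))
  have h8 := mul_le_mul_of_nonneg_left h1 (sub_nonneg.mpr hGP)
  have h9 : G * log (1 + A / (n * P)) ≤
      G * log (1 + y) + ((G * (A / P)) / n - G * y) / (1 + y) := by
    have h10 := mul_le_mul_of_nonneg_left
      (log_tangent (show 0 ≤ A / (n * P) by positivity) hy) hG
    rw [hAn] at h10 ⊢
    have h11 : G * (log (1 + y) + (A / P / n - y) / (1 + y)) =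
        G * log (1 + y) + (G * (A / P) / n - G * y) / (1 + y) := by
      field_simp
    linarith
  nlinarith

end scalar

section core

variable {κ : Type*} [Fintype κ]

/-- **core of the detection lemma** -/
theorem det_core {𝒬 : Type*} [Fintype 𝒬] {μ : Measure ℝ} [IsProbabilityMeasure μ]
    (hμ : BSupp μ) {c c' bw v : κ → ℝ}
    (hc : ∀ k, 0 ≤ c k) (hc1 : ∑ k, c k = 1) (hc' : ∀ k, 0 ≤ c' k) (hcc : ∀ k, c' k ≤ c k)
    (hbw : ∀ k, 0 ≤ bw k) (hbw1 : ∑ k, bw k ≤ 1)
    {p ρ : 𝒬 → ℝ} (hp : ∀ Q, 0 ≤ p Q) (hp1 : ∑ Q, p Q = 1) (hρ : ∀ Q, ρ Q ≠ 0)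
    {r b D₀ T Λ E₁ δ θ g n : ℝ} (hr : 0 < r) (hb : 2 * r ≤ b)
    (hd : ∀ Q k, c k ≠ 0 → ∀ k', c k' ≠ 0 → |v k - v k'| + r ≤ D₀ * |ρ Q|)
    (hd' : ∀ Q k, c k ≠ 0 → ∀ j, bw j ≠ 0 → |v k - v j| + r ≤ D₀ * |ρ Q|)
    (hsep : ∀ k, c' k ≠ 0 → ∀ j, bw j ≠ 0 → b ≤ |v k - v j|)
    (hθ : ∑ k, (c k - c' k) ≤ θ)
    (hconc : ∀ a : ℝ, ∑ Q, (if a ≤ log |ρ Q| ∧ log |ρ Q| ≤ a + 4 * r / b then p Q else 0) ≤ Λ)
    (hL : Lb μ D₀ ≠ ⊤) (hT : 0 < T)
    (hE : ∀ Q, Hs (addLaw c v (scal (ρ Q) μ)) r ≤ (Lb μ D₀).toReal + E₁)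
    (hET : E₁ ≤ (1 - δ) * T) (hg : 0 ≤ g) (hΛ : exp T * Λ ≤ exp (-g))
    (hn : 0 < n) (hn1 : n ≤ 1) :
    ∑ Q, p Q * ((1 / r) * ∫ z, m c v (ρ Q) r μ z *
      log (1 + m bw v (ρ Q) r μ z / (n * m c v (ρ Q) r μ z))) ≤
      -log n - (δ - θ) * min (-log n) g + 3 := by
  set s := -log n with hs
  have hs0 : 0 ≤ s := by have := log_nonpos hn.le hn1; linarith
  set y := exp (-g) / n with hy
  have hy0 : 0 ≤ y := by positivity
  set P := fun Q z => m c v (ρ Q) r μ z with hPdef
  set A := fun Q z => m bw v (ρ Q) r μ z with hAdef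
  set G := fun Q z => mgood c c' v (ρ Q) r μ D₀ T z with hGdef
  have hP0 : ∀ Q z, 0 ≤ P Q z := fun Q z => m_nonneg hc v (ρ Q) r μ z
  have hA0 : ∀ Q z, 0 ≤ A Q z := fun Q z => m_nonneg hbw v (ρ Q) r μ z
  have hG0 : ∀ Q z, 0 ≤ G Q z := fun Q z => mgood_nonneg hc' v (ρ Q) r μ D₀ T z
  have hGP : ∀ Q z, G Q z ≤ P Q z := fun Q z => mgood_le hc' hcc v (ρ Q) r μ D₀ T z
  have hPi : ∀ Q, Integrable (P Q) := fun Q => integrable_m hc v (ρ Q) r hμ
  have hAi : ∀ Q, Integrable (A Q) := fun Q => integrable_m hbw v (ρ Q) r hμ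
  have hGm : ∀ Q, Measurable (G Q) := fun Q => measurable_mgood c c' v (ρ Q) r μ D₀ T
  have hPm : ∀ Q, Measurable (P Q) := fun Q => measurable_m c v (ρ Q) r μ
  have hAm : ∀ Q, Measurable (A Q) := fun Q => measurable_m bw v (ρ Q) r μ
  have hGi : ∀ Q, Integrable (G Q) := fun Q =>
    (hPi Q).mono' (hGm Q).aestronglyMeasurable (Filter.Eventually.of_forall fun z => by
      rw [Real.norm_eq_abs, abs_of_nonneg (hG0 Q z)]; exact hGP Q z)
  have hGAi : ∀ Q, Integrable fun z => G Q z * (A Q z / P Q z) := by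
    intro Q
    refine (hAi Q).mono' ((hGm Q).mul ((hAm Q).div (hPm Q))).aestronglyMeasurable ?_
    refine Filter.Eventually.of_forall fun z => ?_
    rw [Real.norm_eq_abs, abs_of_nonneg (mul_nonneg (hG0 Q z) (div_nonneg (hA0 Q z) (hP0 Q z)))]
    rcases (hP0 Q z).eq_or_lt with h0 | h0
    · rw [← h0, div_zero, mul_zero]; exact hA0 Q z
    · rw [mul_div_assoc', div_le_iff₀ h0, mul_comm (G Q z)]
      exact mul_le_mul_of_nonneg_left (hGP Q z) (hA0 Q z)
  have hLi : ∀ Q, Integrable fun z => P Q z * log (1 + A Q z / (n * P Q z)) := by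
    intro Q
    refine ((hAi Q).div_const n).mono' ((hPm Q).mul (measurable_log.comp
      (measurable_const.add ((hAm Q).div ((hPm Q).const_mul n))))).aestronglyMeasurable ?_
    refine Filter.Eventually.of_forall fun z => ?_
    have h1 : 0 ≤ A Q z / (n * P Q z) := div_nonneg (hA0 Q z) (mul_nonneg hn.le (hP0 Q z))
    rw [Real.norm_eq_abs, abs_of_nonneg (mul_nonneg (hP0 Q z) (log_nonneg (by linarith)))]
    have h2 : log (1 + A Q z / (n * P Q z)) ≤ A Q z / (n * P Q z) := by
      have := log_le_sub_one_of_pos (show 0 < 1 + A Q z / (n * P Q z) by linarith)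
      linarith
    rcases (hP0 Q z).eq_or_lt with h0 | h0
    · rw [← h0, zero_mul]; exact div_nonneg (hA0 Q z) hn.le
    · have h3 := mul_le_mul_of_nonneg_left h2 h0.le
      have h4 : P Q z * (A Q z / (n * P Q z)) = A Q z / n := by field_simp
      linarith
  have hPint : ∀ Q, ∫ z, P Q z = r := fun Q => by
    have := integral_m hc v (ρ Q) hr.le (μ := μ)
    rw [hc1, mul_one] at this; exact this
  have hAint : ∀ Q, ∫ z, A Q z ≤ r := fun Q => by
    have := integral_m hbw v (ρ Q) hr.le (μ := μ)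
    simp only [hAdef]
    rw [this]; nlinarith
  -- mass of the good part
  set gm := fun Q => (1 / r) * ∫ z, G Q z with hgm
  have hgm1 : ∀ Q, gm Q ≤ 1 := by
    intro Q
    have h1 : ∫ z, G Q z ≤ ∫ z, P Q z := integral_mono (hGi Q) (hPi Q) (hGP Q)
    rw [hPint] at h1
    simp only [hgm]
    rw [one_div, inv_mul_le_iff₀ hr]; linarith
  have hgm0 : ∀ Q, 0 ≤ gm Q := fun Q => mul_nonneg (by positivity) (integral_nonneg (hG0 Q))
  have hgmδ : ∀ Q, δ - θ ≤ gm Q := by
    intro Q
    have hcd : ∀ k, 0 ≤ c k - c' k := fun k => sub_nonneg.mpr (hcc k)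
    have h1 : ∫ z, P Q z ≤ ∫ z, (G Q z + m (fun k => c k - c' k) v (ρ Q) r μ z +
        mbad c v (ρ Q) r μ D₀ T z) := by
      refine integral_mono (hPi Q) ?_ fun z => m_le_add hc' hcc v (ρ Q) r μ D₀ T z
      refine ((hGi Q).add (integrable_m hcd v (ρ Q) r hμ)).add ?_
      exact (hPi Q).mono' (measurable_mbad c v (ρ Q) r μ D₀ T).aestronglyMeasurable
        (Filter.Eventually.of_forall fun z => by
          rw [Real.norm_eq_abs, abs_of_nonneg (mbad_nonneg hc v (ρ Q) r μ D₀ T z)]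
          exact mbad_le hc v (ρ Q) r μ D₀ T z)
    have hbi : Integrable (mbad c v (ρ Q) r μ D₀ T) := (hPi Q).mono'
      (measurable_mbad c v (ρ Q) r μ D₀ T).aestronglyMeasurable
        (Filter.Eventually.of_forall fun z => by
          rw [Real.norm_eq_abs, abs_of_nonneg (mbad_nonneg hc v (ρ Q) r μ D₀ T z)]
          exact mbad_le hc v (ρ Q) r μ D₀ T z)
    have hii : Integrable fun z => G Q z + m (fun k => c k - c' k) v (ρ Q) r μ z :=
      (hGi Q).add (integrable_m hcd v (ρ Q) r hμ)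
    rw [hPint, integral_add hii hbi, integral_add (hGi Q) (integrable_m hcd v (ρ Q) r hμ),
      integral_m hcd v (ρ Q) hr.le] at h1
    have h2 := mbad_mass hc hc1 hμ (hρ Q) hr (fun k hk k' hk' => hd Q k hk k' hk') hT hL (hE Q)
    have h3 : ∫ z, mbad c v (ρ Q) r μ D₀ T z ≤ r * (1 - δ) := by
      have h4 : T * ∫ z, mbad c v (ρ Q) r μ D₀ T z ≤ T * (r * (1 - δ)) := by
        have := mul_le_mul_of_nonneg_left hET hr.le
        nlinarith
      exact le_of_mul_le_mul_left h4 hT
    have h5 := mul_le_mul_of_nonneg_left hθ hr.le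
    simp only [hgm]
    rw [one_div, le_inv_mul_iff₀ hr]
    nlinarith
  -- per multiplier
  have hper : ∀ Q, (1 / r) * ∫ z, P Q z * log (1 + A Q z / (n * P Q z)) ≤
      (1 - gm Q) * s + log 2 + (gm Q * log (1 + y) +
        (((1 / r) * ∫ z, G Q z * (A Q z / P Q z)) / n - gm Q * y) / (1 + y)) := by
    intro Q
    have h1 : ∫ z, P Q z * log (1 + A Q z / (n * P Q z)) ≤
        ∫ z, ((P Q z - G Q z) * s + (P Q z * log 2 + (A Q z - P Q z) / 2) +
          (G Q z * log (1 + y) + ((G Q z * (A Q z / P Q z)) / n - G Q z * y) / (1 + y))) := by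
      refine integral_mono (hLi Q) ?_ fun z =>
        pt_bound (hP0 Q z) (hA0 Q z) (hG0 Q z) (hGP Q z) hn hn1 hy0
      exact ((((hPi Q).sub (hGi Q)).mul_const s).add (((hPi Q).mul_const _).add
        (((hAi Q).sub (hPi Q)).div_const 2))).add (((hGi Q).mul_const _).add
        ((((hGAi Q).div_const n).sub ((hGi Q).mul_const y)).div_const _))
    have i1 : Integrable fun z => (P Q z - G Q z) * s := ((hPi Q).sub (hGi Q)).mul_const s
    have i2 : Integrable fun z => P Q z * log 2 := (hPi Q).mul_const _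
    have i3 : Integrable fun z => (A Q z - P Q z) / 2 := ((hAi Q).sub (hPi Q)).div_const 2
    have i23 : Integrable fun z => P Q z * log 2 + (A Q z - P Q z) / 2 := i2.add i3
    have i123 : Integrable fun z => (P Q z - G Q z) * s +
        (P Q z * log 2 + (A Q z - P Q z) / 2) := i1.add i23
    have i4 : Integrable fun z => G Q z * log (1 + y) := (hGi Q).mul_const _
    have i5 : Integrable fun z => G Q z * (A Q z / P Q z) / n := (hGAi Q).div_const n
    have i6 : Integrable fun z => G Q z * y := (hGi Q).mul_const y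
    have i56 : Integrable fun z => G Q z * (A Q z / P Q z) / n - G Q z * y := i5.sub i6
    have i7 : Integrable fun z => (G Q z * (A Q z / P Q z) / n - G Q z * y) / (1 + y) :=
      i56.div_const _
    have i47 : Integrable fun z => G Q z * log (1 + y) +
        (G Q z * (A Q z / P Q z) / n - G Q z * y) / (1 + y) := i4.add i7
    rw [integral_add i123 i47, integral_add i1 i23, integral_add i2 i3, integral_add i4 i7,
      integral_mul_const, integral_sub (hPi Q) (hGi Q), integral_mul_const, integral_div,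
      integral_sub (hAi Q) (hPi Q), integral_mul_const, integral_div, integral_sub i5 i6,
      integral_div, integral_mul_const, hPint] at h1
    have h2 := hAint Q
    have h3 : (r - ∫ z, G Q z) * s + (r * log 2 + ((∫ z, A Q z) - r) / 2) +
        ((∫ z, G Q z) * log (1 + y) +
          ((∫ z, G Q z * (A Q z / P Q z)) / n - (∫ z, G Q z) * y) / (1 + y)) ≤
        r * ((1 - gm Q) * s + log 2 + (gm Q * log (1 + y) +
        (((1 / r) * ∫ z, G Q z * (A Q z / P Q z)) / n - gm Q * y) / (1 + y))) := by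
      have e1 : r * ((1 - gm Q) * s + log 2 + (gm Q * log (1 + y) +
          (((1 / r) * ∫ z, G Q z * (A Q z / P Q z)) / n - gm Q * y) / (1 + y))) =
          (r - ∫ z, G Q z) * s + r * log 2 + ((∫ z, G Q z) * log (1 + y) +
          ((∫ z, G Q z * (A Q z / P Q z)) / n - (∫ z, G Q z) * y) / (1 + y)) := by
        simp only [hgm]
        field_simp
      rw [e1]; linarith
    have h4 := h1.trans h3
    calc (1 / r) * ∫ z, P Q z * log (1 + A Q z / (n * P Q z))
        ≤ (1 / r) * (r * ((1 - gm Q) * s + log 2 + (gm Q * log (1 + y) +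
        (((1 / r) * ∫ z, G Q z * (A Q z / P Q z)) / n - gm Q * y) / (1 + y)))) :=
          mul_le_mul_of_nonneg_left h4 (by positivity)
      _ = _ := by field_simp
  -- averaging
  have hfm := first_moment hμ hc hc1 hc' hcc hbw hbw1 hp hρ hr hb hd hd' hsep hconc
    (D₀ := D₀) (T := T)
  set ϖ := ∑ Q, p Q * gm Q with hϖ
  have hw1 : ϖ ≤ 1 := by
    rw [← hp1]; exact Finset.sum_le_sum fun Q _ => by nlinarith [hp Q, hgm1 Q]
  have hw0 : 0 ≤ ϖ := Finset.sum_nonneg fun Q _ => mul_nonneg (hp Q) (hgm0 Q)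
  have hwδ : δ - θ ≤ ϖ := by
    calc δ - θ = ∑ Q, p Q * (δ - θ) := by rw [← Finset.sum_mul, hp1, one_mul]
      _ ≤ ϖ := Finset.sum_le_sum fun Q _ => mul_le_mul_of_nonneg_left (hgmδ Q) (hp Q)
  set M := ∑ Q, p Q * ((1 / r) * ∫ z, G Q z * (A Q z / P Q z)) with hM
  have hMle : M ≤ exp (-g) := by
    have h1 : M = (1 / r) * ∑ Q, p Q * ∫ z, G Q z * (A Q z / P Q z) := by
      rw [hM, Finset.mul_sum]; exact Finset.sum_congr rfl fun Q _ => by ring
    rw [h1, one_div, inv_mul_le_iff₀ hr]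
    refine hfm.trans ?_
    exact mul_le_mul_of_nonneg_left hΛ hr.le
  have htot : ∑ Q, p Q * ((1 / r) * ∫ z, P Q z * log (1 + A Q z / (n * P Q z))) ≤
      (1 - ϖ) * s + log 2 + (ϖ * log (1 + y) + (M / n - ϖ * y) / (1 + y)) := by
    refine (Finset.sum_le_sum fun Q _ => mul_le_mul_of_nonneg_left (hper Q) (hp Q)).trans
      (le_of_eq ?_)
    have e1 : (1 - ϖ) * s + log 2 + (ϖ * log (1 + y) + (M / n - ϖ * y) / (1 + y)) =
        ∑ Q, (p Q * s - p Q * gm Q * s + p Q * log 2 + (p Q * gm Q * log (1 + y) +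
          ((p Q * ((1 / r) * ∫ z, G Q z * (A Q z / P Q z))) / n - p Q * gm Q * y) / (1 + y))) := by
      simp only [Finset.sum_add_distrib, Finset.sum_sub_distrib, ← Finset.sum_mul,
        ← Finset.sum_div, hp1, ← hϖ, ← hM]
      ring
    rw [e1]
    refine Finset.sum_congr rfl fun Q _ => ?_
    ring
  refine htot.trans ?_
  have hy1 : 0 < 1 + y := by linarith
  have h1 : (M / n - ϖ * y) / (1 + y) ≤ 1 := by
    rw [div_le_one hy1]
    have h2 : M / n ≤ y := by rw [hy]; exact div_le_div_of_nonneg_right hMle hn.le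
    have h3 : 0 ≤ ϖ * y := by positivity
    linarith
  have h2 : log (1 + y) ≤ log 2 + max 0 (s - g) := by
    rcases le_total y 1 with h | h
    · have h3 : log (1 + y) ≤ log 2 := log_le_log hy1 (by linarith)
      have := le_max_left 0 (s - g)
      linarith
    · have h3 : log (1 + y) ≤ log (2 * y) := log_le_log hy1 (by linarith)
      have hypos : 0 < y := by linarith
      rw [log_mul two_ne_zero hypos.ne', hy, log_div (exp_pos _).ne' hn.ne', log_exp] at h3
      have := le_max_right 0 (s - g)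
      rw [hs] at this ⊢
      linarith
  have h3 : ϖ * log (1 + y) ≤ ϖ * log 2 + ϖ * max 0 (s - g) := by
    have := mul_le_mul_of_nonneg_left h2 hw0
    linarith
  have hl2 : log 2 < 1 := by have := log_two_lt_d9; linarith
  have hl20 : 0 < log 2 := log_pos (by norm_num)
  have h4 : ϖ * log 2 ≤ log 2 := by nlinarith
  have h5 : ϖ * max 0 (s - g) ≤ ϖ * s - ϖ * min s g := by
    rw [← mul_sub]
    refine mul_le_mul_of_nonneg_left ?_ hw0
    rcases le_total s g with h | h
    · rw [min_eq_left h, max_eq_left (by linarith)]; linarith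
    · rw [min_eq_right h, max_eq_right (by linarith)]
  have h6 : (δ - θ) * min s g ≤ ϖ * min s g :=
    mul_le_mul_of_nonneg_right hwδ (le_min hs0 hg)
  linarith

end core

end Crest.Agent.R98.K
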