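import Crest.Agent.R98.TOneA
import Crest.Agent.R98.Ent2

-- ▼ part R98/TOneB
section

/-!
R98 / TOneB (helper290): branching number `sig` of a finite law at scale `d`, window couplings,
entropy increment versus `sig`, and `sig` versus the window gains (T1, part (3) of note 9947).
-/

set_option autoImplicit false

open MeasureTheory Set Real

namespace Crest.Agent.R98.TOne

/-- two point entropy inequality with a free parameter -/
theorem psi_two_le {a b t : ℝ} (ha : 0 ≤ a) (hb : 0 ≤ b) (ht : 0 < t) (ht2 : t ≤ 2) :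
    negMulLog a + negMulLog b - negMulLog (a + b) ≤
      t * (a + b) + log (2 / t) * (2 * a * b / (a + b)) := by
  have hlog : 0 ≤ log (2 / t) := log_nonneg ((one_le_div ht).2 ht2)
  wlog hab : a ≤ b generalizing a b with H
  · have h := H hb ha (le_of_not_ge hab)
    have e1 : b + a = a + b := add_comm _ _
    have e2 : 2 * b * a = 2 * a * b := by ring
    rw [e1, e2] at h
    linarith
  rcases ha.eq_or_lt with h0 | h0
  · rw [← h0]
    simp only [negMulLog_zero, zero_add, mul_zero, zero_mul, zero_div, add_zero, sub_self]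
    positivity
  have hb0 : 0 < b := lt_of_lt_of_le h0 hab
  have hS : 0 < a + b := by linarith
  have e1 : negMulLog a + negMulLog b - negMulLog (a + b) =
      a * log ((a + b) / a) + b * log ((a + b) / b) := by
    rw [log_div hS.ne' h0.ne', log_div hS.ne' hb0.ne', negMulLog, negMulLog, negMulLog]
    ring
  rw [e1]
  have h1 : b * log ((a + b) / b) ≤ a := by
    have := log_le_sub_one_of_pos (show 0 < (a + b) / b by positivity)
    have h2 := mul_le_mul_of_nonneg_left this hb0.le
    have h3 : b * ((a + b) / b - 1) = a := by field_simp; ring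
    linarith
  have h2 : a * log ((a + b) / a) ≤ a * log (2 / t) + t * (a + b) / 2 - a := by
    have h3 : (a + b) / a = (2 / t) * (t * (a + b) / (2 * a)) := by field_simp
    rw [h3, log_mul (by positivity) (by positivity)]
    have h4 := log_le_sub_one_of_pos (show 0 < t * (a + b) / (2 * a) by positivity)
    have h5 := mul_le_mul_of_nonneg_left h4 h0.le
    have h6 : a * (t * (a + b) / (2 * a) - 1) = t * (a + b) / 2 - a := by field_simp
    rw [h6] at h5
    linarith
  have h3 : a ≤ 2 * a * b / (a + b) := by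
    rw [le_div_iff₀ hS]
    nlinarith
  have h4 := mul_le_mul_of_nonneg_left h3 hlog
  have h5 : 0 ≤ t * (a + b) := by positivity
  nlinarith

section windows

variable {κ : Type*} [Fintype κ] (q s : κ → ℝ)

/-- positions of the left end of a window of length `d` containing the point `x` -/
def E (x d : ℝ) : Set ℝ := Ioc (x - d) x

theorem measurableSet_E (x d : ℝ) : MeasurableSet (E x d) := measurableSet_Ioc

theorem volume_E (x : ℝ) {d : ℝ} (hd : 0 ≤ d) : volume.real (E x d) = d := by
  unfold E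
  rw [Measure.real, Real.volume_Ioc, ENNReal.toReal_ofReal (by linarith)]
  ring

/-- mass of the window `[y, y + d)` -/
noncomputable def F (d y : ℝ) : ℝ := ∑ k, (E (s k) d).indicator (fun _ => q k) y

theorem law_real {q : κ → ℝ} (hq : ∀ k, 0 ≤ q k) (s : κ → ℝ) (d y : ℝ) :
    (addLaw q s (Measure.dirac 0)).real (Ico y (y + d)) = F q s d y := by
  unfold addLaw
  rw [mix_real hq]
  unfold F
  refine Finset.sum_congr rfl fun k _ => ?_
  rw [shift_real, measureReal_def, Measure.dirac_apply' _ measurableSet_Ico]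
  by_cases h : y ∈ E (s k) d
  · have h' : (0 : ℝ) ∈ Ico (y - s k) (y - s k + d) := by
      unfold E at h
      exact ⟨by linarith [h.2], by linarith [h.1]⟩
    rw [indicator_of_mem h, indicator_of_mem h']
    simp
  · have h' : (0 : ℝ) ∉ Ico (y - s k) (y - s k + d) := by
      intro h2
      exact h ⟨by linarith [h2.2], by linarith [h2.1]⟩
    rw [indicator_of_notMem h, indicator_of_notMem h']
    simp

variable {q}

theorem F_nonneg (hq : ∀ k, 0 ≤ q k) (d y : ℝ) : 0 ≤ F q s d y :=
  Finset.sum_nonneg fun k _ => indicator_nonneg (fun _ _ => hq k) _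

theorem le_F (hq : ∀ k, 0 ≤ q k) {d y : ℝ} {k : κ} (h : y ∈ E (s k) d) : q k ≤ F q s d y := by
  have h1 : (E (s k) d).indicator (fun _ => q k) y ≤ F q s d y := by
    unfold F
    exact Finset.single_le_sum (f := fun k => (E (s k) d).indicator (fun _ => q k) y)
      (fun k _ => indicator_nonneg (fun _ _ => hq k) _) (Finset.mem_univ k)
  rwa [indicator_of_mem h] at h1

theorem F_mono (hq : ∀ k, 0 ≤ q k) {d d' y y' : ℝ} (h1 : y ≤ y') (h2 : y' + d' ≤ y + d) :
    F q s d' y' ≤ F q s d y := by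
  unfold F
  refine Finset.sum_le_sum fun k _ => ?_
  by_cases h : y' ∈ E (s k) d'
  · have h' : y ∈ E (s k) d := by
      unfold E at h ⊢
      exact ⟨by linarith [h.1], by linarith [h.2]⟩
    rw [indicator_of_mem h, indicator_of_mem h']
  · rw [indicator_of_notMem h]
    exact indicator_nonneg (fun _ _ => hq k) _


variable (q) in
theorem measurable_F (d : ℝ) : Measurable (F q s d) := by
  unfold F
  exact Finset.measurable_fun_sum _ fun k _ => measurable_const.indicator (measurableSet_E _ _)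

/-- the window coupling density -/
noncomputable def G (q s : κ → ℝ) (D : ℝ) (k l : κ) (y : ℝ) : ℝ :=
  (E (s k) D ∩ E (s l) D).indicator (fun y => q k * q l / F q s D y) y

theorem G_nonneg (hq : ∀ k, 0 ≤ q k) (D : ℝ) (k l : κ) (y : ℝ) : 0 ≤ G q s D k l y :=
  indicator_nonneg (fun y _ => div_nonneg (mul_nonneg (hq k) (hq l)) (F_nonneg s hq D y)) _

theorem G_comm (D : ℝ) (k l : κ) (y : ℝ) : G q s D k l y = G q s D l k y := by
  unfold G
  rw [inter_comm, mul_comm]

theorem G_le (hq : ∀ k, 0 ≤ q k) (D : ℝ) (k l : κ) (y : ℝ) :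
    G q s D k l y ≤ (E (s k) D ∩ E (s l) D).indicator (fun _ => q l) y := by
  unfold G
  by_cases h : y ∈ E (s k) D ∩ E (s l) D
  · rw [indicator_of_mem h, indicator_of_mem h]
    have h1 := le_F s hq h.1
    rcases (hq k).eq_or_lt with h0 | h0
    · rw [← h0, zero_mul, zero_div]; exact hq l
    · rw [div_le_iff₀ (lt_of_lt_of_le h0 h1)]
      nlinarith [hq l]
  · rw [indicator_of_notMem h, indicator_of_notMem h]

theorem measurable_G (D : ℝ) (k l : κ) : Measurable (G q s D k l) := by
  unfold G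
  exact ((measurable_const.div (measurable_F q s D))).indicator
    ((measurableSet_E _ _).inter (measurableSet_E _ _))

theorem integrable_indE (x D c : ℝ) : Integrable ((E x D).indicator (fun _ : ℝ => c)) := by
  rw [integrable_indicator_iff (measurableSet_E _ _)]
  unfold E
  exact integrableOn_const (by simp) (by simp)

theorem integrable_indE₂ (x x' D D' c : ℝ) :
    Integrable ((E x D ∩ E x' D').indicator (fun _ : ℝ => c)) := by
  rw [integrable_indicator_iff ((measurableSet_E _ _).inter (measurableSet_E _ _))]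
  refine integrableOn_const ?_ (by simp)
  exact ne_top_of_le_ne_top (b := volume (E x D)) (by unfold E; simp)
    (measure_mono inter_subset_left)

theorem integrable_G (hq : ∀ k, 0 ≤ q k) (D : ℝ) (k l : κ) : Integrable (G q s D k l) := by
  refine Integrable.mono' (integrable_indE₂ (s k) (s l) D D (q l))
    (measurable_G s D k l).aestronglyMeasurable (Filter.Eventually.of_forall fun y => ?_)
  rw [Real.norm_of_nonneg (G_nonneg s hq D k l y)]
  exact G_le s hq D k l y

theorem sum_G (hq : ∀ k, 0 ≤ q k) (D : ℝ) (k : κ) (y : ℝ) :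
    ∑ l, G q s D k l y = (E (s k) D).indicator (fun _ => q k) y := by
  by_cases h : y ∈ E (s k) D
  · rw [indicator_of_mem h]
    have h1 : ∀ l, G q s D k l y = q k / F q s D y * (E (s l) D).indicator (fun _ => q l) y := by
      intro l
      unfold G
      by_cases hl : y ∈ E (s l) D
      · rw [indicator_of_mem (show y ∈ E (s k) D ∩ E (s l) D from ⟨h, hl⟩), indicator_of_mem hl]
        ring
      · rw [indicator_of_notMem (fun h2 => hl h2.2), indicator_of_notMem hl]
        ring
    simp only [h1]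
    rw [← Finset.mul_sum]
    change q k / F q s D y * F q s D y = q k
    have h2 := le_F s hq h
    rcases (hq k).eq_or_lt with h0 | h0
    · rw [← h0]; simp
    · exact div_mul_cancel₀ _ (lt_of_lt_of_le h0 h2).ne'
  · rw [indicator_of_notMem h]
    refine Finset.sum_eq_zero fun l _ => ?_
    unfold G
    rw [indicator_of_notMem (fun h2 => h h2.1)]

/-- the window coupling -/
noncomputable def Mc (q s : κ → ℝ) (D : ℝ) (k l : κ) : ℝ := (1 / D) * ∫ y, G q s D k l y

theorem Mc_nonneg (hq : ∀ k, 0 ≤ q k) {D : ℝ} (hD : 0 ≤ D) (k l : κ) : 0 ≤ Mc q s D k l :=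
  mul_nonneg (by positivity) (integral_nonneg fun y => G_nonneg s hq D k l y)

theorem Mc_comm (D : ℝ) (k l : κ) : Mc q s D k l = Mc q s D l k := by
  unfold Mc
  simp only [G_comm s D k l]

theorem Mc_row (hq : ∀ k, 0 ≤ q k) {D : ℝ} (hD : 0 < D) (k : κ) :
    ∑ l, Mc q s D k l = q k := by
  unfold Mc
  rw [← Finset.mul_sum, ← integral_finsetSum _ fun l _ => integrable_G s hq D k l]
  simp only [sum_G s hq]
  rw [integral_indicator_const _ (measurableSet_E _ _), volume_E _ hD.le, smul_eq_mul]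
  field_simp

theorem Mc_col (hq : ∀ k, 0 ≤ q k) {D : ℝ} (hD : 0 < D) (l : κ) :
    ∑ k, Mc q s D k l = q l := by
  rw [← Mc_row s hq hD l]
  exact Finset.sum_congr rfl fun k _ => Mc_comm s D k l

/-! ### the branching number -/

theorem F_two (q s : κ → ℝ) {d : ℝ} (hd : 0 ≤ d) (y : ℝ) :
    F q s (2 * d) y = F q s d y + F q s d (y + d) := by
  unfold F
  rw [← Finset.sum_add_distrib]
  refine Finset.sum_congr rfl fun k _ => ?_
  by_cases h1 : y ∈ E (s k) d
  · have h2 : y + d ∉ E (s k) d := by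
      unfold E at h1 ⊢
      intro h
      linarith [h.2, h1.1]
    have h3 : y ∈ E (s k) (2 * d) := by
      unfold E at h1 ⊢
      exact ⟨by linarith [h1.1], h1.2⟩
    rw [indicator_of_mem h1, indicator_of_notMem h2, indicator_of_mem h3, add_zero]
  · rw [indicator_of_notMem h1, zero_add]
    by_cases h2 : y + d ∈ E (s k) d
    · have h3 : y ∈ E (s k) (2 * d) := by
        unfold E at h2 ⊢
        exact ⟨by linarith [h2.1], by linarith [h2.2]⟩
      rw [indicator_of_mem h2, indicator_of_mem h3]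
    · have h3 : y ∉ E (s k) (2 * d) := by
        intro h
        unfold E at h h1 h2
        rcases lt_or_ge (s k - d) y with h4 | h4
        · exact h1 ⟨h4, h.2⟩
        · exact h2 ⟨by linarith [h.1], by linarith⟩
      rw [indicator_of_notMem h2, indicator_of_notMem h3]

/-- the branching number at scale `d` (probability that two points of a random window of length
`2 d`, independent given the window, are separated by its midpoint) -/
noncomputable def sig (q s : κ → ℝ) (d : ℝ) : ℝ :=
  (1 / (2 * d)) * ∫ y, 2 * F q s d y * F q s d (y + d) / F q s (2 * d) y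

/-- density of separated pairs -/
noncomputable def Gs (q s : κ → ℝ) (d : ℝ) (k l : κ) (y : ℝ) : ℝ :=
  (E (s k) d ∩ E (s l - d) d).indicator (fun y => q k * q l / F q s (2 * d) y) y

theorem mem_E_shift {x d y : ℝ} : y + d ∈ E x d ↔ y ∈ E (x - d) d := by
  unfold E
  constructor
  · rintro ⟨h1, h2⟩; exact ⟨by linarith, by linarith⟩
  · rintro ⟨h1, h2⟩; exact ⟨by linarith, by linarith⟩

theorem sum_Gs (q s : κ → ℝ) (d y : ℝ) :
    F q s d y * F q s d (y + d) / F q s (2 * d) y = ∑ k, ∑ l, Gs q s d k l y := by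
  have h1 : ∀ k l, Gs q s d k l y = (E (s k) d).indicator (fun _ => q k) y *
      (E (s l) d).indicator (fun _ => q l) (y + d) / F q s (2 * d) y := by
    intro k l
    unfold Gs
    by_cases hk : y ∈ E (s k) d
    · by_cases hl : y ∈ E (s l - d) d
      · rw [indicator_of_mem (show y ∈ E (s k) d ∩ E (s l - d) d from ⟨hk, hl⟩),
          indicator_of_mem hk, indicator_of_mem (mem_E_shift.2 hl)]
      · rw [indicator_of_notMem (fun h => hl h.2),
          indicator_of_notMem (fun h => hl (mem_E_shift.1 h))]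
        simp
    · rw [indicator_of_notMem (fun h => hk h.1), indicator_of_notMem hk]
      simp
  simp only [h1, ← Finset.sum_div, ← Finset.mul_sum, ← Finset.sum_mul]
  rfl

theorem Gs_nonneg (hq : ∀ k, 0 ≤ q k) (d : ℝ) (k l : κ) (y : ℝ) : 0 ≤ Gs q s d k l y :=
  indicator_nonneg (fun y _ => div_nonneg (mul_nonneg (hq k) (hq l)) (F_nonneg s hq _ y)) _

theorem Gs_le_G (hq : ∀ k, 0 ≤ q k) {d : ℝ} (hd : 0 < d) (k l : κ) (y : ℝ) :
    Gs q s d k l y ≤ G q s (2 * d) k l y := by
  unfold Gs
  by_cases h : y ∈ E (s k) d ∩ E (s l - d) d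
  · have h' : y ∈ E (s k) (2 * d) ∩ E (s l) (2 * d) := by
      unfold E at h ⊢
      exact ⟨⟨by linarith [h.1.1], h.1.2⟩, ⟨by linarith [h.2.1], by linarith [h.2.2]⟩⟩
    unfold G
    rw [indicator_of_mem h, indicator_of_mem h']
  · rw [indicator_of_notMem h]
    exact G_nonneg s hq _ k l y

theorem measurable_Gs (d : ℝ) (k l : κ) : Measurable (Gs q s d k l) := by
  unfold Gs
  exact ((measurable_const.div (measurable_F q s _))).indicator
    ((measurableSet_E _ _).inter (measurableSet_E _ _))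

theorem integrable_Gs (hq : ∀ k, 0 ≤ q k) {d : ℝ} (hd : 0 < d) (k l : κ) :
    Integrable (Gs q s d k l) := by
  refine Integrable.mono' (integrable_G s hq (2 * d) k l)
    (measurable_Gs s d k l).aestronglyMeasurable (Filter.Eventually.of_forall fun y => ?_)
  rw [Real.norm_of_nonneg (Gs_nonneg s hq d k l y)]
  exact Gs_le_G s hq hd k l y

theorem integrable_sig (hq : ∀ k, 0 ≤ q k) {d : ℝ} (hd : 0 < d) :
    Integrable fun y => F q s d y * F q s d (y + d) / F q s (2 * d) y := by
  simp only [sum_Gs]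
  exact integrable_finsetSum _ fun k _ => integrable_finsetSum _ fun l _ =>
    integrable_Gs s hq hd k l

theorem sig_eq (hq : ∀ k, 0 ≤ q k) {d : ℝ} (hd : 0 < d) :
    sig q s d = (1 / d) * ∑ k, ∑ l, ∫ y, Gs q s d k l y := by
  unfold sig
  have h1 : ∀ y, 2 * F q s d y * F q s d (y + d) / F q s (2 * d) y =
      2 * ∑ k, ∑ l, Gs q s d k l y := by
    intro y
    rw [← sum_Gs]; ring
  simp only [h1]
  rw [integral_const_mul, integral_finsetSum _ fun k _ => integrable_finsetSum _ fun l _ =>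
    integrable_Gs s hq hd k l]
  simp only [integral_finsetSum _ fun l _ => integrable_Gs s hq hd _ l]
  field_simp


/-- bound of a separated pair by the window coupling at twice the scale -/
theorem pair_le_coarse (hq : ∀ k, 0 ≤ q k) {d : ℝ} (hd : 0 < d) (k l : κ) :
    (1 / d) * ∫ y, Gs q s d k l y ≤ 2 * Mc q s (2 * d) k l := by
  have h1 := integral_mono (integrable_Gs s hq hd k l) (integrable_G s hq (2 * d) k l)
    (fun y => Gs_le_G s hq hd k l y)
  unfold Mc
  calc (1 / d) * ∫ y, Gs q s d k l y ≤ (1 / d) * ∫ y, G q s (2 * d) k l y :=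
        mul_le_mul_of_nonneg_left h1 (by positivity)
    _ = 2 * (1 / (2 * d) * ∫ y, G q s (2 * d) k l y) := by field_simp

/-- pairs which are not in the right order or too far are never separated in this order -/
theorem Gs_eq_zero {d : ℝ} {k l : κ} (h : s l - s k ≤ 0 ∨ 2 * d ≤ s l - s k) (y : ℝ) :
    Gs q s d k l y = 0 := by
  unfold Gs
  refine indicator_of_notMem ?_ _
  rintro ⟨h1, h2⟩
  unfold E at h1 h2
  rcases h with h | h
  · linarith [h1.1, h2.2]
  · linarith [h1.2, h2.1]

theorem integrable_ind_Ioc (a b c : ℝ) : Integrable ((Ioc a b).indicator (fun _ : ℝ => c)) := by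
  rw [integrable_indicator_iff measurableSet_Ioc]
  exact integrableOn_const (by simp) (by simp)

/-- bound of a separated pair at distance `[r, 2r)` by the window coupling of length `4r` -/
theorem pair_le_fine (hq : ∀ k, 0 ≤ q k) {d r : ℝ} (hr : 0 < r) (hrd : 4 * r ≤ d) {k l : κ}
    (h1 : r ≤ s l - s k) (h2 : s l - s k < 2 * r) :
    ∫ y, Gs q s d k l y ≤ 4 * r * Mc q s (4 * r) k l := by
  have hd : 0 < d := by linarith
  -- pointwise bound of the density
  have hpt : ∀ y, Gs q s d k l y ≤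
      (Ioc (s k - d) (s l - d)).indicator (fun _ => 2 * Mc q s (4 * r) k l) y := by
    intro y
    by_cases hy : y ∈ E (s k) d ∩ E (s l - d) d
    · have hy' : y ∈ Ioc (s k - d) (s l - d) := by
        unfold E at hy
        exact ⟨hy.1.1, hy.2.2⟩
      rw [indicator_of_mem hy']
      unfold Gs
      rw [indicator_of_mem hy]
      set v := q k * q l / F q s (2 * d) y with hv
      have hset : ∀ y' ∈ Ioc (s l - 4 * r) (s k), v ≤ G q s (4 * r) k l y' := by
        intro y' hy'
        have hm : y' ∈ E (s k) (4 * r) ∩ E (s l) (4 * r) := by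
          unfold E
          exact ⟨⟨by linarith [hy'.1], hy'.2⟩, ⟨by linarith [hy'.1], by linarith [hy'.2]⟩⟩
        unfold G
        rw [indicator_of_mem hm, hv]
        rcases (hq k).eq_or_lt with h0 | h0
        · rw [← h0]; simp
        · have h3 := le_F s hq hm.1
          have h4 : F q s (4 * r) y' ≤ F q s (2 * d) y := by
            unfold E at hy
            exact F_mono s hq (by linarith [hy'.1, hy.2.2]) (by linarith [hy'.2, hy.1.1])
          exact div_le_div_of_nonneg_left (mul_nonneg (hq k) (hq l)) (lt_of_lt_of_le h0 h3) h4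
      have h5 : (Ioc (s l - 4 * r) (s k)).indicator (fun _ => v) ≤ G q s (4 * r) k l := by
        intro y'
        by_cases hy' : y' ∈ Ioc (s l - 4 * r) (s k)
        · rw [indicator_of_mem hy']; exact hset y' hy'
        · rw [indicator_of_notMem hy']; exact G_nonneg s hq _ k l y'
      have h6 := integral_mono (integrable_ind_Ioc _ _ _) (integrable_G s hq (4 * r) k l) h5
      rw [integral_indicator_const _ measurableSet_Ioc, smul_eq_mul, Measure.real,
        Real.volume_Ioc, ENNReal.toReal_ofReal (by linarith)] at h6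
      have hv0 : 0 ≤ v := div_nonneg (mul_nonneg (hq k) (hq l)) (F_nonneg s hq _ y)
      have h7 : 2 * r * v ≤ ∫ y', G q s (4 * r) k l y' := by
        refine le_trans ?_ h6
        exact mul_le_mul_of_nonneg_right (by linarith) hv0
      unfold Mc
      have h8 : 2 * (1 / (4 * r) * ∫ y', G q s (4 * r) k l y') =
          (∫ y', G q s (4 * r) k l y') / (2 * r) := by field_simp; ring
      rw [h8, le_div_iff₀ (by positivity)]
      linarith
    · unfold Gs
      rw [indicator_of_notMem hy]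
      exact indicator_nonneg (fun _ _ => by
        have := Mc_nonneg s hq (by positivity : (0:ℝ) ≤ 4 * r) k l
        linarith) _
  have h3 := integral_mono (integrable_Gs s hq hd k l) (integrable_ind_Ioc _ _ _) hpt
  rw [integral_indicator_const _ measurableSet_Ioc, smul_eq_mul, Measure.real,
    Real.volume_Ioc, ENNReal.toReal_ofReal (by linarith)] at h3
  refine h3.trans ?_
  have h4 := Mc_nonneg s hq (by positivity : (0:ℝ) ≤ 4 * r) k l
  nlinarith

/-- entropy increment versus branching number -/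
theorem Hs_law_sub_le (hq : ∀ k, 0 ≤ q k) (hq1 : ∑ k, q k = 1) {d t : ℝ} (hd : 0 < d)
    (ht : 0 < t) (ht2 : t ≤ 2) :
    Hs (addLaw q s (Measure.dirac 0)) d - Hs (addLaw q s (Measure.dirac 0)) (2 * d) ≤
      t + log (2 / t) * sig q s d := by
  have hprob : IsProbabilityMeasure (addLaw q s (Measure.dirac 0)) :=
    isProbabilityMeasure_addLaw hq hq1 s _
  have hB : BSupp (addLaw q s (Measure.dirac (0 : ℝ))) := bsupp_dirac_zero.addLaw q s
  have h1 := Hs_sub_nsmul hB hd (n := 2) (by norm_num)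
  push_cast at h1
  rw [h1]
  have hF : Integrable (F q s (2 * d)) := by
    unfold F
    exact integrable_finsetSum _ fun k _ => integrable_indE _ _ _
  have hpt : ∀ y, psi (fun k : Fin 2 => (addLaw q s (Measure.dirac 0)).real
      (Ico (y + (k : ℕ) * d) (y + (k : ℕ) * d + d))) ≤
      t * F q s (2 * d) y + log (2 / t) * (2 * (F q s d y * F q s d (y + d) /
        F q s (2 * d) y)) := by
    intro y
    simp only [law_real hq s]
    unfold psi
    rw [Fin.sum_univ_two, Fin.sum_univ_two]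
    simp only [Fin.val_zero, Fin.val_one, Nat.cast_zero, Nat.cast_one, zero_mul, add_zero, one_mul]
    have h2 := psi_two_le (F_nonneg s hq d y) (F_nonneg s hq d (y + d)) ht ht2
    rw [F_two q s hd.le]
    refine h2.trans (le_of_eq ?_)
    ring
  have h2 := integral_mono (integrable_psi_cell hB hd 2) (((hF.const_mul t)).add
    (((integrable_sig s hq hd).const_mul 2).const_mul (log (2 / t)))) hpt
  have h3 : ∫ y, F q s (2 * d) y = 2 * d := by
    have := integral_cell (μ := addLaw q s (Measure.dirac 0)) (d := 2 * d) (by positivity)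
    simp only [law_real hq s, probReal_univ, mul_one] at this
    exact this
  have h4 : ∫ y, (t * F q s (2 * d) y + log (2 / t) * (2 * (F q s d y * F q s d (y + d) /
        F q s (2 * d) y))) = t * (2 * d) + log (2 / t) * (2 * ∫ y, (F q s d y * F q s d (y + d) /
        F q s (2 * d) y)) := by
    rw [integral_add (hF.const_mul t)
      (((integrable_sig s hq hd).const_mul 2).const_mul (log (2 / t))), integral_const_mul,
      integral_const_mul, integral_const_mul, h3]
  have h5 : (∫ y, psi (fun k : Fin 2 => (addLaw q s (Measure.dirac 0)).real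
      (Ico (y + (k : ℕ) * d) (y + (k : ℕ) * d + d)))) ≤ t * (2 * d) + log (2 / t) * (2 * ∫ y,
      (F q s d y * F q s d (y + d) / F q s (2 * d) y)) := h2.trans (le_of_eq h4)
  have h6 : sig q s d = (1 / (2 * d)) * (2 * ∫ y,
      (F q s d y * F q s d (y + d) / F q s (2 * d) y)) := by
    have h7 : ∫ y, 2 * F q s d y * F q s d (y + d) / F q s (2 * d) y =
        2 * ∫ y, (F q s d y * F q s d (y + d) / F q s (2 * d) y) := by
      rw [← integral_const_mul]
      refine integral_congr_ae (Filter.Eventually.of_forall fun y => ?_)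
      change 2 * F q s d y * F q s d (y + d) / F q s (2 * d) y =
        2 * (F q s d y * F q s d (y + d) / F q s (2 * d) y)
      ring
    unfold sig
    rw [h7]
  rw [h6]
  calc (1 / (2 * d)) * ∫ y, psi (fun k : Fin 2 => (addLaw q s (Measure.dirac 0)).real
      (Ico (y + (k : ℕ) * d) (y + (k : ℕ) * d + d)))
      ≤ (1 / (2 * d)) * (t * (2 * d) + log (2 / t) * (2 * ∫ y,
      (F q s d y * F q s d (y + d) / F q s (2 * d) y))) :=
        mul_le_mul_of_nonneg_left h5 (by positivity)
    _ = _ := by field_simp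

end windows

end Crest.Agent.R98.TOne
end

-- ▼ part R98/TOneC
section

/-!
R98 / TOneC (helper290): branching number versus window gains (T1, pure form):
`sig q s d ≤ ∑' i, (2/c) 2^{-i} (W (T * B) n (2^{-i} d) - W B n (2^{-i} d))`.
-/

set_option autoImplicit false

open MeasureTheory Set Real

namespace Crest.Agent.R98.TOne

variable {κ : Type*} [Fintype κ] {q : κ → ℝ} (s : κ → ℝ)

theorem sum_abs_eq {M : κ → κ → ℝ} (hM : ∀ k l, M k l = M l k) {r : ℝ} (hr : 0 < r) :
    ∑ k, ∑ l, (if r ≤ |s l - s k| ∧ |s l - s k| < 2 * r then M k l else 0) =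
      2 * ∑ k, ∑ l, (if r ≤ s l - s k ∧ s l - s k < 2 * r then M k l else 0) := by
  have h1 : ∀ k l, (if r ≤ |s l - s k| ∧ |s l - s k| < 2 * r then M k l else 0) =
      (if r ≤ s l - s k ∧ s l - s k < 2 * r then M k l else 0) +
      (if r ≤ s k - s l ∧ s k - s l < 2 * r then M k l else 0) := by
    intro k l
    rcases le_total (s k) (s l) with h | h
    · rw [abs_of_nonneg (sub_nonneg.2 h)]
      have h2 : ¬ (r ≤ s k - s l ∧ s k - s l < 2 * r) := fun h3 => by linarith [h3.1]
      rw [if_neg h2, add_zero]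
    · rw [abs_of_nonpos (sub_nonpos.2 h), neg_sub]
      have h2 : ¬ (r ≤ s l - s k ∧ s l - s k < 2 * r) := fun h3 => by linarith [h3.1]
      rw [if_neg h2, zero_add]
  simp only [h1, Finset.sum_add_distrib]
  have h2 : ∑ k, ∑ l, (if r ≤ s k - s l ∧ s k - s l < 2 * r then M k l else 0) =
      ∑ k, ∑ l, (if r ≤ s l - s k ∧ s l - s k < 2 * r then M k l else 0) := by
    rw [Finset.sum_comm]
    refine Finset.sum_congr rfl fun k _ => Finset.sum_congr rfl fun l _ => ?_
    rw [hM l k]
  rw [h2]; ring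

theorem Mc_le_one (hq : ∀ k, 0 ≤ q k) (hq1 : ∑ k, q k = 1) {D : ℝ} (hD : 0 < D) (k l : κ) :
    Mc q s D k l ≤ 1 := by
  have h1 : Mc q s D k l ≤ ∑ l, Mc q s D k l :=
    Finset.single_le_sum (f := fun l => Mc q s D k l) (fun l _ => Mc_nonneg s hq hD.le k l)
      (Finset.mem_univ l)
  rw [Mc_row s hq hD] at h1
  have h2 : q k ≤ ∑ k, q k := Finset.single_le_sum (fun k _ => hq k) (Finset.mem_univ k)
  linarith

/-- window lengths -/
noncomputable def Dw (d : ℝ) (i : ℕ) : ℝ := if i ≤ 1 then 2 * d else 4 * ((1 / 2) ^ i * d)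

theorem Dw_pos {d : ℝ} (hd : 0 < d) (i : ℕ) : 0 < Dw d i := by
  unfold Dw
  split_ifs <;> positivity

/-- the contribution of the pairs at distance about `2^{-i} d` -/
noncomputable def aterm (q s : κ → ℝ) (d : ℝ) (i : ℕ) (k l : κ) : ℝ :=
  if (1 / 2) ^ i * d ≤ s l - s k ∧ s l - s k < 2 * ((1 / 2) ^ i * d) then
    4 * (1 / 2) ^ i * Mc q s (Dw d i) k l else 0

theorem aterm_nonneg (hq : ∀ k, 0 ≤ q k) {d : ℝ} (hd : 0 < d) (i : ℕ) (k l : κ) :
    0 ≤ aterm q s d i k l := by
  unfold aterm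
  split_ifs
  · have := Mc_nonneg s hq (Dw_pos hd i).le k l
    positivity
  · exact le_rfl

theorem summable_aterm (hq : ∀ k, 0 ≤ q k) (hq1 : ∑ k, q k = 1) {d : ℝ} (hd : 0 < d) (k l : κ) :
    Summable fun i => aterm q s d i k l := by
  have hg : Summable fun i : ℕ => 4 * (1 / 2 : ℝ) ^ i :=
    (summable_geometric_two).mul_left 4
  refine Summable.of_nonneg_of_le (fun i => aterm_nonneg s hq hd i k l) (fun i => ?_) hg
  unfold aterm
  split_ifs
  · have h1 := Mc_le_one s hq hq1 (Dw_pos hd i) k l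
    have h2 : (0 : ℝ) ≤ 4 * (1 / 2) ^ i := by positivity
    nlinarith
  · positivity

theorem pair_le_tsum (hq : ∀ k, 0 ≤ q k) (hq1 : ∑ k, q k = 1) {d : ℝ} (hd : 0 < d) (k l : κ) :
    (1 / d) * ∫ y, Gs q s d k l y ≤ ∑' i, aterm q s d i k l := by
  by_cases h : s l - s k ≤ 0 ∨ 2 * d ≤ s l - s k
  · simp only [Gs_eq_zero s h, integral_zero, mul_zero]
    exact tsum_nonneg fun i => aterm_nonneg s hq hd i k l
  · push Not at h
    obtain ⟨h0, h2⟩ := h
    have hex : ∃ i : ℕ, (1 / 2 : ℝ) ^ i * d ≤ s l - s k := by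
      obtain ⟨i, hi⟩ := exists_pow_lt_of_lt_one (div_pos h0 hd) (show (1 / 2 : ℝ) < 1 by norm_num)
      exact ⟨i, by rw [lt_div_iff₀ hd] at hi; exact hi.le⟩
    classical
    obtain ⟨i, hi, hmin⟩ : ∃ i : ℕ, (1 / 2 : ℝ) ^ i * d ≤ s l - s k ∧
        ∀ j < i, ¬ ((1 / 2 : ℝ) ^ j * d ≤ s l - s k) :=
      ⟨Nat.find hex, Nat.find_spec hex, fun j hj => Nat.find_min hex hj⟩
    have hi2 : s l - s k < 2 * ((1 / 2) ^ i * d) := by
      rcases i with _ | j
      · simpa using h2
      · have h3 := hmin j (Nat.lt_succ_self j)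
        rw [pow_succ]
        push Not at h3
        linarith
    have hterm : (1 / d) * ∫ y, Gs q s d k l y ≤ aterm q s d i k l := by
      unfold aterm
      rw [if_pos ⟨hi, hi2⟩]
      unfold Dw
      split_ifs with h1
      · refine (pair_le_coarse s hq hd k l).trans ?_
        have h4 := Mc_nonneg s hq (by positivity : (0:ℝ) ≤ 2 * d) k l
        have h5 : (2 : ℝ) ≤ 4 * (1 / 2) ^ i := by
          interval_cases i <;> norm_num
        exact mul_le_mul_of_nonneg_right h5 h4
      · have h4 : 4 * ((1 / 2 : ℝ) ^ i * d) ≤ d := by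
          have h5 : (1 / 2 : ℝ) ^ i ≤ (1 / 2) ^ 2 :=
            pow_le_pow_of_le_one (by norm_num) (by norm_num) (by omega)
          nlinarith
        have h6 := pair_le_fine s hq (by positivity) h4 hi hi2
        have h7 := mul_le_mul_of_nonneg_left h6 (by positivity : (0:ℝ) ≤ 1 / d)
        refine h7.trans (le_of_eq ?_)
        field_simp
    exact hterm.trans ((summable_aterm s hq hq1 hd k l).le_tsum i
      fun j _ => aterm_nonneg s hq hd j k l)

/-- window gain of `T` over the base `B` -/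
noncomputable def gain (q s : κ → ℝ) (B : Measure ℝ) (n : ℕ) (r : ℝ) : ℝ :=
  W (addLaw q s B) n r - W B n r

theorem gain_nonneg (hq : ∀ k, 0 ≤ q k) (hq1 : ∑ k, q k = 1) {B : Measure ℝ}
    [IsFiniteMeasure B] (hB : BSupp B) {n : ℕ} (hn : 0 < n) {r : ℝ} (hr : 0 < r) :
    0 ≤ gain q s B n r := by
  have := Hs_addLaw_nsmul hq hq1 s hB hr hn
  unfold gain W
  linarith

theorem gain_le (hq : ∀ k, 0 ≤ q k) (hq1 : ∑ k, q k = 1) {B : Measure ℝ}
    [IsProbabilityMeasure B] (hB : BSupp B) {n : ℕ} (hn : 0 < n) {r : ℝ} (hr : 0 < r) :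
    gain q s B n r ≤ ∑ k, negMulLog (q k) := by
  have hn' : (0 : ℝ) < n := by exact_mod_cast hn
  have h1 := Hs_addLaw_le hq hq1 s hB hr
  have h2 := Hs_le_addLaw hq hq1 s hB (d := n * r) (by positivity)
  unfold gain W
  linarith

/-- T1, pure form -/
theorem sig_le_tsum (hq : ∀ k, 0 ≤ q k) (hq1 : ∑ k, q k = 1) {B : Measure ℝ}
    [IsProbabilityMeasure B] (hB : BSupp B) {n : ℕ} (hn : 0 < n) {c : ℝ} (hc : 0 < c)
    (hmac : ∀ r, 0 < r → Macro B n r c) {d : ℝ} (hd : 0 < d) :
    sig q s d ≤ ∑' i : ℕ, (2 / c) * ((1 / 2) ^ i * gain q s B n ((1 / 2) ^ i * d)) := by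
  have hterm : ∀ i, ∑ k, ∑ l, aterm q s d i k l ≤
      (2 / c) * ((1 / 2) ^ i * gain q s B n ((1 / 2) ^ i * d)) := by
    intro i
    have hr : 0 < (1 / 2 : ℝ) ^ i * d := by positivity
    have h1 := gain_coupling (s := s) (M := Mc q s (Dw d i))
      (fun k l => Mc_nonneg s hq (Dw_pos hd i).le k l) (Mc_row s hq (Dw_pos hd i))
      (Mc_col s hq (Dw_pos hd i)) hq1 hB hn hr (hmac _ hr)
    rw [sum_abs_eq s (fun k l => Mc_comm s _ k l) hr] at h1
    have h2 : ∑ k, ∑ l, aterm q s d i k l = 4 * (1 / 2) ^ i * ∑ k, ∑ l,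
        (if (1 / 2) ^ i * d ≤ s l - s k ∧ s l - s k < 2 * ((1 / 2) ^ i * d) then
          Mc q s (Dw d i) k l else 0) := by
      rw [Finset.mul_sum]
      refine Finset.sum_congr rfl fun k _ => ?_
      rw [Finset.mul_sum]
      refine Finset.sum_congr rfl fun l _ => ?_
      unfold aterm
      split_ifs <;> simp
    rw [h2]
    set Sg := ∑ k, ∑ l, (if (1 / 2) ^ i * d ≤ s l - s k ∧ s l - s k < 2 * ((1 / 2) ^ i * d) then
          Mc q s (Dw d i) k l else 0) with hSg
    change c * (2 * Sg) ≤ gain q s B n ((1 / 2) ^ i * d) at h1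
    have h3 : Sg ≤ gain q s B n ((1 / 2) ^ i * d) / (2 * c) := by
      rw [le_div_iff₀ (by positivity)]; linarith
    calc 4 * (1 / 2) ^ i * Sg ≤ 4 * (1 / 2) ^ i * (gain q s B n ((1 / 2) ^ i * d) / (2 * c)) :=
          mul_le_mul_of_nonneg_left h3 (by positivity)
      _ = _ := by field_simp; ring
  have hsumR : Summable fun i : ℕ => (2 / c) * ((1 / 2) ^ i * gain q s B n ((1 / 2) ^ i * d)) := by
    refine Summable.mul_left _ ?_
    refine Summable.of_nonneg_of_le (fun i => mul_nonneg (by positivity)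
      (gain_nonneg s hq hq1 hB hn (by positivity)))
      (fun i => mul_le_mul_of_nonneg_left (gain_le s hq hq1 hB hn (by positivity))
        (by positivity)) ?_
    exact summable_geometric_two.mul_right _
  rw [sig_eq s hq hd, Finset.mul_sum]
  simp only [Finset.mul_sum]
  calc ∑ k, ∑ l, (1 / d) * ∫ y, Gs q s d k l y ≤ ∑ k, ∑ l, ∑' i, aterm q s d i k l :=
        Finset.sum_le_sum fun k _ => Finset.sum_le_sum fun l _ => pair_le_tsum s hq hq1 hd k l
    _ = ∑' i, ∑ k, ∑ l, aterm q s d i k l := by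
        rw [Summable.tsum_finsetSum fun k _ => summable_sum fun l _ =>
          summable_aterm s hq hq1 hd k l]
        refine Finset.sum_congr rfl fun k _ => ?_
        rw [Summable.tsum_finsetSum fun l _ => summable_aterm s hq hq1 hd k l]
    _ ≤ _ := by
        refine Summable.tsum_le_tsum hterm ?_ hsumR
        exact summable_sum fun k _ => summable_sum fun l _ => summable_aterm s hq hq1 hd k l

end Crest.Agent.R98.TOne
end

-- ▼ part R98/TOneD

/-!
R98 / TOneD (helper290): T1 for self-similar measures, at the level of a finite index set `Ω` of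
words with a type map `ty` that determines the ratio.
-/

set_option autoImplicit false

open MeasureTheory Set Real

namespace Crest.Agent.R98.TOne

theorem Hs_le_conv {A B : Measure ℝ} [IsProbabilityMeasure A] [IsProbabilityMeasure B]
    (hA : BSupp A) (hB : BSupp B) {d : ℝ} (hd : 0 < d) : Hs A d ≤ Hs (A ∗ B) d := by
  unfold Hs
  refine mul_le_mul_of_nonneg_left ?_ (by positivity)
  have hconc : ConcaveOn ℝ (pcone Unit) fun v : Unit → ℝ => negMulLog (v ()) := by
    refine ⟨convex_pcone, ?_⟩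
    intro u hu v hv a b ha hb hab
    exact concaveOn_negMulLog.2 (hu ()) (hv ()) ha hb hab
  have h := integral_le_conv (κ := Unit) hconc
    (continuous_negMulLog.comp (continuous_apply _))
    (G := fun y _ => A.real (Ico y (y + d)))
    (measurable_pi_lambda _ fun _ => measurable_cell A d)
    (fun y k => measureReal_nonneg) (fun y k => cell_le_one A _ _)
    (integrable_negMulLog_cell hA d) B
  simp only [← conv_real] at h
  exact h (integrable_negMulLog_cell (hA.conv hB) d)

theorem Hs_law_le {κ : Type*} [Fintype κ] {q : κ → ℝ} (hq : ∀ k, 0 ≤ q k) (hq1 : ∑ k, q k = 1)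
    (s : κ → ℝ) {B : Measure ℝ} [IsProbabilityMeasure B] (hB : BSupp B) {d : ℝ} (hd : 0 < d) :
    Hs (addLaw q s (Measure.dirac 0)) d ≤ Hs (addLaw q s B) d := by
  have hp : IsProbabilityMeasure (addLaw q s (Measure.dirac (0 : ℝ))) :=
    isProbabilityMeasure_addLaw hq hq1 s _
  have h := Hs_le_conv (bsupp_dirac_zero.addLaw q s) hB hd
  rwa [addLaw_conv, Measure.dirac_zero_conv] at h

section scaling

variable {μ : Measure ℝ}

theorem Hs_scale [IsFiniteMeasure μ] {a : ℝ} (ha : a ≠ 0) (b : ℝ) (r : ℝ) :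
    Hs (μ.map fun x => a * x + b) r = Hs μ (r / |a|) := by
  have h := Hs_map ha b μ (r / |a|)
  have ha' : |a| ≠ 0 := abs_ne_zero.2 ha
  rwa [mul_div_cancel₀ _ ha'] at h

theorem W_scale [IsFiniteMeasure μ] {a : ℝ} (ha : a ≠ 0) (b : ℝ) (n : ℕ) (r : ℝ) :
    W (μ.map fun x => a * x + b) n r = W μ n (r / |a|) := by
  unfold W
  rw [Hs_scale ha, Hs_scale ha, mul_div_assoc]

theorem two_scale {a : ℝ} (ha : a ≠ 0) (e : ℝ) :
    two 0 e (μ.map fun x => a * x) = (two 0 (e / a) μ).map fun x => a * x := by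
  rw [two_eq, two_eq]
  rw [Measure.map_add _ _ (by fun_prop), Measure.map_smul, Measure.map_smul]
  have h1 : ∀ c : ℝ, shift c (μ.map fun x => a * x) = (shift (c / a) μ).map fun x => a * x := by
    intro c
    unfold shift
    rw [Measure.map_map (by fun_prop) (by fun_prop), Measure.map_map (by fun_prop) (by fun_prop)]
    congr 1
    funext x
    simp only [Function.comp]
    field_simp
  rw [h1, h1, zero_div]

theorem Macro_scale [IsFiniteMeasure μ] {n : ℕ} {c : ℝ} (h : ∀ r, 0 < r → Macro μ n r c) {a : ℝ} (ha : a ≠ 0) :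
    ∀ r, 0 < r → Macro (μ.map fun x => a * x) n r c := by
  intro r hr e he1 he2
  have ha' : 0 < |a| := abs_pos.2 ha
  have h1 := h (r / |a|) (by positivity) (e / |a|) (by gcongr) (by
    rw [← mul_div_assoc]; gcongr)
  have h2 : ∀ ν : Measure ℝ, (ν.map fun x => a * x) = ν.map fun x => a * x + 0 := by
    intro ν; simp
  rw [two_scale ha, h2, h2 μ, W_scale ha, W_scale ha]
  have he : 0 < e := lt_of_lt_of_le hr he1
  have h3 : |e / a - 0| = e / |a| := by rw [sub_zero, abs_div, abs_of_pos he]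
  rw [W_two, h3]
  exact h1

end scaling

section mixture

open Classical in
/-- mass of a type -/
noncomputable def fib {Ω 𝒯 : Type*} [Fintype Ω] (P : Ω → ℝ) (ty : Ω → 𝒯) (τ : 𝒯) : ℝ :=
  ∑ ω, if ty ω = τ then P ω else 0

open Classical in
/-- conditional law given the type -/
noncomputable def cond {Ω 𝒯 : Type*} [Fintype Ω] (P : Ω → ℝ) (ty : Ω → 𝒯) (τ : 𝒯) (ω : Ω) : ℝ :=
  if fib P ty τ = 0 then P ω else if ty ω = τ then P ω / fib P ty τ else 0

variable {Ω 𝒯 : Type*} [Fintype Ω] [Fintype 𝒯] {P : Ω → ℝ} (ty : Ω → 𝒯)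

omit [Fintype 𝒯] in
theorem fib_nonneg (hP : ∀ ω, 0 ≤ P ω) (τ : 𝒯) : 0 ≤ fib P ty τ :=
  Finset.sum_nonneg fun ω _ => by split_ifs <;> [exact hP ω; exact le_rfl]

omit [Fintype 𝒯] in
theorem cond_nonneg (hP : ∀ ω, 0 ≤ P ω) (τ : 𝒯) (ω : Ω) : 0 ≤ cond P ty τ ω := by
  unfold cond
  split_ifs
  · exact hP ω
  · exact div_nonneg (hP ω) (fib_nonneg ty hP τ)
  · exact le_rfl

omit [Fintype 𝒯] in
theorem cond_sum (hP1 : ∑ ω, P ω = 1) (τ : 𝒯) : ∑ ω, cond P ty τ ω = 1 := by
  classical
  unfold cond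
  by_cases h : fib P ty τ = 0
  · simp only [if_pos h]; exact hP1
  · simp only [if_neg h]
    have : ∀ ω, (if ty ω = τ then P ω / fib P ty τ else 0) =
        (if ty ω = τ then P ω else 0) / fib P ty τ := by
      intro ω; split_ifs <;> simp
    calc _ = ∑ ω, (if ty ω = τ then P ω else 0) / fib P ty τ :=
          Finset.sum_congr rfl fun ω _ => this ω
      _ = (∑ ω, (if ty ω = τ then P ω else 0)) / fib P ty τ := (Finset.sum_div _ _ _).symm
      _ = 1 := div_self h

open Classical in
omit [Fintype 𝒯] in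
theorem fib_mul_cond (hP : ∀ ω, 0 ≤ P ω) (τ : 𝒯) (ω : Ω) :
    fib P ty τ * cond P ty τ ω = if ty ω = τ then P ω else 0 := by
  unfold cond
  by_cases h : fib P ty τ = 0
  · rw [if_pos h, h, zero_mul]
    split_ifs with h2
    · have h3 : (if ty ω = τ then P ω else 0) ≤ fib P ty τ := by
        unfold fib
        exact Finset.single_le_sum (f := fun ω => if ty ω = τ then P ω else 0)
          (fun ω _ => by split_ifs <;> [exact hP ω; exact le_rfl]) (Finset.mem_univ ω)
      rw [if_pos h2, h] at h3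
      exact le_antisymm (hP ω) h3 |>.symm ▸ rfl
    · rfl
  · rw [if_neg h]
    split_ifs
    · exact mul_div_cancel₀ _ h
    · exact mul_zero _

theorem fib_sum (hP1 : ∑ ω, P ω = 1) : ∑ τ, fib P ty τ = 1 := by
  classical
  unfold fib
  rw [Finset.sum_comm]
  refine (Finset.sum_congr rfl fun ω _ => ?_).trans hP1
  rw [Finset.sum_ite_eq Finset.univ (ty ω), if_pos (Finset.mem_univ _)]

theorem sum_fib_mul (ρ : 𝒯 → ℝ) : ∑ τ, fib P ty τ * ρ τ = ∑ ω, P ω * ρ (ty ω) := by
  classical
  unfold fib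
  simp only [Finset.sum_mul]
  rw [Finset.sum_comm]
  refine Finset.sum_congr rfl fun ω _ => ?_
  rw [Finset.sum_eq_single (ty ω)]
  · simp
  · intro τ _ hτ
    rw [if_neg (fun h => hτ h.symm), zero_mul]
  · intro h; exact absurd (Finset.mem_univ _) h

/-- disintegration over the types -/
theorem mix_types (hP : ∀ ω, 0 ≤ P ω) (ρ : 𝒯 → ℝ) (b : Ω → ℝ) (μ : Measure ℝ) :
    mix (fib P ty) (fun τ => addLaw (cond P ty τ) b (μ.map fun x => ρ τ * x)) =
      mix P fun ω => μ.map fun x => ρ (ty ω) * x + b ω := by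
  classical
  unfold addLaw mix
  simp only [Finset.smul_sum, smul_smul]
  rw [Finset.sum_comm]
  refine Finset.sum_congr rfl fun ω _ => ?_
  have h1 : ∀ τ, ENNReal.ofReal (fib P ty τ) * ENNReal.ofReal (cond P ty τ ω) =
      if ty ω = τ then ENNReal.ofReal (P ω) else 0 := by
    intro τ
    rw [← ENNReal.ofReal_mul (fib_nonneg ty hP τ), fib_mul_cond ty hP]
    split_ifs <;> simp
  simp only [h1, ite_smul, zero_smul]
  rw [Finset.sum_ite_eq Finset.univ (ty ω), if_pos (Finset.mem_univ _)]
  congr 1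
  unfold shift
  rw [Measure.map_map (by fun_prop) (by fun_prop)]
  rfl

/-- total gain available at scale `r` -/
noncomputable def Gm (P : Ω → ℝ) (R : Ω → ℝ) (μ : Measure ℝ) (n : ℕ) (r : ℝ) : ℝ :=
  W μ n r - ∑ ω, P ω * W μ n (r / |R ω|)

/-- averaged branching number given the type -/
noncomputable def sigBar (P : Ω → ℝ) (ty : Ω → 𝒯) (b : Ω → ℝ) (d : ℝ) : ℝ :=
  ∑ τ, fib P ty τ * sig (cond P ty τ) b d

/-- averaged conditional entropy given the type -/
noncomputable def HBar (P : Ω → ℝ) (ty : Ω → 𝒯) (b : Ω → ℝ) (d : ℝ) : ℝ :=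
  ∑ τ, fib P ty τ * Hs (addLaw (cond P ty τ) b (Measure.dirac 0)) d

variable {μ : Measure ℝ} [IsProbabilityMeasure μ] {ρ : 𝒯 → ℝ} {b : Ω → ℝ}

theorem W_nonneg {ν : Measure ℝ} [IsFiniteMeasure ν] (hν : BSupp ν) {n : ℕ} (hn : 0 < n) {r : ℝ}
    (hr : 0 < r) : 0 ≤ W ν n r := sub_nonneg.2 (Hs_nsmul_le hν hr hn)

theorem W_le_log {ν : Measure ℝ} [IsProbabilityMeasure ν] (hν : BSupp ν) {n : ℕ} (hn : 0 < n)
    {r : ℝ} (hr : 0 < r) : W ν n r ≤ log n := by
  have := Hs_le_nsmul hν hr hn
  unfold W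
  linarith

omit [IsProbabilityMeasure μ] in
theorem bsupp_scale (hμ : BSupp μ) (a : ℝ) : BSupp (μ.map fun x => a * x) := by
  have := hμ.map_affine a 0
  simpa using this

instance isProb_scale (a : ℝ) : IsProbabilityMeasure (μ.map fun x => a * x) :=
  Measure.isProbabilityMeasure_map (by fun_prop)

theorem sum_gain_le (hP : ∀ ω, 0 ≤ P ω) (hμ : BSupp μ)
    (hρ : ∀ τ, ρ τ ≠ 0) (hself : μ = mix P fun ω => μ.map fun x => ρ (ty ω) * x + b ω)
    {n : ℕ} (hn : 0 < n) {r : ℝ} (hr : 0 < r) :
    ∑ τ, fib P ty τ * gain (cond P ty τ) b (μ.map fun x => ρ τ * x) n r ≤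
      Gm P (fun ω => ρ (ty ω)) μ n r := by
  have h1 := W_mix_ge (fib_nonneg ty hP)
    (ν := fun τ => addLaw (cond P ty τ) b (μ.map fun x => ρ τ * x))
    (fun τ => (bsupp_scale hμ (ρ τ)).addLaw _ _) hn hr
  rw [mix_types ty hP ρ b μ, ← hself] at h1
  have h2 : ∀ τ, W (μ.map fun x => ρ τ * x) n r = W μ n (r / |ρ τ|) := by
    intro τ
    have := W_scale (μ := μ) (hρ τ) 0 n r
    simpa using this
  unfold gain Gm
  simp only [mul_sub, Finset.sum_sub_distrib, h2]
  rw [sum_fib_mul ty (fun τ => W μ n (r / |ρ τ|))]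
  linarith

theorem Gm_nonneg (hP : ∀ ω, 0 ≤ P ω) (hP1 : ∑ ω, P ω = 1) (hμ : BSupp μ)
    (hρ : ∀ τ, ρ τ ≠ 0) (hself : μ = mix P fun ω => μ.map fun x => ρ (ty ω) * x + b ω)
    {n : ℕ} (hn : 0 < n) {r : ℝ} (hr : 0 < r) : 0 ≤ Gm P (fun ω => ρ (ty ω)) μ n r :=
  (Finset.sum_nonneg fun τ _ => mul_nonneg (fib_nonneg ty hP τ)
    (gain_nonneg b (cond_nonneg ty hP τ) (cond_sum ty hP1 τ) (bsupp_scale hμ (ρ τ)) hn hr)).trans
    (sum_gain_le ty hP hμ hρ hself hn hr)

theorem Gm_le (hP : ∀ ω, 0 ≤ P ω) (hμ : BSupp μ) {R : Ω → ℝ} (hR : ∀ ω, R ω ≠ 0)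
    {n : ℕ} (hn : 0 < n) {r : ℝ} (hr : 0 < r) : Gm P R μ n r ≤ log n := by
  have h1 := W_le_log hμ hn hr
  have h2 : 0 ≤ ∑ ω, P ω * W μ n (r / |R ω|) := Finset.sum_nonneg fun ω _ =>
    mul_nonneg (hP ω) (W_nonneg hμ hn (div_pos hr (abs_pos.2 (hR ω))))
  unfold Gm
  linarith

theorem summable_Gm (hP : ∀ ω, 0 ≤ P ω) (hP1 : ∑ ω, P ω = 1) (hμ : BSupp μ)
    (hρ : ∀ τ, ρ τ ≠ 0) (hself : μ = mix P fun ω => μ.map fun x => ρ (ty ω) * x + b ω)
    {n : ℕ} (hn : 0 < n) (c : ℝ) {d : ℝ} (hd : 0 < d) :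
    Summable fun i : ℕ => (2 / c) * ((1 / 2) ^ i * Gm P (fun ω => ρ (ty ω)) μ n ((1 / 2) ^ i * d)) := by
  refine Summable.mul_left _ ?_
  refine Summable.of_nonneg_of_le (fun i => mul_nonneg (by positivity)
    (Gm_nonneg ty hP hP1 hμ hρ hself hn (by positivity)))
    (fun i => mul_le_mul_of_nonneg_left (Gm_le hP hμ (fun ω => hρ (ty ω)) hn (by positivity))
      (by positivity)) ?_
  exact summable_geometric_two.mul_right _


/-- T1 for self-similar measures -/
theorem sigBar_le (hP : ∀ ω, 0 ≤ P ω) (hP1 : ∑ ω, P ω = 1) (hμ : BSupp μ)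
    (hρ : ∀ τ, ρ τ ≠ 0) (hself : μ = mix P fun ω => μ.map fun x => ρ (ty ω) * x + b ω)
    {n : ℕ} (hn : 0 < n) {c : ℝ} (hc : 0 < c) (hmac : ∀ r, 0 < r → Macro μ n r c)
    {d : ℝ} (hd : 0 < d) :
    sigBar P ty b d ≤
      ∑' i : ℕ, (2 / c) * ((1 / 2) ^ i * Gm P (fun ω => ρ (ty ω)) μ n ((1 / 2) ^ i * d)) := by
  have hsum : ∀ τ, Summable fun i : ℕ => (2 / c) * ((1 / 2) ^ i *
      gain (cond P ty τ) b (μ.map fun x => ρ τ * x) n ((1 / 2) ^ i * d)) := by
    intro τ
    refine Summable.mul_left _ ?_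
    refine Summable.of_nonneg_of_le (fun i => mul_nonneg (by positivity)
      (gain_nonneg b (cond_nonneg ty hP τ) (cond_sum ty hP1 τ) (bsupp_scale hμ (ρ τ)) hn
        (by positivity)))
      (fun i => mul_le_mul_of_nonneg_left (gain_le b (cond_nonneg ty hP τ) (cond_sum ty hP1 τ)
        (bsupp_scale hμ (ρ τ)) hn (by positivity)) (by positivity)) ?_
    exact summable_geometric_two.mul_right _
  unfold sigBar
  calc ∑ τ, fib P ty τ * sig (cond P ty τ) b d
      ≤ ∑ τ, fib P ty τ * ∑' i : ℕ, (2 / c) * ((1 / 2) ^ i *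
          gain (cond P ty τ) b (μ.map fun x => ρ τ * x) n ((1 / 2) ^ i * d)) := by
        refine Finset.sum_le_sum fun τ _ => mul_le_mul_of_nonneg_left ?_ (fib_nonneg ty hP τ)
        exact sig_le_tsum b (cond_nonneg ty hP τ) (cond_sum ty hP1 τ) (bsupp_scale hμ (ρ τ)) hn hc
          (Macro_scale hmac (hρ τ)) hd
    _ = ∑' i : ℕ, ∑ τ, fib P ty τ * ((2 / c) * ((1 / 2) ^ i *
          gain (cond P ty τ) b (μ.map fun x => ρ τ * x) n ((1 / 2) ^ i * d))) := by
        rw [Summable.tsum_finsetSum fun τ _ => (hsum τ).mul_left _]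
        exact Finset.sum_congr rfl fun τ _ => tsum_mul_left.symm
    _ ≤ _ := by
        refine Summable.tsum_le_tsum (fun i => ?_)
          (summable_sum fun τ _ => (hsum τ).mul_left _) (summable_Gm ty hP hP1 hμ hρ hself hn c hd)
        have h1 := sum_gain_le ty hP hμ hρ hself hn (r := (1 / 2) ^ i * d) (by positivity)
        have h2 : ∑ τ, fib P ty τ * ((2 / c) * ((1 / 2) ^ i *
          gain (cond P ty τ) b (μ.map fun x => ρ τ * x) n ((1 / 2) ^ i * d))) =
            (2 / c) * ((1 / 2) ^ i * ∑ τ, fib P ty τ *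
          gain (cond P ty τ) b (μ.map fun x => ρ τ * x) n ((1 / 2) ^ i * d)) := by
          simp only [Finset.mul_sum]
          refine Finset.sum_congr rfl fun τ _ => ?_
          ring
        rw [h2]
        refine mul_le_mul_of_nonneg_left ?_ (by positivity)
        exact mul_le_mul_of_nonneg_left h1 (by positivity)

/-- entropy increments -/
theorem HBar_sub_le (hP : ∀ ω, 0 ≤ P ω) (hP1 : ∑ ω, P ω = 1) {d t : ℝ} (hd : 0 < d)
    (ht : 0 < t) (ht2 : t ≤ 2) :
    HBar P ty b d - HBar P ty b (2 * d) ≤ t + log (2 / t) * sigBar P ty b d := by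
  unfold HBar sigBar
  rw [← Finset.sum_sub_distrib]
  calc ∑ τ, (fib P ty τ * Hs (addLaw (cond P ty τ) b (Measure.dirac 0)) d -
        fib P ty τ * Hs (addLaw (cond P ty τ) b (Measure.dirac 0)) (2 * d))
      ≤ ∑ τ, (fib P ty τ * t + log (2 / t) * (fib P ty τ * sig (cond P ty τ) b d)) := by
        refine Finset.sum_le_sum fun τ _ => ?_
        have h := Hs_law_sub_le b (cond_nonneg ty hP τ) (cond_sum ty hP1 τ) hd ht ht2
        have h2 := mul_le_mul_of_nonneg_left h (fib_nonneg ty hP τ)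
        linarith
    _ = _ := by
        rw [Finset.sum_add_distrib, ← Finset.sum_mul, fib_sum ty hP1, one_mul, ← Finset.mul_sum]


/-- the conditional entropy of the words is at most the entropy of the measure -/
theorem HBar_le_Hs (hP : ∀ ω, 0 ≤ P ω) (hP1 : ∑ ω, P ω = 1) (hμ : BSupp μ)
    (hself : μ = mix P fun ω => μ.map fun x => ρ (ty ω) * x + b ω) {d : ℝ} (hd : 0 < d) :
    HBar P ty b d ≤ Hs μ d := by
  have hB : ∀ τ, BSupp (addLaw (cond P ty τ) b (μ.map fun x => ρ τ * x)) :=
    fun τ => (bsupp_scale hμ (ρ τ)).addLaw _ _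
  have h1 := J_nonneg (fib_nonneg ty hP) (fib_sum ty hP1) hB hd.le
  unfold J at h1
  rw [mix_types ty hP ρ b μ, ← hself] at h1
  have h2 : HBar P ty b d ≤
      ∑ τ, fib P ty τ * Hs (addLaw (cond P ty τ) b (μ.map fun x => ρ τ * x)) d := by
    unfold HBar
    refine Finset.sum_le_sum fun τ _ => mul_le_mul_of_nonneg_left ?_ (fib_nonneg ty hP τ)
    exact Hs_law_le (cond_nonneg ty hP τ) (cond_sum ty hP1 τ) b (bsupp_scale hμ (ρ τ)) hd
  linarith

end mixture

end Crest.Agent.R98.TOne
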