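import Crest.Agent.R98.HsCell
import Crest.Agent.R98.TOneD
import Crest.Agent.R98.MacroT

-- ▼ part R98/Cluster
section

/-!
R98 / Cluster (helper529): entropies of finite laws whose values cluster: if (within a type) two
values which are closer than `d` belong to the same cluster, and the clusters have diameter `≤ δ ≤ d`,
then the averaged entropy at scale `d` is the cluster entropy up to `(δ/d) log 2`.
-/

set_option autoImplicit false

open MeasureTheory Set Real

namespace Crest.Agent.R98.Cluster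

open HsCell Part

variable {Ω : Type*} [Fintype Ω]




/-- mass of a measurable set for a finite law -/
theorem law_real' {q : Ω → ℝ} (hq : ∀ a, 0 ≤ q a) (v : Ω → ℝ) {s : Set ℝ} (hs : MeasurableSet s) :
    (law q v).real s = ∑ a, q a * s.indicator 1 (v a) := by
  unfold law
  rw [mix_real hq]
  refine Finset.sum_congr rfl fun a _ => ?_
  rw [Measure.real, Measure.dirac_apply' _ hs]
  by_cases h : v a ∈ s
  · rw [indicator_of_mem h, indicator_of_mem h]; simp
  · rw [indicator_of_notMem h, indicator_of_notMem h]; simp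


theorem law_real_ne_zero {q : Ω → ℝ} (hq : ∀ a, 0 ≤ q a) {v : Ω → ℝ} {s : Set ℝ}
    (hs : MeasurableSet s) (h : (law q v).real s ≠ 0) : ∃ a, q a ≠ 0 ∧ v a ∈ s := by
  by_contra hc
  push Not at hc
  apply h
  rw [law_real' hq v hs]
  refine Finset.sum_eq_zero fun a _ => ?_
  by_cases h1 : q a = 0
  · rw [h1, zero_mul]
  · rw [indicator_of_notMem (hc a h1), mul_zero]




theorem Hz_const {X : Type*} [MeasurableSpace X] {P : Measure X} (k : ℤ) :
    Hz P (fun _ => k) = negMulLog (P.real univ) := by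
  unfold Hz
  rw [tsum_eq_single k]
  · simp
  · intro k' hk'
    rw [preimage_const_of_notMem (by simpa using hk'.symm)]
    simp

/-- a measure on an interval of length `δ ≤ d` -/
theorem Hs_le_of_small {μ : Measure ℝ} [IsFiniteMeasure μ] {m δ d : ℝ} (hδ : 0 ≤ δ) (hδd : δ ≤ d)
    (hd : 0 < d) (hμ : μ (Icc m (m + δ))ᶜ = 0) :
    Hs μ d ≤ negMulLog (μ.real univ) + (δ / d) * (μ.real univ * Real.log 2) := by
  have hae : ∀ᵐ x ∂μ, x ∈ Icc m (m + δ) := hμ
  have hb : BSupp μ := by
    refine bsupp_of_ae (R := |m| + δ) ?_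
    filter_upwards [hae] with x hx
    have h1 := le_abs_self m
    have h2 := neg_abs_le m
    rw [abs_le]
    constructor <;> linarith [hx.1, hx.2]
  set w := μ.real univ with hw
  -- phases in `(m, m+δ)`
  have h1 : ∀ θ ∈ Ioo m (m + δ), Hc μ d θ ≤ negMulLog w + w * Real.log 2 := by
    intro θ hθ
    have h := Hz_le_add_log (P := μ) (Z := zc d θ) (Z' := fun _ => (0 : ℤ)) (measurable_zc d θ)
      measurable_const (BSupp.bd hb hd θ) ⟨{0}, by simp⟩ (N := 2) two_pos (fun _ => -1) ?_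
    · rw [Hz_const] at h
      exact_mod_cast h
    · filter_upwards [hae] with x hx
      constructor
      · unfold zc
        rw [Int.le_floor, le_div_iff₀ hd]
        push_cast
        linarith [hx.1, hθ.2]
      · unfold zc
        rw [Int.floor_lt, div_lt_iff₀ hd]
        push_cast
        linarith [hx.2, hθ.1]
  -- the other phases
  have h2 : ∀ θ ∈ Ioo (m + δ) (m + d), Hc μ d θ ≤ negMulLog w := by
    intro θ hθ
    have h := Hz_le_add_log (P := μ) (Z := zc d θ) (Z' := fun _ => (0 : ℤ)) (measurable_zc d θ)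
      measurable_const (BSupp.bd hb hd θ) ⟨{0}, by simp⟩ (N := 1) one_pos (fun _ => -1) ?_
    · rw [Hz_const, Nat.cast_one, Real.log_one, mul_zero, add_zero] at h
      exact h
    · filter_upwards [hae] with x hx
      constructor
      · unfold zc
        rw [Int.le_floor, le_div_iff₀ hd]
        push_cast
        linarith [hx.1, hθ.2]
      · unfold zc
        rw [Int.floor_lt, div_lt_iff₀ hd]
        push_cast
        linarith [hx.2, hθ.1]
  have hint := intervalIntegrable_Hc hb hd m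
  have hi1 : IntervalIntegrable (Hc μ d) volume m (m + δ) :=
    hint.mono_set (by
      rw [uIcc_of_le (by linarith), uIcc_of_le (by linarith)]
      exact Icc_subset_Icc le_rfl (by linarith))
  have hi2 : IntervalIntegrable (Hc μ d) volume (m + δ) (m + d) :=
    hint.mono_set (by
      rw [uIcc_of_le (by linarith), uIcc_of_le (by linarith)]
      exact Icc_subset_Icc (by linarith) le_rfl)
  have e1 : ∫ θ in m..(m + δ), Hc μ d θ ≤ ∫ _θ in m..(m + δ), (negMulLog w + w * Real.log 2) :=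
    intervalIntegral.integral_mono_on_of_le_Ioo (by linarith) hi1 intervalIntegrable_const h1
  have e2 : ∫ θ in (m + δ)..(m + d), Hc μ d θ ≤ ∫ _θ in (m + δ)..(m + d), negMulLog w :=
    intervalIntegral.integral_mono_on_of_le_Ioo (by linarith) hi2 intervalIntegrable_const h2
  rw [intervalIntegral.integral_const, smul_eq_mul] at e1 e2
  rw [Hs_eq_average hb hd m, ← intervalIntegral.integral_add_adjacent_intervals hi1 hi2]
  calc (1 / d) * ((∫ θ in m..(m + δ), Hc μ d θ) + ∫ θ in (m + δ)..(m + d), Hc μ d θ)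
      ≤ (1 / d) * ((m + δ - m) * (negMulLog w + w * Real.log 2) +
        (m + d - (m + δ)) * negMulLog w) :=
        mul_le_mul_of_nonneg_left (add_le_add e1 e2) (by positivity)
    _ = _ := by field_simp; ring

/-- one cluster -/
theorem Hs_law_le_of_small {q : Ω → ℝ} (hq : ∀ a, 0 ≤ q a) {v : Ω → ℝ} {δ d : ℝ} (hδ : 0 ≤ δ)
    (hδd : δ ≤ d) (hd : 0 < d) (h : ∀ a b, q a ≠ 0 → q b ≠ 0 → |v a - v b| ≤ δ) :
    Hs (law q v) d ≤ negMulLog (∑ a, q a) + (δ / d) * ((∑ a, q a) * Real.log 2) := by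
  classical
  rw [← law_real_univ hq v]
  by_cases hne : ∃ a, q a ≠ 0
  · -- the minimum
    obtain ⟨a₀, ha₀⟩ := hne
    obtain ⟨a, ha, hmin⟩ := Finset.exists_min_image (Finset.univ.filter fun a => q a ≠ 0) v
      ⟨a₀, by simpa using ha₀⟩
    rw [Finset.mem_filter] at ha
    refine Hs_le_of_small (m := v a) hδ hδd hd ?_
    by_contra hc
    have : (law q v).real (Icc (v a) (v a + δ))ᶜ ≠ 0 := by
      rw [Measure.real]
      exact ENNReal.toReal_ne_zero.mpr ⟨hc, measure_ne_top _ _⟩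
    obtain ⟨b, hb, hvb⟩ := law_real_ne_zero hq measurableSet_Icc.compl this
    apply hvb
    refine ⟨hmin b (by simpa using hb), ?_⟩
    have := (abs_le.mp (h b a hb ha.2)).2
    linarith
  · push Not at hne
    refine Hs_le_of_small (m := 0) hδ hδd hd ?_
    by_contra hc
    have : (law q v).real (Icc 0 (0 + δ))ᶜ ≠ 0 := by
      rw [Measure.real]
      exact ENNReal.toReal_ne_zero.mpr ⟨hc, measure_ne_top _ _⟩
    obtain ⟨b, hb, _⟩ := law_real_ne_zero hq measurableSet_Icc.compl this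
    exact hb (hne b)

theorem HS_ker_eq_sum_res {T : Type*} [Fintype T] (q : Ω → ℝ) (c : Ω → T) :
    HS q (Setoid.ker c) = ∑ τ, negMulLog (∑ a, res q c τ a) := by
  have h := HS_inf_ker_sum q c ⊤
  rw [top_inf_eq] at h
  rw [h]
  exact Finset.sum_congr rfl fun τ _ => HS_top _







end Crest.Agent.R98.Cluster
end

-- ▼ part R98/TOneE

/-!
R98 / TOneE (helper290): T1a, T1b of note 10296 (window gains of a finite law over a base with the
macro property), conditional gains, overlapping windows.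
-/

set_option autoImplicit false

open MeasureTheory Set Real Filter

namespace Crest.Agent.R98.TOne

/-! ### overlapping windows -/

/-- dyadic overlap -/
theorem overlap_le {f : ℕ → ℝ} (hf : Antitone f) (L p : ℕ) :
    ∑ i ∈ Finset.range L, (f i - f (i + p)) ≤ p * (f 0 - f (L + p)) := by
  induction p with
  | zero => simp
  | succ p ih =>
    have h1 : ∀ i, f i - f (i + (p + 1)) = (f i - f (i + p)) + (f (p + i) - f (p + (i + 1))) := by
      intro i
      rw [add_comm p i, show p + (i + 1) = i + (p + 1) by ring]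
      ring
    simp only [h1, Finset.sum_add_distrib]
    have h2 : ∑ i ∈ Finset.range L, (f (p + i) - f (p + (i + 1))) = f p - f (p + L) := by
      have := Finset.sum_range_sub' (fun i => f (p + i)) L
      simpa using this
    rw [h2]
    have h3 : f (p + L) ≥ f (L + (p + 1)) := hf (by omega)
    have h4 : f (L + p) ≥ f (L + (p + 1)) := hf (by omega)
    have h5 : f p ≤ f 0 := hf (by omega)
    have h6 : (p : ℝ) * (f 0 - f (L + p)) ≤ p * (f 0 - f (L + (p + 1))) :=
      mul_le_mul_of_nonneg_left (by linarith) (Nat.cast_nonneg p)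
    push_cast
    linarith


/-! ### information `I(r) = Hs (ν * B) r - Hs B r` -/

section info

variable {κ : Type*} [Fintype κ] {q : κ → ℝ} (s : κ → ℝ)

/-- information of the law `(q, s)` over the base `B` at scale `r` -/
noncomputable def info (q s : κ → ℝ) (B : Measure ℝ) (r : ℝ) : ℝ :=
  Hs (addLaw q s B) r - Hs B r

theorem gain_eq_info (q s : κ → ℝ) (B : Measure ℝ) (n : ℕ) (r : ℝ) :
    gain q s B n r = info q s B r - info q s B (n * r) := by
  unfold gain W info
  ring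

theorem info_nonneg (hq : ∀ k, 0 ≤ q k) (hq1 : ∑ k, q k = 1) {B : Measure ℝ}
    [IsFiniteMeasure B] (hB : BSupp B) {r : ℝ} (hr : 0 < r) : 0 ≤ info q s B r :=
  sub_nonneg.2 (Hs_le_addLaw hq hq1 s hB hr.le)


theorem info_nsmul_le (hq : ∀ k, 0 ≤ q k) (hq1 : ∑ k, q k = 1) {B : Measure ℝ}
    [IsFiniteMeasure B] (hB : BSupp B) {n : ℕ} (hn : 0 < n) {r : ℝ} (hr : 0 < r) :
    info q s B (n * r) ≤ info q s B r := by
  have := gain_nonneg s hq hq1 hB hn hr
  rw [gain_eq_info] at this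
  linarith

theorem info_antitone (hq : ∀ k, 0 ≤ q k) (hq1 : ∑ k, q k = 1) {B : Measure ℝ}
    [IsFiniteMeasure B] (hB : BSupp B) {r : ℝ} (hr : 0 < r) :
    Antitone fun i : ℕ => info q s B (2 ^ i * r) := by
  refine antitone_nat_of_succ_le fun i => ?_
  have := info_nsmul_le s hq hq1 hB (n := 2) (by norm_num) (r := 2 ^ i * r) (by positivity)
  rw [pow_succ]
  rw [← mul_assoc] at this
  push_cast at this
  rwa [mul_comm (2 : ℝ) (2 ^ i)] at this

/-- sum of the window gains over dyadic scales -/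
theorem sum_gain_dyadic (hq : ∀ k, 0 ≤ q k) (hq1 : ∑ k, q k = 1) {B : Measure ℝ}
    [IsFiniteMeasure B] (hB : BSupp B) {r : ℝ} (hr : 0 < r) (L p : ℕ) :
    ∑ i ∈ Finset.range L, gain q s B (2 ^ p) (2 ^ i * r) ≤ p * gain q s B (2 ^ (L + p)) r := by
  have h1 := overlap_le (info_antitone s hq hq1 hB hr) L p
  have h2 : ∀ i, gain q s B (2 ^ p) (2 ^ i * r) =
      info q s B (2 ^ i * r) - info q s B (2 ^ (i + p) * r) := by
    intro i
    rw [gain_eq_info]
    congr 2
    push_cast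
    ring
  simp only [h2]
  refine h1.trans (le_of_eq ?_)
  rw [gain_eq_info]
  push_cast
  simp

/-! ### T1a -/

theorem ind_dyadic {b x : ℝ} (L : ℕ) :
    (if b ≤ x ∧ x < 2 ^ L * b then (1 : ℝ) else 0) ≤
      ∑ i ∈ Finset.range L, if 2 ^ i * b ≤ x ∧ x < 2 * (2 ^ i * b) then (1 : ℝ) else 0 := by
  induction L with
  | zero =>
    simp only [pow_zero, one_mul, Finset.range_zero, Finset.sum_empty]
    rw [if_neg (fun h => by linarith [h.1, h.2])]
  | succ L ih =>
    rw [Finset.sum_range_succ]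
    by_cases h : b ≤ x ∧ x < 2 ^ (L + 1) * b
    · rw [if_pos h]
      by_cases h2 : x < 2 ^ L * b
      · rw [if_pos ⟨h.1, h2⟩] at ih
        have : (0 : ℝ) ≤ if 2 ^ L * b ≤ x ∧ x < 2 * (2 ^ L * b) then (1 : ℝ) else 0 := by
          split_ifs <;> norm_num
        linarith
      · push Not at h2
        rw [if_pos (⟨h2, by rw [pow_succ] at h; linarith [h.2]⟩ :
          2 ^ L * b ≤ x ∧ x < 2 * (2 ^ L * b))]
        have : (0 : ℝ) ≤ ∑ i ∈ Finset.range L,
            if 2 ^ i * b ≤ x ∧ x < 2 * (2 ^ i * b) then (1 : ℝ) else 0 :=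
          Finset.sum_nonneg fun i _ => by split_ifs <;> norm_num
        linarith
    · rw [if_neg h]
      have h3 : (0 : ℝ) ≤ if 2 ^ L * b ≤ x ∧ x < 2 * (2 ^ L * b) then (1 : ℝ) else 0 := by
        split_ifs <;> norm_num
      have h4 : (0 : ℝ) ≤ ∑ i ∈ Finset.range L,
          if 2 ^ i * b ≤ x ∧ x < 2 * (2 ^ i * b) then (1 : ℝ) else 0 :=
        Finset.sum_nonneg fun i _ => by split_ifs <;> norm_num
      linarith

/-- T1a: pairs at distance in `[b, 2^L b)` versus the gain in the window `(2^(L+p) b, b)` -/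
theorem T1a (hq : ∀ k, 0 ≤ q k) (hq1 : ∑ k, q k = 1) {B : Measure ℝ} [IsFiniteMeasure B]
    (hB : BSupp B) {p : ℕ} {c : ℝ} (hc : 0 ≤ c) (hmac : ∀ r, 0 < r → Macro B (2 ^ p) r c)
    {b : ℝ} (hb : 0 < b) (L : ℕ) :
    c * ∑ k, ∑ l, (if b ≤ |s l - s k| ∧ |s l - s k| < 2 ^ L * b then q k * q l else 0) ≤
      p * gain q s B (2 ^ (L + p)) b := by
  refine le_trans ?_ (sum_gain_dyadic s hq hq1 hB hb L p)
  have h1 : ∀ i ∈ Finset.range L, c * ∑ k, ∑ l,
      (if 2 ^ i * b ≤ |s l - s k| ∧ |s l - s k| < 2 * (2 ^ i * b) then q k * q l else 0) ≤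
      gain q s B (2 ^ p) (2 ^ i * b) := by
    intro i _
    have hr : 0 < 2 ^ i * b := by positivity
    exact gain_coupling (s := s) (M := fun k l => q k * q l)
      (fun k l => mul_nonneg (hq k) (hq l)) (fun k => by rw [← Finset.mul_sum, hq1, mul_one])
      (fun l => by rw [← Finset.sum_mul, hq1, one_mul]) hq1 hB (by positivity) hr (hmac _ hr)
  refine le_trans ?_ (Finset.sum_le_sum h1)
  rw [← Finset.mul_sum]
  refine mul_le_mul_of_nonneg_left ?_ hc
  have h3 : ∑ i ∈ Finset.range L, ∑ k, ∑ l,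
      (if 2 ^ i * b ≤ |s l - s k| ∧ |s l - s k| < 2 * (2 ^ i * b) then q k * q l else 0) =
      ∑ k, ∑ l, ∑ i ∈ Finset.range L,
      (if 2 ^ i * b ≤ |s l - s k| ∧ |s l - s k| < 2 * (2 ^ i * b) then q k * q l else 0) := by
    rw [Finset.sum_comm]
    exact Finset.sum_congr rfl fun k _ => Finset.sum_comm
  rw [h3]
  refine Finset.sum_le_sum fun k _ => Finset.sum_le_sum fun l _ => ?_
  have h2 := mul_le_mul_of_nonneg_left (ind_dyadic (b := b) (x := |s l - s k|) L)
    (mul_nonneg (hq k) (hq l))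
  rw [Finset.mul_sum] at h2
  simpa only [mul_ite, mul_one, mul_zero] using h2

/-! ### T1b -/

/-- geometric convolution -/
theorem sum_geom_conv (g : ℕ → ℝ) (M : ℕ) :
    ∑ i ∈ Finset.range (M + 1), ∑ a ∈ Finset.range (i + 1), (1 / 2 : ℝ) ^ a * g (i - a) +
      ∑ a ∈ Finset.range (M + 1), (1 / 2 : ℝ) ^ a * g (M - a) =
      2 * ∑ i ∈ Finset.range (M + 1), g i := by
  induction M with
  | zero => simp; ring
  | succ M ih =>
    have h1 : ∑ a ∈ Finset.range (M + 1 + 1), (1 / 2 : ℝ) ^ a * g (M + 1 - a) =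
        (1 / 2) * ∑ a ∈ Finset.range (M + 1), (1 / 2 : ℝ) ^ a * g (M - a) + g (M + 1) := by
      rw [Finset.sum_range_succ']
      simp only [pow_zero, one_mul, Nat.sub_zero, Finset.mul_sum]
      congr 1
      refine Finset.sum_congr rfl fun a _ => ?_
      rw [pow_succ, Nat.add_sub_add_right]
      ring
    rw [Finset.sum_range_succ _ (M + 1), Finset.sum_range_succ g (M + 1), h1]
    linarith

theorem sum_geom_conv_le {g : ℕ → ℝ} (hg : ∀ i, 0 ≤ g i) (M : ℕ) :
    ∑ i ∈ Finset.range M, ∑ a ∈ Finset.range (i + 1), (1 / 2 : ℝ) ^ a * g (i - a) ≤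
      2 * ∑ i ∈ Finset.range M, g i := by
  rcases M with _ | M
  · simp
  · rw [← sum_geom_conv g M]
    have : 0 ≤ ∑ a ∈ Finset.range (M + 1), (1 / 2 : ℝ) ^ a * g (M - a) :=
      Finset.sum_nonneg fun a _ => mul_nonneg (by positivity) (hg _)
    linarith

theorem gain_le_log (hq : ∀ k, 0 ≤ q k) (hq1 : ∑ k, q k = 1) {B : Measure ℝ}
    [IsProbabilityMeasure B] (hB : BSupp B) {n : ℕ} (hn : 0 < n) {r : ℝ} (hr : 0 < r) :
    gain q s B n r ≤ log n := by
  have : IsProbabilityMeasure (addLaw q s B) := isProbabilityMeasure_addLaw hq hq1 s _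
  have h1 := W_le_log (hB.addLaw q s) hn hr
  have h2 := W_nonneg hB hn hr
  unfold gain
  linarith

/-- one scale -/
theorem sig_le_split (hq : ∀ k, 0 ≤ q k) (hq1 : ∑ k, q k = 1) {B : Measure ℝ}
    [IsProbabilityMeasure B] (hB : BSupp B) {p : ℕ} {c : ℝ} (hc : 0 < c)
    (hmac : ∀ r, 0 < r → Macro B (2 ^ p) r c) {r : ℝ} (hr : 0 < r) (i : ℕ) :
    sig q s (2 ^ i * r) ≤ (2 / c) * (∑ a ∈ Finset.range (i + 1),
      (1 / 2 : ℝ) ^ a * gain q s B (2 ^ p) (2 ^ (i - a) * r) + (1 / 2) ^ i * (p * log 2)) := by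
  have hpos : 0 < 2 ^ i * r := by positivity
  have h1 := sig_le_tsum s hq hq1 hB (n := 2 ^ p) (by positivity) hc hmac hpos
  refine h1.trans ?_
  rw [tsum_mul_left]
  refine mul_le_mul_of_nonneg_left ?_ (by positivity)
  set G := fun a : ℕ => (1 / 2 : ℝ) ^ a * gain q s B (2 ^ p) ((1 / 2) ^ a * (2 ^ i * r)) with hG
  have hG0 : ∀ a, 0 ≤ G a := fun a => mul_nonneg (by positivity)
    (gain_nonneg s hq hq1 hB (by positivity) (by positivity))
  have hGle : ∀ a, G a ≤ (1 / 2 : ℝ) ^ a * (p * log 2) := by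
    intro a
    refine mul_le_mul_of_nonneg_left ?_ (by positivity)
    have := gain_le_log s hq hq1 hB (n := 2 ^ p) (by positivity) (r := (1 / 2) ^ a * (2 ^ i * r))
      (by positivity)
    push_cast at this
    rwa [log_pow] at this
  have hsum : Summable G := Summable.of_nonneg_of_le hG0 hGle
    (summable_geometric_two.mul_right _)
  rw [← hsum.sum_add_tsum_nat_add (i + 1)]
  refine add_le_add (le_of_eq ?_) ?_
  · refine Finset.sum_congr rfl fun a ha => ?_
    rw [hG]
    have ha' : a ≤ i := by have := Finset.mem_range.1 ha; omega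
    have h2 : (1 / 2 : ℝ) ^ a * (2 ^ i * r) = 2 ^ (i - a) * r := by
      obtain ⟨j, rfl⟩ := Nat.exists_eq_add_of_le ha'
      rw [Nat.add_sub_cancel_left, pow_add, ← mul_assoc, ← mul_assoc, ← mul_pow]
      norm_num
    simp only [h2]
  · have hs2 : Summable fun a : ℕ => (1 / 2 : ℝ) ^ (a + (i + 1)) * (p * log 2) :=
      ((summable_nat_add_iff (i + 1)).2 summable_geometric_two).mul_right _
    calc ∑' a, G (a + (i + 1)) ≤ ∑' a : ℕ, (1 / 2 : ℝ) ^ (a + (i + 1)) * (p * log 2) :=
          Summable.tsum_le_tsum (fun a => hGle _) ((summable_nat_add_iff (i + 1)).2 hsum) hs2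
      _ = (1 / 2) ^ i * (p * log 2) := by
          have h3 : ∀ a : ℕ, (1 / 2 : ℝ) ^ (a + (i + 1)) * (p * log 2) =
              (1 / 2 : ℝ) ^ a * ((1 / 2) ^ (i + 1) * (p * log 2)) := by
            intro a; rw [pow_add]; ring
          simp only [h3]
          rw [tsum_mul_right, tsum_geometric_two, pow_succ]
          ring

/-- sum of the branching numbers over a window -/
theorem sum_sig_le (hq : ∀ k, 0 ≤ q k) (hq1 : ∑ k, q k = 1) {B : Measure ℝ}
    [IsProbabilityMeasure B] (hB : BSupp B) {p : ℕ} {c : ℝ} (hc : 0 < c)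
    (hmac : ∀ r, 0 < r → Macro B (2 ^ p) r c) {r : ℝ} (hr : 0 < r) (M : ℕ) :
    ∑ i ∈ Finset.range M, sig q s (2 ^ i * r) ≤
      (4 / c) * (p * gain q s B (2 ^ (M + p)) r + p * log 2) := by
  have hlog : 0 ≤ (p : ℝ) * log 2 := mul_nonneg (Nat.cast_nonneg p) (log_nonneg (by norm_num))
  have hg : ∀ i : ℕ, 0 ≤ gain q s B (2 ^ p) (2 ^ i * r) := fun i =>
    gain_nonneg s hq hq1 hB (by positivity) (by positivity)
  calc ∑ i ∈ Finset.range M, sig q s (2 ^ i * r)
      ≤ ∑ i ∈ Finset.range M, (2 / c) * (∑ a ∈ Finset.range (i + 1),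
      (1 / 2 : ℝ) ^ a * gain q s B (2 ^ p) (2 ^ (i - a) * r) + (1 / 2) ^ i * (p * log 2)) :=
        Finset.sum_le_sum fun i _ => sig_le_split s hq hq1 hB hc hmac hr i
    _ = (2 / c) * (∑ i ∈ Finset.range M, ∑ a ∈ Finset.range (i + 1),
      (1 / 2 : ℝ) ^ a * gain q s B (2 ^ p) (2 ^ (i - a) * r) +
        (∑ i ∈ Finset.range M, (1 / 2 : ℝ) ^ i) * (p * log 2)) := by
        rw [← Finset.mul_sum, Finset.sum_add_distrib, Finset.sum_mul]
    _ ≤ (2 / c) * (2 * ∑ i ∈ Finset.range M, gain q s B (2 ^ p) (2 ^ i * r) + 2 * (p * log 2)) := by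
        refine mul_le_mul_of_nonneg_left (add_le_add
          (sum_geom_conv_le (g := fun i => gain q s B (2 ^ p) (2 ^ i * r)) hg M) ?_) (by positivity)
        refine mul_le_mul_of_nonneg_right ?_ hlog
        exact sum_geometric_two_le M
    _ ≤ (2 / c) * (2 * (p * gain q s B (2 ^ (M + p)) r) + 2 * (p * log 2)) := by
        have := sum_gain_dyadic s hq hq1 hB hr M p
        gcongr
    _ = _ := by ring

theorem law_eq_addLaw (q s : κ → ℝ) : HsCell.law q s = addLaw q s (Measure.dirac 0) := by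
  unfold HsCell.law addLaw
  congr 1
  funext a
  unfold shift
  rw [Measure.map_dirac' (by fun_prop)]
  simp

/-- a law of diameter at most `d` has entropy at most `log 2` at scale `d` -/
theorem Hs_diam_le (hq : ∀ k, 0 ≤ q k) (hq1 : ∑ k, q k = 1) {d : ℝ} (hd : 0 < d)
    (h : ∀ k l, q k ≠ 0 → q l ≠ 0 → |s k - s l| ≤ d) :
    Hs (addLaw q s (Measure.dirac 0)) d ≤ log 2 := by
  have h1 := Cluster.Hs_law_le_of_small hq hd.le le_rfl hd h
  rw [hq1, law_eq_addLaw, div_self hd.ne'] at h1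
  simpa using h1

/-- T1b: the entropy of a law of diameter at most `2^M r` at scale `r` versus the gain in the
window `(2^(M+p) r, r)` -/
theorem T1b (hq : ∀ k, 0 ≤ q k) (hq1 : ∑ k, q k = 1) {B : Measure ℝ}
    [IsProbabilityMeasure B] (hB : BSupp B) {p : ℕ} {c : ℝ} (hc : 0 < c)
    (hmac : ∀ r, 0 < r → Macro B (2 ^ p) r c) {r : ℝ} (hr : 0 < r) (M : ℕ)
    (hdiam : ∀ k l, q k ≠ 0 → q l ≠ 0 → |s k - s l| ≤ 2 ^ M * r) {t : ℝ} (ht : 0 < t)
    (ht2 : t ≤ 2) :
    Hs (addLaw q s (Measure.dirac 0)) r ≤ log 2 + M * t +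
      log (2 / t) * ((4 / c) * (p * gain q s B (2 ^ (M + p)) r + p * log 2)) := by
  have h1 := Hs_diam_le s hq hq1 (d := 2 ^ M * r) (by positivity) hdiam
  have h2 : Hs (addLaw q s (Measure.dirac 0)) r - Hs (addLaw q s (Measure.dirac 0)) (2 ^ M * r) =
      ∑ i ∈ Finset.range M, (Hs (addLaw q s (Measure.dirac 0)) (2 ^ i * r) -
        Hs (addLaw q s (Measure.dirac 0)) (2 ^ (i + 1) * r)) := by
    have := Finset.sum_range_sub' (fun i => Hs (addLaw q s (Measure.dirac 0)) (2 ^ i * r)) M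
    simpa using this.symm
  have h3 : ∑ i ∈ Finset.range M, (Hs (addLaw q s (Measure.dirac 0)) (2 ^ i * r) -
        Hs (addLaw q s (Measure.dirac 0)) (2 ^ (i + 1) * r)) ≤
      ∑ i ∈ Finset.range M, (t + log (2 / t) * sig q s (2 ^ i * r)) := by
    refine Finset.sum_le_sum fun i _ => ?_
    have := Hs_law_sub_le s hq hq1 (d := 2 ^ i * r) (by positivity) ht ht2
    rwa [← mul_assoc, ← pow_succ'] at this
  have h4 := sum_sig_le s hq hq1 hB hc hmac hr M
  have hlog : 0 ≤ log (2 / t) := log_nonneg ((one_le_div ht).2 ht2)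
  have h5 := mul_le_mul_of_nonneg_left h4 hlog
  rw [Finset.sum_add_distrib, Finset.sum_const, Finset.card_range, nsmul_eq_mul,
    ← Finset.mul_sum] at h3
  linarith

end info

/-! ### conditional gains -/

section conditional

variable {κ C : Type*} [Fintype κ] [Fintype C] {q : κ → ℝ} (s : κ → ℝ) (lab : κ → C)



end conditional

/-! ### macro property with a power of two -/

theorem exists_macro_two_pow {ι : Type*} [Fintype ι] {r t p : ι → ℝ} {μ : Measure ℝ}
    [IsProbabilityMeasure μ] (hp : ∀ i, 0 ≤ p i) (hp1 : ∑ i, p i = 1)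
    (hr0 : ∀ i, r i ≠ 0) (hr1 : ∀ i, |r i| < 1) (hμ : BSupp μ)
    (hself : μ = mix p fun i => μ.map fun x => r i * x + t i) {D C' : ℝ} (hD1 : D < 1)
    (hD : ∃ᶠ x : ℝ in atTop, Hs μ (exp (-x)) ≤ D * x + C') :
    ∃ n : ℕ, ∃ c : ℝ, 0 < c ∧ ∀ a b : ℝ, a ≠ 0 → ∀ ρ : ℝ, 0 < ρ →
      Macro (μ.map fun x => a * x + b) (2 ^ n) ρ c := by
  classical
  have hne : Nonempty ι := by
    by_contra hcon
    rw [not_nonempty_iff] at hcon
    rw [Finset.univ_eq_empty, Finset.sum_empty] at hp1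
    exact zero_ne_one hp1
  set ρ := Finset.univ.inf' Finset.univ_nonempty fun i => |r i| with hρ
  set σ := Finset.univ.sup' Finset.univ_nonempty fun i => |r i| with hσ
  have h1 : 0 < ρ := (Finset.lt_inf'_iff _).mpr fun i _ => abs_pos.mpr (hr0 i)
  have h2 : ∀ i, ρ ≤ |r i| := fun i => Finset.inf'_le _ (Finset.mem_univ i)
  have h3 : ∀ i, |r i| ≤ σ := fun i =>
    Finset.le_sup' (fun i => |r i|) (Finset.mem_univ i)
  have h4 : σ < 1 := (Finset.sup'_lt_iff _).mpr fun i _ => hr1 i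
  set D' := max D 0 with hD'
  have h5 : D' < 1 := max_lt hD1 one_pos
  have h6 : ∃ᶠ x : ℝ in atTop, Hs μ (exp (-x)) ≤ D' * x + C' := by
    refine (hD.and_eventually (eventually_ge_atTop 0)).mono ?_
    rintro x ⟨hx, hx0⟩
    exact hx.trans (by linarith [mul_le_mul_of_nonneg_right (le_max_left D 0) hx0])
  have h7 : Tendsto (fun a : ℕ => (1 - D') * log ((2 ^ a : ℕ) : ℝ)) atTop atTop := by
    refine Tendsto.const_mul_atTop (by linarith) ?_
    refine tendsto_log_atTop.comp (tendsto_natCast_atTop_atTop.comp ?_)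
    exact Filter.tendsto_atTop_mono (fun a => (Nat.lt_two_pow_self (n := a)).le) tendsto_id
  obtain ⟨a, ha⟩ := (h7.eventually_ge_atTop (log (1 / ρ) + log 2 + 12)).exists
  have hK : 0 < 2 ^ a := by positivity
  have hdef : ∀ d, 0 < d → Hs μ d - Hs μ ((2 ^ a : ℕ) * d) ≤ log ((2 ^ a : ℕ) : ℝ) - 12 := by
    intro d hd
    have h8 := uniform_deficit hp hp1 h1 h2 h3 h4 hμ hself (le_max_right D 0) h6 hK hd
    linarith
  refine ⟨4 + 2 * a, 1 / (8 * (((2 ^ a : ℕ) : ℝ)) ^ 2), by positivity, ?_⟩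
  intro a' b ha' ρ' hρ'
  have : IsProbabilityMeasure (μ.map fun x => a' * x + b) :=
    Measure.isProbabilityMeasure_map (by fun_prop)
  have h9 := macro_of_deficit (hμ.map_affine a' b) hK (fun d hd => deficit_map hdef ha' b hd) hρ'
  have h10 : 16 * (2 ^ a) ^ 2 = 2 ^ (4 + 2 * a) := by
    rw [pow_add, pow_mul']
    norm_num
  rwa [h10] at h9

end Crest.Agent.R98.TOne
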