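import Mathlib
import Crest.Agent.R98.Word1
import Crest.Agent.R98.Bridge_Mg
import Crest.Agent.R98.TOneE
import Crest.Agent.R98.KConv_Mg
import Crest.Agent.R98.KTree

-- ▼ part R98/KLoc
section

set_option autoImplicit false
open Finset Module

/-!
# Location lemma (row 98, rank ≥ 2)

For a linear form `n ↦ ∑ n k * e k` on integer vectors with entries bounded by `B`, the nonzero
absolute values lie in at most `card κ` windows `[x, K x]`, with `K = M * (M! * (M B²)^M)`-ish.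
-/

namespace Crest.Agent.R98.K

variable {κ : Type*} [Fintype κ]

/-- integer vector as rational vector -/
def toQ (n : κ → ℤ) : κ → ℚ := fun k => (n k : ℚ)

/-- the Cramer constant -/
def cramerC (M B : ℕ) : ℕ := Nat.factorial M * (M * B ^ 2 + 1) ^ M

theorem cramerC_mono {r M : ℕ} (h : r ≤ M) (B : ℕ) :
    Nat.factorial r * (M * B ^ 2 + 1) ^ r ≤ cramerC M B := by
  unfold cramerC
  exact Nat.mul_le_mul (Nat.factorial_le h) (Nat.pow_le_pow_right (by omega) h)

/-- Cramer's rule with bounds, through the Gram matrix. -/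
theorem cramer_bound (B : ℕ) (r : ℕ) (f : Fin r → κ → ℤ) (hf : ∀ i k, |f i k| ≤ B)
    (hind : LinearIndependent ℚ (fun i => toQ (f i)))
    (n : κ → ℤ) (hn : ∀ k, |n k| ≤ B) (c : Fin r → ℚ)
    (hc : ∀ k, (n k : ℚ) = ∑ i, c i * f i k) (i : Fin r) :
    |c i| ≤ (cramerC (Fintype.card κ) B : ℚ) := by
  set M := Fintype.card κ with hM
  -- Gram matrix
  let G : Matrix (Fin r) (Fin r) ℤ := Matrix.of (fun j i => ∑ k, f j k * f i k)
  let b : Fin r → ℤ := fun j => ∑ k, f j k * n k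
  have hr : r ≤ M := by
    have := hind.fintype_card_le_finrank
    simpa using this
  have hG : ∀ j i, |G j i| ≤ ((M * B ^ 2 + 1 : ℕ) : ℤ) := by
    intro j i
    have hGji : G j i = ∑ k, f j k * f i k := rfl
    rw [hGji]
    calc |∑ k, f j k * f i k| ≤ ∑ k, |f j k * f i k| := Finset.abs_sum_le_sum_abs _ _
      _ ≤ ∑ _k : κ, (B : ℤ) * B := by
          refine Finset.sum_le_sum fun k _ => ?_
          rw [abs_mul]
          exact mul_le_mul (hf j k) (hf i k) (abs_nonneg _) (by positivity)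
      _ = (M * B ^ 2 : ℕ) := by
          rw [Finset.sum_const, Finset.card_univ, nsmul_eq_mul, ← hM]; push_cast; ring
      _ ≤ _ := by push_cast; linarith
  have hb : ∀ j, |b j| ≤ ((M * B ^ 2 + 1 : ℕ) : ℤ) := by
    intro j
    calc |b j| ≤ ∑ k, |f j k * n k| := Finset.abs_sum_le_sum_abs _ _
      _ ≤ ∑ _k : κ, (B : ℤ) * B := by
          refine Finset.sum_le_sum fun k _ => ?_
          rw [abs_mul]
          exact mul_le_mul (hf j k) (hn k) (abs_nonneg _) (by positivity)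
      _ = (M * B ^ 2 : ℕ) := by
          rw [Finset.sum_const, Finset.card_univ, nsmul_eq_mul, ← hM]; push_cast; ring
      _ ≤ _ := by push_cast; linarith
  -- G c = b over ℚ
  let GQ : Matrix (Fin r) (Fin r) ℚ := G.map (Int.cast : ℤ → ℚ)
  have hGQ : ∀ j i, GQ j i = ∑ k, (f j k : ℚ) * (f i k : ℚ) := by
    intro j i
    show ((∑ k, f j k * f i k : ℤ) : ℚ) = _
    push_cast
    rfl
  have hGc : GQ.mulVec c = fun j => (b j : ℚ) := by
    funext j
    simp only [Matrix.mulVec, dotProduct, b]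
    push_cast
    simp_rw [hGQ, Finset.sum_mul]
    rw [Finset.sum_comm]
    refine Finset.sum_congr rfl fun k _ => ?_
    rw [hc k, Finset.mul_sum]
    refine Finset.sum_congr rfl fun i _ => by ring
  -- det ≠ 0
  have hdet : GQ.det ≠ 0 := by
    intro h0
    obtain ⟨v, hv0, hv⟩ := Matrix.exists_mulVec_eq_zero_iff.mpr h0
    -- v^T G v = |∑ v_i f_i|^2 = 0
    have hq : ∑ k, (∑ i, v i * (f i k : ℚ)) ^ 2 = 0 := by
      have h1 : ∑ j, v j * (GQ.mulVec v) j = ∑ k, (∑ i, v i * (f i k : ℚ)) ^ 2 := by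
        simp only [Matrix.mulVec, dotProduct]
        simp_rw [hGQ, Finset.sum_mul, Finset.mul_sum]
        have : ∀ j : Fin r, ∑ i, ∑ k, v j * ((f j k : ℚ) * (f i k : ℚ) * v i)
            = ∑ k, ∑ i, v j * ((f j k : ℚ) * (f i k : ℚ) * v i) := fun j => Finset.sum_comm
        simp_rw [this]
        rw [Finset.sum_comm]
        refine Finset.sum_congr rfl fun k _ => ?_
        rw [sq, Finset.sum_mul_sum]
        refine Finset.sum_congr rfl fun i _ => Finset.sum_congr rfl fun j _ => by ring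
      rw [← h1, hv]
      simp
    have hz : ∀ k, ∑ i, v i * (f i k : ℚ) = 0 := by
      intro k
      have := (Finset.sum_eq_zero_iff_of_nonneg (fun k _ => sq_nonneg _)).mp hq k (Finset.mem_univ k)
      exact pow_eq_zero_iff (two_ne_zero) |>.mp this
    apply hv0
    have := Fintype.linearIndependent_iff.mp hind v (by
      funext k
      simp only [Finset.sum_apply, Pi.smul_apply, toQ, smul_eq_mul, Pi.zero_apply]
      exact hz k)
    funext i
    exact this i
  have hdetZ : (G.det : ℚ) = GQ.det := by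
    simp only [GQ]
    have := RingHom.map_det (Int.castRingHom ℚ) G
    simpa [RingHom.mapMatrix_apply] using this
  have hdetge : (1 : ℚ) ≤ |GQ.det| := by
    rw [← hdetZ]
    have : G.det ≠ 0 := by
      intro h
      apply hdet
      rw [← hdetZ, h]
      simp
    have h1 : (1 : ℤ) ≤ |G.det| := Int.one_le_abs this
    exact_mod_cast h1
  -- Cramer
  have hcr : GQ.det * c i = (GQ.updateCol i (fun j => (b j : ℚ))).det := by
    have h1 : GQ.cramer (GQ.mulVec c) = GQ.det • c := by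
      rw [Matrix.cramer_eq_adjugate_mulVec, Matrix.mulVec_mulVec, Matrix.adjugate_mul,
        Matrix.smul_mulVec, Matrix.one_mulVec]
    have := congrFun h1 i
    rw [hGc, Matrix.cramer_apply] at this
    simpa using this.symm
  have hup : |(GQ.updateCol i (fun j => (b j : ℚ))).det| ≤ (cramerC M B : ℚ) := by
    have h1 := Matrix.det_le (A := GQ.updateCol i (fun j => (b j : ℚ)))
      (abv := AbsoluteValue.abs) (x := ((M * B ^ 2 + 1 : ℕ) : ℚ)) (by
        intro j l
        by_cases hl : l = i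
        · subst hl
          rw [Matrix.updateCol_self]
          have := hb j
          simp only [AbsoluteValue.abs_apply]
          exact_mod_cast this
        · rw [Matrix.updateCol_ne hl]
          have := hG j l
          simp only [AbsoluteValue.abs_apply]
          have h3 : GQ j l = ((G j l : ℤ) : ℚ) := rfl
          rw [h3]
          exact_mod_cast this)
    simp only [AbsoluteValue.abs_apply, Fintype.card_fin, nsmul_eq_mul] at h1
    refine h1.trans ?_
    have := cramerC_mono hr B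
    exact_mod_cast this
  calc |c i| ≤ |GQ.det| * |c i| := by
        nlinarith [abs_nonneg (c i)]
    _ = |GQ.det * c i| := (abs_mul _ _).symm
    _ ≤ _ := by rw [hcr]; exact hup

/-- the value of the linear form -/
noncomputable def val (e : κ → ℝ) (n : κ → ℤ) : ℝ := |∑ k, (n k : ℝ) * e k|

/-- If `n` lies in the rational span of vectors of `S` (entries bounded by `B`) at which the form
is at most `x`, then the form is at most `M * cramerC * x` at `n`. -/
theorem val_le_of_span (e : κ → ℝ) (B : ℕ) (S : Set (κ → ℤ)) (hS : ∀ n ∈ S, ∀ k, |n k| ≤ B)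
    (x : ℝ) (hx0 : 0 ≤ x) (hx : ∀ n ∈ S, val e n ≤ x) (n : κ → ℤ) (hn : ∀ k, |n k| ≤ B)
    (hspan : toQ n ∈ Submodule.span ℚ (toQ '' S)) :
    val e n ≤ (Fintype.card κ * cramerC (Fintype.card κ) B : ℕ) * x := by
  obtain ⟨b, hbS, hbspan, hbind⟩ := exists_linearIndependent ℚ (toQ '' S)
  have hfin : b.Finite := hbind.setFinite
  have : Fintype b := hfin.fintype
  let r := Fintype.card b
  let eqv : Fin r ≃ b := (Fintype.equivFin b).symm
  have hmem : ∀ i : Fin r, ∃ m ∈ S, toQ m = (eqv i : κ → ℚ) := fun i => by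
    obtain ⟨m, hm, hme⟩ := hbS (eqv i).2
    exact ⟨m, hm, hme⟩
  choose f hfS hfe using hmem
  have hind : LinearIndependent ℚ (fun i => toQ (f i)) := by
    have h1 : (fun i => toQ (f i)) = (fun y : b => (y : κ → ℚ)) ∘ eqv := by
      funext i; exact hfe i
    rw [h1]
    exact hbind.comp _ eqv.injective
  have hspan' : toQ n ∈ Submodule.span ℚ (Set.range (fun i => toQ (f i))) := by
    have h1 : Set.range (fun i => toQ (f i)) = b := by
      ext y
      constructor
      · rintro ⟨i, rfl⟩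
        show toQ (f i) ∈ b
        rw [hfe i]; exact (eqv i).2
      · intro hy
        refine ⟨eqv.symm ⟨y, hy⟩, ?_⟩
        show toQ (f _) = y
        rw [hfe]; simp
    rw [h1, hbspan]
    exact hspan
  obtain ⟨c, hc⟩ := (Submodule.mem_span_range_iff_exists_fun ℚ).mp hspan'
  have hc' : ∀ k, (n k : ℚ) = ∑ i, c i * (f i k : ℚ) := by
    intro k
    have := congrFun hc k
    simp only [Finset.sum_apply, Pi.smul_apply, toQ, smul_eq_mul] at this
    exact this.symm
  have hcb := cramer_bound B r f (fun i k => hS _ (hfS i) k) hind n hn c hc'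
  have hr : r ≤ Fintype.card κ := by
    have := hind.fintype_card_le_finrank
    simpa using this
  have hreal : ∑ k, (n k : ℝ) * e k = ∑ i, (c i : ℝ) * ∑ k, (f i k : ℝ) * e k := by
    simp_rw [Finset.mul_sum]
    rw [Finset.sum_comm]
    refine Finset.sum_congr rfl fun k _ => ?_
    have : (n k : ℝ) = ∑ i, (c i : ℝ) * (f i k : ℝ) := by
      have := congrArg (fun q : ℚ => (q : ℝ)) (hc' k)
      push_cast at this
      exact this
    rw [this, Finset.sum_mul]
    refine Finset.sum_congr rfl fun i _ => by ring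
  unfold val
  rw [hreal]
  calc |∑ i, (c i : ℝ) * ∑ k, (f i k : ℝ) * e k|
      ≤ ∑ i, |(c i : ℝ) * ∑ k, (f i k : ℝ) * e k| := Finset.abs_sum_le_sum_abs _ _
    _ ≤ ∑ _i : Fin r, (cramerC (Fintype.card κ) B : ℝ) * x := by
        refine Finset.sum_le_sum fun i _ => ?_
        rw [abs_mul]
        refine mul_le_mul ?_ (hx _ (hfS i)) (abs_nonneg _) (by positivity)
        have := hcb i
        have h2 : ((|c i| : ℚ) : ℝ) ≤ ((cramerC (Fintype.card κ) B : ℚ) : ℝ) := by exact_mod_cast this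
        push_cast at h2
        exact h2
    _ = (r : ℝ) * ((cramerC (Fintype.card κ) B : ℝ) * x) := by
        rw [Finset.sum_const, Finset.card_univ, nsmul_eq_mul, Fintype.card_fin]
    _ ≤ _ := by
        push_cast
        rw [mul_assoc]
        refine mul_le_mul_of_nonneg_right (by exact_mod_cast hr) (by positivity)

/-- LOCATION LEMMA. -/
theorem location (e : κ → ℝ) (B : ℕ) (D : Set (κ → ℤ)) (hD : ∀ n ∈ D, ∀ k, |n k| ≤ B) :
    ∃ X : Finset ℝ, X.card ≤ Fintype.card κ ∧ (∀ x ∈ X, 0 < x) ∧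
      ∀ n ∈ D, val e n ≠ 0 → ∃ x ∈ X, x ≤ val e n ∧
        val e n ≤ (Fintype.card κ * cramerC (Fintype.card κ) B : ℕ) * x := by
  classical
  -- D is finite
  have hfin : D.Finite := by
    refine Set.Finite.subset (Set.Finite.pi' (t := fun _ : κ => Set.Icc (-(B : ℤ)) B)
      (fun _ => Set.finite_Icc _ _)) ?_
    intro n hn k
    exact abs_le.mp (hD n hn k)
  let sub : ℝ → Set (κ → ℤ) := fun x => {n ∈ D | val e n ≤ x}
  let V : ℝ → Submodule ℚ (κ → ℚ) := fun x => Submodule.span ℚ (toQ '' sub x)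
  have hVmono : ∀ x y, x ≤ y → V x ≤ V y := fun x y hxy =>
    Submodule.span_mono (Set.image_mono fun n hn => ⟨hn.1, hn.2.trans hxy⟩)
  -- candidates of rank d
  let cand : ℕ → Set ℝ := fun d =>
    {x | ∃ n ∈ D, val e n = x ∧ 0 < x ∧ finrank ℚ (V x) = d}
  have hcfin : ∀ d, (cand d).Finite := fun d => by
    refine Set.Finite.subset (hfin.image (val e)) ?_
    rintro x ⟨n, hn, hx, -⟩
    exact ⟨n, hn, hx⟩
  let mn : ℕ → ℝ := fun d => if h : (cand d).Nonempty then (hcfin d).toFinset.min'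
    ((Set.Finite.toFinset_nonempty _).mpr h) else 1
  let X : Finset ℝ := ((Finset.range (Fintype.card κ)).image (fun d => mn (d + 1))).filter (0 < ·)
  refine ⟨X, ?_, fun x hx => (Finset.mem_filter.mp hx).2, ?_⟩
  · refine (Finset.card_filter_le _ _).trans (Finset.card_image_le.trans ?_)
    simp
  · intro n hn hne
    have hpos : 0 < val e n := lt_of_le_of_ne (abs_nonneg _) (Ne.symm hne)
    set d := finrank ℚ (V (val e n)) with hd
    have hnsub : n ∈ sub (val e n) := ⟨hn, le_rfl⟩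
    have hnV : toQ n ∈ V (val e n) := Submodule.subset_span (Set.mem_image_of_mem _ hnsub)
    have hn0 : toQ n ≠ 0 := by
      intro h0
      apply hne
      have : ∀ k, n k = 0 := fun k => by
        have := congrFun h0 k
        simpa [toQ] using this
      simp [val, this]
    have hd1 : 1 ≤ d := by
      by_contra hlt
      have hd0 : finrank ℚ (V (val e n)) = 0 := by omega
      have := Submodule.finrank_eq_zero.mp hd0
      rw [this] at hnV
      exact hn0 (by simpa using hnV)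
    have hdM : d ≤ Fintype.card κ := by
      have := Submodule.finrank_le (V (val e n))
      simpa using this
    have hvcand : val e n ∈ cand d := ⟨n, hn, rfl, hpos, rfl⟩
    have hcand : (cand d).Nonempty := ⟨val e n, hvcand⟩
    have hmn : mn d = (hcfin d).toFinset.min' ((Set.Finite.toFinset_nonempty _).mpr hcand) := by
      simp only [mn]; rw [dif_pos hcand]
    have hmem : mn d ∈ cand d := by
      rw [hmn]
      exact (Set.Finite.mem_toFinset _).mp (Finset.min'_mem _ _)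
    have hle : mn d ≤ val e n := by
      rw [hmn]
      exact Finset.min'_le _ _ ((Set.Finite.mem_toFinset _).mpr hvcand)
    obtain ⟨n₁, hn₁, hv₁, hpos₁, hrank⟩ := hmem
    refine ⟨mn d, ?_, hle, ?_⟩
    · refine Finset.mem_filter.mpr ⟨Finset.mem_image.mpr ⟨d - 1, ?_, ?_⟩, hpos₁⟩
      · exact Finset.mem_range.mpr (by omega)
      · show mn (d - 1 + 1) = mn d
        rw [Nat.sub_add_cancel hd1]
    · have hVeq : V (mn d) = V (val e n) :=
        Submodule.eq_of_le_of_finrank_eq (hVmono _ _ hle) hrank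
      have hspan : toQ n ∈ Submodule.span ℚ (toQ '' sub (mn d)) := by
        show toQ n ∈ V (mn d)
        rw [hVeq]; exact hnV
      exact val_le_of_span e B (sub (mn d)) (fun m hm => hD m hm.1) (mn d) hpos₁.le
        (fun m hm => hm.2) n (hD n hn) hspan

end Crest.Agent.R98.K
end

-- ▼ part R98/KLocW
section

/-!
# Row 98, case K: the location lemma for words

For words `u, v` of length `m` with the same type the number `∑ i, (cw r u i - cw r v i) * t i` is an
integer combination with coefficients in `{-1, 0, 1}` of `k (m+1)^k` fixed real numbers. Hence the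
number of "active" geometric levels is polynomial in `m`, however deep the levels are.
-/

set_option autoImplicit false
set_option linter.unusedSectionVars false

open Finset

namespace Crest.Agent.R98.K

variable {ι : Type*} [Fintype ι]

open Classical in
/-- number of letters `i` among the letters of `u` before position `j` -/
noncomputable def pcnt {m : ℕ} (u : Fin m → ι) (j : Fin m) (i : ι) : ℕ :=
  (univ.filter fun l : Fin m => l < j ∧ u l = i).card

omit [Fintype ι] in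
theorem pcnt_le {m : ℕ} (u : Fin m → ι) (j : Fin m) (i : ι) : pcnt u j i ≤ m := by
  classical
  exact (card_le_univ _).trans (by simp)

omit [Fintype ι] in
open Classical in
theorem pcnt_cons_succ {m : ℕ} (a : ι) (u : Fin m → ι) (j : Fin m) (i : ι) :
    pcnt (Fin.cons a u : Fin (m + 1) → ι) j.succ i = (if a = i then 1 else 0) + pcnt u j i := by
  unfold pcnt
  simp only [Finset.card_filter, Fin.sum_univ_succ, Fin.cons_zero, Fin.cons_succ,
    Fin.succ_pos, true_and, Fin.succ_lt_succ_iff]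

omit [Fintype ι] in
theorem pcnt_zero {m : ℕ} (u : Fin (m + 1) → ι) (i : ι) : pcnt u 0 i = 0 := by
  classical
  simp [pcnt]

theorem cw_sum (r t : ι → ℝ) {m : ℕ} (u : Fin m → ι) :
    ∑ i, cw r u i * t i = ∑ j : Fin m, (∏ i, r i ^ pcnt u j i) * t (u j) := by
  classical
  induction m with
  | zero => simp
  | succ m ih =>
    obtain ⟨a, u, rfl⟩ := exists_cons u
    rw [Fin.sum_univ_succ]
    simp only [cw_cons, add_mul, Finset.sum_add_distrib, ite_mul, one_mul, zero_mul,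
      Finset.sum_ite_eq, mem_univ, if_true, mul_assoc, ← Finset.mul_sum, pcnt_zero, pow_zero,
      Finset.prod_const_one, Fin.cons_zero, Fin.cons_succ, pcnt_cons_succ, pow_add]
    rw [ih, Finset.mul_sum]
    congr 1
    refine Finset.sum_congr rfl fun j _ => ?_
    rw [Finset.prod_mul_distrib]
    have : ∏ i, r i ^ (if a = i then 1 else 0) = r a := by
      rw [Finset.prod_eq_single a]
      · simp
      · intro b _ hb; simp [Ne.symm hb]
      · simp
    rw [this]
    ring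

/-- index set of the integer vectors -/
def Idx (ι : Type*) (m : ℕ) : Type _ := (ι → Fin (m + 1)) × ι

open Classical in
noncomputable instance instFintypeIdx (m : ℕ) : Fintype (Idx ι m) :=
  inferInstanceAs (Fintype ((ι → Fin (m + 1)) × ι))

/-- index of the `j`-th letter -/
noncomputable def idx {m : ℕ} (u : Fin m → ι) (j : Fin m) : Idx ι m :=
  (fun i => ⟨pcnt u j i, Nat.lt_succ_of_le (pcnt_le u j i)⟩, u j)

/-- the fixed real numbers -/
noncomputable def ev (r t : ι → ℝ) (m : ℕ) (x : Idx ι m) : ℝ := (∏ i, r i ^ (x.1 i : ℕ)) * t x.2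

open Classical in
/-- the integer vector of a word -/
noncomputable def nvec {m : ℕ} (u : Fin m → ι) (x : Idx ι m) : ℤ :=
  ((univ.filter fun j : Fin m => idx u j = x).card : ℤ)

omit [Fintype ι] in
theorem idx_injective {m : ℕ} (u : Fin m → ι) : Function.Injective (idx u) := by
  classical
  have key : ∀ j j' : Fin m, j < j' → idx u j ≠ idx u j' := by
    intro j j' hlt h
    have h1 : pcnt u j (u j) = pcnt u j' (u j) := by
      have := congrArg (fun x : Idx ι m => ((x.1 (u j) : Fin (m + 1)) : ℕ)) h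
      simpa [idx] using this
    have h2 : pcnt u j (u j) < pcnt u j' (u j) := by
      unfold pcnt
      refine Finset.card_lt_card ?_
      rw [Finset.ssubset_iff_of_subset]
      · exact ⟨j, by simp [hlt], by simp⟩
      · intro l hl
        simp only [mem_filter, mem_univ, true_and] at hl ⊢
        exact ⟨hl.1.trans hlt, hl.2⟩
    omega
  intro j j' h
  rcases lt_trichotomy j j' with h1 | h1 | h1
  · exact absurd h (key _ _ h1)
  · exact h1
  · exact absurd h.symm (key _ _ h1)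

theorem nvec_nonneg {m : ℕ} (u : Fin m → ι) (x : Idx ι m) : 0 ≤ nvec u x := by
  unfold nvec; positivity

theorem nvec_le_one {m : ℕ} (u : Fin m → ι) (x : Idx ι m) : nvec u x ≤ 1 := by
  classical
  unfold nvec
  have : (univ.filter fun j : Fin m => idx u j = x).card ≤ 1 := by
    rw [Finset.card_le_one]
    intro a ha b hb
    simp only [mem_filter, mem_univ, true_and] at ha hb
    exact idx_injective u (ha.trans hb.symm)
  exact_mod_cast this

theorem sum_nvec (r t : ι → ℝ) {m : ℕ} (u : Fin m → ι) :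
    ∑ x, (nvec u x : ℝ) * ev r t m x = ∑ i, cw r u i * t i := by
  classical
  rw [cw_sum]
  have h1 : ∀ x, (nvec u x : ℝ) * ev r t m x
      = ∑ j ∈ univ.filter (fun j : Fin m => idx u j = x), ev r t m (idx u j) := by
    intro x
    have h2 : ∑ j ∈ univ.filter (fun j : Fin m => idx u j = x), ev r t m (idx u j)
        = ∑ _j ∈ univ.filter (fun j : Fin m => idx u j = x), ev r t m x :=
      Finset.sum_congr rfl fun j hj => by rw [(mem_filter.1 hj).2]
    rw [h2, Finset.sum_const, nsmul_eq_mul]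
    simp [nvec]
  simp only [h1]
  have h3 := Finset.sum_fiberwise (univ : Finset (Fin m)) (fun j => idx u j)
    (fun j => ev r t m (idx u j))
  refine Eq.trans ?_ (h3.trans ?_)
  · refine Finset.sum_congr rfl fun x _ => Finset.sum_congr ?_ fun _ _ => rfl
    ext j; simp
  · exact Finset.sum_congr rfl fun j _ => rfl

/-- difference vectors of words of length `m` -/
def diffs (ι : Type*) [Fintype ι] (m : ℕ) : Set (Idx ι m → ℤ) :=
  {n | ∃ u v : Fin m → ι, n = fun x => nvec u x - nvec v x}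

theorem abs_diffs_le {m : ℕ} {n : Idx ι m → ℤ} (hn : n ∈ diffs ι m) (x : Idx ι m) :
    |n x| ≤ ((1 : ℕ) : ℤ) := by
  obtain ⟨u, v, rfl⟩ := hn
  have h1 := nvec_nonneg u x
  have h2 := nvec_nonneg v x
  have h3 := nvec_le_one u x
  have h4 := nvec_le_one v x
  rw [abs_le]
  push_cast
  constructor <;> linarith

theorem val_diff (r t : ι → ℝ) {m : ℕ} (u v : Fin m → ι) :
    val (ev r t m) (fun x => nvec u x - nvec v x)
      = |∑ i, cw r u i * t i - ∑ i, cw r v i * t i| := by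
  unfold val
  rw [← sum_nvec r t u, ← sum_nvec r t v, ← Finset.sum_sub_distrib]
  congr 1
  refine Finset.sum_congr rfl fun x _ => ?_
  push_cast
  ring

/-- number of coordinates -/
theorem card_idx (m : ℕ) : Fintype.card (Idx ι m) = (m + 1) ^ Fintype.card ι * Fintype.card ι := by
  classical
  have h : Fintype.card (Idx ι m) = Fintype.card ((ι → Fin (m + 1)) × ι) :=
    Fintype.card_congr (Equiv.refl _)
  rw [h]
  simp

/-- counting geometric levels that meet the windows of the location lemma. -/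
theorem card_levels_le {X : Finset ℝ} {Kc : ℕ} {c B : ℝ} (hc : 0 < c) (hB : 2 ≤ B)
    (J : Finset ℕ) (hJ : ∀ j ∈ J, ∃ x ∈ X, ∃ y : ℝ, x ≤ y ∧ y ≤ Kc * x ∧
      c * (B⁻¹) ^ (j + 1) < y ∧ y ≤ c * (B⁻¹) ^ j) :
    J.card ≤ X.card * (Nat.log 2 Kc + 2) := by
  classical
  choose! f hf y hy1 hy2 hy3 hy4 using hJ
  rw [mul_comm]
  refine Finset.card_le_mul_card_image_of_maps_to (f := f) hf _ ?_
  intro x hx
  rcases (J.filter fun j => f j = x).eq_empty_or_nonempty with h | hne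
  · rw [h]; simp
  · set j0 := (J.filter fun j => f j = x).min' hne with hj0
    have hj0m := (J.filter fun j => f j = x).min'_mem hne
    obtain ⟨hj0J, hj0x⟩ := mem_filter.1 hj0m
    rw [← hj0] at hj0J hj0x
    have hsub : (J.filter fun j => f j = x) ⊆ Finset.Icc j0 (j0 + Nat.log 2 Kc + 1) := by
      intro j hj
      obtain ⟨hjJ, hjx⟩ := mem_filter.1 hj
      have hle : j0 ≤ j := Finset.min'_le _ _ hj
      rw [Finset.mem_Icc]
      refine ⟨hle, ?_⟩
      by_contra hcon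
      push Not at hcon
      -- j ≥ j0 + log + 2
      have hB0 : (0 : ℝ) < B := by linarith
      have e1 : c * (B⁻¹) ^ (j0 + 1) < Kc * x := by
        have := (hy3 j0 hj0J).trans_le (hy2 j0 hj0J)
        rwa [hj0x] at this
      have e2 : x ≤ c * (B⁻¹) ^ j := by
        have := (hy1 j hjJ).trans (hy4 j hjJ)
        rwa [hjx] at this
      have e3 : c * (B⁻¹) ^ (j0 + 1) < Kc * (c * (B⁻¹) ^ j) :=
        e1.trans_le (mul_le_mul_of_nonneg_left e2 (by positivity))
      obtain ⟨a, ha⟩ : ∃ a, j = (j0 + 1) + a := ⟨j - (j0 + 1), by omega⟩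
      have e4 : B ^ a < Kc := by
        have hp : 0 < c * (B⁻¹) ^ (j0 + 1) := by positivity
        have e5 : c * (B⁻¹) ^ (j0 + 1) * 1 < c * (B⁻¹) ^ (j0 + 1) * (Kc * (B⁻¹) ^ a) := by
          rw [mul_one]
          calc c * (B⁻¹) ^ (j0 + 1) < Kc * (c * (B⁻¹) ^ j) := e3
            _ = Kc * (c * ((B⁻¹) ^ (j0 + 1) * (B⁻¹) ^ a)) := by rw [← pow_add, ha]
            _ = c * (B⁻¹) ^ (j0 + 1) * (Kc * (B⁻¹) ^ a) := by ring
        have e6 := lt_of_mul_lt_mul_left e5 hp.le
        rw [inv_pow, ← div_eq_mul_inv, lt_div_iff₀ (by positivity), one_mul] at e6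
        exact e6
      have e7 : 2 ^ a < Kc := by
        have : (2 : ℝ) ^ a < Kc := (pow_le_pow_left₀ (by norm_num) hB a).trans_lt e4
        exact_mod_cast this
      have e8 : a ≤ Nat.log 2 Kc := Nat.le_log_of_pow_le (by norm_num) e7.le
      omega
    calc (J.filter fun j => f j = x).card ≤ (Finset.Icc j0 (j0 + Nat.log 2 Kc + 1)).card :=
          Finset.card_le_card hsub
      _ = Nat.log 2 Kc + 2 := by rw [Nat.card_Icc]; omega

theorem log_const_le (M : ℕ) : Nat.log 2 (M * cramerC M 1) ≤ (2 * M + 1) * (M + 1) := by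
  have h1 : M * cramerC M 1 ≤ (M + 1) ^ (2 * M + 1) := by
    unfold cramerC
    have h2 : Nat.factorial M ≤ (M + 1) ^ M :=
      (Nat.factorial_le_pow M).trans (Nat.pow_le_pow_left (Nat.le_succ M) M)
    calc M * (Nat.factorial M * (M * 1 ^ 2 + 1) ^ M)
        ≤ (M + 1) * ((M + 1) ^ M * (M + 1) ^ M) := by
          refine Nat.mul_le_mul (Nat.le_succ M) (Nat.mul_le_mul h2 ?_)
          simp
      _ = (M + 1) ^ (2 * M + 1) := by ring
  have h3 : (M + 1) ≤ 2 ^ (M + 1) := (Nat.lt_two_pow_self).le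
  calc Nat.log 2 (M * cramerC M 1) ≤ Nat.log 2 (2 ^ ((M + 1) * (2 * M + 1))) := by
        refine Nat.log_mono_right (h1.trans ?_)
        rw [pow_mul]
        exact Nat.pow_le_pow_left h3 _
    _ = (M + 1) * (2 * M + 1) := Nat.log_pow (by norm_num) _
    _ = _ := by ring

/-- **Active levels.** The number of geometric levels `(c B^{-(j+1)}, c B^{-j}]` (`B ≥ 2`) that
contain a value `|P_{uv} . t|`, `u, v` words of length `m`, is at most `m ^ (9 k + 2)`; this holds
whatever `c, B` are, and for levels of arbitrary depth. -/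
theorem active_levels (r t : ι → ℝ) {m : ℕ} (hm : 2 ≤ m) {c B : ℝ} (hc : 0 < c) (hB : 2 ≤ B)
    (J : Finset ℕ) (hJ : ∀ j ∈ J, ∃ u v : Fin m → ι,
      c * (B⁻¹) ^ (j + 1) < |∑ i, cw r u i * t i - ∑ i, cw r v i * t i| ∧
      |∑ i, cw r u i * t i - ∑ i, cw r v i * t i| ≤ c * (B⁻¹) ^ j) :
    J.card ≤ m ^ (9 * Fintype.card ι + 2) := by
  classical
  obtain ⟨X, hX1, hX2, hX3⟩ := location (ev r t m) 1 (diffs ι m) (fun n hn x => abs_diffs_le hn x)
  set M := Fintype.card (Idx ι m) with hM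
  have h1 : J.card ≤ X.card * (Nat.log 2 (M * cramerC M 1) + 2) := by
    refine card_levels_le hc hB J ?_
    intro j hj
    obtain ⟨u, v, h2, h3⟩ := hJ j hj
    have hB0 : (0 : ℝ) < B := by linarith
    have hne : val (ev r t m) (fun x => nvec u x - nvec v x) ≠ 0 := by
      rw [val_diff]
      have : 0 < c * (B⁻¹) ^ (j + 1) := by positivity
      exact (this.trans h2).ne'
    obtain ⟨x, hx, h4, h5⟩ := hX3 _ ⟨u, v, rfl⟩ hne
    rw [val_diff] at h4 h5
    exact ⟨x, hx, _, h4, by exact_mod_cast h5, h2, h3⟩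
  have h2 : J.card ≤ M * ((2 * M + 1) * (M + 1) + 2) :=
    h1.trans (Nat.mul_le_mul hX1 (Nat.add_le_add_right (log_const_le M) 2))
  have h3 : M * ((2 * M + 1) * (M + 1) + 2) ≤ 3 * (M + 1) ^ 3 := by nlinarith
  set k := Fintype.card ι with hk
  have hMk : M + 1 ≤ m ^ (3 * k) ∨ k = 0 := by
    rcases Nat.eq_zero_or_pos k with h0 | hpos
    · exact Or.inr h0
    · left
      rw [hM, card_idx, ← hk]
      have e1 : m + 1 ≤ m ^ 2 := by nlinarith
      have e2 : (m + 1) ^ k ≤ m ^ (2 * k) := by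
        rw [pow_mul]; exact Nat.pow_le_pow_left e1 k
      have e3 : k + 1 ≤ m ^ k := by
        calc k + 1 ≤ 2 ^ k := Nat.lt_two_pow_self
          _ ≤ m ^ k := Nat.pow_le_pow_left hm k
      have e4 : 1 ≤ (m + 1) ^ k := Nat.one_le_pow _ _ (by omega)
      calc (m + 1) ^ k * k + 1 ≤ (m + 1) ^ k * k + (m + 1) ^ k := by omega
        _ = (m + 1) ^ k * (k + 1) := by ring
        _ ≤ m ^ (2 * k) * m ^ k := Nat.mul_le_mul e2 e3
        _ = m ^ (3 * k) := by rw [← pow_add]; congr 1; ring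
  rcases hMk with h4 | h0
  · calc J.card ≤ 3 * (M + 1) ^ 3 := h2.trans h3
      _ ≤ m ^ 2 * (m ^ (3 * k)) ^ 3 := by
          refine Nat.mul_le_mul (by nlinarith) (Nat.pow_le_pow_left h4 3)
      _ = m ^ (9 * k + 2) := by rw [← pow_mul, ← pow_add]; congr 1; ring
  · have hM0 : M = 0 := by rw [hM, card_idx, ← hk, h0]; simp
    rw [hM0] at h2
    simp only [zero_mul] at h2
    have : J.card = 0 := by omega
    rw [this]; exact Nat.zero_le _

end Crest.Agent.R98.K
end

-- ▼ part R98/KParam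
section

/-!
Row 98, case K: choice of the parameters `q, w, m` (helper383).
-/

set_option autoImplicit false
open Filter Topology

namespace Crest.Agent.R98.K

/-- polynomials in `w` are beaten by `2^w` -/
theorem eventually_poly_le_two_pow (C : ℝ) (k : ℕ) :
    ∀ᶠ w : ℕ in atTop, C * (w : ℝ) ^ k ≤ 2 ^ w := by
  have h : Tendsto (fun w : ℕ => (w : ℝ) ^ k / 2 ^ w) atTop (𝓝 0) :=
    tendsto_pow_const_div_const_pow_of_one_lt k one_lt_two
  have h2 : Tendsto (fun w : ℕ => C * ((w : ℝ) ^ k / 2 ^ w)) atTop (𝓝 (C * 0)) := h.const_mul C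
  rw [mul_zero] at h2
  filter_upwards [h2.eventually (ge_mem_nhds one_pos)] with w hw
  have h3 : (0 : ℝ) < 2 ^ w := by positivity
  rw [← mul_div_assoc, div_le_iff₀ h3, one_mul] at hw
  exact hw

/-- choice of the scale parameters -/
theorem exists_params {P : ℝ → ℝ → ℝ → ℝ} {C : ℝ}
    (hM : ∀ Q0 : ℕ, ∃ q : ℕ, Q0 ≤ q ∧ ∀ s : ℝ, (q : ℝ) ^ 2 ≤ s → ∀ a b : ℝ, 0 ≤ b →
      P s a b ≤ C * (1 + Real.log s) ^ 3 * (b + 1 / q))
    {K : ℕ} (hK : 4 ≤ K) {σ : ℝ} (hσ : 0 < σ) (W0 : ℕ) :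
    ∃ w m : ℕ, W0 ≤ w ∧ W0 ≤ m ∧ (m : ℝ) ≤ 2 ^ ((2 * K + 1) * w) ∧
      ∀ a : ℝ, P (σ * m) a (8 / 2 ^ ((K - 2) * w)) ≤ 1 / 2 ^ ((K - 3) * w) := by
  -- thresholds for w
  have e1 := eventually_poly_le_two_pow ((2 ^ (2 * K) / σ + 1)) 0
  -- log bound constant
  set c : ℝ := 1 + Real.log (2 ^ (2 * K) + σ) + 2 * K with hc
  have hc0 : 0 < c := by
    have h1 : 0 ≤ Real.log (2 ^ (2 * K) + σ) := Real.log_nonneg (by
      have : (1 : ℝ) ≤ 2 ^ (2 * K) := one_le_pow₀ one_le_two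
      linarith)
    positivity
  have e2 := eventually_poly_le_two_pow (|C| * c ^ 3 * 9) 3
  obtain ⟨w1, hw1⟩ := eventually_atTop.mp (e1.and e2)
  set W1 : ℕ := max (max w1 W0) (max 1 ⌈σ * W0⌉₊) with hW1
  obtain ⟨q, hq, hqM⟩ := hM (2 ^ (K * W1))
  have hK0 : 0 < K := by omega
  have hq1 : 1 ≤ q := le_trans Nat.one_le_two_pow hq
  have hqr : (1 : ℝ) ≤ q := by exact_mod_cast hq1
  set w : ℕ := Nat.log 2 q / K with hw
  set m : ℕ := ⌈(q : ℝ) ^ 2 / σ⌉₊ with hm
  have hlogq : K * W1 ≤ Nat.log 2 q := Nat.le_log_of_pow_le one_lt_two hq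
  have hwW1 : W1 ≤ w := by
    rw [hw, Nat.le_div_iff_mul_le hK0, mul_comm]; exact hlogq
  have hw1' : w1 ≤ w := le_trans (le_trans (le_max_left _ _) (le_max_left _ _)) hwW1
  have hW0 : W0 ≤ w := le_trans (le_trans (le_max_right _ _) (le_max_left _ _)) hwW1
  have h1w : 1 ≤ w := le_trans (le_trans (le_max_left _ _) (le_max_right _ _)) hwW1
  have hσW0 : ⌈σ * W0⌉₊ ≤ W1 := le_trans (le_max_right _ _) (le_max_right _ _)
  have hwr : (1 : ℝ) ≤ w := by exact_mod_cast h1w
  obtain ⟨hp1, hp2⟩ := hw1 w hw1'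
  simp only [pow_zero, mul_one] at hp1
  -- bounds on q
  have hqlow : 2 ^ (K * w) ≤ q := by
    have h1 : K * w ≤ Nat.log 2 q := by rw [hw]; exact Nat.mul_div_le _ _
    exact (Nat.pow_le_pow_right (by norm_num) h1).trans (Nat.pow_log_le_self 2 (by omega))
  have hqup : q < 2 ^ (K * (w + 1)) := by
    have h1 : Nat.log 2 q < K * (w + 1) := by
      rw [hw]
      have := Nat.lt_mul_div_succ (Nat.log 2 q) hK0
      simpa [Nat.succ_eq_add_one] using this
    exact Nat.lt_pow_of_log_lt one_lt_two h1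
  have hqlow' : (2 : ℝ) ^ (K * w) ≤ q := by exact_mod_cast hqlow
  have hqup' : (q : ℝ) < 2 ^ (K * (w + 1)) := by exact_mod_cast hqup
  have hq2up : (q : ℝ) ^ 2 ≤ 2 ^ (2 * K) * 2 ^ (2 * K * w) := by
    calc (q : ℝ) ^ 2 ≤ (2 ^ (K * (w + 1))) ^ 2 := by gcongr
      _ = 2 ^ (2 * K) * 2 ^ (2 * K * w) := by
        rw [← pow_mul, ← pow_add]; congr 1; ring
  have h2pos : (0 : ℝ) < 2 ^ (2 * K * w) := by positivity
  have h2one : (1 : ℝ) ≤ 2 ^ (2 * K * w) := one_le_pow₀ one_le_two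
  -- bounds on m
  have hmlow : (q : ℝ) ^ 2 ≤ σ * m := by
    have := Nat.le_ceil ((q : ℝ) ^ 2 / σ)
    rw [div_le_iff₀ hσ] at this
    linarith
  have hmup : (m : ℝ) ≤ (q : ℝ) ^ 2 / σ + 1 := (Nat.ceil_lt_add_one (by positivity)).le
  have hsup : σ * m ≤ (2 ^ (2 * K) + σ) * 2 ^ (2 * K * w) := by
    calc σ * m ≤ σ * ((q : ℝ) ^ 2 / σ + 1) := by gcongr
      _ = (q : ℝ) ^ 2 + σ := by field_simp
      _ ≤ 2 ^ (2 * K) * 2 ^ (2 * K * w) + σ * 2 ^ (2 * K * w) := by
        refine add_le_add hq2up ?_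
        exact le_mul_of_one_le_right hσ.le h2one
      _ = (2 ^ (2 * K) + σ) * 2 ^ (2 * K * w) := by ring
  refine ⟨w, m, hW0, ?_, ?_, ?_⟩
  · -- W0 ≤ m
    have h1 : σ * W0 ≤ w := by
      have h2 := Nat.le_ceil (σ * W0)
      have h3 : ((⌈σ * W0⌉₊ : ℕ) : ℝ) ≤ w := by exact_mod_cast hσW0.trans hwW1
      exact h2.trans h3
    have h4 : (w : ℝ) ≤ q := by
      have h5 : w < 2 ^ w := Nat.lt_two_pow_self
      have h6 : 2 ^ w ≤ 2 ^ (K * w) := Nat.pow_le_pow_right (by norm_num) (Nat.le_mul_of_pos_left _ hK0)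
      exact_mod_cast (h5.le.trans h6).trans hqlow
    have h7 : (q : ℝ) ≤ (q : ℝ) ^ 2 := by nlinarith
    have h8 : σ * W0 ≤ σ * m := by linarith
    have h9 : (W0 : ℝ) ≤ m := le_of_mul_le_mul_left h8 hσ
    exact_mod_cast h9
  · calc (m : ℝ) ≤ (q : ℝ) ^ 2 / σ + 1 := hmup
      _ ≤ 2 ^ (2 * K) * 2 ^ (2 * K * w) / σ + 2 ^ (2 * K * w) := by
        refine add_le_add ?_ h2one
        gcongr
      _ = (2 ^ (2 * K) / σ + 1) * 2 ^ (2 * K * w) := by ring
      _ ≤ 2 ^ w * 2 ^ (2 * K * w) := by gcongr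
      _ = 2 ^ ((2 * K + 1) * w) := by rw [← pow_add]; congr 1; ring
  · intro a
    have h1 := hqM (σ * m) hmlow a (8 / 2 ^ ((K - 2) * w)) (by positivity)
    have hs1 : 1 ≤ σ * m := by nlinarith
    have hlogs0 : 0 ≤ Real.log (σ * m) := Real.log_nonneg hs1
    have hlogs : 1 + Real.log (σ * m) ≤ c * w := by
      have h2 : Real.log (σ * m) ≤ Real.log (2 ^ (2 * K) + σ) + (2 * K * w : ℕ) * Real.log 2 := by
        calc Real.log (σ * m) ≤ Real.log ((2 ^ (2 * K) + σ) * 2 ^ (2 * K * w)) :=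
              Real.log_le_log (by linarith) hsup
          _ = _ := by rw [Real.log_mul (by positivity) (by positivity), Real.log_pow]
      have h3 : Real.log 2 ≤ 1 := by
        have := Real.log_two_lt_d9; linarith
      have h4 : 0 ≤ Real.log (2 ^ (2 * K) + σ) := Real.log_nonneg (by
        have : (1 : ℝ) ≤ 2 ^ (2 * K) := one_le_pow₀ one_le_two
        linarith)
      have h5 : ((2 * K * w : ℕ) : ℝ) * Real.log 2 ≤ 2 * K * w := by
        push_cast
        have : (0 : ℝ) ≤ 2 * K * w := by positivity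
        nlinarith
      rw [hc]
      nlinarith
    have h6 : (1 + Real.log (σ * m)) ^ 3 ≤ (c * w) ^ 3 := by gcongr
    have h7 : (8 : ℝ) / 2 ^ ((K - 2) * w) + 1 / q ≤ 9 / 2 ^ ((K - 2) * w) := by
      have h8 : (1 : ℝ) / q ≤ 1 / 2 ^ ((K - 2) * w) := by
        refine one_div_le_one_div_of_le (by positivity) ?_
        refine le_trans ?_ hqlow'
        exact pow_le_pow_right₀ one_le_two (Nat.mul_le_mul_right _ (by omega))
      calc (8 : ℝ) / 2 ^ ((K - 2) * w) + 1 / q ≤ 8 / 2 ^ ((K - 2) * w) + 1 / 2 ^ ((K - 2) * w) := by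
            gcongr
        _ = 9 / 2 ^ ((K - 2) * w) := by ring
    have h9 : (0 : ℝ) ≤ 8 / 2 ^ ((K - 2) * w) + 1 / q := by positivity
    calc P (σ * m) a (8 / 2 ^ ((K - 2) * w))
        ≤ C * (1 + Real.log (σ * m)) ^ 3 * (8 / 2 ^ ((K - 2) * w) + 1 / q) := h1
      _ ≤ |C| * (c * w) ^ 3 * (9 / 2 ^ ((K - 2) * w)) := by
          have h10 : C * (1 + Real.log (σ * m)) ^ 3 ≤ |C| * (c * w) ^ 3 := by
            calc C * (1 + Real.log (σ * m)) ^ 3 ≤ |C| * (1 + Real.log (σ * m)) ^ 3 := by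
                  gcongr; exact le_abs_self C
              _ ≤ |C| * (c * w) ^ 3 := by gcongr
          have h11 : 0 ≤ |C| * (c * w) ^ 3 := by positivity
          calc _ ≤ |C| * (c * w) ^ 3 * (8 / 2 ^ ((K - 2) * w) + 1 / q) := by gcongr
            _ ≤ _ := by gcongr
      _ = (|C| * c ^ 3 * 9 * (w : ℝ) ^ 3) / 2 ^ ((K - 2) * w) := by ring
      _ ≤ 2 ^ w / 2 ^ ((K - 2) * w) := by gcongr
      _ = 1 / 2 ^ ((K - 3) * w) := by
          rw [div_eq_div_iff (by positivity) (by positivity), one_mul, ← pow_add]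
          congr 1
          have : K - 2 = (K - 3) + 1 := by omega
          rw [this]; ring

/-- the negligible term -/
theorem eventually_negl_le {K cl A : ℕ} {Cl : ℝ}
    (hA : (2 * K + 1) * cl + 3 ≤ A) :
    ∀ᶠ w : ℕ in atTop, ∀ m : ℕ, (m : ℝ) ≤ 2 ^ ((2 * K + 1) * w) →
      ∀ N : ℝ, N ≤ Cl * (m : ℝ) ^ cl → N * 2 ^ (w + 3) * (A * w) / 2 ^ (A * w) ≤ 1 := by
  filter_upwards [eventually_poly_le_two_pow (|Cl|) 0, eventually_poly_le_two_pow (8 * A) 1]
    with w h1 h2 m hm N hN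
  simp only [pow_zero, mul_one, pow_one] at h1 h2
  rw [div_le_one (by positivity)]
  have h3 : N ≤ 2 ^ w * 2 ^ ((2 * K + 1) * w * cl) := by
    calc N ≤ Cl * (m : ℝ) ^ cl := hN
      _ ≤ |Cl| * (m : ℝ) ^ cl := by gcongr; exact le_abs_self _
      _ ≤ 2 ^ w * (2 ^ ((2 * K + 1) * w)) ^ cl := by gcongr
      _ = _ := by rw [← pow_mul]
  have h0 : (0 : ℝ) ≤ 2 ^ (w + 3) * (A * w) := by positivity
  calc N * 2 ^ (w + 3) * (A * w) = N * (2 ^ (w + 3) * (A * w)) := by ring
    _ ≤ 2 ^ w * 2 ^ ((2 * K + 1) * w * cl) * (2 ^ (w + 3) * (A * w)) := by gcongr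
    _ = 2 ^ w * 2 ^ ((2 * K + 1) * w * cl) * 2 ^ w * (8 * A * w) := by
        rw [pow_add 2 w 3]; ring
    _ ≤ 2 ^ w * 2 ^ ((2 * K + 1) * w * cl) * 2 ^ w * 2 ^ w := by gcongr
    _ = 2 ^ (w + (2 * K + 1) * w * cl + w + w) := by
        rw [← pow_add, ← pow_add, ← pow_add]
    _ ≤ 2 ^ (A * w) := by
        refine pow_le_pow_right₀ one_le_two ?_
        calc w + (2 * K + 1) * w * cl + w + w = ((2 * K + 1) * cl + 3) * w := by ring
          _ ≤ A * w := Nat.mul_le_mul_right _ hA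

end Crest.Agent.R98.K
end

-- ▼ part R98/KIface

/-!
Row 98, case K: frozen interface (helper383).  `KMain` follows (file `R98/KMain.lean`) from the
`Prop`s below; every owner proves one of them.
-/

set_option autoImplicit false
open MeasureTheory Crest.AnalysisR Set Filter Topology Real

namespace Crest.Agent.R98.K

open Crest.Agent.R98.TOne Crest.Agent.R98.Part Crest.Agent.R098.Upper

section defs

variable {ι : Type*} [Fintype ι]

/-- lengths -/
noncomputable def el (r : ι → ℝ) (i : ι) : ℝ := -Real.log |r i|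

/-- type of a word, in a finite type -/
noncomputable def ty {m : ℕ} (u : Fin m → ι) : ι → Fin (m + 1) :=
  fun i => ⟨wtype u i, Nat.lt_succ_of_le (wtype_le u i)⟩

/-- slope of the words of type `τ` -/
noncomputable def rt (r : ι → ℝ) {m : ℕ} (τ : ι → Fin (m + 1)) : ℝ := ∏ i, r i ^ (τ i : ℕ)

/-- translation part of a word -/
noncomputable def zz (r t : ι → ℝ) {m : ℕ} (u : Fin m → ι) : ℝ := ∑ i, cw r u i * t i

/-- law of the words of length `m` given the type -/
noncomputable def qT (p : ι → ℝ) {m : ℕ} (τ : ι → Fin (m + 1)) : (Fin m → ι) → ℝ :=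
  TOne.cond (pw p) ty τ

/-- probability of the type -/
noncomputable def pT (p : ι → ℝ) {m : ℕ} (τ : ι → Fin (m + 1)) : ℝ :=
  TOne.fib (pw p) (ty : (Fin m → ι) → _) τ

/-- the base measure of type `τ` and stopped word `Q` -/
noncomputable def bT (r : ι → ℝ) (μ : Measure ℝ) {m : ℕ} (τ : ι → Fin (m + 1)) (Q : List ι) :
    Measure ℝ := μ.map fun x => (rt r τ * (Q.map r).prod) * x

/-- gain of the law of type `τ` over the base of `(τ, Q)` at the dyadic scale `i` -/
noncomputable def GT (r t p : ι → ℝ) (μ : Measure ℝ) {m : ℕ} (τ : ι → Fin (m + 1)) (Q : List ι)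
    (i : ℕ) : ℝ :=
  Hs (addLaw (qT p τ) (zz r t) (bT r μ τ Q)) ((1 / 2) ^ i) - Hs (bT r μ τ Q) ((1 / 2) ^ i)

/-- entropy of the values given the dyadic cells at scale `x₀` -/
noncomputable def HA {Ω : Type*} [Fintype Ω] (q v : Ω → ℝ) (x₀ : ℕ) : ℝ :=
  HS q (Setoid.ker v) - HS q (Setoid.ker fun a => ⌊v a * 2 ^ x₀⌋)

/-- the top scale -/
noncomputable def X0 (χ ε : ℝ) (m : ℕ) : ℕ := ⌈(1 + 3 * ε) * χ * m / Real.log 2⌉₊

end defs

universe u

open Classical in
/-- (ONE) one-type theorem, owner 226 (uses DET of 9, CUT of 800, T1a/T1b of 290/272). -/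
def OneP : Prop :=
  ∀ (K A a : ℕ) (c C1 R : ℝ), 16 ≤ K → 1 ≤ A → 0 < c → 1 ≤ R →
  ∃ (Ct : ℝ) (w0 : ℕ), 0 ≤ Ct ∧ ∀ w : ℕ, w0 ≤ w →
  ∀ (Ω : Type u) [Fintype Ω] (𝒬 : Type u) [Fintype 𝒬] (q v : Ω → ℝ) (w' ρ : 𝒬 → ℝ)
    (μ : Measure ℝ) [IsProbabilityMeasure μ] (ρ0 : ℝ),
    IsPW q → IsPW w' → BSupp μ → 0 < ρ0 → (∀ Q, ρ0 ≤ |ρ Q|) → (∀ Q, |ρ Q| ≤ R * ρ0) →
    (∀ b : ℝ, b ≠ 0 → ∀ s, 0 < s → Macro (μ.map fun x => b * x) (2 ^ a) s c) →
    (∀ L : ℕ, 0 < L → ∀ d, 0 < d → Hs μ d - Hs μ (L * d) ≤ (1 - 8 / K) * log L + C1) →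
    (∀ y : ℝ, ∑ Q, (if y ≤ log |ρ Q| ∧ log |ρ Q| ≤ y + 8 / 2 ^ ((K - 2) * w)
      then w' Q else 0) ≤ 1 / 2 ^ ((K - 3) * w)) →
    ∀ x₀ : ℕ, a + 1 ≤ x₀ → ∀ Act : Finset ℕ,
    (∀ j, (∃ k l, q k ≠ 0 ∧ q l ≠ 0 ∧ (1 / 2 : ℝ) ^ (x₀ + (j + 1) * w) < |v k - v l| ∧
      |v k - v l| ≤ (1 / 2) ^ (x₀ + j * w)) → j ∈ Act) →
    ∃ i₀, ∀ i, i₀ ≤ i →
      HA q v x₀ ≤ Ct * (∑ Q, w' Q *
        ((Hs (addLaw q v (μ.map fun x => ρ Q * x)) ((1 / 2) ^ i) -
            Hs (μ.map fun x => ρ Q * x) ((1 / 2) ^ i)) -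
         (Hs (addLaw q v (μ.map fun x => ρ Q * x)) ((1 / 2) ^ (x₀ - (a + 1))) -
            Hs (μ.map fun x => ρ Q * x) ((1 / 2) ^ (x₀ - (a + 1))))) + 1) +
        Act.card * (2 ^ (w + 3) * (A * w) / 2 ^ (A * w))

/-- hypotheses on the system -/
structure Sys {ι : Type*} [Fintype ι] (r t p : ι → ℝ) (μ : Measure ℝ) (D C : ℝ) : Prop where
  hr : ∀ i, r i ≠ 0 ∧ |r i| < 1
  hp : ∀ i, 0 < p i
  hp1 : ∑ i, p i = 1
  hμ : IsSelfSimilarMeasure r t p μ
  hD0 : 0 ≤ D
  hD1 : D ≤ 1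
  hC : 0 ≤ C
  hle : ∀ x : ℝ, 0 ≤ x → Hs μ (exp (-x)) ≤ D * x + C
  htend : Tendsto (fun x : ℝ => Hs μ (exp (-x)) / x) atTop (𝓝 D)

/-- total information at the dyadic scale `i` of the words of length `m` followed by the words
stopped at `s`: `Hs μ - ∑ pT wtL Hs (bT τ Q)` -/
noncomputable def Itot {ι : Type*} [Fintype ι] (r p : ι → ℝ) (μ : Measure ℝ) (m n : ℕ) (s : ℝ)
    (i : ℕ) : ℝ :=
  Hs μ ((1 / 2) ^ i) - ∑ u : Fin m → ι, pw p u * ∑ Q ∈ stp (el r) n s,
    wtL p Q * Hs μ ((1 / 2) ^ i / |rho r u * (Q.map r).prod|)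

/-- mean number of letters of the stopped words -/
noncomputable def EQ {ι : Type*} [Fintype ι] (r p : ι → ℝ) (n : ℕ) (s : ℝ) : ℝ :=
  ∑ Q ∈ stp (el r) n s, wtL p Q * Q.length

open Classical in
/-- (G1) the gains of the types are at most the increments of the total information. Owner 272. -/
def G1P : Prop :=
  ∀ (ι : Type u) [Fintype ι] [Nonempty ι] (r t p : ι → ℝ) (μ : Measure ℝ) (D C : ℝ),
    Sys r t p μ D C → ∀ (m n : ℕ) (s : ℝ) (i i' : ℕ), i' ≤ i →
      ∑ τ : ι → Fin (m + 1), pT p τ * ∑ Q ∈ stp (el r) n s,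
        wtL p Q * (GT r t p μ τ Q i - GT r t p μ τ Q i') ≤
      Itot r p μ m n s i - Itot r p μ m n s i'

/-- (G2) upper bound of the total information. Owner 136. -/
def G2P : Prop :=
  ∀ (ι : Type u) [Fintype ι] [Nonempty ι] (r t p : ι → ℝ) (μ : Measure ℝ) (D C : ℝ),
    Sys r t p μ D C → ∃ C2 : ℝ, ∀ (m n : ℕ) (s : ℝ) (i : ℕ), 0 ≤ s →
      Itot r p μ m n s i ≤ D * lyapunovExp r p * (m + EQ r p n s) + C2

/-- (G3) lower bound of the total information at the top scale. Owner 173. -/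
def G3P : Prop :=
  ∀ (ι : Type u) [Fintype ι] [Nonempty ι] (r t p : ι → ℝ) (μ : Measure ℝ) (D C : ℝ),
    Sys r t p μ D C → ∀ ε : ℝ, 0 < ε → ε < 1 → ∀ a : ℕ, ∀ η : ℝ, 0 < η →
    ∀ᶠ m : ℕ in atTop, ∀ n : ℕ, (∀ i, ε * lyapunovExp r p * m ≤ n * el r i) →
      D * lyapunovExp r p * (m + EQ r p n (ε * lyapunovExp r p * m)) - η * m ≤
        Itot r p μ m n (ε * lyapunovExp r p * m) (X0 (lyapunovExp r p) ε m - a)

open Classical in
/-- (GAMMA): total gain over all types and stopped words below the scale `X0 - a`. From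
`G1P`, `G2P`, `G3P` (383). -/
def GammaP : Prop :=
  ∀ (ι : Type u) [Fintype ι] [Nonempty ι] (r t p : ι → ℝ) (μ : Measure ℝ) (D C : ℝ),
    Sys r t p μ D C → ∀ ε : ℝ, 0 < ε → ε < 1 → ∀ a : ℕ, ∀ η : ℝ, 0 < η →
    ∀ᶠ m : ℕ in atTop, ∀ n : ℕ, (∀ i, ε * lyapunovExp r p * m ≤ n * el r i) →
    ∀ i : ℕ, X0 (lyapunovExp r p) ε m ≤ i →
      ∑ τ : ι → Fin (m + 1), pT p τ * ∑ Q ∈ stp (el r) n (ε * lyapunovExp r p * m),
        wtL p Q * (GT r t p μ τ Q i - GT r t p μ τ Q (X0 (lyapunovExp r p) ε m - a)) ≤ η * m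

open Classical in
/-- (FINAL). Owner 430. -/
def FinalP : Prop :=
  ∀ (ι : Type u) [Fintype ι] [Nonempty ι] (r t p : ι → ℝ) (μ : Measure ℝ) (D C : ℝ),
    Sys r t p μ D C → ∃ C' : ℝ, ∀ m : ℕ, 1 ≤ m → ∀ x₀ : ℕ,
      rwEntropyRate r t p * m ≤ D * (x₀ * Real.log 2) + C' + Fintype.card ι * Real.log (m + 1) +
        ∑ τ : ι → Fin (m + 1), pT p τ * HA (qT p τ) (zz r t) x₀

open Classical in
/-- (MULT), owner 566 (`exists_conv` of 399 gives `q`). -/
def MultP : Prop :=
  ∀ (ι : Type u) [Fintype ι] [Nonempty ι] (r p : ι → ℝ), (∀ i, r i ≠ 0 ∧ |r i| < 1) →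
    (∀ i, 0 < p i) → ∑ i, p i = 1 → IrrRatio r → ∀ N1 : ℝ,
    ∃ C : ℝ, ∀ Q0 : ℕ, ∃ q : ℕ, Q0 ≤ q ∧ ∀ s : ℝ, (q : ℝ) ^ 2 ≤ s →
      ∀ n : ℕ, (∀ i, s ≤ n * el r i) → (n : ℝ) ≤ N1 * s → ∀ a b : ℝ, 0 ≤ b →
      ∑ Q ∈ stp (el r) n s, (if a ≤ LL (el r) Q ∧ LL (el r) Q ≤ a + b
        then wtL p Q else 0) ≤ C * (1 + Real.log s) ^ 3 * (b + 1 / q)

end Crest.Agent.R98.K
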