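import Mathlib
import Crest.Agent.R098.UpperA

-- ▼ part R98/NCGain
section

/-!
Row 98 (S0129). Module NCASM, part (b): total gain of a block after the scale `(χ+δ)m`.
Pure real analysis on a function `H` with `0 ≤ H x ≤ D x⁺ + C`. (helper136)
-/

set_option autoImplicit false

namespace Crest.Agent.R98.NC

open Filter Real Finset MeasureTheory intervalIntegral
open scoped Topology

section Gain

variable {κ : Type*} [Fintype κ]

/-- increment of `H` against its average over the shifts `l w` -/
noncomputable def Kf (H : ℝ → ℝ) (q l : κ → ℝ) (x : ℝ) : ℝ := H x - ∑ w, q w * H (x - l w)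

/-- window gain: `K x - K (x-a)` -/
noncomputable def Gf (H : ℝ → ℝ) (q l : κ → ℝ) (a x : ℝ) : ℝ := Kf H q l x - Kf H q l (x - a)

lemma Gf_eq (H : ℝ → ℝ) (q l : κ → ℝ) (a x : ℝ) :
    Gf H q l a x = (H x - H (x - a)) - ∑ w, q w * (H (x - l w) - H (x - l w - a)) := by
  unfold Gf Kf
  have : ∑ w, q w * (H (x - l w) - H (x - l w - a)) =
      ∑ w, q w * H (x - l w) - ∑ w, q w * H (x - a - l w) := by
    rw [← Finset.sum_sub_distrib]
    refine Finset.sum_congr rfl fun w _ => ?_
    have e : x - l w - a = x - a - l w := by ring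
    rw [e]; ring
  rw [this]; ring

variable {H : ℝ → ℝ} {q l : κ → ℝ}

lemma Kf_intervalIntegrable (hH : ∀ a b, IntervalIntegrable H volume a b) (a b : ℝ) :
    IntervalIntegrable (Kf H q l) volume a b := by
  unfold Kf
  refine (hH a b).sub ?_
  have : (fun x => ∑ w, q w * H (x - l w)) = ∑ w, fun x => q w * H (x - l w) := by
    funext x; simp
  rw [this]
  refine IntervalIntegrable.sum _ fun w _ => ?_
  refine IntervalIntegrable.const_mul ?_ _
  have := (hH (a - l w) (b - l w)).comp_sub_right (l w)
  simpa using this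

lemma Gf_intervalIntegrable (hH : ∀ a b, IntervalIntegrable H volume a b) (c a b : ℝ) :
    IntervalIntegrable (Gf H q l c) volume a b := by
  unfold Gf
  refine (Kf_intervalIntegrable hH a b).sub ?_
  have := (Kf_intervalIntegrable (q := q) (l := l) hH (a - c) (b - c)).comp_sub_right c
  simpa using this

/-- the window integral of `K` -/
noncomputable def Ff (H : ℝ → ℝ) (q l : κ → ℝ) (a x : ℝ) : ℝ := ∫ y in (x - a)..x, Kf H q l y

lemma integral_Gf (hH : ∀ a b, IntervalIntegrable H volume a b) (a N M : ℝ) :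
    ∫ x in N..M, Gf H q l a x = Ff H q l a M - Ff H q l a N := by
  have hK := fun a b => Kf_intervalIntegrable (q := q) (l := l) hH a b
  unfold Gf Ff
  have h1 : IntervalIntegrable (fun x => Kf H q l (x - a)) volume N M := by
    have := (hK (N - a) (M - a)).comp_sub_right a
    simpa using this
  rw [intervalIntegral.integral_sub (hK _ _) h1]
  rw [intervalIntegral.integral_comp_sub_right (fun x => Kf H q l x) a]
  have e1 := intervalIntegral.integral_add_adjacent_intervals (hK N (M - a)) (hK (M - a) M)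
  have e2 := intervalIntegral.integral_add_adjacent_intervals (hK (N - a) N) (hK N (M - a))
  linarith

lemma Ff_mono (hH : ∀ a b, IntervalIntegrable H volume a b) {a : ℝ}
    (hG : ∀ x, 0 ≤ Gf H q l a x) {N M : ℝ} (hNM : N ≤ M) : Ff H q l a N ≤ Ff H q l a M := by
  have h := integral_Gf (q := q) (l := l) hH a N M
  have h2 : 0 ≤ ∫ x in N..M, Gf H q l a x :=
    intervalIntegral.integral_nonneg hNM fun x _ => hG x
  linarith

lemma sum_Ff (hH : ∀ a b, IntervalIntegrable H volume a b) (a N : ℝ) (J : ℕ) :
    ∑ j ∈ range J, Ff H q l a (N + (j + 1 : ℕ) * a) = ∫ x in N..(N + J * a), Kf H q l x := by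
  have hK := fun a b => Kf_intervalIntegrable (q := q) (l := l) hH a b
  induction J with
  | zero => simp
  | succ J ih =>
    rw [Finset.sum_range_succ, ih]
    unfold Ff
    have e : N + ((J + 1 : ℕ) : ℝ) * a - a = N + J * a := by push_cast; ring
    rw [e]
    exact intervalIntegral.integral_add_adjacent_intervals (hK _ _) (hK _ _)

lemma integral_Kf (hH : ∀ a b, IntervalIntegrable H volume a b) (hq1 : ∑ w, q w = 1) (A B : ℝ) :
    ∫ x in A..B, Kf H q l x =
      ∑ w, q w * ((∫ x in (B - l w)..B, H x) - ∫ x in (A - l w)..A, H x) := by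
  unfold Kf
  have h1 : ∀ w ∈ (univ : Finset κ), IntervalIntegrable (fun x => q w * H (x - l w)) volume A B := by
    intro w _
    refine IntervalIntegrable.const_mul ?_ _
    have := (hH (A - l w) (B - l w)).comp_sub_right (l w)
    simpa using this
  have h2 : IntervalIntegrable (fun x => ∑ w, q w * H (x - l w)) volume A B := by
    have : (fun x => ∑ w, q w * H (x - l w)) = ∑ w, fun x => q w * H (x - l w) := by
      funext x; simp
    rw [this]
    exact IntervalIntegrable.sum _ h1
  rw [intervalIntegral.integral_sub (hH A B) h2, intervalIntegral.integral_finsetSum h1]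
  have h3 : ∀ w, ∫ x in A..B, q w * H (x - l w) = q w * ∫ x in (A - l w)..(B - l w), H x := by
    intro w
    rw [intervalIntegral.integral_const_mul, intervalIntegral.integral_comp_sub_right H (l w)]
  simp only [h3]
  have h4 : (∫ x in A..B, H x) = ∑ w, q w * ∫ x in A..B, H x := by
    rw [← Finset.sum_mul, hq1, one_mul]
  rw [h4, ← Finset.sum_sub_distrib]
  refine Finset.sum_congr rfl fun w _ => ?_
  have e1 := intervalIntegral.integral_add_adjacent_intervals (hH (A - l w) A) (hH A B)
  have e2 := intervalIntegral.integral_add_adjacent_intervals (hH (A - l w) (B - l w))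
    (hH (B - l w) B)
  rw [← mul_sub]
  congr 1
  linarith

/-- **upper bound**: `F ≤ a D E[l]`. -/
theorem Ff_le (hH : ∀ a b, IntervalIntegrable H volume a b) (hH0 : ∀ x, 0 ≤ H x)
    {D C : ℝ} (hD : 0 ≤ D) (hup : ∀ x, H x ≤ D * max x 0 + C)
    (hq : ∀ w, 0 ≤ q w) (hq1 : ∑ w, q w = 1) (hl : ∀ w, 0 ≤ l w)
    {a : ℝ} (ha : 0 < a) (hG : ∀ x, 0 ≤ Gf H q l a x) (N : ℝ) :
    Ff H q l a N ≤ a * D * ∑ w, q w * l w := by
  have hC : 0 ≤ C := by
    have := (hH0 0).trans (hup 0)
    simpa using this
  set S : ℝ := ∑ w, q w * l w with hS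
  have hS0 : 0 ≤ S := Finset.sum_nonneg fun w _ => mul_nonneg (hq w) (hl w)
  -- bound for every J
  have key : ∀ J : ℕ, (J : ℝ) * Ff H q l a N ≤ S * (D * (max N 0 + J * a) + C) := by
    intro J
    have h1 : (J : ℝ) * Ff H q l a N ≤ ∑ j ∈ range J, Ff H q l a (N + (j + 1 : ℕ) * a) := by
      have : ∑ j ∈ range J, Ff H q l a N ≤ ∑ j ∈ range J, Ff H q l a (N + (j + 1 : ℕ) * a) := by
        refine Finset.sum_le_sum fun j _ => Ff_mono hH hG ?_
        have : (0:ℝ) ≤ ((j + 1 : ℕ) : ℝ) * a := by positivity
        linarith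
      simpa using this
    refine h1.trans ?_
    rw [sum_Ff hH, integral_Kf hH hq1]
    have h2 : ∀ w, q w * ((∫ x in (N + J * a - l w)..(N + J * a), H x) -
        ∫ x in (N - l w)..N, H x) ≤ q w * (l w * (D * (max N 0 + J * a) + C)) := by
      intro w
      refine mul_le_mul_of_nonneg_left ?_ (hq w)
      have h3 : 0 ≤ ∫ x in (N - l w)..N, H x :=
        intervalIntegral.integral_nonneg (by linarith [hl w]) fun x _ => hH0 x
      have h4 : ∫ x in (N + J * a - l w)..(N + J * a), H x ≤
          ∫ x in (N + J * a - l w)..(N + J * a), (D * (max N 0 + J * a) + C) := by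
        refine intervalIntegral.integral_mono_on (by linarith [hl w]) (hH _ _)
          intervalIntegrable_const fun x hx => ?_
        refine (hup x).trans ?_
        have h5 : max x 0 ≤ max N 0 + J * a := by
          refine max_le ?_ ?_
          · have := le_max_left N 0
            linarith [hx.2]
          · have := le_max_right N 0
            positivity
        nlinarith
      have h5 : ∫ x in (N + J * a - l w)..(N + J * a), (D * (max N 0 + J * a) + C) =
          l w * (D * (max N 0 + J * a) + C) := by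
        rw [intervalIntegral.integral_const, smul_eq_mul]
        ring
      linarith
    refine (Finset.sum_le_sum fun w _ => h2 w).trans (le_of_eq ?_)
    rw [hS, Finset.sum_mul]
    refine Finset.sum_congr rfl fun w _ => ?_
    ring
  -- divide by J
  refine le_of_forall_pos_le_add fun ε hε => ?_
  obtain ⟨J, hJ⟩ := exists_nat_gt (S * (D * max N 0 + C) / ε)
  have hJ0 : 0 < (J : ℝ) := by
    refine lt_of_le_of_lt ?_ hJ
    have := le_max_right N 0
    positivity
  have h1 := key J
  have h2 : S * (D * max N 0 + C) < J * ε := by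
    rw [div_lt_iff₀ hε] at hJ
    linarith
  have h3 : (J : ℝ) * Ff H q l a N ≤ J * (a * D * S + ε) := by
    nlinarith
  exact le_of_mul_le_mul_left h3 hJ0

/-- **total gain after scale `N`** -/
theorem integral_Gf_le' (hH : ∀ a b, IntervalIntegrable H volume a b) (hH0 : ∀ x, 0 ≤ H x)
    {D C : ℝ} (hD : 0 ≤ D) (hup : ∀ x, H x ≤ D * max x 0 + C)
    {D' C' : ℝ} (hlow : ∀ x, 0 ≤ x → D' * x - C' ≤ H x)
    (hq : ∀ w, 0 ≤ q w) (hq1 : ∑ w, q w = 1) (hl : ∀ w, 0 ≤ l w)
    {a : ℝ} (ha : 0 < a) (hG : ∀ x, 0 ≤ Gf H q l a x) {N M : ℝ} 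
    (hD' : D' ≤ D) (hNM : ∑ w, q w * l w + a ≤ N) :
    ∫ x in N..M, Gf H q l a x ≤
      a * ((D - D') * N + D * ∑ w, q w * |l w - ∑ w, q w * l w| + C + C' + D * a) := by
  set S : ℝ := ∑ w, q w * l w with hS
  have hS0 : 0 ≤ S := Finset.sum_nonneg fun w _ => mul_nonneg (hq w) (hl w)
  have hC : 0 ≤ C := by
    have := (hH0 0).trans (hup 0)
    simpa using this
  rw [integral_Gf hH]
  have h1 := Ff_le hH hH0 hD hup hq hq1 hl ha hG M
  rw [← hS] at h1
  -- lower bound for F N
  have h2 : a * (D * S - ((D - D') * N + D * ∑ w, q w * |l w - S| + C + C' + D * a)) ≤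
      Ff H q l a N := by
    unfold Ff
    have h3 : ∫ y in (N - a)..N,
        (D * S - ((D - D') * N + D * ∑ w, q w * |l w - S| + C + C' + D * a)) ≤
        ∫ y in (N - a)..N, Kf H q l y := by
      refine intervalIntegral.integral_mono_on (by linarith) intervalIntegrable_const
        (Kf_intervalIntegrable hH _ _) fun x hx => ?_
      unfold Kf
      have h4 : ∑ w, q w * H (x - l w) ≤ D * ((x - S) + ∑ w, q w * |l w - S|) + C := by
        have h5 : ∀ w, q w * H (x - l w) ≤ q w * (D * ((x - S) + |l w - S|) + C) := by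
          intro w
          refine mul_le_mul_of_nonneg_left ((hup _).trans ?_) (hq w)
          have h6 : max (x - l w) 0 ≤ (x - S) + |l w - S| := by
            refine max_le ?_ ?_
            · have := neg_abs_le (l w - S); linarith
            · have := abs_nonneg (l w - S)
              linarith [hx.1]
          nlinarith
        refine (Finset.sum_le_sum fun w _ => h5 w).trans (le_of_eq ?_)
        have : ∀ w, q w * (D * ((x - S) + |l w - S|) + C) =
            q w * (D * (x - S) + C) + D * (q w * |l w - S|) := fun w => by ring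
        simp only [this]
        rw [Finset.sum_add_distrib, ← Finset.sum_mul, ← Finset.mul_sum, hq1]
        ring
      have h5 := hlow x (by linarith [hx.1])
      have h6 : (D - D') * x ≤ (D - D') * N :=
        mul_le_mul_of_nonneg_left hx.2 (by linarith)
      have h7 : 0 ≤ D * a := by positivity
      nlinarith
    rw [intervalIntegral.integral_const, smul_eq_mul] at h3
    have e : N - (N - a) = a := by ring
    rw [e] at h3
    exact h3
  nlinarith


end Gain

end Crest.Agent.R98.NC
end

-- ▼ part R98/NCWords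

/-!
Row 98 (S0129). Module NCASM, part (b2): gains of blocks of letters. (helper136)
-/

set_option autoImplicit false

namespace Crest.Agent.R98.NC

open Filter Real Finset MeasureTheory intervalIntegral
open Crest.Agent.R098.Upper
open scoped Topology

section Words

variable {ι : Type*} [Fintype ι]

lemma Kf_words_succ (H : ℝ → ℝ) (p l : ι → ℝ) (m : ℕ) (x : ℝ) :
    Kf H (fun u : Fin (m+1) → ι => pw p u) (sw l) x =
      Kf H (fun u : Fin m → ι => pw p u) (sw l) x +
        ∑ u : Fin m → ι, pw p u * Kf H p l (x - sw l u) := by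
  unfold Kf
  rw [sum_succ]
  simp only [pw_cons, sw_cons, mul_sub, Finset.sum_sub_distrib, Finset.mul_sum]
  rw [Finset.sum_comm]
  have : ∀ (y : Fin m → ι) (a : ι), p a * pw p y * H (x - (l a + sw l y)) =
      pw p y * (p a * H (x - sw l y - l a)) := by
    intro y a
    have e : x - (l a + sw l y) = x - sw l y - l a := by ring
    rw [e]; ring
  simp only [this]
  ring

lemma Gf_words_succ (H : ℝ → ℝ) (p l : ι → ℝ) (m : ℕ) (a x : ℝ) :
    Gf H (fun u : Fin (m+1) → ι => pw p u) (sw l) a x =
      Gf H (fun u : Fin m → ι => pw p u) (sw l) a x +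
        ∑ u : Fin m → ι, pw p u * Gf H p l a (x - sw l u) := by
  unfold Gf
  rw [Kf_words_succ, Kf_words_succ]
  simp only [mul_sub, Finset.sum_sub_distrib]
  have : ∀ u : Fin m → ι, x - a - sw l u = x - sw l u - a := fun u => by ring
  simp only [this]
  ring

lemma Gf_words_zero (H : ℝ → ℝ) (p l : ι → ℝ) (a x : ℝ) :
    Gf H (fun u : Fin 0 → ι => pw p u) (sw l) a x = 0 := by
  simp [Gf, Kf, pw, sw]

lemma Gf_words_nonneg {H : ℝ → ℝ} {p l : ι → ℝ} (hp : ∀ i, 0 ≤ p i) {a : ℝ}
    (hG : ∀ x, 0 ≤ Gf H p l a x) (m : ℕ) (x : ℝ) :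
    0 ≤ Gf H (fun u : Fin m → ι => pw p u) (sw l) a x := by
  induction m with
  | zero => rw [Gf_words_zero]
  | succ m ih =>
    rw [Gf_words_succ]
    have : 0 ≤ ∑ u : Fin m → ι, pw p u * Gf H p l a (x - sw l u) :=
      Finset.sum_nonneg fun u _ => mul_nonneg (pw_nonneg hp u) (hG _)
    linarith

omit [Fintype ι] in
lemma sw_nonneg {l : ι → ℝ} (hl : ∀ i, 0 ≤ l i) {m : ℕ} (u : Fin m → ι) : 0 ≤ sw l u :=
  Finset.sum_nonneg fun _ _ => hl _

omit [Fintype ι] in
lemma sw_le {l : ι → ℝ} {lmax : ℝ} (hl : ∀ i, l i ≤ lmax) {m : ℕ} (u : Fin m → ι) :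
    sw l u ≤ m * lmax := by
  unfold sw
  calc ∑ j, l (u j) ≤ ∑ _j : Fin m, lmax := Finset.sum_le_sum fun j _ => hl _
    _ = m * lmax := by simp

/-- the gain of an `m`-block over a scale range is at most `m` times the one letter gain over the
enlarged range -/
theorem integral_Gf_words_le {H : ℝ → ℝ} {p l : ι → ℝ}
    (hH : ∀ a b, IntervalIntegrable H volume a b) (hp : ∀ i, 0 ≤ p i) (hp1 : ∑ i, p i = 1)
    (hl : ∀ i, 0 ≤ l i) {lmax : ℝ} (hlm : ∀ i, l i ≤ lmax)
    {a : ℝ} (hG : ∀ x, 0 ≤ Gf H p l a x) {m : ℕ} {N' N M : ℝ} (hNM : N ≤ M)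
    (hN' : N' ≤ N - m * lmax) :
    ∫ x in N..M, Gf H (fun u : Fin m → ι => pw p u) (sw l) a x ≤
      m * ∫ x in N'..M, Gf H p l a x := by
  have key : ∀ k : ℕ, k ≤ m → ∫ x in N..M, Gf H (fun u : Fin k → ι => pw p u) (sw l) a x ≤
      k * ∫ x in N'..M, Gf H p l a x := by
    intro k
    induction k with
    | zero => intro _; simp [Gf_words_zero]
    | succ k ih =>
      intro hk
      have h1 := ih (by omega)
      have hint : ∀ u : Fin k → ι, IntervalIntegrable (fun x => pw p u * Gf H p l a (x - sw l u))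
          volume N M := by
        intro u
        refine IntervalIntegrable.const_mul ?_ _
        have := (Gf_intervalIntegrable (q := p) (l := l) hH a (N - sw l u) (M - sw l u)).comp_sub_right
          (sw l u)
        simpa using this
      have h2 : ∫ x in N..M, Gf H (fun u : Fin (k+1) → ι => pw p u) (sw l) a x =
          (∫ x in N..M, Gf H (fun u : Fin k → ι => pw p u) (sw l) a x) +
            ∑ u : Fin k → ι, pw p u * ∫ x in (N - sw l u)..(M - sw l u), Gf H p l a x := by
        simp only [Gf_words_succ]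
        rw [intervalIntegral.integral_add (Gf_intervalIntegrable hH _ _ _), 
          intervalIntegral.integral_finsetSum fun u _ => hint u]
        · congr 1
          refine Finset.sum_congr rfl fun u _ => ?_
          rw [intervalIntegral.integral_const_mul,
            intervalIntegral.integral_comp_sub_right (fun x => Gf H p l a x) (sw l u)]
        · have : (fun x => ∑ u : Fin k → ι, pw p u * Gf H p l a (x - sw l u)) =
              ∑ u : Fin k → ι, fun x => pw p u * Gf H p l a (x - sw l u) := by
            funext x; simp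
          rw [this]
          exact IntervalIntegrable.sum _ fun u _ => hint u
      rw [h2]
      have h3 : ∀ u : Fin k → ι, ∫ x in (N - sw l u)..(M - sw l u), Gf H p l a x ≤
          ∫ x in N'..M, Gf H p l a x := by
        intro u
        have hu0 := sw_nonneg hl u
        have hu1 := sw_le hlm u
        have hlm0 : 0 ≤ lmax := by
          rcases isEmpty_or_nonempty ι with hι | ⟨⟨i0⟩⟩
          · exfalso; simp at hp1
          · exact (hl i0).trans (hlm i0)
        have hkm : (k : ℝ) * lmax ≤ m * lmax :=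
          mul_le_mul_of_nonneg_right (by exact_mod_cast (by omega : k ≤ m)) hlm0
        have hI := fun a' b' => Gf_intervalIntegrable (q := p) (l := l) hH a a' b'
        refine intervalIntegral.integral_mono_interval (by linarith) (by linarith) (by linarith)
          ?_ (hI _ _)
        exact Filter.Eventually.of_forall fun x => hG x
      have h4 : ∑ u : Fin k → ι, pw p u * ∫ x in (N - sw l u)..(M - sw l u), Gf H p l a x ≤
          ∫ x in N'..M, Gf H p l a x := by
        calc ∑ u : Fin k → ι, pw p u * ∫ x in (N - sw l u)..(M - sw l u), Gf H p l a x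
            ≤ ∑ u : Fin k → ι, pw p u * ∫ x in N'..M, Gf H p l a x :=
              Finset.sum_le_sum fun u _ => mul_le_mul_of_nonneg_left (h3 u) (pw_nonneg hp u)
          _ = ∫ x in N'..M, Gf H p l a x := by rw [← Finset.sum_mul, sum_pw hp1, one_mul]
      push_cast
      linarith
  exact key m le_rfl

/-- mean length of a block -/
lemma sum_pw_sw_eq {p l : ι → ℝ} (hp1 : ∑ i, p i = 1) (m : ℕ) :
    ∑ u : Fin m → ι, pw p u * sw l u = m * ∑ i, p i * l i := by
  set c : ℝ := ∑ i, p i * l i with hc
  have hY : ∑ i, p i * (l i - c) = 0 := by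
    simp only [mul_sub, Finset.sum_sub_distrib, ← Finset.sum_mul, hp1]
    rw [← hc]; ring
  have h := sum_pw_sw hp1 hY m
  have h2 : ∀ u : Fin m → ι, sw (fun i => l i - c) u = sw l u - m * c := by
    intro u
    simp [sw, Finset.sum_sub_distrib]
  simp only [h2, mul_sub, Finset.sum_sub_distrib, ← Finset.sum_mul, sum_pw hp1] at h
  linarith

/-- mean deviation of the length of a block is `O(√m)` -/
lemma sum_pw_abs_sw_le {p l : ι → ℝ} (hp : ∀ i, 0 ≤ p i) (hp1 : ∑ i, p i = 1) (m : ℕ) :
    ∑ u : Fin m → ι, pw p u * |sw l u - ∑ u : Fin m → ι, pw p u * sw l u| ≤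
      Real.sqrt (m * ∑ i, p i * (l i - ∑ i, p i * l i) ^ 2) := by
  rw [sum_pw_sw_eq hp1]
  set c : ℝ := ∑ i, p i * l i with hc
  have hY : ∑ i, p i * (l i - c) = 0 := by
    simp only [mul_sub, Finset.sum_sub_distrib, ← Finset.sum_mul, hp1]
    rw [← hc]; ring
  have h := sum_pw_sw_sq hp1 hY m
  have h2 : ∀ u : Fin m → ι, sw (fun i => l i - c) u = sw l u - m * c := by
    intro u
    simp [sw, Finset.sum_sub_distrib]
  simp only [h2] at h
  rw [← h]
  refine Real.le_sqrt_of_sq_le ?_
  have hCS := Finset.sum_mul_sq_le_sq_mul_sq (univ : Finset (Fin m → ι))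
    (fun u => Real.sqrt (pw p u)) (fun u => Real.sqrt (pw p u) * |sw l u - m * c|)
  have e1 : ∀ u : Fin m → ι, Real.sqrt (pw p u) * (Real.sqrt (pw p u) * |sw l u - m * c|) =
      pw p u * |sw l u - m * c| := by
    intro u
    rw [← mul_assoc, Real.mul_self_sqrt (pw_nonneg hp u)]
  have e2 : ∀ u : Fin m → ι, Real.sqrt (pw p u) ^ 2 = pw p u :=
    fun u => Real.sq_sqrt (pw_nonneg hp u)
  simp only [e1, mul_pow, e2, sq_abs, sum_pw hp1, one_mul] at hCS
  exact hCS

end Words

end Crest.Agent.R98.NC
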