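import Mathlib
import Crest.Agent.R98.NCWords
import Crest.Agent.R98.TOneD
import Crest.Agent.R98.Ent3
import Crest.Agent.R98.Top0
import Crest.Agent.R98.DimBasic

-- ▼ part R98/NCSeries
section

/-!
Row 98 (S0129). Module NCASM, part (a): series lemma for near coincidences. (helper136)
-/

set_option autoImplicit false

namespace Crest.Agent.R98.NC

open Filter Real Finset
open scoped Topology

/-- Disjoint windows: if every window `[i, i+W)` starting in `[X, 2X]` carries mass `≥ c`, then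
`(X / W) * c ≤ total mass`. -/
lemma windows_mass {b : ℕ → ℝ} (hb : ∀ k, 0 ≤ b k) (hs : Summable b) {X W : ℕ}
    {c : ℝ} (J : ℕ) (hJ : J * W ≤ X)
    (h : ∀ i, X ≤ i → i ≤ 2 * X → c ≤ ∑ k ∈ Finset.Ico i (i + W), b k) :
    J * c ≤ ∑' k, b k := by
  have key : ∀ j : ℕ, j ≤ J → (j : ℝ) * c ≤ ∑ k ∈ Finset.Ico X (X + j * W), b k := by
    intro j
    induction j with
    | zero => intro _; simp
    | succ j ih =>
      intro hj
      have h1 := ih (by omega)
      have hle : j * W ≤ X := le_trans (Nat.mul_le_mul_right W (by omega : j ≤ J)) hJ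
      have h2 := h (X + j * W) (by omega) (by omega)
      have h3 : ∑ k ∈ Finset.Ico X (X + (j+1) * W), b k =
          ∑ k ∈ Finset.Ico X (X + j * W), b k +
            ∑ k ∈ Finset.Ico (X + j * W) (X + j * W + W), b k := by
        have e : X + (j+1) * W = X + j * W + W := by ring
        rw [e, Finset.sum_Ico_consecutive b (by omega) (by omega)]
      rw [h3]
      push_cast
      linarith
  refine (key J le_rfl).trans ?_
  exact hs.sum_le_tsum _ fun k _ => hb k

/-- **Series lemma.** For a summable nonnegative sequence and windows of length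
`O(log i)`, infinitely many windows `[i, i + W i)` have mass `≤ ε / log i`. -/
theorem exists_small_window {b : ℕ → ℝ} (hb : ∀ k, 0 ≤ b k) (hs : Summable b)
    {W : ℕ → ℕ} {A : ℝ} (hW : ∀ i : ℕ, 1 ≤ i → (W i : ℝ) ≤ A * (1 + Real.log i))
    {ε : ℝ} (hε : 0 < ε) :
    ∃ᶠ i : ℕ in atTop, ∑ k ∈ Finset.Ico i (i + W i), b k ≤ ε / Real.log i := by
  rw [Filter.frequently_atTop]
  intro i0
  by_contra hcon
  push Not at hcon
  have hA : 0 ≤ A := by
    have := hW 1 le_rfl
    simp at this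
    exact le_trans (Nat.cast_nonneg _) this
  set T : ℝ := ∑' k, b k with hT
  have hT0 : 0 ≤ T := tsum_nonneg hb
  -- choose X large
  have hlim : Tendsto (fun X : ℝ => X / (1 + Real.log X) ^ 2) atTop atTop := by
    have h1 : (fun X : ℝ => (1 + Real.log X) ^ 2) =o[atTop] fun X : ℝ => X := by
      have h2 : (fun X : ℝ => 1 + Real.log X) =o[atTop] fun X : ℝ => X ^ (1/2 : ℝ) := by
        refine Asymptotics.IsLittleO.add ?_ (isLittleO_log_rpow_atTop (by norm_num))
        refine Asymptotics.isLittleO_const_left.2 (Or.inr ?_)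
        have h3 := tendsto_rpow_atTop (y := (1/2 : ℝ)) (by norm_num)
        exact tendsto_norm_atTop_atTop.comp h3
      have h3 := h2.pow (n := 2) (by norm_num)
      refine h3.congr' (Filter.Eventually.of_forall fun _ => rfl) ?_
      filter_upwards [eventually_ge_atTop (0:ℝ)] with X hX
      rw [← Real.rpow_natCast, ← Real.rpow_mul hX]
      norm_num
    have h4 : ∀ᶠ X : ℝ in atTop, 0 < (1 + Real.log X) ^ 2 := by
      filter_upwards [eventually_gt_atTop (1:ℝ)] with X hX
      have := Real.log_pos hX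
      positivity
    have h5 := h1.tendsto_div_nhds_zero
    have h6 : Tendsto (fun X : ℝ => ((1 + Real.log X) ^ 2 / X)⁻¹) atTop atTop := by
      refine Filter.Tendsto.inv_tendsto_nhdsGT_zero ?_
      refine tendsto_nhdsWithin_iff.2 ⟨h5, ?_⟩
      filter_upwards [h4, eventually_gt_atTop (0:ℝ)] with X hX hX0
      exact div_pos hX hX0
    refine h6.congr fun X => ?_
    rw [inv_div]
  -- constant to beat
  set M : ℝ := (T + ε + 1) * (A + 1) * 16 / ε with hM
  have hev : ∀ᶠ X : ℝ in atTop, M ≤ X / (1 + Real.log X) ^ 2 := hlim.eventually_ge_atTop M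
  have hevN : ∀ᶠ X : ℕ in atTop, M ≤ (X : ℝ) / (1 + Real.log X) ^ 2 :=
    tendsto_natCast_atTop_atTop.eventually hev
  obtain ⟨X, hXM, hX0, hX3⟩ := (hevN.and ((eventually_ge_atTop i0).and
    (eventually_ge_atTop 3))).exists
  have hXr : (3:ℝ) ≤ X := by exact_mod_cast hX3
  have hlogX : 1 ≤ Real.log X := by
    have : Real.log (Real.exp 1) ≤ Real.log X := by
      refine Real.log_le_log (Real.exp_pos 1) ?_
      have := Real.exp_one_lt_d9
      linarith
    rwa [Real.log_exp] at this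
  have hlog2X : Real.log ((2 * X : ℕ) : ℝ) ≤ 2 * Real.log X := by
    push_cast
    rw [Real.log_mul (by norm_num) (by positivity)]
    have : Real.log 2 ≤ Real.log X := Real.log_le_log (by norm_num) (by linarith)
    linarith
  have hlog2X0 : 0 < Real.log ((2 * X : ℕ) : ℝ) := by
    refine Real.log_pos ?_
    push_cast; linarith
  -- window length
  set V : ℕ := ⌈(A + 1) * (1 + 2 * Real.log X)⌉₊ with hV
  have hV1 : (1:ℝ) ≤ V := by
    have h1 : (1:ℝ) ≤ (A + 1) * (1 + 2 * Real.log X) := by nlinarith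
    exact h1.trans (Nat.le_ceil _)
  have hVpos : 0 < V := by
    have : (0:ℝ) < V := by linarith
    exact_mod_cast this
  have hVle : (V : ℝ) ≤ 4 * (A + 1) * (1 + Real.log X) := by
    have h1 : (V : ℝ) < (A + 1) * (1 + 2 * Real.log X) + 1 := Nat.ceil_lt_add_one (by positivity)
    nlinarith
  set c : ℝ := ε / (2 * Real.log X) with hc
  have hc0 : 0 < c := by positivity
  have hwin : ∀ i, X ≤ i → i ≤ 2 * X → c ≤ ∑ k ∈ Finset.Ico i (i + V), b k := by
    intro i hi1 hi2
    have hiX : (X : ℝ) ≤ i := by exact_mod_cast hi1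
    have hlogi : Real.log i ≤ 2 * Real.log X := by
      refine le_trans (Real.log_le_log (by linarith) ?_) hlog2X
      exact_mod_cast hi2
    have hlogi0 : 0 < Real.log i := Real.log_pos (by linarith)
    have h1 := hcon i (by omega)
    have hWi : W i ≤ V := by
      have h2 : (W i : ℝ) ≤ (A + 1) * (1 + 2 * Real.log X) := by
        refine (hW i (by omega)).trans ?_
        have h3 : (0:ℝ) ≤ 1 + Real.log i := by linarith
        nlinarith
      have h4 : (W i : ℝ) ≤ V := h2.trans (Nat.le_ceil _)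
      exact_mod_cast h4
    have h2 : ∑ k ∈ Finset.Ico i (i + W i), b k ≤ ∑ k ∈ Finset.Ico i (i + V), b k := by
      refine Finset.sum_le_sum_of_subset_of_nonneg ?_ fun k _ _ => hb k
      exact Finset.Ico_subset_Ico le_rfl (by omega)
    have h3 : c ≤ ε / Real.log i := by
      rw [hc]
      exact div_le_div_of_nonneg_left hε.le hlogi0 hlogi
    linarith
  have hJ : (X / V) * V ≤ X := Nat.div_mul_le_self X V
  have hfin := windows_mass hb hs (X / V) hJ hwin
  -- contradiction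
  have hdiv : (X : ℝ) / V - 1 ≤ ((X / V : ℕ) : ℝ) := by
    have h1 : X < (X / V + 1) * V := by
      have := Nat.div_add_mod X V
      have h2 := Nat.mod_lt X hVpos
      nlinarith
    have h1' : (X : ℝ) < (((X / V : ℕ) : ℝ) + 1) * V := by exact_mod_cast h1
    have : (X : ℝ) / V < ((X / V : ℕ) : ℝ) + 1 := by
      rw [div_lt_iff₀ (by linarith)]
      exact h1'
    linarith
  have hXV : (X : ℝ) / (4 * (A + 1) * (1 + Real.log X)) ≤ (X : ℝ) / V :=
    div_le_div_of_nonneg_left (by positivity) (by linarith) hVle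
  have hbig : (T + ε + 1) ≤ (X : ℝ) / V * c := by
    have h1 : (X : ℝ) / (4 * (A + 1) * (1 + Real.log X)) * (ε / (2 * (1 + Real.log X))) ≤
        (X : ℝ) / V * c := by
      refine mul_le_mul hXV ?_ (by positivity) (by positivity)
      exact div_le_div_of_nonneg_left hε.le (by positivity) (by linarith)
    refine le_trans ?_ h1
    have h2 : (X : ℝ) / (4 * (A + 1) * (1 + Real.log X)) * (ε / (2 * (1 + Real.log X))) =
        (X : ℝ) / (1 + Real.log X) ^ 2 * (ε / (8 * (A + 1))) := by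
      field_simp
      ring
    rw [h2]
    have h3 : M * (ε / (8 * (A + 1))) ≤ (X : ℝ) / (1 + Real.log X) ^ 2 * (ε / (8 * (A + 1))) :=
      mul_le_mul_of_nonneg_right hXM (by positivity)
    refine le_trans ?_ h3
    have h4 : M * (ε / (8 * (A + 1))) = 2 * (T + ε + 1) := by
      rw [hM]
      field_simp
      ring
    rw [h4]
    linarith
  have hcle : c ≤ ε := by
    rw [hc, div_le_iff₀ (by positivity)]
    nlinarith
  have : ((X : ℝ) / V - 1) * c ≤ T := by
    refine le_trans ?_ hfin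
    exact mul_le_mul_of_nonneg_right hdiv hc0.le
  nlinarith

end Crest.Agent.R98.NC
end

-- ▼ part R98/NCMain
section

/-!
Row 98 (S0129). Module NCASM, part (c): exponential collapse and near coincidences at
`m (log m)^B` from the output of T1 (abstract form). (helper136)
-/

set_option autoImplicit false

namespace Crest.Agent.R98.NC

open Filter Real Finset MeasureTheory intervalIntegral
open Crest.Agent.R098.Upper
open scoped Topology

/-- the loss function of T1 -/
noncomputable def phi (u : ℝ) : ℝ := u * (1 + Real.log 2 - Real.log u)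

lemma mul_phi_div {s L : ℝ} (hs : 0 < s) (hL : 0 < L) :
    L * phi (s / L) = s * (1 + Real.log 2 + Real.log (L / s)) := by
  unfold phi
  rw [Real.log_div hs.ne' hL.ne', Real.log_div hL.ne' hs.ne']
  field_simp
  ring

section Main

variable {ι : Type*} [Fintype ι]

/-- the environment: `H x = Hs μ (e^{-x})` -/
structure Env (H : ℝ → ℝ) (p l : ι → ℝ) (a D C : ℝ) : Prop where
  hH : ∀ a b, IntervalIntegrable H volume a b
  hH0 : ∀ x, 0 ≤ H x
  hD : 0 ≤ D
  hup : ∀ x, H x ≤ D * max x 0 + C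
  hlow : ∀ D', D' < D → ∃ C', ∀ x, 0 ≤ x → D' * x - C' ≤ H x
  hp : ∀ i, 0 ≤ p i
  hp1 : ∑ i, p i = 1
  hl : ∀ i, 0 ≤ l i
  ha : 0 < a
  hG : ∀ x, 0 ≤ Gf H p l a x

/-- the `m`-block gain -/
noncomputable def Gm (H : ℝ → ℝ) (p l : ι → ℝ) (a : ℝ) (m : ℕ) (x : ℝ) : ℝ :=
  Gf H (fun u : Fin m → ι => pw p u) (sw l) a x

/-- output of T1 for the average entropies `E m x` of the block translations given the type -/
structure T1Out (H : ℝ → ℝ) (p l : ι → ℝ) (a : ℝ) (E : ℕ → ℝ → ℝ) (C₁ : ℝ) : Prop where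
  hC : 0 ≤ C₁
  le_H : ∀ m x, 0 ≤ x → E m x ≤ H x
  gain : ∀ (m : ℕ) (N L M s : ℝ), 0 ≤ N → 1 ≤ L → N + L ≤ M →
    C₁ * ((∫ x in N..M, Gm H p l a m x) + m * Real.exp (-(M - N - L))) ≤ s → 0 < s → s ≤ L →
    E m (N + L) - E m N ≤ L * phi (s / L) + C₁

variable {H : ℝ → ℝ} {p l : ι → ℝ} {a D C C₁ : ℝ} {E : ℕ → ℝ → ℝ}

/-- total gain of a block after scale `(χ+δ)m` is `o(m)` -/
theorem total_gain (h : Env H p l a D C) {δ ε : ℝ} (hδ : 0 < δ) (hε : 0 < ε) :
    ∀ᶠ m : ℕ in atTop, ∀ M, ∫ x in ((∑ i, p i * l i) + δ) * m..M, Gm H p l a m x ≤ ε * m := by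
  set χ : ℝ := ∑ i, p i * l i with hχ
  have hχ0 : 0 ≤ χ := Finset.sum_nonneg fun i _ => mul_nonneg (h.hp i) (h.hl i)
  have ha := h.ha
  have hD := h.hD
  set ε' : ℝ := ε / (4 * a * (χ + δ + 1)) with hε'
  have hε'0 : 0 < ε' := by positivity
  obtain ⟨C', hC'⟩ := h.hlow (D - ε') (by linarith)
  set V : ℝ := ∑ i, p i * (l i - ∑ i, p i * l i) ^ 2 with hV
  have hV0 : 0 ≤ V := Finset.sum_nonneg fun i _ => mul_nonneg (h.hp i) (sq_nonneg _)
  have e1 : ∀ᶠ m : ℕ in atTop, a / δ ≤ m := tendsto_natCast_atTop_atTop.eventually_ge_atTop _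
  have e2 : ∀ᶠ m : ℕ in atTop, 4 * a * |C + C' + D * a| / ε ≤ m :=
    tendsto_natCast_atTop_atTop.eventually_ge_atTop _
  have e3 : ∀ᶠ m : ℕ in atTop, (4 * a * D / ε) ^ 2 * V ≤ m :=
    tendsto_natCast_atTop_atTop.eventually_ge_atTop _
  filter_upwards [e1, e2, e3, eventually_gt_atTop 0] with m h1 h2 h3 hm0 M
  have hm : (0:ℝ) < m := by exact_mod_cast hm0
  unfold Gm
  have hS := sum_pw_sw_eq (p := p) (l := l) h.hp1 m
  have hb := integral_Gf_le' (q := fun u : Fin m → ι => pw p u) (l := sw l) h.hH h.hH0 hD h.hup hC'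
    (fun u => pw_nonneg h.hp u) (sum_pw h.hp1 m) (fun u => sw_nonneg h.hl u) ha
    (fun x => Gf_words_nonneg h.hp h.hG m x) (N := (χ + δ) * m) (M := M) (by linarith)
    (by
      rw [hS, ← hχ]
      rw [div_le_iff₀ hδ] at h1
      nlinarith)
  refine hb.trans ?_
  have hdev := sum_pw_abs_sw_le (p := p) (l := l) h.hp h.hp1 m
  rw [← hV] at hdev
  have t1 : a * ((D - (D - ε')) * ((χ + δ) * m)) ≤ ε / 4 * m := by
    have : a * ((D - (D - ε')) * ((χ + δ) * m)) = (ε / 4 * m) * ((χ + δ) / (χ + δ + 1)) := by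
      rw [hε']; field_simp; ring
    rw [this]
    have h5 : (χ + δ) / (χ + δ + 1) ≤ 1 := by
      rw [div_le_one (by positivity)]; linarith
    have h6 : 0 ≤ ε / 4 * m := by positivity
    nlinarith
  have t2 : a * (D * Real.sqrt (m * V)) ≤ ε / 4 * m := by
    have h5 : Real.sqrt (m * V) * (4 * a * D / ε) ≤ m := by
      have h6 : Real.sqrt (m * V) * (4 * a * D / ε) = Real.sqrt (m * ((4 * a * D / ε) ^ 2 * V)) := by
        have e : (m:ℝ) * ((4 * a * D / ε) ^ 2 * V) = (4 * a * D / ε) ^ 2 * (m * V) := by ring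
        rw [e, Real.sqrt_mul (sq_nonneg _), Real.sqrt_sq (by positivity)]
        ring
      rw [h6]
      calc Real.sqrt (m * ((4 * a * D / ε) ^ 2 * V)) ≤ Real.sqrt (m * m) :=
            Real.sqrt_le_sqrt (mul_le_mul_of_nonneg_left h3 hm.le)
        _ = m := Real.sqrt_mul_self hm.le
    have h7 : a * (D * Real.sqrt (m * V)) = ε / 4 * (Real.sqrt (m * V) * (4 * a * D / ε)) := by
      field_simp
    rw [h7]
    exact mul_le_mul_of_nonneg_left h5 (by positivity)
  have t3 : a * (C + C' + D * a) ≤ ε / 4 * m := by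
    have h5 : a * (C + C' + D * a) ≤ a * |C + C' + D * a| :=
      mul_le_mul_of_nonneg_left (le_abs_self _) ha.le
    rw [div_le_iff₀ hε] at h2
    linarith
  have t4 : a * (D * ∑ u : Fin m → ι, pw p u * |sw l u - ∑ u : Fin m → ι, pw p u * sw l u|) ≤
      ε / 4 * m := by
    refine le_trans ?_ t2
    refine mul_le_mul_of_nonneg_left ?_ ha.le
    exact mul_le_mul_of_nonneg_left hdev hD
  have hεm : 0 ≤ ε / 4 * m := by positivity
  nlinarith

/-- the loss function is small -/
lemma exists_small_loss {ℓ : ℝ} (hℓ : 0 < ℓ) {ε : ℝ} (hε : 0 < ε) :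
    ∃ η > 0, η ≤ ℓ ∧ η * (1 + Real.log 2 + Real.log (ℓ / η)) ≤ ε := by
  have h1 : Tendsto (fun η : ℝ => η * (1 + Real.log 2 + Real.log (ℓ / η))) (𝓝[>] 0) (𝓝 0) := by
    have h2 : Tendsto (fun η : ℝ => η * (1 + Real.log 2 + Real.log ℓ) - Real.log η * η ^ (1:ℝ))
        (𝓝[>] 0) (𝓝 (0 * (1 + Real.log 2 + Real.log ℓ) - 0)) := by
      refine Tendsto.sub ?_ (tendsto_log_mul_rpow_nhdsGT_zero (by norm_num))
      refine Tendsto.mul_const _ ?_
      exact tendsto_nhdsWithin_of_tendsto_nhds tendsto_id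
    rw [zero_mul, sub_zero] at h2
    refine h2.congr' ?_
    filter_upwards [self_mem_nhdsWithin] with η hη
    have hη0 : (0:ℝ) < η := hη
    rw [Real.log_div hℓ.ne' hη0.ne', Real.rpow_one]
    ring
  have h3 := h1.eventually (gt_mem_nhds hε)
  have h4 : ∀ᶠ η : ℝ in 𝓝[>] 0, η ≤ ℓ :=
    (tendsto_nhdsWithin_of_tendsto_nhds tendsto_id).eventually (ge_mem_nhds hℓ)
  obtain ⟨η, h5, h6, h7⟩ := (h3.and (h4.and self_mem_nhdsWithin)).exists
  exact ⟨η, h7, h6, h5.le⟩

/-- **exponential collapse** -/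
theorem collapse (h : Env H p l a D C) (hT : T1Out H p l a E C₁) {q ε : ℝ} (hq : 0 ≤ q)
    (hε : 0 < ε) :
    ∀ᶠ m : ℕ in atTop, E m (q * m) ≤ (D * (∑ i, p i * l i) + ε) * m := by
  set χ : ℝ := ∑ i, p i * l i with hχ
  have hχ0 : 0 ≤ χ := Finset.sum_nonneg fun i _ => mul_nonneg (h.hp i) (h.hl i)
  have hD := h.hD
  have hC₁ := hT.hC
  have hC : 0 ≤ C := by
    have := (h.hH0 0).trans (h.hup 0)
    simpa using this
  set δ : ℝ := ε / (4 * (D + 1)) with hδ
  have hδ0 : 0 < δ := by positivity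
  have hDδ : D * δ ≤ ε / 4 := by
    have : D * δ = ε / 4 * (D / (D + 1)) := by rw [hδ]; field_simp
    rw [this]
    have h5 : D / (D + 1) ≤ 1 := by
      rw [div_le_one (by positivity)]; linarith
    nlinarith
  have base : ∀ᶠ m : ℕ in atTop, ∀ q', 0 ≤ q' → q' ≤ χ + δ → E m (q' * m) ≤ (D * χ + ε / 2) * m := by
    have e1 : ∀ᶠ m : ℕ in atTop, 4 * C / ε ≤ m := tendsto_natCast_atTop_atTop.eventually_ge_atTop _
    filter_upwards [e1, eventually_gt_atTop 0] with m h1 hm0 q' hq'0 hq'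
    have hm : (0:ℝ) < m := by exact_mod_cast hm0
    have h2 : 0 ≤ q' * m := by positivity
    refine (hT.le_H m _ h2).trans ((h.hup _).trans ?_)
    rw [max_eq_left h2]
    rw [div_le_iff₀ hε] at h1
    have h3 : D * (q' * m) ≤ D * ((χ + δ) * m) :=
      mul_le_mul_of_nonneg_left (mul_le_mul_of_nonneg_right hq' hm.le) hD
    have h4 : D * δ * m ≤ ε / 4 * m := mul_le_mul_of_nonneg_right hDδ hm.le
    nlinarith
  rcases le_or_gt q (χ + δ) with hqs | hqs
  · filter_upwards [base, eventually_gt_atTop 0] with m h1 hm0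
    have hm : (0:ℝ) < m := by exact_mod_cast hm0
    have := h1 q hq hqs
    nlinarith
  set ℓ : ℝ := q - (χ + δ) with hℓ
  have hℓ0 : 0 < ℓ := by linarith
  obtain ⟨η, hη0, hηℓ, hη⟩ := exists_small_loss hℓ0 (ε := ε / 4) (by positivity)
  set ε' : ℝ := η / (2 * (C₁ + 1)) with hε'
  have hε'0 : 0 < ε' := by positivity
  have hC1ε : C₁ * ε' ≤ η / 2 := by
    have : C₁ * ε' = η / 2 * (C₁ / (C₁ + 1)) := by rw [hε']; field_simp
    rw [this]
    have h5 : C₁ / (C₁ + 1) ≤ 1 := by
      rw [div_le_one (by positivity)]; linarith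
    nlinarith
  have hexp : ∀ᶠ m : ℕ in atTop, Real.exp (-(m : ℝ)) ≤ ε' := by
    have h1 : Tendsto (fun m : ℕ => Real.exp (-(m : ℝ))) atTop (𝓝 0) :=
      Real.tendsto_exp_atBot.comp (tendsto_neg_atTop_atBot.comp tendsto_natCast_atTop_atTop)
    exact (h1.eventually (gt_mem_nhds hε'0)).mono fun _ hx => hx.le
  have e1 : ∀ᶠ m : ℕ in atTop, 1 / ℓ ≤ m := tendsto_natCast_atTop_atTop.eventually_ge_atTop _
  have e2 : ∀ᶠ m : ℕ in atTop, 4 * C₁ / ε ≤ m := tendsto_natCast_atTop_atTop.eventually_ge_atTop _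
  filter_upwards [base, total_gain h hδ0 hε'0, hexp, e1, e2, eventually_gt_atTop 0] with
    m hb hg hx h1 h2 hm0
  have hm : (0:ℝ) < m := by exact_mod_cast hm0
  have hb1 := hb (χ + δ) (by positivity) le_rfl
  have hN0 : 0 ≤ (χ + δ) * m := by positivity
  rw [div_le_iff₀ hℓ0] at h1
  have hL1 : 1 ≤ ℓ * m := by linarith
  have hL0 : 0 < ℓ * m := by linarith
  have hs0 : 0 < η * m := by positivity
  have hg1 := hg ((χ + δ) * m + ℓ * m + m)
  have hgain := hT.gain m ((χ + δ) * m) (ℓ * m) ((χ + δ) * m + ℓ * m + m) (η * m) hN0 hL1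
    (by linarith) (by
      have e : (χ + δ) * m + ℓ * m + m - (χ + δ) * m - ℓ * m = m := by ring
      rw [e]
      have h5 : (m:ℝ) * Real.exp (-(m:ℝ)) ≤ m * ε' := mul_le_mul_of_nonneg_left hx hm.le
      have h6 : C₁ * ((∫ x in ((χ + δ) * m)..((χ + δ) * m + ℓ * m + m), Gm H p l a m x) +
          m * Real.exp (-(m:ℝ))) ≤ C₁ * (ε' * m + m * ε') :=
        mul_le_mul_of_nonneg_left (by linarith) hC₁
      have h7 : C₁ * ε' * m ≤ η / 2 * m := mul_le_mul_of_nonneg_right hC1ε hm.le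
      nlinarith) hs0 (mul_le_mul_of_nonneg_right hηℓ hm.le)
  rw [mul_phi_div hs0 hL0] at hgain
  have e : ℓ * m / (η * m) = ℓ / η := by field_simp
  rw [e] at hgain
  have e3 : (χ + δ) * m + ℓ * m = q * m := by rw [hℓ]; ring
  rw [e3] at hgain
  rw [div_le_iff₀ hε] at h2
  have h8 : η * m * (1 + Real.log 2 + Real.log (ℓ / η)) ≤ ε / 4 * m := by
    have : η * m * (1 + Real.log 2 + Real.log (ℓ / η)) =
        (η * (1 + Real.log 2 + Real.log (ℓ / η))) * m := by ring
    rw [this]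
    exact mul_le_mul_of_nonneg_right hη hm.le
  nlinarith

/-- the one letter gain is integrable: bounded integrals -/
theorem integral_G1_le (h : Env H p l a D C) :
    ∃ K, ∀ M, ∫ x in (1:ℝ)..M, Gf H p l a x ≤ K := by
  refine ⟨a * D * ∑ i, p i * l i - Ff H p l a 1, fun M => ?_⟩
  rw [integral_Gf h.hH]
  have := Ff_le h.hH h.hH0 h.hD h.hup h.hp h.hp1 h.hl h.ha h.hG M
  linarith

/-- dyadic blocks of the one letter gain -/
noncomputable def bk (H : ℝ → ℝ) (p l : ι → ℝ) (a : ℝ) (k : ℕ) : ℝ :=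
  ∫ x in (2:ℝ)^k..(2:ℝ)^(k+1), Gf H p l a x

lemma bk_nonneg (h : Env H p l a D C) (k : ℕ) : 0 ≤ bk H p l a k := by
  refine intervalIntegral.integral_nonneg ?_ fun x _ => h.hG x
  exact pow_le_pow_right₀ (by norm_num) (by omega)

lemma sum_bk (h : Env H p l a D C) (i W : ℕ) :
    ∑ k ∈ Finset.Ico i (i + W), bk H p l a k = ∫ x in (2:ℝ)^i..(2:ℝ)^(i+W), Gf H p l a x := by
  induction W with
  | zero => simp
  | succ W ih =>
    have e : i + (W + 1) = i + W + 1 := by ring
    rw [e, Finset.sum_Ico_succ_top (by omega), ih]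
    unfold bk
    exact intervalIntegral.integral_add_adjacent_intervals (Gf_intervalIntegrable h.hH _ _ _)
      (Gf_intervalIntegrable h.hH _ _ _)

lemma summable_bk (h : Env H p l a D C) : Summable (bk H p l a) := by
  obtain ⟨K, hK⟩ := integral_G1_le h
  refine summable_of_sum_range_le (c := K) (fun k => bk_nonneg h k) fun n => ?_
  have h1 := sum_bk h 0 n
  simp only [zero_add, pow_zero] at h1
  rw [Finset.range_eq_Ico, h1]
  exact hK _

set_option maxHeartbeats 1000000 in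
/-- **near coincidences at scale `m (log m)^B`** for infinitely many `m` -/
theorem near_coincidences (h : Env H p l a D C) (hT : T1Out H p l a E C₁) (B : ℕ) {ε : ℝ}
    (hε : 0 < ε) :
    ∃ᶠ m : ℕ in atTop, E m (m * Real.log m ^ (B+1)) ≤ (D * (∑ i, p i * l i) + ε) * m := by
  set χ : ℝ := ∑ i, p i * l i with hχ
  have hχ0 : 0 ≤ χ := Finset.sum_nonneg fun i _ => mul_nonneg (h.hp i) (h.hl i)
  have hD := h.hD
  have hC₁ := hT.hC
  have hne : Nonempty ι := by
    rcases isEmpty_or_nonempty ι with hι | hι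
    · exfalso; have := h.hp1; simp at this
    · exact hι
  -- maximal length
  obtain ⟨lmax, hlmax⟩ : ∃ lmax, ∀ i, l i ≤ lmax :=
    ⟨univ.sup' univ_nonempty l, fun i => Finset.le_sup' l (mem_univ i)⟩
  have hlm0 : 0 ≤ lmax := by
    obtain ⟨i⟩ := hne
    exact (h.hl i).trans (hlmax i)
  obtain ⟨c0, hc0⟩ : ∃ c0 : ℕ, 2 * lmax + 2 ≤ (2:ℝ)^c0 := by
    obtain ⟨n, hn⟩ := pow_unbounded_of_one_lt (2 * lmax + 2) (one_lt_two)
    exact ⟨n, hn.le⟩
  have hc01 : 1 ≤ c0 := by
    rcases Nat.eq_zero_or_pos c0 with h0 | h0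
    · subst h0; simp at hc0; linarith
    · exact h0
  set ε₁ : ℝ := ε / (8 * (C₁ + 1) * (B + 3)) with hε₁
  have hε₁0 : 0 < ε₁ := by positivity
  -- window length as a function of the starting index
  set W : ℕ → ℕ := fun i => ⌈((B+1 : ℕ) : ℝ) * Real.log i / Real.log 2⌉₊ + 3 with hW
  have hlog2 : 0 < Real.log 2 := Real.log_pos (by norm_num)
  have hWle : ∀ i : ℕ, 1 ≤ i → (W i : ℝ) ≤ (((B+1 : ℕ) : ℝ) / Real.log 2 + 4) * (1 + Real.log i) := by
    intro i hi
    have hli : 0 ≤ Real.log i := Real.log_nonneg (by exact_mod_cast hi)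
    have h1 : (⌈((B+1 : ℕ) : ℝ) * Real.log i / Real.log 2⌉₊ : ℝ) <
        ((B+1 : ℕ) : ℝ) * Real.log i / Real.log 2 + 1 := Nat.ceil_lt_add_one (by positivity)
    have h2 : (W i : ℝ) = (⌈((B+1 : ℕ) : ℝ) * Real.log i / Real.log 2⌉₊ : ℝ) + 3 := by
      rw [hW]; push_cast; ring
    rw [h2]
    have h3 : ((B+1 : ℕ) : ℝ) * Real.log i / Real.log 2 = ((B+1 : ℕ) : ℝ) / Real.log 2 * Real.log i := by
      ring
    rw [h3] at h1 ⊢
    have h4 : 0 ≤ ((B+1 : ℕ) : ℝ) / Real.log 2 := by positivity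
    nlinarith
  have hfreq := exists_small_window (fun k => bk_nonneg h k) (summable_bk h) hWle hε₁0
  -- eventual conditions in terms of the index i (window start), m = 2^(i+1-c0)
  have hmul : Tendsto (fun i : ℕ => 2 ^ (i + 1 - c0)) atTop (atTop : Filter ℕ) := by
    have h1 : Tendsto (fun i : ℕ => i + 1 - c0) atTop atTop :=
      tendsto_atTop_atTop.2 fun b => ⟨b + c0, fun i hi => by omega⟩
    exact (tendsto_pow_atTop_atTop_of_one_lt (by norm_num : 1 < 2)).comp h1
  have hcol := hmul.eventually (collapse h hT (q := (2:ℝ)^c0) (ε := ε / 4) (by positivity)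
    (by positivity))
  have E1 : ∀ᶠ i : ℕ in atTop, 4 * C₁ / ε ≤ ((2 ^ (i + 1 - c0) : ℕ) : ℝ) :=
    (tendsto_natCast_atTop_atTop.comp hmul).eventually_ge_atTop _
  -- log m large
  have hlogm : Tendsto (fun i : ℕ => Real.log ((2 ^ (i + 1 - c0) : ℕ) : ℝ)) atTop atTop :=
    Real.tendsto_log_atTop.comp (tendsto_natCast_atTop_atTop.comp hmul)
  have E2 : ∀ᶠ i : ℕ in atTop, (2:ℝ)^c0 + 1 ≤ Real.log ((2 ^ (i + 1 - c0) : ℕ) : ℝ) :=
    hlogm.eventually_ge_atTop _
  have hlogi : Tendsto (fun i : ℕ => Real.log (i : ℝ)) atTop atTop :=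
    Real.tendsto_log_atTop.comp tendsto_natCast_atTop_atTop
  set K0 : ℝ := 1 + Real.log 2 + |Real.log (2 * (C₁ + 1) * ε₁)| with hK0
  have E3 : ∀ᶠ i : ℕ in atTop, K0 + 2 * (C₁ + 1) * ε₁ + 1 ≤ Real.log (i : ℝ) :=
    hlogi.eventually_ge_atTop _
  have E4 : ∀ᶠ i : ℕ in atTop, 1 / ε₁ ≤ (i : ℝ) := tendsto_natCast_atTop_atTop.eventually_ge_atTop _
  refine hmul.frequently (p := fun m : ℕ => E m (m * Real.log m ^ (B+1)) ≤ (D * χ + ε) * m) ?_
  refine (hfreq.and_eventually (hcol.and (E1.and (E2.and (E3.and (E4.and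
    (eventually_ge_atTop (2 * c0 + 4)))))))).mono ?_
  rintro i ⟨hwin, hcoll, h1, h2, h3, h4, hi⟩
  set m : ℕ := 2 ^ (i + 1 - c0) with hm
  set lm : ℝ := Real.log (m : ℝ) with hlm
  have hmpos : (0:ℝ) < m := by rw [hm]; positivity
  have hm1 : (1:ℝ) ≤ m := by
    rw [hm]; push_cast; exact one_le_pow₀ (by norm_num)
  have hmpow : (m : ℝ) * (2:ℝ)^c0 = 2 ^ (i+1) := by
    rw [hm]; push_cast
    rw [← pow_add]
    congr 1; omega
  have hi0 : (0:ℝ) < i := by
    have : 0 < i := by omega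
    exact_mod_cast this
  have hlogi0 : 1 ≤ Real.log i := by
    have h5 : 0 ≤ K0 := by positivity
    have h6 : 0 ≤ 2 * (C₁ + 1) * ε₁ := by positivity
    linarith
  have hlm0' : (2:ℝ)^c0 + 1 ≤ lm := h2
  have h2c0 : (1:ℝ) ≤ (2:ℝ)^c0 := one_le_pow₀ (by norm_num)
  have hlm1 : 1 ≤ lm := by linarith
  have hlmi : lm ≤ i := by
    have e : lm = ((i + 1 - c0 : ℕ) : ℝ) * Real.log 2 := by
      rw [hlm, hm]; push_cast; rw [Real.log_pow]
    rw [e]
    have h5 : ((i + 1 - c0 : ℕ) : ℝ) ≤ i := by exact_mod_cast (by omega : i + 1 - c0 ≤ i)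
    have h6 : Real.log 2 ≤ 1 := by
      have := Real.log_two_lt_d9; linarith
    have h7 : (0:ℝ) ≤ ((i + 1 - c0 : ℕ) : ℝ) := Nat.cast_nonneg _
    nlinarith
  have hpow1 : lm ≤ lm ^ (B+1) := le_self_pow₀ hlm1 (by omega)
  -- scales
  set N : ℝ := (2:ℝ)^c0 * m with hN
  set x : ℝ := m * lm ^ (B+1) with hx
  set L : ℝ := x - N with hL
  have hNL : N + L = x := by rw [hL]; ring
  have hLm : (m:ℝ) ≤ L := by
    rw [hL, hx, hN]
    nlinarith
  have hL1 : 1 ≤ L := hm1.trans hLm
  have hL0 : 0 < L := by linarith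
  have hN0 : 0 ≤ N := by positivity
  have hx0 : 0 < x := by positivity
  -- the gain
  have hNi : N = 2 ^ (i+1) := by rw [hN, mul_comm]; exact hmpow
  have hup : 2 * x ≤ (2:ℝ) ^ (i + W i) := by
    have h5 : lm ^ (B+1) ≤ (i:ℝ) ^ (B+1) := pow_le_pow_left₀ (by linarith) hlmi _
    have h6 : (i:ℝ) ^ (B+1) ≤ (2:ℝ) ^ (⌈((B+1 : ℕ) : ℝ) * Real.log i / Real.log 2⌉₊) := by
      have h7 : (i:ℝ)^(B+1) = (2:ℝ) ^ (((B+1 : ℕ) : ℝ) * Real.log i / Real.log 2) := by
        rw [← Real.rpow_natCast, Real.rpow_def_of_pos hi0, Real.rpow_def_of_pos (by norm_num)]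
        congr 1
        field_simp
      rw [h7, ← Real.rpow_natCast (2:ℝ)]
      exact Real.rpow_le_rpow_of_exponent_le (by norm_num) (Nat.le_ceil _)
    have h8 : (m:ℝ) ≤ 2 ^ (i+1) := by
      have : (m:ℝ) * 1 ≤ m * (2:ℝ)^c0 := mul_le_mul_of_nonneg_left h2c0 hmpos.le
      linarith
    calc 2 * x = 2 * (m * lm^(B+1)) := by rw [hx]
      _ ≤ 2 * (2^(i+1) * (2:ℝ) ^ (⌈((B+1 : ℕ) : ℝ) * Real.log i / Real.log 2⌉₊)) := by
          have h9 : 0 ≤ lm ^ (B+1) := by positivity
          have : m * lm^(B+1) ≤ 2^(i+1) * (2:ℝ) ^ (⌈((B+1 : ℕ) : ℝ) * Real.log i / Real.log 2⌉₊) :=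
            mul_le_mul h8 (h5.trans h6) h9 (by positivity)
          linarith
      _ = (2:ℝ) ^ (i + 1 + ⌈((B+1 : ℕ) : ℝ) * Real.log i / Real.log 2⌉₊ + 1) := by
          rw [pow_succ, pow_add]; ring
      _ ≤ (2:ℝ) ^ (i + W i) := by
          refine pow_le_pow_right₀ (by norm_num) ?_
          simp only [hW]; omega
  have hgainI : ∫ y in N..(2 * x), Gm H p l a m y ≤ m * (ε₁ / Real.log i) := by
    have h5 := integral_Gf_words_le (m := m) h.hH h.hp h.hp1 h.hl hlmax h.hG
      (N' := (2:ℝ)^i) (N := N) (M := 2 * x) (by linarith) (by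
        rw [hNi, pow_succ]
        have h6 : (m:ℝ) * (2 * lmax) ≤ 2 * 2 ^ i := by
          have : (m:ℝ) * (2 * lmax) ≤ m * (2:ℝ)^c0 :=
            mul_le_mul_of_nonneg_left (by linarith) hmpos.le
          rw [hmpow, pow_succ] at this
          linarith
        nlinarith)
    refine h5.trans ?_
    refine mul_le_mul_of_nonneg_left ?_ hmpos.le
    have h6 := sum_bk h i (W i)
    have h7 : ∫ y in (2:ℝ)^i..(2 * x), Gf H p l a y ≤ ∫ y in (2:ℝ)^i..(2:ℝ)^(i + W i), Gf H p l a y := by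
      refine intervalIntegral.integral_mono_interval le_rfl ?_ hup
        (Filter.Eventually.of_forall fun y => h.hG y) (Gf_intervalIntegrable h.hH _ _ _)
      have : (2:ℝ)^i ≤ 2^(i+1) := pow_le_pow_right₀ (by norm_num) (by omega)
      linarith
    linarith
  -- the parameter s
  set s : ℝ := 2 * (C₁ + 1) * (m * (ε₁ / Real.log i)) with hs
  have hs0 : 0 < s := by positivity
  have hsL : s ≤ L := by
    refine le_trans ?_ hLm
    rw [hs]
    have h5 : 2 * (C₁ + 1) * (ε₁ / Real.log i) ≤ 1 := by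
      rw [← mul_div_assoc, div_le_one (by linarith)]
      have : 0 ≤ K0 := by positivity
      linarith
    nlinarith
  have hexpx : Real.exp (-(2 * x - N - L)) ≤ ε₁ / Real.log i := by
    have e : 2 * x - N - L = x := by rw [hL]; ring
    rw [e]
    -- exp(-x) ≤ 1/x ≤ 1/i^2 ...
    have h5 : (i:ℝ) * i ≤ x := by
      -- x ≥ m ≥ i^2? use x ≥ m * lm and crude bounds
      have h6 : (i:ℝ) + 1 ≤ 2 ^ i := by
        have := Nat.lt_two_pow_self (n := i)
        exact_mod_cast this
      have h7 : x ≥ m * lm := by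
        rw [hx]; exact mul_le_mul_of_nonneg_left hpow1 hmpos.le
      have h8 : (m:ℝ) * lm ≥ m * (2:ℝ)^c0 := mul_le_mul_of_nonneg_left (by linarith) hmpos.le
      have h9 : (m:ℝ) * (2:ℝ)^c0 = 2 ^ (i+1) := hmpow
      have h10 : (i:ℝ)^2 ≤ 2 ^ (i+1) := by
        have : i ^ 2 ≤ 2 ^ (i+1) := by
          clear * -
          induction i with
          | zero => simp
          | succ n ih =>
            rcases Nat.lt_or_ge n 3 with hn | hn
            · interval_cases n <;> norm_num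
            · have : (n+1)^2 ≤ 2 * n^2 := by nlinarith
              calc (n+1)^2 ≤ 2 * n^2 := this
                _ ≤ 2 * 2^(n+1) := by omega
                _ = 2^(n+1+1) := by ring
        exact_mod_cast this
      nlinarith
    have h6 : Real.exp (-x) ≤ 1 / x := by
      rw [Real.exp_neg, ← one_div]
      exact one_div_le_one_div_of_le hx0 ((Real.add_one_le_exp x).trans' (by linarith))
    refine h6.trans ?_
    have h7 : Real.log i ≤ i := (Real.log_le_sub_one_of_pos hi0).trans (by linarith)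
    rw [div_le_div_iff₀ hx0 (by linarith)]
    have h8 : 1 ≤ ε₁ * i := by
      rw [div_le_iff₀ hε₁0] at h4
      linarith
    have h9 : (i:ℝ) ≤ ε₁ * (i * i) := by nlinarith
    have h10 : ε₁ * (i * i) ≤ ε₁ * x := mul_le_mul_of_nonneg_left h5 hε₁0.le
    linarith
  have hgain := hT.gain m N L (2 * x) s hN0 hL1 (by linarith) (by
      rw [hs]
      have h5 : (m:ℝ) * Real.exp (-(2 * x - N - L)) ≤ m * (ε₁ / Real.log i) :=
        mul_le_mul_of_nonneg_left hexpx hmpos.le
      have h6 : 0 ≤ (m:ℝ) * (ε₁ / Real.log i) := by positivity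
      have h7 : C₁ * ((∫ x in N..(2 * x), Gm H p l a m x) + m * Real.exp (-(2 * x - N - L))) ≤
          C₁ * (m * (ε₁ / Real.log i) + m * (ε₁ / Real.log i)) :=
        mul_le_mul_of_nonneg_left (by linarith) hC₁
      nlinarith) hs0 hsL
  rw [mul_phi_div hs0 hL0, hNL] at hgain
  -- bound of the loss
  have hlogLs : Real.log (L / s) ≤ (B + 2) * Real.log i + |Real.log (2 * (C₁ + 1) * ε₁)| := by
    have h5 : L / s ≤ (i:ℝ)^(B+2) * (2 * (C₁ + 1) * ε₁)⁻¹ := by
      have h6 : L ≤ m * (i:ℝ)^(B+1) := by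
        have h7 : lm ^ (B+1) ≤ (i:ℝ) ^ (B+1) := pow_le_pow_left₀ (by linarith) hlmi _
        have h8 : L ≤ x := by linarith
        exact h8.trans (mul_le_mul_of_nonneg_left h7 hmpos.le)
      have h9 : L / s ≤ m * (i:ℝ)^(B+1) / s := div_le_div_of_nonneg_right h6 hs0.le
      refine h9.trans ?_
      have h10 : m * (i:ℝ)^(B+1) / s = (i:ℝ)^(B+1) * Real.log i * (2 * (C₁ + 1) * ε₁)⁻¹ := by
        rw [hs]; field_simp
      rw [h10]
      refine mul_le_mul_of_nonneg_right ?_ (by positivity)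
      rw [pow_succ (i:ℝ) (B+1)]
      refine mul_le_mul_of_nonneg_left ?_ (by positivity)
      exact (Real.log_le_sub_one_of_pos hi0).trans (by linarith)
    have h6 : 0 < L / s := by positivity
    refine (Real.log_le_log h6 h5).trans ?_
    rw [Real.log_mul (by positivity) (by positivity), Real.log_pow, Real.log_inv]
    have h7 := neg_abs_le (Real.log (2 * (C₁ + 1) * ε₁))
    push_cast
    linarith
  have hloss : s * (1 + Real.log 2 + Real.log (L / s)) ≤ ε / 4 * m := by
    have h5 : 1 + Real.log 2 + Real.log (L / s) ≤ (B + 3) * Real.log i := by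
      have h6 : 0 ≤ 2 * (C₁ + 1) * ε₁ := by positivity
      have h7 : K0 ≤ Real.log i := by linarith
      rw [hK0] at h7
      linarith
    have h6 : s * (1 + Real.log 2 + Real.log (L / s)) ≤ s * ((B + 3) * Real.log i) :=
      mul_le_mul_of_nonneg_left h5 hs0.le
    refine h6.trans (le_of_eq ?_)
    rw [hs, hε₁]
    have hli : Real.log (i:ℝ) ≠ 0 := by linarith
    field_simp
    ring
  have hE : E m x ≤ E m N + ε / 4 * m + C₁ := by linarith
  have hC1m : C₁ ≤ ε / 4 * m := by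
    rw [div_le_iff₀ hε] at h1
    linarith
  have hcoll' : E m N ≤ (D * χ + ε / 4) * m := hcoll
  have hfin : E m x ≤ (D * χ + ε) * m := by nlinarith
  exact hfin

end Main

end Crest.Agent.R98.NC
end

-- ▼ part R98/NCAvg
section

/-!
Row 98 (S0129). Module NCASM, part (d): T1 averaged over the scales. (helper136)
-/

set_option autoImplicit false

namespace Crest.Agent.R98.NC

open Filter Real Finset MeasureTheory intervalIntegral
open Crest.Agent.R098.Upper Crest.Agent.R98
open scoped Topology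

lemma geom_tail (i0 I : ℕ) :
    ∑ i ∈ range I, (if i0 ≤ i then (1/2 : ℝ)^i else 0) ≤ 2 * (1/2)^i0 := by
  have key : ∑ i ∈ range I, (if i0 ≤ i then (1/2 : ℝ)^i else 0) =
      if I ≤ i0 then 0 else 2 * (1/2)^i0 - 2 * (1/2)^I := by
    induction I with
    | zero => simp
    | succ I ih =>
      rw [Finset.sum_range_succ, ih]
      rcases lt_trichotomy I i0 with h | h | h
      · rw [if_pos h.le, if_neg (by omega), if_pos (by omega)]; simp
      · subst h
        rw [if_pos le_rfl, if_pos le_rfl, if_neg (by omega), pow_succ]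
        ring
      · rw [if_neg (by omega), if_pos h.le, if_neg (by omega), pow_succ]
        ring
  rw [key]
  split_ifs
  · positivity
  · have : (0:ℝ) ≤ 2 * (1/2)^I := by positivity
    linarith

lemma bsuppDZ : BSupp (Measure.dirac (0:ℝ)) := by
  refine ⟨0, ?_⟩
  rw [Measure.dirac_apply' _ measurableSet_Icc.compl]
  simp

section avg

variable {Ω 𝒯 : Type*} [Fintype Ω] [Fintype 𝒯] {P : Ω → ℝ} (ty : Ω → 𝒯)

omit [Fintype 𝒯] in
lemma isProb_law (hP : ∀ ω, 0 ≤ P ω) (hP1 : ∑ ω, P ω = 1) (b : Ω → ℝ) (τ : 𝒯) :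
    IsProbabilityMeasure (addLaw (TOne.cond P ty τ) b (Measure.dirac (0:ℝ))) :=
  isProbabilityMeasure_addLaw (TOne.cond_nonneg ty hP τ) (TOne.cond_sum ty hP1 τ) b _

lemma HBar_anti (hP : ∀ ω, 0 ≤ P ω) (hP1 : ∑ ω, P ω = 1) (b : Ω → ℝ) {d d' : ℝ} (hd : 0 < d)
    (hdd : d ≤ d') : TOne.HBar P ty b d' ≤ TOne.HBar P ty b d := by
  unfold TOne.HBar
  refine Finset.sum_le_sum fun τ _ => mul_le_mul_of_nonneg_left ?_ (TOne.fib_nonneg ty hP τ)
  have := isProb_law ty hP hP1 b τ
  exact Hs_anti ((bsuppDZ).addLaw _ _) hd hdd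

lemma HBar_le_log (hP : ∀ ω, 0 ≤ P ω) (hP1 : ∑ ω, P ω = 1) (b : Ω → ℝ) {d d' : ℝ} (hd : 0 < d)
    (hdd : d ≤ d') : TOne.HBar P ty b d ≤ TOne.HBar P ty b d' + (log (d' / d) + log 2) := by
  unfold TOne.HBar
  calc ∑ τ, TOne.fib P ty τ * Hs (addLaw (TOne.cond P ty τ) b (Measure.dirac 0)) d
      ≤ ∑ τ, TOne.fib P ty τ * (Hs (addLaw (TOne.cond P ty τ) b (Measure.dirac 0)) d' +
          (log (d' / d) + log 2)) := by
        refine Finset.sum_le_sum fun τ _ => mul_le_mul_of_nonneg_left ?_ (TOne.fib_nonneg ty hP τ)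
        have := isProb_law ty hP hP1 b τ
        exact Hs_le_log ((bsuppDZ).addLaw _ _) hd hdd
    _ = _ := by
        simp only [mul_add, Finset.sum_add_distrib]
        rw [← Finset.sum_mul, ← Finset.sum_mul, TOne.fib_sum ty hP1, one_mul, one_mul]

/-- `Gm` of TOneD as a window gain `Gf` -/
lemma Gm_eq_Gf {μ : Measure ℝ} {R : Ω → ℝ} (hR : ∀ ω, R ω ≠ 0) {n : ℕ} (hn : 0 < n) (x : ℝ) :
    TOne.Gm P R μ n (exp (-x)) =
      Gf (fun x => Hs μ (exp (-x))) P (fun ω => -log |R ω|) (log n) x := by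
  have hn' : (0:ℝ) < n := by exact_mod_cast hn
  rw [Gf_eq]
  unfold TOne.Gm TOne.W
  have h1 : ∀ y : ℝ, (n:ℝ) * exp (-y) = exp (-(y - log n)) := by
    intro y
    rw [neg_sub, sub_eq_add_neg, exp_add, exp_log hn']
  have h2 : ∀ ω, exp (-x) / |R ω| = exp (-(x - -log |R ω|)) := by
    intro ω
    have e : -(x - -log |R ω|) = -x - log |R ω| := by ring
    rw [e, exp_sub, exp_log (abs_pos.2 (hR ω))]
  simp only [h2, h1]

variable {μ : Measure ℝ} [IsProbabilityMeasure μ] {ρ : 𝒯 → ℝ} {b : Ω → ℝ}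

lemma tsum_gain_le (hP : ∀ ω, 0 ≤ P ω) (hP1 : ∑ ω, P ω = 1) (hμ : BSupp μ)
    (hρ : ∀ τ, ρ τ ≠ 0) (hself : μ = mix P fun ω => μ.map fun x => ρ (ty ω) * x + b ω)
    {n : ℕ} (hn : 0 < n) {c : ℝ} (hc : 0 < c) {d : ℝ} (hd : 0 < d) (I : ℕ) :
    ∑' i : ℕ, (2 / c) * ((1 / 2) ^ i * TOne.Gm P (fun ω => ρ (ty ω)) μ n ((1 / 2) ^ i * d)) ≤
      (2 / c) * (∑ i ∈ range I, (1 / 2) ^ i * TOne.Gm P (fun ω => ρ (ty ω)) μ n ((1 / 2) ^ i * d) +
        2 * (1 / 2) ^ I * log n) := by
  have hs := TOne.summable_Gm ty hP hP1 hμ hρ hself hn c hd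
  rw [← hs.sum_add_tsum_nat_add I, mul_add, Finset.mul_sum]
  have hle : ∀ i : ℕ, (2 / c) * ((1 / 2) ^ (i + I) *
      TOne.Gm P (fun ω => ρ (ty ω)) μ n ((1 / 2) ^ (i + I) * d)) ≤
      ((2 / c) * (1 / 2) ^ I * log n) * (1 / 2) ^ i := by
    intro i
    have h1 := TOne.Gm_le (μ := μ) hP hμ (R := fun ω => ρ (ty ω)) (fun ω => hρ (ty ω)) hn
      (r := (1 / 2) ^ (i + I) * d) (by positivity)
    have h2 : (2 / c) * ((1 / 2) ^ (i + I) *
        TOne.Gm P (fun ω => ρ (ty ω)) μ n ((1 / 2) ^ (i + I) * d)) ≤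
        (2 / c) * ((1 / 2) ^ (i + I) * log n) := by
      refine mul_le_mul_of_nonneg_left ?_ (by positivity)
      exact mul_le_mul_of_nonneg_left h1 (by positivity)
    refine h2.trans (le_of_eq ?_)
    rw [pow_add]; ring
  have h3 : ∑' i : ℕ, (2 / c) * ((1 / 2) ^ (i + I) *
      TOne.Gm P (fun ω => ρ (ty ω)) μ n ((1 / 2) ^ (i + I) * d)) ≤
      ∑' i : ℕ, ((2 / c) * (1 / 2) ^ I * log n) * (1 / 2) ^ i :=
    Summable.tsum_le_tsum hle ((summable_nat_add_iff I).2 hs)
      (summable_geometric_two.mul_left _)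
  have h5 : ∑' i : ℕ, ((2 / c) * (1 / 2) ^ I * log n) * (1 / 2 : ℝ) ^ i =
      (2 / c) * (2 * (1 / 2) ^ I * log n) := by
    rw [tsum_mul_left, tsum_geometric_two]; ring
  rw [h5] at h3
  linarith

/-- monotone `H` -/
lemma H_mono {ν : Measure ℝ} [IsProbabilityMeasure ν] (hν : BSupp ν) :
    Monotone fun x : ℝ => Hs ν (exp (-x)) := by
  intro x y hxy
  exact Hs_anti hν (exp_pos _) (exp_le_exp.2 (neg_le_neg hxy))

/-- T1 averaged over a scale range -/
theorem avg_gain (hP : ∀ ω, 0 ≤ P ω) (hP1 : ∑ ω, P ω = 1) (hμ : BSupp μ)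
    (hρ : ∀ τ, ρ τ ≠ 0) (hself : μ = mix P fun ω => μ.map fun x => ρ (ty ω) * x + b ω)
    {n : ℕ} (hn : 0 < n) {c : ℝ} (hc : 0 < c) (hmac : ∀ r, 0 < r → TOne.Macro μ n r c)
    {t : ℝ} (ht : 0 < t) (ht2 : t ≤ 2) {N L : ℝ} (hL : 0 ≤ L) (I : ℕ) :
    log 2 * (TOne.HBar P ty b (exp (-(N + L))) - TOne.HBar P ty b (exp (-N))) ≤
      t * L + log (2 / t) * ((2 / c) * ((∑ i ∈ range I, (1 / 2) ^ i *
        ∫ x in (N + i * log 2)..(N + L + i * log 2),
          Gf (fun x => Hs μ (exp (-x))) P (fun ω => -log |ρ (ty ω)|) (log n) x) +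
        2 * (1 / 2) ^ I * log n * L)) + 2 * log 2 * log 2 := by
  have hlog2 : 0 < log 2 := Real.log_pos (by norm_num)
  set E : ℝ → ℝ := fun x => TOne.HBar P ty b (exp (-x)) with hE
  set H : ℝ → ℝ := fun x => Hs μ (exp (-x)) with hH
  set l : Ω → ℝ := fun ω => -log |ρ (ty ω)| with hl
  set G : ℝ → ℝ := Gf H P l (log n) with hG
  have hEmono : Monotone E := by
    intro x y hxy
    exact HBar_anti ty hP hP1 b (exp_pos _) (exp_le_exp.2 (neg_le_neg hxy))
  have hEint : ∀ u v, IntervalIntegrable E volume u v := fun u v => hEmono.intervalIntegrable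
  have hHint : ∀ u v, IntervalIntegrable H volume u v := fun u v => (H_mono hμ).intervalIntegrable
  have hGint : ∀ u v, IntervalIntegrable G volume u v :=
    fun u v => Gf_intervalIntegrable hHint _ u v
  have hGsh : ∀ (e : ℝ) u v, IntervalIntegrable (fun x => G (x + e)) volume u v := by
    intro e u v
    have := (hGint (u + e) (v + e)).comp_add_right e
    simpa using this
  have hlog2t : 0 ≤ log (2 / t) := log_nonneg ((one_le_div ht).2 ht2)
  -- pointwise
  have hpt : ∀ x, E x - E (x - log 2) ≤ t + log (2 / t) * ((2 / c) *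
      (∑ i ∈ range I, (1 / 2) ^ i * G (x + i * log 2) + 2 * (1 / 2) ^ I * log n)) := by
    intro x
    have e1 : E (x - log 2) = TOne.HBar P ty b (2 * exp (-x)) := by
      rw [hE]
      simp only
      congr 1
      rw [neg_sub, sub_eq_add_neg, exp_add, exp_log (by norm_num)]
    rw [e1]
    have h1 := TOne.HBar_sub_le (b := b) ty hP hP1 (d := exp (-x)) (exp_pos _) ht ht2
    have h2 := TOne.sigBar_le ty hP hP1 hμ hρ hself hn hc hmac (d := exp (-x)) (exp_pos _)
    have h3 := tsum_gain_le ty hP hP1 hμ hρ hself hn hc (d := exp (-x)) (exp_pos _) I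
    have h4 : ∀ i : ℕ, TOne.Gm P (fun ω => ρ (ty ω)) μ n ((1 / 2) ^ i * exp (-x)) =
        G (x + i * log 2) := by
      intro i
      have e2 : (1 / 2 : ℝ) ^ i * exp (-x) = exp (-(x + i * log 2)) := by
        rw [neg_add, exp_add, mul_comm]
        congr 1
        rw [← Real.log_pow, exp_neg, exp_log (by positivity), one_div, inv_pow]
      rw [e2, Gm_eq_Gf (fun ω => hρ (ty ω)) hn]
    simp only [h4] at h2 h3
    have h5 := mul_le_mul_of_nonneg_left (h2.trans h3) hlog2t
    linarith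
  -- integrate
  have hI1 : ∫ x in N..(N + L), (E x - E (x - log 2)) =
      (∫ x in (N + L - log 2)..(N + L), E x) - ∫ x in (N - log 2)..N, E x := by
    have h1 : IntervalIntegrable (fun x => E (x - log 2)) volume N (N + L) := by
      have := (hEint (N - log 2) (N + L - log 2)).comp_sub_right (log 2)
      simpa using this
    rw [intervalIntegral.integral_sub (hEint _ _) h1,
      intervalIntegral.integral_comp_sub_right E (log 2)]
    have e1 := intervalIntegral.integral_add_adjacent_intervals (hEint N (N + L - log 2))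
      (hEint (N + L - log 2) (N + L))
    have e2 := intervalIntegral.integral_add_adjacent_intervals (hEint (N - log 2) N)
      (hEint N (N + L - log 2))
    linarith
  have hI2 : log 2 * E (N + L - log 2) ≤ ∫ x in (N + L - log 2)..(N + L), E x := by
    have h1 : ∫ x in (N + L - log 2)..(N + L), E (N + L - log 2) ≤
        ∫ x in (N + L - log 2)..(N + L), E x :=
      intervalIntegral.integral_mono_on (by linarith) intervalIntegrable_const (hEint _ _)
        fun x hx => hEmono hx.1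
    rw [intervalIntegral.integral_const, smul_eq_mul] at h1
    have e : N + L - (N + L - log 2) = log 2 := by ring
    rwa [e] at h1
  have hI3 : ∫ x in (N - log 2)..N, E x ≤ log 2 * E N := by
    have h1 : ∫ x in (N - log 2)..N, E x ≤ ∫ x in (N - log 2)..N, E N :=
      intervalIntegral.integral_mono_on (by linarith) (hEint _ _) intervalIntegrable_const
        fun x hx => hEmono hx.2
    rw [intervalIntegral.integral_const, smul_eq_mul] at h1
    have e : N - (N - log 2) = log 2 := by ring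
    rwa [e] at h1
  have hI4 : E (N + L) ≤ E (N + L - log 2) + 2 * log 2 := by
    have h1 := HBar_le_log ty hP hP1 b (d := exp (-(N + L))) (d' := exp (-(N + L - log 2)))
      (exp_pos _) (exp_le_exp.2 (by linarith))
    rw [← exp_sub, log_exp] at h1
    have e : -(N + L - log 2) - -(N + L) + log 2 = 2 * log 2 := by ring
    rw [e] at h1
    exact h1
  have hI5 : ∫ x in N..(N + L), (E x - E (x - log 2)) ≤
      ∫ x in N..(N + L), (t + log (2 / t) * ((2 / c) *
        (∑ i ∈ range I, (1 / 2) ^ i * G (x + i * log 2) + 2 * (1 / 2) ^ I * log n))) := by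
    refine intervalIntegral.integral_mono_on (by linarith) ?_ ?_ fun x _ => hpt x
    · refine (hEint _ _).sub ?_
      have := (hEint (N - log 2) (N + L - log 2)).comp_sub_right (log 2)
      simpa using this
    · refine intervalIntegrable_const.add (IntervalIntegrable.const_mul
        (IntervalIntegrable.const_mul (IntervalIntegrable.add ?_ intervalIntegrable_const) _) _)
      have : (fun x => ∑ i ∈ range I, (1 / 2 : ℝ) ^ i * G (x + i * log 2)) =
          ∑ i ∈ range I, fun x => (1 / 2 : ℝ) ^ i * G (x + i * log 2) := by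
        funext x; simp
      rw [this]
      exact IntervalIntegrable.sum _ fun i _ => (hGsh _ _ _).const_mul _
  have hI6 : ∫ x in N..(N + L), (t + log (2 / t) * ((2 / c) *
        (∑ i ∈ range I, (1 / 2) ^ i * G (x + i * log 2) + 2 * (1 / 2) ^ I * log n))) =
      t * L + log (2 / t) * ((2 / c) * ((∑ i ∈ range I, (1 / 2) ^ i *
        ∫ x in (N + i * log 2)..(N + L + i * log 2), G x) + 2 * (1 / 2) ^ I * log n * L)) := by
    have hint1 : ∀ i ∈ range I, IntervalIntegrable (fun x => (1 / 2 : ℝ) ^ i * G (x + i * log 2))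
        volume N (N + L) := fun i _ => (hGsh _ _ _).const_mul _
    have hint2 : IntervalIntegrable (fun x => ∑ i ∈ range I, (1 / 2 : ℝ) ^ i * G (x + i * log 2))
        volume N (N + L) := by
      have : (fun x => ∑ i ∈ range I, (1 / 2 : ℝ) ^ i * G (x + i * log 2)) =
          ∑ i ∈ range I, fun x => (1 / 2 : ℝ) ^ i * G (x + i * log 2) := by
        funext x; simp
      rw [this]
      exact IntervalIntegrable.sum _ hint1
    rw [intervalIntegral.integral_add intervalIntegrable_const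
      ((((hint2.add intervalIntegrable_const).const_mul _)).const_mul _),
      intervalIntegral.integral_const_mul, intervalIntegral.integral_const_mul,
      intervalIntegral.integral_add hint2 intervalIntegrable_const,
      intervalIntegral.integral_finsetSum hint1]
    simp only [intervalIntegral.integral_const, smul_eq_mul, intervalIntegral.integral_const_mul,
      add_sub_cancel_left]
    have h7 : ∀ i : ℕ, ∫ x in N..(N + L), G (x + i * log 2) =
        ∫ x in (N + i * log 2)..(N + L + i * log 2), G x := by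
      intro i
      rw [intervalIntegral.integral_comp_add_right G (i * log 2)]
    simp only [h7]
    ring
  have hfin : log 2 * (E (N + L) - E N) ≤
      (∫ x in N..(N + L), (E x - E (x - log 2))) + 2 * log 2 * log 2 := by
    rw [hI1]
    have := mul_le_mul_of_nonneg_left hI4 hlog2.le
    nlinarith
  have := hfin.trans (add_le_add_left (hI5.trans hI6.le) (2 * log 2 * log 2))
  linarith

end avg

end Crest.Agent.R98.NC
end

-- ▼ part R98/NCConc

/-!
Row 98 (S0129). Module NCASM, part (e): the output of T1 for words, concretely. (helper136)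
-/

set_option autoImplicit false

namespace Crest.Agent.R98.NC

open Filter Real Finset MeasureTheory intervalIntegral
open Crest.Agent.R098.Upper Crest.Agent.R98 Crest.AnalysisR
open scoped Topology

section total

variable {κ : Type*} [Fintype κ] {H : ℝ → ℝ} {q l : κ → ℝ}

lemma Kf_nonneg (hmono : Monotone H) (hq : ∀ w, 0 ≤ q w) (hq1 : ∑ w, q w = 1)
    (hl : ∀ w, 0 ≤ l w) (x : ℝ) : 0 ≤ Kf H q l x := by
  unfold Kf
  have : ∑ w, q w * H (x - l w) ≤ ∑ w, q w * H x :=
    Finset.sum_le_sum fun w _ => mul_le_mul_of_nonneg_left (hmono (by linarith [hl w])) (hq w)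
  rw [← Finset.sum_mul, hq1, one_mul] at this
  linarith

lemma Ff_nonneg (hmono : Monotone H) (hq : ∀ w, 0 ≤ q w) (hq1 : ∑ w, q w = 1)
    (hl : ∀ w, 0 ≤ l w) {a : ℝ} (ha : 0 ≤ a) (x : ℝ) : 0 ≤ Ff H q l a x :=
  intervalIntegral.integral_nonneg (by linarith) fun y _ => Kf_nonneg hmono hq hq1 hl y

/-- total gain over any range -/
lemma integral_Gf_total (hmono : Monotone H) (hH : ∀ a b, IntervalIntegrable H volume a b)
    (hH0 : ∀ x, 0 ≤ H x)
    {D C : ℝ} (hD : 0 ≤ D) (hup : ∀ x, H x ≤ D * max x 0 + C)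
    (hq : ∀ w, 0 ≤ q w) (hq1 : ∑ w, q w = 1) (hl : ∀ w, 0 ≤ l w)
    {a : ℝ} (ha : 0 < a) (hG : ∀ x, 0 ≤ Gf H q l a x) (N M : ℝ) :
    ∫ x in N..M, Gf H q l a x ≤ a * D * ∑ w, q w * l w := by
  rw [integral_Gf hH]
  have h1 := Ff_le hH hH0 hD hup hq hq1 hl ha hG M
  have h2 := Ff_nonneg hmono hq hq1 hl ha.le N
  linarith

end total

section words

variable {ι : Type*} [Fintype ι]

/-- the finite type of types of words of length `m` -/
def TyT (ι : Type*) (m : ℕ) : Type _ := ι → Fin (m+1)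

noncomputable instance (m : ℕ) : Fintype (TyT ι m) := by
  classical
  unfold TyT
  infer_instance

/-- the type of a word as an element of a finite type -/
noncomputable def tyF {m : ℕ} (u : Fin m → ι) : TyT ι m :=
  fun i => ⟨wtype u i, Nat.lt_succ_of_le (wtype_le u i)⟩

omit [Fintype ι] in
lemma tyF_eq_iff {m : ℕ} (u v : Fin m → ι) : tyF u = tyF v ↔ wtype u = wtype v := by
  unfold tyF
  constructor
  · intro h
    funext i
    have := congrFun h i
    simpa using congrArg Fin.val this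
  · intro h
    funext i
    exact Fin.ext (congrFun h i)

/-- ratio of a type -/
noncomputable def rhoF (r : ι → ℝ) {m : ℕ} (τ : TyT ι m) : ℝ := ∏ i, r i ^ ((τ i : Fin (m+1)) : ℕ)

lemma rhoF_tyF (r : ι → ℝ) {m : ℕ} (u : Fin m → ι) : rhoF r (tyF u) = rho r u := by
  rw [rho_eq_wtype]; rfl

lemma rhoF_ne_zero {r : ι → ℝ} (hr : ∀ i, r i ≠ 0) {m : ℕ} (τ : TyT ι m) :
    rhoF r τ ≠ 0 := Finset.prod_ne_zero_iff.2 fun i _ => pow_ne_zero _ (hr i)

omit [Fintype ι] in
lemma neg_log_rho {r : ι → ℝ} (hr : ∀ i, r i ≠ 0) {m : ℕ} (u : Fin m → ι) :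
    -log |rho r u| = sw (fun i => -log |r i|) u := by
  unfold rho sw
  rw [Finset.abs_prod, Real.log_prod]
  · rw [Finset.sum_neg_distrib]
  · intro j _; exact abs_ne_zero.2 (hr _)

/-- self similarity at the level of words -/
lemma self_words {r t p : ι → ℝ} {μ : Measure ℝ} (hp : ∀ i, 0 ≤ p i)
    (hμ : IsSelfSimilarMeasure r t p μ) (m : ℕ) :
    μ = mix (fun u : Fin m → ι => pw p u)
      fun u => μ.map fun x => rhoF r (tyF u) * x + Top.cdot r t u := by
  ext E hE
  rw [selfSim_apply_words hμ hp m hE]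
  unfold mix
  rw [Measure.coe_finsetSum, Finset.sum_apply]
  refine Finset.sum_congr rfl fun u _ => ?_
  rw [Measure.smul_apply, smul_eq_mul, Measure.map_apply (by fun_prop) hE]
  have : affineWordMap r t (List.ofFn u) = fun x => rhoF r (tyF u) * x + Top.cdot r t u := by
    funext x
    have := fw_eq r t u x
    rw [rhoF_tyF]
    unfold Top.cdot
    rw [← this]; rfl
  rw [this]
  rfl

/-- conditional entropy of the translation part of a word given the type, at scale `e^{-x}` -/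
noncomputable def EW (p r t : ι → ℝ) (m : ℕ) (x : ℝ) : ℝ :=
  TOne.HBar (fun u : Fin m → ι => pw p u) tyF (fun u => Top.cdot r t u) (exp (-x))

lemma bsupp_self {r t p : ι → ℝ} {μ : Measure ℝ} (hr : ∀ i, r i ≠ 0 ∧ |r i| < 1)
    (hp : ∀ i, 0 ≤ p i) (hp1 : ∑ i, p i = 1) (hμ : IsSelfSimilarMeasure r t p μ) : BSupp μ := by
  obtain ⟨R, _, h, _⟩ := exists_supp hr hp hp1 hμ
  exact ⟨R, h⟩

lemma self_letters {r t p : ι → ℝ} {μ : Measure ℝ} (hμ : IsSelfSimilarMeasure r t p μ) :
    μ = mix p fun i => μ.map fun x => r i * x + t i := hμ.2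

omit [Fintype ι] in
lemma neg_log_pos {r : ι → ℝ} (hr : ∀ i, r i ≠ 0 ∧ |r i| < 1) (i : ι) : 0 < -log |r i| := by
  have := Real.log_neg (abs_pos.2 (hr i).1) (hr i).2
  linarith

/-- the environment of a self-similar measure -/
theorem env_of {r t p : ι → ℝ} {μ : Measure ℝ} (hr : ∀ i, r i ≠ 0 ∧ |r i| < 1)
    (hp : ∀ i, 0 ≤ p i) (hp1 : ∑ i, p i = 1) (hμ : IsSelfSimilarMeasure r t p μ)
    {D C : ℝ} (hD : 0 ≤ D) (hup : ∀ x, Hs μ (exp (-x)) ≤ D * max x 0 + C)
    (hlow : ∀ D', D' < D → ∃ C', ∀ x, 0 ≤ x → D' * x - C' ≤ Hs μ (exp (-x))) {n : ℕ} (hn : 2 ≤ n) :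
    Env (fun x => Hs μ (exp (-x))) p (fun i => -log |r i|) (log n) D C := by
  have hprob := hμ.1
  have hB := bsupp_self hr hp hp1 hμ
  refine ⟨fun a b => (H_mono hB).intervalIntegrable, fun x => ?_, hD, hup, hlow, hp, hp1,
    fun i => (neg_log_pos hr i).le, Real.log_pos (by exact_mod_cast hn), fun x => ?_⟩
  · exact Hs_nonneg (by rw [probReal_univ]) (exp_pos _).le
  · have h := TOne.Gm_nonneg (μ := μ) (P := p) (ρ := r) (b := t) (id : ι → ι) hp hp1 hB
      (fun i => (hr i).1) (self_letters hμ) (n := n) (by omega) (r := exp (-x)) (exp_pos _)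
    have e := Gm_eq_Gf (P := p) (μ := μ) (R := r) (fun i => (hr i).1) (n := n) (by omega) x
    rw [← e]
    exact h

set_option maxHeartbeats 800000 in
/-- **T1 for words** -/
theorem t1out_of {r t p : ι → ℝ} {μ : Measure ℝ} (hr : ∀ i, r i ≠ 0 ∧ |r i| < 1)
    (hp : ∀ i, 0 ≤ p i) (hp1 : ∑ i, p i = 1) (hμ : IsSelfSimilarMeasure r t p μ)
    {D C : ℝ} (hD : 0 ≤ D) (hup : ∀ x, Hs μ (exp (-x)) ≤ D * max x 0 + C) {n : ℕ} (hn : 2 ≤ n)
    {c : ℝ} (hc : 0 < c) (hmac : ∀ ρ, 0 < ρ → TOne.Macro μ n ρ c) :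
    ∃ C₁, T1Out (fun x => Hs μ (exp (-x))) p (fun i => -log |r i|) (log n) (EW p r t) C₁ := by
  have hprob := hμ.1
  have hB := bsupp_self hr hp hp1 hμ
  have hlog2 : 0 < log 2 := Real.log_pos (by norm_num)
  have hlog2a := Real.log_two_gt_d9
  have hlog2b := Real.log_two_lt_d9
  have hlogn : 0 < log n := Real.log_pos (by exact_mod_cast hn)
  set H : ℝ → ℝ := fun x => Hs μ (exp (-x)) with hH
  set l : ι → ℝ := fun i => -log |r i| with hl
  have hl0 : ∀ i, 0 ≤ l i := fun i => (neg_log_pos hr i).le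
  set χ : ℝ := ∑ i, p i * l i with hχ
  have hχ0 : 0 ≤ χ := Finset.sum_nonneg fun i _ => mul_nonneg (hp i) (hl0 i)
  set K : ℝ := log n * D * χ with hK
  have hK0 : 0 ≤ K := by positivity
  have hHint : ∀ u v, IntervalIntegrable H volume u v := fun u v => (H_mono hB).intervalIntegrable
  have hH0 : ∀ x, 0 ≤ H x := fun x => Hs_nonneg (by rw [probReal_univ]) (exp_pos _).le
  refine ⟨20 / c * (1 + K) + 4, ⟨by positivity, ?_, ?_⟩⟩
  · intro m x _
    exact TOne.HBar_le_Hs (ρ := rhoF r) tyF (fun u => pw_nonneg hp u) (sum_pw hp1 m) hB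
      (self_words hp hμ m) (exp_pos _)
  · intro m N L M s hN hL hNLM hs hs0 hsL
    have hL0 : 0 < L := by linarith
    set P : (Fin m → ι) → ℝ := fun u => pw p u with hP
    have hPnn : ∀ u, 0 ≤ P u := fun u => pw_nonneg hp u
    have hP1 : ∑ u, P u = 1 := sum_pw hp1 m
    have hlw : (fun u : Fin m → ι => -log |rhoF r (tyF u)|) = sw l := by
      funext u
      rw [rhoF_tyF, neg_log_rho (fun i => (hr i).1)]
    set G : ℝ → ℝ := Gf H P (sw l) (log n) with hG
    have hGnn : ∀ x, 0 ≤ G x := by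
      intro x
      have h := TOne.Gm_nonneg (μ := μ) (P := P) (ρ := rhoF r) (b := fun u => Top.cdot r t u) tyF
        hPnn hP1 hB (fun τ => rhoF_ne_zero (fun i => (hr i).1) τ) (self_words hp hμ m) (n := n)
        (by omega) (r := exp (-x)) (exp_pos _)
      rw [Gm_eq_Gf (fun u => rhoF_ne_zero (fun i => (hr i).1) _) (by omega), hlw] at h
      exact h
    have hGint : ∀ u v, IntervalIntegrable G volume u v :=
      fun u v => Gf_intervalIntegrable hHint _ u v
    have hswn : ∀ u : Fin m → ι, 0 ≤ sw l u := fun u => sw_nonneg hl0 u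
    have htot : ∀ N' M', ∫ x in N'..M', G x ≤ K * m := by
      intro N' M'
      have h := integral_Gf_total (H_mono hB) hHint hH0 hD hup hPnn hP1 hswn hlogn hGnn N' M'
      rw [sum_pw_sw_eq hp1 m] at h
      refine h.trans (le_of_eq ?_)
      rw [hK]; ring
    have hIG0 : 0 ≤ ∫ x in N..M, G x :=
      intervalIntegral.integral_nonneg (by linarith) fun x _ => hGnn x
    have hIeq : ∫ x in N..M, Gm H p l (log n) m x = ∫ x in N..M, G x := rfl
    rw [hIeq] at hs
    set Δ : ℝ := M - N - L with hΔ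
    have hΔ0 : 0 ≤ Δ := by rw [hΔ]; linarith
    -- tail index
    set i0 : ℕ := ⌊Δ / log 2⌋₊ + 1 with hi0
    have hi0Δ : (1 / 2 : ℝ) ^ i0 ≤ exp (-Δ) := by
      have h1 : Δ / log 2 < i0 := by
        rw [hi0]; push_cast; exact Nat.lt_floor_add_one _
      rw [div_lt_iff₀ hlog2] at h1
      have h2 : (1 / 2 : ℝ) ^ i0 = exp (-(i0 * log 2)) := by
        rw [← Real.log_pow, exp_neg, exp_log (by positivity), one_div, inv_pow]
      rw [h2]
      exact exp_le_exp.2 (by linarith)
    have hterm : ∀ i : ℕ, ∫ x in (N + i * log 2)..(N + L + i * log 2), G x ≤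
        (∫ x in N..M, G x) + (if i0 ≤ i then K * m else 0) := by
      intro i
      split_ifs with h
      · have := htot (N + i * log 2) (N + L + i * log 2)
        linarith
      · rw [add_zero]
        have h1 : (i : ℝ) * log 2 ≤ Δ := by
          have h2 : i ≤ ⌊Δ / log 2⌋₊ := by omega
          have h3 : (i : ℝ) ≤ Δ / log 2 := (Nat.le_floor_iff (by positivity)).1 h2
          rwa [le_div_iff₀ hlog2] at h3
        have h4 : 0 ≤ (i : ℝ) * log 2 := by positivity
        refine intervalIntegral.integral_mono_interval (by linarith) (by linarith)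
          (by rw [hΔ] at h1; linarith) (Filter.Eventually.of_forall fun x => hGnn x) (hGint _ _)
    have hsumI : ∀ I : ℕ, ∑ i ∈ range I, (1 / 2 : ℝ) ^ i *
        ∫ x in (N + i * log 2)..(N + L + i * log 2), G x ≤
        2 * (∫ x in N..M, G x) + 2 * (K * m) * exp (-Δ) := by
      intro I
      have h1 : ∑ i ∈ range I, (1 / 2 : ℝ) ^ i *
          ∫ x in (N + i * log 2)..(N + L + i * log 2), G x ≤
          ∑ i ∈ range I, ((1 / 2 : ℝ) ^ i * (∫ x in N..M, G x) +
            (K * m) * (if i0 ≤ i then (1/2 : ℝ)^i else 0)) := by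
        refine Finset.sum_le_sum fun i _ => ?_
        have h2 := mul_le_mul_of_nonneg_left (hterm i) (by positivity : (0:ℝ) ≤ (1 / 2 : ℝ) ^ i)
        refine h2.trans (le_of_eq ?_)
        split_ifs <;> ring
      refine h1.trans ?_
      rw [Finset.sum_add_distrib, ← Finset.sum_mul, ← Finset.mul_sum]
      have h2 : ∑ i ∈ range I, (1 / 2 : ℝ) ^ i ≤ 2 := by
        have := geom_tail 0 I
        simpa using this
      have h3 := geom_tail i0 I
      have h4 : (K * m) * ∑ i ∈ range I, (if i0 ≤ i then (1/2 : ℝ)^i else 0) ≤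
          (K * m) * (2 * exp (-Δ)) := by
        refine mul_le_mul_of_nonneg_left (h3.trans ?_) (by positivity)
        linarith
      have h5 : (∑ i ∈ range I, (1 / 2 : ℝ) ^ i) * (∫ x in N..M, G x) ≤
          2 * ∫ x in N..M, G x := mul_le_mul_of_nonneg_right h2 hIG0
      linarith
    -- choose I
    set Λ : ℝ := log (L / s) with hΛ
    have hΛ0 : 0 ≤ Λ := Real.log_nonneg ((one_le_div hs0).2 hsL)
    set t' : ℝ := s / L with ht'
    have ht0 : 0 < t' := by positivity
    have ht1 : t' ≤ 1 := (div_le_one hL0).2 hsL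
    have hlogt : log (2 / t') = log 2 + Λ := by
      rw [hΛ, ht', Real.log_div (by norm_num) (by positivity), Real.log_div hs0.ne' hL0.ne',
        Real.log_div hL0.ne' hs0.ne']
      ring
    obtain ⟨I, hI⟩ : ∃ I : ℕ, (log 2 + Λ) * ((2 / c) * (2 * (1 / 2) ^ I * log n * L)) ≤ log 2 := by
      obtain ⟨I, hI⟩ := exists_pow_lt_of_lt_one
        (show 0 < log 2 / ((log 2 + Λ) * ((2 / c) * (2 * log n * L)) + 1) by positivity)
        (show (1 / 2 : ℝ) < 1 by norm_num)
      refine ⟨I, ?_⟩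
      rw [lt_div_iff₀ (by positivity)] at hI
      have h1 : (0:ℝ) < (1/2 : ℝ) ^ I := by positivity
      nlinarith
    have hav := avg_gain (μ := μ) (P := P) (ρ := rhoF r) (b := fun u => Top.cdot r t u) tyF
      hPnn hP1 hB (fun τ => rhoF_ne_zero (fun i => (hr i).1) τ) (self_words hp hμ m) (n := n)
      (by omega) hc hmac (t := t') ht0 (by linarith) (N := N) (L := L) hL0.le I
    rw [hlw, hlogt] at hav
    have hEeq : TOne.HBar P tyF (fun u => Top.cdot r t u) (exp (-(N + L))) -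
        TOne.HBar P tyF (fun u => Top.cdot r t u) (exp (-N)) =
        EW p r t m (N + L) - EW p r t m N := rfl
    rw [hEeq] at hav
    rw [mul_phi_div hs0 hL0]
    have htL : t' * L = s := by rw [ht']; field_simp
    rw [htL] at hav
    have hSI := hsumI I
    -- X ≤ s / 5
    have hX : (2 / c) * (2 * (∫ x in N..M, G x) + 2 * (K * m) * exp (-Δ)) ≤ s / 5 := by
      have h1 : (20 / c) * (∫ x in N..M, G x) + (20 / c) * (K * m) * exp (-Δ) ≤ s := by
        refine le_trans ?_ hs
        have h2 : 0 ≤ exp (-Δ) := (exp_pos _).le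
        have h3 : 0 ≤ (m : ℝ) * exp (-Δ) := by positivity
        have h4 : (0:ℝ) ≤ 20 / c := by positivity
        have e : (20 / c * (1 + K) + 4) * ((∫ x in N..M, G x) + m * exp (-Δ)) =
            (20 / c) * (∫ x in N..M, G x) + (20 / c) * (K * m) * exp (-Δ) +
            ((20 / c * K + 4) * (∫ x in N..M, G x) + (20 / c + 4) * (m * exp (-Δ))) := by ring
        rw [e]
        have h5 : 0 ≤ (20 / c * K + 4) * (∫ x in N..M, G x) + (20 / c + 4) * (m * exp (-Δ)) := by
          positivity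
        linarith
      have e : (2 / c) * (2 * (∫ x in N..M, G x) + 2 * (K * m) * exp (-Δ)) =
          ((20 / c) * (∫ x in N..M, G x) + (20 / c) * (K * m) * exp (-Δ)) / 5 := by ring
      rw [e]
      linarith
    have hY : (log 2 + Λ) * ((2 / c) * ((∑ i ∈ range I, (1 / 2 : ℝ) ^ i *
        ∫ x in (N + i * log 2)..(N + L + i * log 2), G x) + 2 * (1 / 2) ^ I * log n * L)) ≤
        (log 2 + Λ) * (s / 5) + log 2 := by
      have h1 : (2 / c) * (∑ i ∈ range I, (1 / 2 : ℝ) ^ i *
          ∫ x in (N + i * log 2)..(N + L + i * log 2), G x) ≤ s / 5 :=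
        (mul_le_mul_of_nonneg_left hSI (by positivity)).trans hX
      have h2 := mul_le_mul_of_nonneg_left h1 (by positivity : 0 ≤ log 2 + Λ)
      have e : (log 2 + Λ) * ((2 / c) * ((∑ i ∈ range I, (1 / 2 : ℝ) ^ i *
        ∫ x in (N + i * log 2)..(N + L + i * log 2), G x) + 2 * (1 / 2) ^ I * log n * L)) =
        (log 2 + Λ) * ((2 / c) * (∑ i ∈ range I, (1 / 2 : ℝ) ^ i *
        ∫ x in (N + i * log 2)..(N + L + i * log 2), G x)) +
        (log 2 + Λ) * ((2 / c) * (2 * (1 / 2) ^ I * log n * L)) := by ring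
      rw [e]
      linarith
    have hav2 : log 2 * (EW p r t m (N + L) - EW p r t m N) ≤
        s + ((log 2 + Λ) * (s / 5) + log 2) + 2 * log 2 * log 2 := by
      have := hav
      linarith
    have hnum : s + (log 2 + Λ) * (s / 5) ≤ log 2 * (s * (1 + log 2 + Λ)) := by
      have h1 : 0 ≤ s * Λ := by positivity
      have h2 : 1 + log 2 / 5 ≤ log 2 + log 2 * log 2 := by nlinarith
      have h3 := mul_le_mul_of_nonneg_left h2 hs0.le
      have h4 : (1 / 5 : ℝ) * (s * Λ) ≤ log 2 * (s * Λ) :=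
        mul_le_mul_of_nonneg_right (by linarith) h1
      linarith
    have hC1 : (3:ℝ) ≤ 20 / c * (1 + K) + 4 := by
      have : 0 ≤ 20 / c * (1 + K) := by positivity
      linarith
    have hfin : log 2 * (EW p r t m (N + L) - EW p r t m N) ≤
        log 2 * (s * (1 + log 2 + Λ) + (20 / c * (1 + K) + 4)) := by
      nlinarith
    exact le_of_mul_le_mul_left hfin hlog2

end words

end Crest.Agent.R98.NC
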