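import Crest.Agent.R98.KOne
import Crest.Agent.R98.TOneE
import Mathlib
import Crest.Agent.R98.Ent3
import Crest.Agent.R98.KDetC
import Crest.Agent.R98.KIface
import Crest.Agent.R98.NCConc
import Crest.Agent.R98.NCWords
import Crest.Agent.R98.MultTail
import Crest.Agent.R98.MultNT
import Crest.Agent.R98.KConv_Mg
import Crest.Agent.R98.KG1
import Crest.Agent.R98.KFinal

-- ▼ part R98/KOneB
section

/-!
R98 / KOneB (helper226): the one-type theorem of case K (helper383, note 10554 (1)).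
-/

set_option autoImplicit false
set_option linter.unusedSectionVars false

open Real Set MeasureTheory

namespace Crest.Agent.R98.K

open Part

section inj

variable {κ : Type*} [Fintype κ]

/-- a law whose support has diameter smaller than all gaps is a point mass -/
theorem H0_nonpos_of_point {v : κ → ℝ} (hv : Function.Injective v) {p : κ → ℝ} (hp : IsPW p)
    {d : ℝ} (hD : Dm v p d) (hd : ∀ a b, a ≠ b → d < |v a - v b|) : H0 p ≤ 0 := by
  unfold H0
  refine Finset.sum_nonpos fun a _ => ?_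
  by_cases ha : p a = 0
  · rw [ha, negMulLog_zero]
  · have h1 : ∀ b, b ≠ a → p b = 0 := by
      intro b hb
      by_contra h
      have h2 := hD a b ha h
      have h3 := hd a b (Ne.symm hb)
      linarith
    have h2 : p a = 1 := by
      rw [← hp.2, Finset.sum_eq_single a (fun b _ hb => h1 b hb)
        (fun h => absurd (Finset.mem_univ a) h)]
    rw [h2, negMulLog_one]

/-- information at a coarse scale of a law of small diameter -/
theorem info_le_log_two {p v : κ → ℝ} (hp : IsPW p) {B : Measure ℝ} [IsProbabilityMeasure B]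
    (hB : BSupp B) {d : ℝ} (hd : 0 < d) (hD : Dm v p d) : TOne.info p v B d ≤ log 2 := by
  have h1 := Hs_addLaw_conv_le hp.1 hp.2 v (A := Measure.dirac 0) (B := B) bsupp_dirac_zero hB hd.le
  have h2 := TOne.Hs_diam_le v hp.1 hp.2 hd hD
  rw [Measure.dirac_zero_conv] at h1
  have h3 : 0 ≤ Hs (Measure.dirac (0:ℝ)) d :=
    Hs_nonneg (by simp) hd.le
  unfold TOne.info
  linarith

/-- **one type, distinct values** -/
theorem one_inj {𝒬 : Type*} [Fintype 𝒬] {v : κ → ℝ} (hv : Function.Injective v) {w' : 𝒬 → ℝ}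
    {B : 𝒬 → Measure ℝ} (hw : ∀ Q, 0 ≤ w' Q) (hw1 : ∑ Q, w' Q = 1)
    [∀ Q, IsProbabilityMeasure (B Q)] (hB : ∀ Q, BSupp (B Q)) {K w A t : ℕ} (hK : 2 ≤ K)
    (hA : 1 ≤ A) {c C3 : ℝ} (hc : 0 < c) (hW : WLarge K A t c C3 w)
    (hmac : ∀ Q r, 0 < r → TOne.Macro (B Q) (2 ^ t) r c) {u0 : ℝ} (hu : 0 < u0)
    (hdet : ∀ j, Det v w' B u0 (1 / K) (1 / K) (w * log 2) C3 (t + 1 + w * j)
      (t + 1 + w * (j + 1)) (t + 1 + w * j + K * w) (t + 1 + w * j + 2 * w))
    (Act : Finset ℕ) (hAct : ∀ j a b, u0 / 2 ^ (t + 1 + w * (j + 1)) < |v a - v b| →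
      |v a - v b| ≤ u0 / 2 ^ (t + 1 + w * j) → j ∈ Act)
    {N : ℕ} (f : κ → Fin N) {p : κ → ℝ} (hp : IsPW p)
    (hf : ∀ u, Dm v (cnd p f u) (u0 / 2 ^ (t + 1))) :
    ∃ n0, ∀ n ≥ n0, ∑ u, lm p f u * H0 (cnd p f u) ≤
      nodeC K A t c C3 * (1 + 2 * (K + t + 1)) *
        ((Gav v w' B u0 p (t + 1 + n) - Gav v w' B u0 p 0) + 1) +
      2 ^ (w + 3) * (A * w) / 2 ^ (A * w) * (Act.card : ℝ) := by
  classical
  have hGain := gain_Gav (v := v) hw hB hu
  have hCnn := nodeC_nonneg K A t C3 hc hK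
  -- minimal gap
  obtain ⟨J, hJ⟩ : ∃ J : ℕ, ∀ a b, a ≠ b → u0 / 2 ^ (t + 1 + w * J) < |v a - v b| := by
    obtain ⟨δ, hδ, hδ'⟩ : ∃ δ > 0, ∀ a b, a ≠ b → δ ≤ |v a - v b| := by
      by_cases hne : (Finset.univ.filter fun x : κ × κ => x.1 ≠ x.2).Nonempty
      · obtain ⟨x, hx, hmin⟩ := Finset.exists_min_image _ (fun x : κ × κ => |v x.1 - v x.2|) hne
        refine ⟨|v x.1 - v x.2|, abs_pos.2 (sub_ne_zero.2 fun h => (Finset.mem_filter.1 hx).2
          (hv h)), fun a b hab => hmin (a, b) (Finset.mem_filter.2 ⟨Finset.mem_univ _, hab⟩)⟩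
      · refine ⟨1, one_pos, fun a b hab => ?_⟩
        exact absurd ⟨(a, b), Finset.mem_filter.2 ⟨Finset.mem_univ _, hab⟩⟩ hne
    obtain ⟨J, hJ⟩ := exists_pow_lt_of_lt_one (show 0 < δ / u0 by positivity)
      (show (1 / 2 : ℝ) < 1 by norm_num)
    refine ⟨J, fun a b hab => lt_of_lt_of_le ?_ (hδ' a b hab)⟩
    have h1 : J ≤ t + 1 + w * J := by nlinarith [hW.one]
    have h2 : u0 / 2 ^ (t + 1 + w * J) ≤ u0 / 2 ^ J := by
      refine div_le_div_of_nonneg_left hu.le (by positivity) (pow_le_pow_right₀ (by norm_num) h1)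
    refine lt_of_le_of_lt h2 ?_
    rw [lt_div_iff₀ hu] at hJ
    rw [one_div, inv_pow] at hJ
    rw [div_eq_mul_inv]
    linarith
  refine ⟨w * (J + (K + t + 1)), fun n hn => ?_⟩
  set I := t + 1 + n with hI
  set G := Gav v w' B u0 with hG
  have h1w := hW.one
  have hηmono : Monotone fun j : ℕ => w * j := fun i j hij => Nat.mul_le_mul_left w hij
  have hmain := tree_top hGain (v := v) (C := nodeC K A t c C3)
    (negl := 2 ^ (w + 3) * (A * w) / 2 ^ (A * w)) hCnn (by positivity)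
    (d := fun j => u0 / 2 ^ (t + 1 + w * j)) (ρ := fun j => t + 1 + w * j + K * w)
    (η := fun j => w * j) (J := J) (I := I) (T := K + t + 1)
    (fun j => by show w * j ≤ t + 1 + w * j + K * w; omega) hηmono
    (fun j => by show w * (j + 1) ≤ t + 1 + w * j + K * w; nlinarith)
    (fun i => by show t + 1 + w * i + K * w ≤ w * (i + (K + t + 1)); nlinarith)
    (fun j hj => by
      show t + 1 + w * j + K * w ≤ I
      rw [hI]
      have : w * j + K * w ≤ w * (J + (K + t + 1)) := by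
        have h2 : w * j ≤ w * J := Nat.mul_le_mul_left w hj.le
        nlinarith
      omega)
    (by show w * (J + (K + t + 1)) ≤ I; omega) Act
    (fun p hp hD => H0_nonpos_of_point hv hp hD hJ)
    (fun j hj p hp hD hD' => ?_) f hp (by simpa using hf) (i₀ := t + 1) (by omega)
    (c₀ := log 2) (fun u hu0 => ?_)
  · -- conclusion
    refine hmain.trans ?_
    have h3 : G p 0 ≤ G p (t + 1) := hGain.2.1 p hp _ _ (by omega)
    have h4 : G p 0 ≤ G p I := hGain.2.1 p hp _ _ (by omega)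
    have h5 : log 2 ≤ 1 := by have := log_two_lt_d9; linarith
    have h6 : (G p I - G p (t + 1)) + log 2 +
        2 * (((K + t + 1 : ℕ) : ℝ) * (G p I - G p (w * 0))) ≤
        (1 + 2 * (K + t + 1)) * ((G p I - G p 0) + 1) := by
      have h7 : (0:ℝ) ≤ 2 * (K + t + 1) := by positivity
      push_cast
      rw [mul_zero]
      nlinarith
    have h8 := mul_le_mul_of_nonneg_left h6 hCnn
    calc _ ≤ _ := add_le_add_left h8 _
      _ = _ := by ring
  · -- node
    have hnot : ∃ a b, p a ≠ 0 ∧ p b ≠ 0 ∧ u0 / 2 ^ (t + 1 + w * (j + 1)) < |v a - v b| := by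
      unfold Dm at hD'
      push Not at hD'
      obtain ⟨a, b, h2, h3, h4⟩ := hD'
      exact ⟨a, b, h2, h3, h4⟩
    obtain ⟨a, b, h2, h3, h4⟩ := hnot
    exact ⟨hAct j a b h4 (hD a b h2 h3),
      node_active hw hw1 hB hK hA hc hW hmac hu j (hdet j) hp hD⟩
  · -- gain at the top scale
    have hpc := isPW_cnd f hp.1 hu0
    show ∑ Q, w' Q * TOne.info (cnd p f u) v (B Q) (u0 / 2 ^ (t + 1)) ≤ log 2
    calc ∑ Q, w' Q * TOne.info (cnd p f u) v (B Q) (u0 / 2 ^ (t + 1))
        ≤ ∑ Q, w' Q * log 2 := Finset.sum_le_sum fun Q _ => mul_le_mul_of_nonneg_left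
          (info_le_log_two hpc (hB Q) (by positivity) (hf u)) (hw Q)
      _ = log 2 := by rw [← Finset.sum_mul, hw1, one_mul]

end inj

end Crest.Agent.R98.K
end

-- ▼ part R98/KSmall
section

set_option linter.unusedVariables false
set_option linter.unusedSectionVars false

open MeasureTheory Set Real Filter
open scoped ENNReal Topology

namespace Crest.Agent.R98.K

/-- the entropy of an independent sum with a finite law -/
theorem Hs_addLaw_le_add {κ : Type*} [Fintype κ] {q : κ → ℝ} (hq : ∀ k, 0 ≤ q k)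
    (hq1 : ∑ k, q k = 1) (s : κ → ℝ) {B : Measure ℝ} [IsProbabilityMeasure B] (hB : BSupp B)
    {d : ℝ} (hd : 0 ≤ d) :
    Hs (addLaw q s B) d ≤ Hs B d + Hs (addLaw q s (Measure.dirac 0)) d := by
  have h := Hs_addLaw_conv_le hq hq1 s bsupp_dirac_zero hB hd
  rw [Measure.dirac_zero_conv] at h
  have h2 : 0 ≤ Hs (Measure.dirac (0 : ℝ)) d := Hs_nonneg (by rw [probReal_univ]) hd
  linarith

section ball

variable {μ : Measure ℝ} [IsProbabilityMeasure μ]

theorem measurable_ball (D : ℝ) : Measurable fun x : ℝ => μ.real (Icc (x - D) (x + D)) := by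
  have hs : MeasurableSet ({z : ℝ × ℝ | z.1 - D ≤ z.2} ∩ {z | z.2 ≤ z.1 + D}) :=
    (measurableSet_le (measurable_fst.sub_const D) measurable_snd).inter
      (measurableSet_le measurable_snd (measurable_fst.add_const D))
  exact (measurable_measure_prodMk_left (ν := μ) hs).ennreal_toReal

theorem ball_le_one (D x : ℝ) : μ.real (Icc (x - D) (x + D)) ≤ 1 := by
  have := measureReal_mono (μ := μ) (subset_univ (Icc (x - D) (x + D)))
  rwa [probReal_univ] at this

theorem ofReal_neg_log_le_nlog {v : ℝ} : ENNReal.ofReal (-log v) ≤ nlog v := by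
  unfold nlog
  split_ifs
  · exact le_top
  · exact le_rfl

theorem lintegral_nlog_ball_le (hμ : BSupp μ) {D : ℝ} (hD : 0 < D) :
    ∫⁻ x, nlog (μ.real (Icc (x - D) (x + D))) ∂μ ≤ ENNReal.ofReal (Hs μ D) := by
  have h1 : ∫⁻ x, ENNReal.ofReal D * nlog (μ.real (Icc (x - D) (x + D))) ∂μ ≤
      ENNReal.ofReal (D * Hs μ D) := by
    rw [ofReal_mul_Hs hμ hD, lintegral_negMulLog_cell]
    refine lintegral_mono fun x => ?_
    calc ENNReal.ofReal D * nlog (μ.real (Icc (x - D) (x + D)))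
        = ∫⁻ y in Ioc (x - D) x, nlog (μ.real (Icc (x - D) (x + D))) := by
          rw [setLIntegral_const, Real.volume_Ioc, mul_comm]
          congr 2; ring
      _ ≤ ∫⁻ y in Ioc (x - D) x, nlog (μ.real (Ico y (y + D))) := by
          refine setLIntegral_mono' measurableSet_Ioc fun y hy => ?_
          refine nlog_anti measureReal_nonneg (measureReal_mono ?_)
          intro z hz
          exact ⟨by linarith [hz.1, hy.1], by linarith [hz.2, hy.2]⟩
  rw [lintegral_const_mul' _ _ ENNReal.ofReal_ne_top, ENNReal.ofReal_mul hD.le] at h1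
  exact (ENNReal.mul_le_mul_iff_right (by simpa using hD) ENNReal.ofReal_ne_top).mp h1

theorem neg_log_ball_nonneg (D x : ℝ) : 0 ≤ -log (μ.real (Icc (x - D) (x + D))) :=
  neg_nonneg.mpr (log_nonpos measureReal_nonneg (ball_le_one D x))

theorem integrable_neg_log_ball (hμ : BSupp μ) {D : ℝ} (hD : 0 < D) :
    Integrable (fun x => -log (μ.real (Icc (x - D) (x + D)))) μ := by
  refine ⟨(measurable_log.comp (measurable_ball D)).neg.aestronglyMeasurable, ?_⟩
  rw [hasFiniteIntegral_iff_ofReal (Filter.Eventually.of_forall fun x => neg_log_ball_nonneg D x)]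
  refine lt_of_le_of_lt ?_ (ENNReal.ofReal_lt_top (r := Hs μ D))
  exact (lintegral_mono fun x => ofReal_neg_log_le_nlog).trans (lintegral_nlog_ball_le hμ hD)


/-- elementary inequality -/
theorem log_quot_le {f β : ℝ} (hf : 0 ≤ f) (hfβ : f ≤ β) (hβ : β ≤ 1) :
    -log f ≤ -log β + β / (3 * f) + (log 3 - 1) := by
  have h3 : 1 ≤ log 3 := by
    rw [le_log_iff_exp_le (by norm_num)]
    have := exp_one_lt_d9
    linarith
  rcases hf.eq_or_lt with h | h
  · rw [← h, log_zero, mul_zero, div_zero]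
    have : log β ≤ 0 := log_nonpos (hf.trans hfβ) hβ
    linarith
  · have hβ0 : 0 < β := h.trans_le hfβ
    have h1 := log_le_sub_one_of_pos (show 0 < β / (3 * f) by positivity)
    rw [log_div hβ0.ne' (by positivity), log_mul (by norm_num) h.ne'] at h1
    linarith

/-- **balls versus cells** -/
theorem le_int_neg_log_ball (hμ : BSupp μ) {D : ℝ} (hD : 0 < D) :
    Hs μ D - log 3 ≤ ∫ x, -log (μ.real (Icc (x - D) (x + D))) ∂μ := by
  set f : ℝ → ℝ := fun y => μ.real (Ico y (y + D)) with hf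
  set β : ℝ → ℝ := fun x => μ.real (Icc (x - D) (x + D)) with hβ
  have hf1 : ∀ y, f y ≤ 1 := fun y => cell_le_one μ y D
  have hfm : Measurable f := measurable_cell μ D
  have hβm : Measurable β := measurable_ball D
  have h3 : 1 ≤ log 3 := by
    rw [le_log_iff_exp_le (by norm_num)]
    have := exp_one_lt_d9
    linarith
  -- the inequality, cell by cell
  have key : ∀ y, ENNReal.ofReal (negMulLog (f y)) ≤
      (∫⁻ x in Ico y (y + D), ENNReal.ofReal (-log (β x)) ∂μ) +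
        (ENNReal.ofReal ((f (y - D) + f y + f (y + D)) / 3) +
          ENNReal.ofReal ((log 3 - 1) * f y)) := by
    intro y
    have e1 : ENNReal.ofReal (negMulLog (f y)) =
        ∫⁻ x in Ico y (y + D), ENNReal.ofReal (-log (f y)) ∂μ := by
      rw [setLIntegral_const, negMulLog, neg_mul, ← mul_neg, ENNReal.ofReal_mul measureReal_nonneg,
        mul_comm]
      congr 1
      simp only [Measure.real]
      rw [ENNReal.ofReal_toReal (measure_ne_top _ _)]
    have e2 : ∀ x ∈ Ico y (y + D), ENNReal.ofReal (-log (f y)) ≤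
        ENNReal.ofReal (-log (β x)) +
          ENNReal.ofReal ((f (y - D) + f y + f (y + D)) / (3 * f y) + (log 3 - 1)) := by
      intro x hx
      have hfβ : f y ≤ β x := measureReal_mono fun z hz =>
        ⟨by linarith [hz.1, hx.2], by linarith [hz.2, hx.1]⟩
      have hβf : β x ≤ f (y - D) + f y + f (y + D) := by
        simp only [hβ, hf]
        have h4 : Icc (x - D) (x + D) ⊆
            (Ico (y - D) (y - D + D) ∪ Ico y (y + D)) ∪ Ico (y + D) (y + D + D) := by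
          intro z hz
          rcases lt_or_ge z y with h5 | h5
          · exact Or.inl (Or.inl ⟨by linarith [hz.1, hx.1], by linarith⟩)
          · rcases lt_or_ge z (y + D) with h6 | h6
            · exact Or.inl (Or.inr ⟨h5, h6⟩)
            · exact Or.inr ⟨h6, by linarith [hz.2, hx.2]⟩
        refine (measureReal_mono h4).trans ((measureReal_union_le _ _).trans ?_)
        have := measureReal_union_le (μ := μ) (Ico (y - D) (y - D + D)) (Ico y (y + D))
        linarith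
      rw [← ENNReal.ofReal_add (neg_log_ball_nonneg D x)]
      · refine ENNReal.ofReal_le_ofReal ?_
        have h4 := log_quot_le (show 0 ≤ f y from measureReal_nonneg) hfβ (ball_le_one D x)
        have h5 : β x / (3 * f y) ≤ (f (y - D) + f y + f (y + D)) / (3 * f y) :=
          div_le_div_of_nonneg_right hβf (mul_nonneg (by norm_num) measureReal_nonneg)
        linarith
      · have : 0 ≤ (f (y - D) + f y + f (y + D)) / (3 * f y) := by
          have a1 : 0 ≤ f (y - D) := measureReal_nonneg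
          have a2 : 0 ≤ f y := measureReal_nonneg
          have a3 : 0 ≤ f (y + D) := measureReal_nonneg
          positivity
        linarith
    rw [e1]
    refine (setLIntegral_mono' measurableSet_Ico e2).trans ?_
    rw [lintegral_add_right _ measurable_const]
    refine add_le_add le_rfl ?_
    rw [setLIntegral_const]
    have a1 : 0 ≤ f (y - D) := measureReal_nonneg
    have a2 : 0 ≤ f y := measureReal_nonneg
    have a3 : 0 ≤ f (y + D) := measureReal_nonneg
    have e3 : μ (Ico y (y + D)) = ENNReal.ofReal (f y) := by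
      simp only [hf, Measure.real]
      rw [ENNReal.ofReal_toReal (measure_ne_top _ _)]
    rw [e3, ← ENNReal.ofReal_mul (add_nonneg (by positivity) (by linarith)),
      ← ENNReal.ofReal_add (by positivity) (mul_nonneg (by linarith) a2)]
    refine ENNReal.ofReal_le_ofReal ?_
    rcases a2.eq_or_lt with h0 | h0
    · rw [← h0]; simp; positivity
    · have : ((f (y - D) + f y + f (y + D)) / (3 * f y) + (log 3 - 1)) * f y =
          (f (y - D) + f y + f (y + D)) / 3 + (log 3 - 1) * f y := by field_simp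
      rw [this]
  have hint := integrable_cell hμ D
  have h4 := lintegral_mono (μ := volume) key
  rw [← ofReal_mul_Hs hμ hD, lintegral_add_right, lintegral_add_right] at h4
  rotate_left
  · exact (measurable_const.mul hfm).ennreal_ofReal
  · refine Measurable.add ?_ (measurable_const.mul hfm).ennreal_ofReal
    exact ((((hfm.comp (measurable_id.sub_const D)).add hfm).add
      (hfm.comp (measurable_id.add_const D))).div_const 3).ennreal_ofReal
  -- the first term
  have t1 : ∫⁻ y, ∫⁻ x in Ico y (y + D), ENNReal.ofReal (-log (β x)) ∂μ =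
      ENNReal.ofReal D * ∫⁻ x, ENNReal.ofReal (-log (β x)) ∂μ := by
    have hs : MeasurableSet ({z : ℝ × ℝ | z.1 ≤ z.2} ∩ {z | z.2 < z.1 + D}) :=
      (measurableSet_le measurable_fst measurable_snd).inter
        (measurableSet_lt measurable_snd (measurable_fst.add_const D))
    have e1 : ∀ y : ℝ, ∫⁻ x in Ico y (y + D), ENNReal.ofReal (-log (β x)) ∂μ =
        ∫⁻ x, (({z : ℝ × ℝ | z.1 ≤ z.2} ∩ {z | z.2 < z.1 + D}).indicator
          (fun z => ENNReal.ofReal (-log (β z.2)))) (y, x) ∂μ := by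
      intro y
      rw [← lintegral_indicator measurableSet_Ico]
      refine lintegral_congr fun x => ?_
      by_cases hx : x ∈ Ico y (y + D)
      · rw [indicator_of_mem hx, indicator_of_mem]
        exact ⟨hx.1, hx.2⟩
      · rw [indicator_of_notMem hx, indicator_of_notMem]
        intro h; exact hx ⟨h.1, h.2⟩
    simp only [e1]
    rw [lintegral_lintegral_swap]
    · rw [← lintegral_const_mul' _ _ ENNReal.ofReal_ne_top]
      refine lintegral_congr fun x => ?_
      have e2 : (fun y : ℝ => (({z : ℝ × ℝ | z.1 ≤ z.2} ∩ {z | z.2 < z.1 + D}).indicator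
          (fun z => ENNReal.ofReal (-log (β z.2)))) (y, x)) =
          (Ioc (x - D) x).indicator fun _ => ENNReal.ofReal (-log (β x)) := by
        funext y
        by_cases hy : y ∈ Ioc (x - D) x
        · rw [indicator_of_mem hy, indicator_of_mem]
          exact ⟨hy.2, show x < y + D by linarith [hy.1]⟩
        · rw [indicator_of_notMem hy, indicator_of_notMem]
          intro h
          have h1 : y ≤ x := h.1
          have h2 : x < y + D := h.2
          exact hy ⟨by linarith, h1⟩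
      rw [e2, lintegral_indicator measurableSet_Ioc, setLIntegral_const, Real.volume_Ioc, mul_comm]
      congr 2; ring
    · exact (((measurable_log.comp (hβm.comp measurable_snd)).neg.ennreal_ofReal).indicator
        hs).aemeasurable
  -- the other terms
  have t2 : ∫⁻ y, ENNReal.ofReal ((f (y - D) + f y + f (y + D)) / 3) = ENNReal.ofReal D := by
    rw [← ofReal_integral_eq_lintegral_ofReal]
    · congr 1
      have i1 : ∫ y, f (y - D) = D := by
        rw [integral_sub_right_eq_self f D, integral_cell hD.le, probReal_univ, mul_one]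
      have i2 : ∫ y, f y = D := by rw [integral_cell hD.le, probReal_univ, mul_one]
      have i3 : ∫ y, f (y + D) = D := by
        rw [integral_add_right_eq_self f D, integral_cell hD.le, probReal_univ, mul_one]
      have j1 : Integrable fun y => f (y - D) := hint.comp_sub_right D
      have j2 : Integrable f := hint
      have j3 : Integrable fun y => f (y + D) := hint.comp_add_right D
      have e4 : ∫ y, (f (y - D) + f y + f (y + D)) =
          (∫ y, (f (y - D) + f y)) + ∫ y, f (y + D) := integral_add (j1.add j2) j3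
      rw [integral_div, e4, integral_add j1 j2, i1, i2, i3]; ring
    · exact (((hint.comp_sub_right D).add hint).add (hint.comp_add_right D)).div_const 3
    · refine Filter.Eventually.of_forall fun y => ?_
      have a1 : 0 ≤ f (y - D) := measureReal_nonneg
      have a2 : 0 ≤ f y := measureReal_nonneg
      have a3 : 0 ≤ f (y + D) := measureReal_nonneg
      simp only [Pi.zero_apply]
      positivity
  have t3 : ∫⁻ y, ENNReal.ofReal ((log 3 - 1) * f y) = ENNReal.ofReal ((log 3 - 1) * D) := by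
    rw [← ofReal_integral_eq_lintegral_ofReal (hint.const_mul _)]
    · rw [integral_const_mul, integral_cell hD.le, probReal_univ, mul_one]
    · refine Filter.Eventually.of_forall fun y => ?_
      have a2 : 0 ≤ f y := measureReal_nonneg
      have : 0 ≤ log 3 - 1 := by linarith
      simp only [Pi.zero_apply]
      positivity
  rw [t1, t2, t3] at h4
  have h5 : ∫⁻ x, ENNReal.ofReal (-log (β x)) ∂μ =
      ENNReal.ofReal (∫ x, -log (β x) ∂μ) :=
    (ofReal_integral_eq_lintegral_ofReal (integrable_neg_log_ball hμ hD)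
      (Filter.Eventually.of_forall fun x => neg_log_ball_nonneg D x)).symm
  have h6 : 0 ≤ ∫ x, -log (β x) ∂μ := integral_nonneg fun x => neg_log_ball_nonneg D x
  rw [h5, ← ENNReal.ofReal_mul hD.le, ← ENNReal.ofReal_add hD.le (by nlinarith),
    ← ENNReal.ofReal_add (by positivity) (by nlinarith),
    ENNReal.ofReal_le_ofReal_iff (by nlinarith [mul_nonneg hD.le h6])] at h4
  have h7 : D * (Hs μ D - log 3) ≤ D * ∫ x, -log (β x) ∂μ := by linarith
  exact le_of_mul_le_mul_left h7 hD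

end ball

end Crest.Agent.R98.K
end

-- ▼ part R98/KDet
section

/-!
R98 / KDet (helper9): **the detection lemma** (notes 10295, 10296 of helper383), final forms
`J_eq_info`, `info_nonneg`, `info_le`, `det`, `det_K`.
-/

set_option autoImplicit false
set_option linter.unusedVariables false
set_option linter.unusedSectionVars false

open MeasureTheory Set Real
open scoped ENNReal

namespace Crest.Agent.R98.K

section info

variable {C : Type*} [Fintype C]

/-- information density of the child `u` of a finite mixture: `s_u - e_u` -/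
noncomputable def info (n : C → ℝ) (P : C → Measure ℝ) (r : ℝ) (u : C) : ℝ :=
  (1 / r) * ∫ z, (P u).real (Ico z (z + r)) *
    (log ((P u).real (Ico z (z + r))) - log (∑ u', n u' * (P u').real (Ico z (z + r))))

theorem integrable_info {n : C → ℝ} (hn : ∀ u, 0 ≤ n u) {P : C → Measure ℝ}
    [∀ u, IsFiniteMeasure (P u)] (hP : ∀ u, BSupp (P u)) (r : ℝ) {u : C} (hu : 0 < n u) :
    Integrable fun z => (P u).real (Ico z (z + r)) *
      (log ((P u).real (Ico z (z + r))) - log (∑ u', n u' * (P u').real (Ico z (z + r)))) := by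
  simp only [mul_sub, ← mix_real hn P]
  have h1 : Integrable fun z => (P u).real (Ico z (z + r)) * log ((P u).real (Ico z (z + r))) := by
    have := (integrable_negMulLog_cell (hP u) r).neg
    refine this.congr (Filter.Eventually.of_forall fun z => ?_)
    simp [negMulLog]
  refine h1.sub ?_
  have h2 := (integrable_negMulLog_cell (BSupp.mix (q := n) hP) r).norm.div_const (n u)
  refine h2.mono' ?_ (Filter.Eventually.of_forall fun z => ?_)
  · exact ((measurable_cell (P u) r).mul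
      (measurable_log.comp (measurable_cell (mix n P) r))).aestronglyMeasurable
  · rw [Real.norm_eq_abs, abs_mul, abs_of_nonneg measureReal_nonneg]
    have h3 : n u * (P u).real (Ico z (z + r)) ≤ (mix n P).real (Ico z (z + r)) := by
      rw [mix_real hn P]
      exact Finset.single_le_sum (f := fun u' => n u' * (P u').real (Ico z (z + r)))
        (fun u' _ => mul_nonneg (hn u') measureReal_nonneg) (Finset.mem_univ u)
    rw [le_div_iff₀ hu, negMulLog, Real.norm_eq_abs, abs_mul, abs_neg,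
      abs_of_nonneg (measureReal_nonneg (μ := mix n P))]
    have h4 := mul_le_mul_of_nonneg_right h3 (abs_nonneg (log ((mix n P).real (Ico z (z + r)))))
    linarith

/-- the information of the children is the mean of their information densities -/
theorem J_eq_info {n : C → ℝ} (hn : ∀ u, 0 ≤ n u) {P : C → Measure ℝ}
    [∀ u, IsFiniteMeasure (P u)] (hP : ∀ u, BSupp (P u)) (r : ℝ) :
    J n P r = ∑ u, n u * info n P r u := by
  rw [J_eq hn hP]
  have h1 : ∀ z, jfun n (fun u => (P u).real (Ico z (z + r))) =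
      ∑ u, n u * ((P u).real (Ico z (z + r)) *
        (log ((P u).real (Ico z (z + r))) - log (∑ u', n u' * (P u').real (Ico z (z + r))))) := by
    intro z
    unfold jfun
    simp only [negMulLog, neg_mul, mul_neg, Finset.sum_neg_distrib, mul_sub,
      Finset.sum_sub_distrib]
    have : ∑ x, n x * ((P x).real (Ico z (z + r)) *
        log (∑ u', n u' * (P u').real (Ico z (z + r)))) =
        (∑ u', n u' * (P u').real (Ico z (z + r))) *
          log (∑ u', n u' * (P u').real (Ico z (z + r))) := by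
      rw [Finset.sum_mul]; exact Finset.sum_congr rfl fun x _ => by ring
    rw [this]; ring
  simp only [h1]
  rw [integral_finsetSum, Finset.mul_sum]
  · refine Finset.sum_congr rfl fun u _ => ?_
    rw [integral_const_mul]; unfold info; ring
  · intro u _
    rcases (hn u).eq_or_lt with h | h
    · simp only [← h, zero_mul]; exact integrable_zero _ _ _
    · exact (integrable_info hn hP r h).const_mul _

theorem info_nonneg {n : C → ℝ} (hn : ∀ u, 0 ≤ n u) (hn1 : ∑ u, n u = 1) {P : C → Measure ℝ}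
    [∀ u, IsProbabilityMeasure (P u)] (hP : ∀ u, BSupp (P u)) {r : ℝ} (hr : 0 < r) {u : C}
    (hu : 0 < n u) : 0 ≤ info n P r u := by
  have hprob := isProbabilityMeasure_mix hn hn1 P
  have h1 : ∫ z, ((P u).real (Ico z (z + r)) - (mix n P).real (Ico z (z + r))) = 0 := by
    rw [integral_sub (integrable_cell (hP u) r) (integrable_cell (BSupp.mix hP) r),
      integral_cell hr.le, integral_cell hr.le, probReal_univ, probReal_univ, sub_self]
  unfold info
  refine mul_nonneg (by positivity) ?_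
  rw [← h1]
  refine integral_mono ((integrable_cell (hP u) r).sub (integrable_cell (BSupp.mix hP) r))
    (integrable_info hn hP r hu) fun z => ?_
  simp only [← mix_real hn P]
  set x := (P u).real (Ico z (z + r)) with hx
  set Sg := (mix n P).real (Ico z (z + r)) with hS
  have hx0 : 0 ≤ x := measureReal_nonneg
  have hS0 : 0 ≤ Sg := measureReal_nonneg
  have h3 : n u * x ≤ Sg := by
    rw [hS, mix_real hn P]
    exact Finset.single_le_sum (f := fun u' => n u' * (P u').real (Ico z (z + r)))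
      (fun u' _ => mul_nonneg (hn u') measureReal_nonneg) (Finset.mem_univ u)
  rcases hx0.eq_or_lt with h | h
  · rw [← h]; simpa using hS0
  · have hSp : 0 < Sg := lt_of_lt_of_le (mul_pos hu h) h3
    have h4 := log_le_sub_one_of_pos (div_pos hSp h)
    rw [log_div hSp.ne' h.ne'] at h4
    have h5 := mul_le_mul_of_nonneg_left h4 hx0
    have h6 : x * (Sg / x - 1) = Sg - x := by field_simp
    rw [h6] at h5
    nlinarith


end info

section det

variable {C κ 𝒬 : Type*} [Fintype C] [Fintype κ] [Fintype 𝒬]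

/-- the information density in terms of the other children -/
theorem info_eq {μ : Measure ℝ} [IsProbabilityMeasure μ] (hμ : BSupp μ) {n : C → ℝ}
    (hn : ∀ u, 0 ≤ n u) {c : C → κ → ℝ} (hc : ∀ u k, 0 ≤ c u k) (hc1 : ∀ u, ∑ k, c u k = 1)
    (v : κ → ℝ) {ρ r : ℝ} (hr : 0 < r) {u : C} (hu : 0 < n u) [DecidableEq C] :
    info n (fun u' => addLaw (c u') v (scal ρ μ)) r u =
      -log (n u) - (1 / r) * ∫ z, m (c u) v ρ r μ z *
        log (1 + m (fun j => ∑ u', if u' = u then 0 else n u' * c u' j) v ρ r μ z /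
          (n u * m (c u) v ρ r μ z)) := by
  set bw : κ → ℝ := fun j => ∑ u', if u' = u then 0 else n u' * c u' j with hbw
  have hbw0 : ∀ j, 0 ≤ bw j := fun j => Finset.sum_nonneg fun u' _ => by
    split_ifs
    · exact le_rfl
    · exact mul_nonneg (hn u') (hc u' j)
  have hsplit : ∀ z, ∑ u', n u' * m (c u') v ρ r μ z = n u * m (c u) v ρ r μ z +
      m bw v ρ r μ z := by
    intro z
    have h1 : m bw v ρ r μ z = ∑ u', if u' = u then 0 else n u' * m (c u') v ρ r μ z := by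
      unfold m
      simp only [hbw, Finset.sum_mul]
      rw [Finset.sum_comm]
      refine Finset.sum_congr rfl fun u' _ => ?_
      split_ifs with h
      · simp
      · rw [Finset.mul_sum]; exact Finset.sum_congr rfl fun j _ => by ring
    rw [h1]
    have h2 : n u * m (c u) v ρ r μ z = ∑ u', if u' = u then n u' * m (c u') v ρ r μ z else 0 := by
      rw [Finset.sum_ite_eq' Finset.univ u, if_pos (Finset.mem_univ u)]
    rw [h2, ← Finset.sum_add_distrib]
    refine Finset.sum_congr rfl fun u' _ => ?_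
    split_ifs <;> simp
  have hP0 : ∀ z, 0 ≤ m (c u) v ρ r μ z := m_nonneg (hc u) v ρ r μ
  have hA0 : ∀ z, 0 ≤ m bw v ρ r μ z := m_nonneg hbw0 v ρ r μ
  have hpt : ∀ z, m (c u) v ρ r μ z * (log (m (c u) v ρ r μ z) -
      log (∑ u', n u' * m (c u') v ρ r μ z)) = m (c u) v ρ r μ z * (-log (n u)) -
      m (c u) v ρ r μ z * log (1 + m bw v ρ r μ z / (n u * m (c u) v ρ r μ z)) := by
    intro z
    rcases (hP0 z).eq_or_lt with h | h
    · rw [← h]; simp
    · rw [hsplit z, ← mul_sub]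
      congr 1
      have h1 : n u * m (c u) v ρ r μ z + m bw v ρ r μ z =
          n u * (m (c u) v ρ r μ z * (1 + m bw v ρ r μ z / (n u * m (c u) v ρ r μ z))) := by
        field_simp
      have h2 : 0 < 1 + m bw v ρ r μ z / (n u * m (c u) v ρ r μ z) := by
        have : 0 ≤ m bw v ρ r μ z / (n u * m (c u) v ρ r μ z) :=
          div_nonneg (hA0 z) (mul_nonneg hu.le h.le)
        linarith
      rw [h1, log_mul hu.ne' (mul_pos h h2).ne', log_mul h.ne' h2.ne']
      ring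
  have hPi : Integrable (m (c u) v ρ r μ) := integrable_m (hc u) v ρ r hμ
  have hAi : Integrable (m bw v ρ r μ) := integrable_m hbw0 v ρ r hμ
  have hLi : Integrable fun z => m (c u) v ρ r μ z *
      log (1 + m bw v ρ r μ z / (n u * m (c u) v ρ r μ z)) := by
    have hPm := measurable_m (c u) v ρ r μ
    have hAm := measurable_m bw v ρ r μ
    refine (hAi.div_const (n u)).mono' (hPm.mul (measurable_log.comp
      (measurable_const.add (hAm.div (hPm.const_mul (n u)))))).aestronglyMeasurable ?_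
    refine Filter.Eventually.of_forall fun z => ?_
    have h1 : 0 ≤ m bw v ρ r μ z / (n u * m (c u) v ρ r μ z) :=
      div_nonneg (hA0 z) (mul_nonneg hu.le (hP0 z))
    rw [Real.norm_eq_abs, abs_of_nonneg (mul_nonneg (hP0 z) (log_nonneg (by linarith)))]
    have h2 : log (1 + m bw v ρ r μ z / (n u * m (c u) v ρ r μ z)) ≤
        m bw v ρ r μ z / (n u * m (c u) v ρ r μ z) := by
      have := log_le_sub_one_of_pos
        (show 0 < 1 + m bw v ρ r μ z / (n u * m (c u) v ρ r μ z) by linarith)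
      linarith
    rcases (hP0 z).eq_or_lt with h0 | h0
    · rw [← h0, zero_mul]; exact div_nonneg (hA0 z) hu.le
    · have h3 := mul_le_mul_of_nonneg_left h2 h0.le
      have h4 : m (c u) v ρ r μ z * (m bw v ρ r μ z / (n u * m (c u) v ρ r μ z)) =
          m bw v ρ r μ z / n u := by field_simp
      linarith
  unfold info
  have e1 : ∀ (u' : C) (z : ℝ), (addLaw (c u') v (scal ρ μ)).real (Ico z (z + r)) =
      m (c u') v ρ r μ z := fun u' z => addLaw_real (hc u') v ρ r μ z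
  simp only [e1, hpt]
  rw [integral_sub (hPi.mul_const _) hLi, integral_mul_const, integral_m (hc u) v ρ hr.le,
    hc1 u, mul_one]
  field_simp

/-- **detection lemma**, general form -/
theorem det {μ : Measure ℝ} [IsProbabilityMeasure μ] (hμ : BSupp μ) {n : C → ℝ}
    (hn : ∀ u, 0 ≤ n u) (hn1 : ∑ u, n u = 1) {c : C → κ → ℝ} (hc : ∀ u k, 0 ≤ c u k)
    (hc1 : ∀ u, ∑ k, c u k = 1) (v : κ → ℝ) {p ρ : 𝒬 → ℝ} (hp : ∀ Q, 0 ≤ p Q)
    (hp1 : ∑ Q, p Q = 1) {r b Dn ρ0 R T Λ D C1 Eu δ θ g : ℝ} (hr : 0 < r) (hb : 2 * r ≤ b)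
    {u : C} (hu : 0 < n u) (Near : κ → Prop) [DecidablePred Near]
    (hnear : ∑ k, (if Near k then c u k else 0) ≤ θ)
    (hsep : ∀ k, c u k ≠ 0 → ¬ Near k → ∀ u', u' ≠ u → n u' ≠ 0 → ∀ j, c u' j ≠ 0 →
      b ≤ |v k - v j|)
    (hDn : 0 ≤ Dn)
    (hdiam : ∀ k, c u k ≠ 0 → ∀ u', n u' ≠ 0 → ∀ j, c u' j ≠ 0 → |v k - v j| ≤ Dn)
    (hρ0 : 0 < ρ0) (hρ1 : ∀ Q, ρ0 ≤ |ρ Q|) (hρ2 : ∀ Q, |ρ Q| ≤ R * ρ0)
    (hconc : ∀ a : ℝ, ∑ Q, (if a ≤ log |ρ Q| ∧ log |ρ Q| ≤ a + 4 * r / b then p Q else 0) ≤ Λ)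
    (hD : 0 ≤ D) (hdef : ∀ d, 0 < d → ∀ L, 1 ≤ L → Hs μ d - Hs μ (L * d) ≤ D * log L + C1)
    (hE : Hs (addLaw (c u) v (Measure.dirac 0)) r ≤ Eu)
    (hT0 : 0 < T) (hT : D * log (R * (Dn + r) / r) + C1 + Eu + log 3 ≤ (1 - δ) * T)
    (hg : 0 ≤ g) (hΛ : exp T * Λ ≤ exp (-g)) :
    (δ - θ) * min (-log (n u)) g - 3 ≤
      ∑ Q, p Q * info n (fun u' => addLaw (c u') v (scal (ρ Q) μ)) r u := by
  classical
  have hρne : ∀ Q, ρ Q ≠ 0 := fun Q => abs_pos.mp (hρ0.trans_le (hρ1 Q))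
  set bw : κ → ℝ := fun j => ∑ u', if u' = u then 0 else n u' * c u' j with hbw
  have hbw0 : ∀ j, 0 ≤ bw j := fun j => Finset.sum_nonneg fun u' _ => by
    split_ifs
    · exact le_rfl
    · exact mul_nonneg (hn u') (hc u' j)
  have hbw1 : ∑ j, bw j ≤ 1 := by
    simp only [hbw]
    rw [Finset.sum_comm, ← hn1]
    refine Finset.sum_le_sum fun u' _ => ?_
    split_ifs
    · simpa using hn u'
    · rw [← Finset.mul_sum, hc1 u', mul_one]
  have hbwne : ∀ j, bw j ≠ 0 → ∃ u', u' ≠ u ∧ n u' ≠ 0 ∧ c u' j ≠ 0 := by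
    intro j hj
    obtain ⟨u', _, h⟩ := Finset.exists_ne_zero_of_sum_ne_zero hj
    by_cases h1 : u' = u
    · rw [if_pos h1] at h; exact absurd rfl h
    · rw [if_neg h1] at h
      exact ⟨u', h1, left_ne_zero_of_mul h, right_ne_zero_of_mul h⟩
  set c' : κ → ℝ := fun k => if Near k then 0 else c u k with hc'
  have hc'0 : ∀ k, 0 ≤ c' k := fun k => by
    simp only [hc']; split_ifs <;> [exact le_rfl; exact hc u k]
  have hcc : ∀ k, c' k ≤ c u k := fun k => by
    simp only [hc']; split_ifs <;> [exact hc u k; exact le_rfl]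
  set D₀ : ℝ := (Dn + r) / ρ0 with hD₀
  have hD₀0 : 0 < D₀ := div_pos (by linarith) hρ0
  have hD₀ρ : ∀ Q, Dn + r ≤ D₀ * |ρ Q| := by
    intro Q
    rw [hD₀, div_mul_eq_mul_div, le_div_iff₀ hρ0]
    exact mul_le_mul_of_nonneg_left (hρ1 Q) (by linarith)
  have hLtop : Lb μ D₀ ≠ ⊤ :=
    ne_top_of_le_ne_top ENNReal.ofReal_ne_top (lintegral_nlog_ball_le hμ hD₀0)
  have hLbge : Hs μ D₀ - log 3 ≤ (Lb μ D₀).toReal := by
    refine (le_int_neg_log_ball hμ hD₀0).trans ?_
    rw [integral_eq_lintegral_of_nonneg_ae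
      (Filter.Eventually.of_forall fun x => neg_log_ball_nonneg D₀ x)
      (measurable_log.comp (measurable_ball D₀)).neg.aestronglyMeasurable]
    refine ENNReal.toReal_mono hLtop ?_
    exact lintegral_mono fun x => ofReal_neg_log_le_nlog
  have hEQ : ∀ Q, Hs (addLaw (c u) v (scal (ρ Q) μ)) r ≤ (Lb μ D₀).toReal +
      (D * log (R * (Dn + r) / r) + C1 + Eu + log 3) := by
    intro Q
    have h1 := Hs_addLaw_le_add (hc u) (hc1 u) v (bsupp_scal hμ (ρ Q)) hr.le
    rw [Hs_scal (hρne Q)] at h1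
    have hρp : 0 < |ρ Q| := abs_pos.mpr (hρne Q)
    set L : ℝ := D₀ * |ρ Q| / r with hLdef
    have hL1 : 1 ≤ L := by
      rw [hLdef, one_le_div hr]
      linarith [hD₀ρ Q]
    have h2 := hdef (r / |ρ Q|) (div_pos hr hρp) L hL1
    have h3 : L * (r / |ρ Q|) = D₀ := by rw [hLdef]; field_simp
    rw [h3] at h2
    have h4 : log L ≤ log (R * (Dn + r) / r) := by
      refine log_le_log (by linarith) ?_
      rw [hLdef]
      refine div_le_div_of_nonneg_right ?_ hr.le
      rw [hD₀, div_mul_eq_mul_div, div_le_iff₀ hρ0]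
      have := mul_le_mul_of_nonneg_left (hρ2 Q) (show 0 ≤ Dn + r by linarith)
      linarith
    have h5 := mul_le_mul_of_nonneg_left h4 hD
    linarith
  have hn_le : n u ≤ 1 := by
    rw [← hn1]; exact Finset.single_le_sum (fun u' _ => hn u') (Finset.mem_univ u)
  have hcore := det_core (𝒬 := 𝒬) hμ (c := c u) (c' := c') (bw := bw) (v := v) (hc u) (hc1 u) hc'0
    hcc hbw0 hbw1 hp hp1 hρne (r := r) (b := b) (D₀ := D₀) (T := T) (Λ := Λ)
    (E₁ := D * log (R * (Dn + r) / r) + C1 + Eu + log 3) (δ := δ) (θ := θ) (g := g) (n := n u) hr hb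
    (fun Q k hk k' hk' => by
      have := hdiam k hk u hu.ne' k' hk'
      linarith [hD₀ρ Q])
    (fun Q k hk j hj => by
      obtain ⟨u', _, h2, h3⟩ := hbwne j hj
      have := hdiam k hk u' h2 j h3
      linarith [hD₀ρ Q])
    (fun k hk j hj => by
      obtain ⟨u', h1, h2, h3⟩ := hbwne j hj
      have hk1 : ¬ Near k := fun h => hk (by simp only [hc', if_pos h])
      have hk2 : c u k ≠ 0 := fun h => hk (by simp only [hc', if_neg hk1, h])
      exact hsep k hk2 hk1 u' h1 h2 j h3)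
    (by
      refine le_trans (le_of_eq (Finset.sum_congr rfl fun k _ => ?_)) hnear
      simp only [hc']; split_ifs <;> simp)
    hconc hLtop hT0 hEQ hT hg hΛ hu hn_le
  have h1 : ∀ Q, info n (fun u' => addLaw (c u') v (scal (ρ Q) μ)) r u =
      -log (n u) - (1 / r) * ∫ z, m (c u) v (ρ Q) r μ z *
        log (1 + m bw v (ρ Q) r μ z / (n u * m (c u) v (ρ Q) r μ z)) := fun Q =>
    info_eq hμ hn hc hc1 v hr hu
  simp only [h1, mul_sub, Finset.sum_sub_distrib]
  rw [← Finset.sum_mul, hp1, one_mul]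
  linarith

/-- **detection lemma** in the frozen parameters of case K (`l = K w`, node of diameter `≤ d`,
`b = d / 2^(2w)`, `r = d / 2^(K w)`) -/
theorem det_K {μ : Measure ℝ} [IsProbabilityMeasure μ] (hμ : BSupp μ) {K w : ℕ} (hK : 16 ≤ K)
    (hw1 : 1 ≤ w) {n : C → ℝ}
    (hn : ∀ u, 0 ≤ n u) (hn1 : ∑ u, n u = 1) {c : C → κ → ℝ} (hc : ∀ u k, 0 ≤ c u k)
    (hc1 : ∀ u, ∑ k, c u k = 1) (v : κ → ℝ) {p ρ : 𝒬 → ℝ} (hp : ∀ Q, 0 ≤ p Q)
    (hp1 : ∑ Q, p Q = 1) {d ρ0 R C0 : ℝ} (hd : 0 < d)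
    (hw : log (2 * R) + C0 + log 3 ≤ w * log 2)
    {u : C} (hu : 0 < n u) (Near : κ → Prop) [DecidablePred Near]
    (hnear : ∑ k, (if Near k then c u k else 0) ≤ 1 / K)
    (hsep : ∀ k, c u k ≠ 0 → ¬ Near k → ∀ u', u' ≠ u → n u' ≠ 0 → ∀ j, c u' j ≠ 0 →
      d / 2 ^ (2 * w) ≤ |v k - v j|)
    (hdiam : ∀ k, c u k ≠ 0 → ∀ u', n u' ≠ 0 → ∀ j, c u' j ≠ 0 → |v k - v j| ≤ d)
    (hρ0 : 0 < ρ0) (hρ1 : ∀ Q, ρ0 ≤ |ρ Q|) (hρ2 : ∀ Q, |ρ Q| ≤ R * ρ0)
    (hconc : ∀ a : ℝ, ∑ Q, (if a ≤ log |ρ Q| ∧ log |ρ Q| ≤ a + 8 / 2 ^ ((K - 2) * w) then p Q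
      else 0) ≤ 1 / 2 ^ ((K - 3) * w))
    (hdef : ∀ d, 0 < d → ∀ L, 1 ≤ L → Hs μ d - Hs μ (L * d) ≤ (1 - 8 / K) * log L + C0)
    (hE : Hs (addLaw (c u) v (Measure.dirac 0)) (d / 2 ^ (K * w)) ≤ w * log 2) :
    (1 / K) * min (-log (n u)) (w * log 2) - 3 ≤
      ∑ Q, p Q * info n (fun u' => addLaw (c u') v (scal (ρ Q) μ)) (d / 2 ^ (K * w)) u := by
  have hK' : (16 : ℝ) ≤ K := by exact_mod_cast hK
  have hKpos : (0 : ℝ) < K := by linarith
  have hw' : (1 : ℝ) ≤ w := by exact_mod_cast hw1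
  have hl2 : 0 < log 2 := log_pos (by norm_num)
  obtain ⟨Q0⟩ : Nonempty 𝒬 := by
    by_contra hcon
    rw [not_nonempty_iff] at hcon
    rw [Finset.univ_eq_empty, Finset.sum_empty] at hp1
    exact zero_ne_one hp1
  have hR : 1 ≤ R := by
    have h := (hρ1 Q0).trans (hρ2 Q0)
    by_contra hcon
    push Not at hcon
    nlinarith
  have hr : 0 < d / 2 ^ (K * w) := by positivity
  have hpow : (2 : ℝ) ^ (K * w) = 2 ^ ((K - 2) * w) * 2 ^ (2 * w) := by
    rw [← pow_add, ← add_mul, Nat.sub_add_cancel (by omega)]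
  have hp2 : (2 : ℝ) ≤ 2 ^ ((K - 2) * w) := by
    calc (2 : ℝ) = 2 ^ 1 := by norm_num
      _ ≤ 2 ^ ((K - 2) * w) := pow_le_pow_right₀ (by norm_num)
        (Nat.one_le_iff_ne_zero.mpr (Nat.mul_ne_zero (by omega) (by omega)))
  have hb : 2 * (d / 2 ^ (K * w)) ≤ d / 2 ^ (2 * w) := by
    rw [hpow, mul_div_assoc', div_le_div_iff₀ (by positivity) (by positivity)]
    have h1 : 0 < d * (2 : ℝ) ^ (2 * w) := by positivity
    nlinarith
  have h4 : 4 * (d / 2 ^ (K * w)) / (d / 2 ^ (2 * w)) ≤ 8 / (2 : ℝ) ^ ((K - 2) * w) := by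
    have h1 : 4 * (d / 2 ^ (K * w)) / (d / 2 ^ (2 * w)) = 4 / (2 : ℝ) ^ ((K - 2) * w) := by
      rw [hpow]; field_simp
    rw [h1]
    exact div_le_div_of_nonneg_right (by norm_num) (by positivity)
  have hT0 : 0 < ((K : ℝ) - 4) * w * log 2 := by
    have : 0 < (K : ℝ) - 4 := by linarith
    positivity
  have hD : (0 : ℝ) ≤ 1 - 8 / K := by
    rw [sub_nonneg, div_le_one hKpos]; linarith
  have hD1 : (1 : ℝ) - 8 / K ≤ 1 := by
    have : 0 < 8 / (K : ℝ) := by positivity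
    linarith
  have hlog : log (R * (d + d / 2 ^ (K * w)) / (d / 2 ^ (K * w))) ≤
      log (2 * R) + K * w * log 2 := by
    have h1 : R * (d + d / 2 ^ (K * w)) / (d / 2 ^ (K * w)) ≤ 2 * R * 2 ^ (K * w) := by
      have h2 : R * (d + d / 2 ^ (K * w)) / (d / 2 ^ (K * w)) = R * (2 ^ (K * w) + 1) := by
        field_simp
      have h3 : (1 : ℝ) ≤ 2 ^ (K * w) := one_le_pow₀ (by norm_num)
      rw [h2]; nlinarith
    have h2 := log_le_log (by positivity) h1
    rw [log_mul (by positivity) (by positivity), log_pow] at h2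
    push_cast at h2
    exact h2
  have hT : (1 - 8 / K) * log (R * (d + d / 2 ^ (K * w)) / (d / 2 ^ (K * w))) + C0 + w * log 2 +
      log 3 ≤ (1 - 2 / K) * (((K : ℝ) - 4) * w * log 2) := by
    have h1 := mul_le_mul_of_nonneg_left hlog hD
    have h2 : 0 ≤ log (2 * R) := log_nonneg (by linarith)
    have h3 : (1 - 8 / K) * log (2 * R) ≤ log (2 * R) := by nlinarith
    have h5 : (1 - 8 / (K : ℝ)) * (K * w * log 2) = (K - 8) * w * log 2 := by field_simp
    have h6 : (1 - 2 / (K : ℝ)) * ((K - 4) * w * log 2) =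
        (K - 6 + 8 / K) * w * log 2 := by field_simp; ring
    rw [h6]
    have h7 : 0 < 8 / (K : ℝ) * w * log 2 := by positivity
    have h8 : 0 < (w : ℝ) * log 2 := by positivity
    nlinarith
  have hΛ : exp (((K : ℝ) - 4) * w * log 2) * (1 / 2 ^ ((K - 3) * w)) ≤ exp (-(w * log 2)) := by
    have h1 : exp (((K : ℝ) - 4) * w * log 2) = 2 ^ ((K - 4) * w) := by
      have : ((K : ℝ) - 4) * w * log 2 = (((K - 4) * w : ℕ) : ℝ) * log 2 := by
        push_cast [Nat.cast_sub (show 4 ≤ K by omega)]; ring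
      rw [this, exp_nat_mul, exp_log (by norm_num)]
    have h2 : exp (-(w * log 2)) = 1 / (2 : ℝ) ^ w := by
      rw [exp_neg, exp_nat_mul, exp_log (by norm_num), one_div]
    have h3 : (2 : ℝ) ^ ((K - 3) * w) = 2 ^ ((K - 4) * w) * 2 ^ w := by
      rw [← pow_add]
      congr 1
      have : K - 3 = (K - 4) + 1 := by omega
      rw [this, add_mul, one_mul]
    rw [h1, h2, h3]
    apply le_of_eq
    field_simp
  have key := det (𝒬 := 𝒬) hμ hn hn1 hc hc1 v hp hp1 (r := d / 2 ^ (K * w)) (b := d / 2 ^ (2 * w))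
    (Dn := d) (ρ0 := ρ0) (R := R) (T := ((K : ℝ) - 4) * w * log 2) (Λ := 1 / 2 ^ ((K - 3) * w))
    (D := 1 - 8 / K) (C1 := C0) (Eu := w * log 2) (δ := 2 / K) (θ := 1 / K) (g := w * log 2)
    hr hb hu Near hnear hsep hd.le hdiam hρ0 hρ1 hρ2
    (fun a => by
      refine le_trans (Finset.sum_le_sum fun Q _ => ?_) (hconc a)
      by_cases h : a ≤ log |ρ Q| ∧
          log |ρ Q| ≤ a + 4 * (d / 2 ^ (K * w)) / (d / 2 ^ (2 * w))
      · rw [if_pos h, if_pos ⟨h.1, h.2.trans (by linarith)⟩]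
      · rw [if_neg h]
        split_ifs
        · exact hp Q
        · exact le_rfl)
    hD hdef hE hT0 hT (by positivity) hΛ
  have h9 : (2 / (K : ℝ) - 1 / K) = 1 / K := by ring
  rw [h9] at key
  exact key

end det

end Crest.Agent.R98.K
end

-- ▼ part R98/KDetI
section

/-!
R98 / KDetI (helper226): the detection lemma `det_K` (helper9) in the form `Det` used by the tree.
-/

set_option autoImplicit false
set_option linter.unusedSectionVars false

open Real Set MeasureTheory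

namespace Crest.Agent.R98.K

variable {κ : Type*} [Fintype κ]

open Classical in
/-- conditional weights, a probability for every label -/
noncomputable def cnd' {U : Type*} (p : κ → ℝ) (f : κ → U) (u : U) : κ → ℝ :=
  if lm p f u = 0 then p else cnd p f u

theorem cnd'_of_ne {U : Type*} {p : κ → ℝ} {f : κ → U} {u : U} (h : lm p f u ≠ 0) :
    cnd' p f u = cnd p f u := if_neg h

theorem isPW_cnd' {U : Type*} {p : κ → ℝ} (hp : IsPW p) (f : κ → U) (u : U) :
    IsPW (cnd' p f u) := by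
  by_cases h : lm p f u = 0
  · unfold cnd'; rw [if_pos h]; exact hp
  · rw [cnd'_of_ne h]; exact isPW_cnd f hp.1 h

theorem J_cnd_eq {U : Type*} [Fintype U] {p : κ → ℝ} (f : κ → U) (v : κ → ℝ) (B : Measure ℝ)
    (d : ℝ) :
    J (lm p f) (fun u => addLaw (cnd p f u) v B) d =
      J (lm p f) (fun u => addLaw (cnd' p f u) v B) d := by
  have h1 : mix (lm p f) (fun u => addLaw (cnd p f u) v B) =
      mix (lm p f) (fun u => addLaw (cnd' p f u) v B) := by
    unfold mix
    refine Finset.sum_congr rfl fun u _ => ?_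
    by_cases h : lm p f u = 0
    · rw [h, ENNReal.ofReal_zero, zero_smul, zero_smul]
    · simp only [cnd'_of_ne h]
  unfold J
  rw [h1]
  congr 1
  refine Finset.sum_congr rfl fun u _ => ?_
  by_cases h : lm p f u = 0
  · rw [h, zero_mul, zero_mul]
  · simp only [cnd'_of_ne h]

/-- deficit for real ratios from the deficit for integer ratios -/
theorem deficit_real {μ : Measure ℝ} [IsProbabilityMeasure μ] (hμ : BSupp μ) {K : ℕ}
    (hK : 16 ≤ K) {C1 : ℝ}
    (h : ∀ L : ℕ, 0 < L → ∀ d, 0 < d → Hs μ d - Hs μ (L * d) ≤ (1 - 8 / K) * log L + C1) :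
    ∀ d, 0 < d → ∀ L : ℝ, 1 ≤ L → Hs μ d - Hs μ (L * d) ≤ (1 - 8 / K) * log L + (C1 + log 2) := by
  intro d hd L hL
  have hK' : (16 : ℝ) ≤ K := by exact_mod_cast hK
  have hLn : L ≤ (⌈L⌉₊ : ℝ) := Nat.le_ceil L
  have hLn2 : (⌈L⌉₊ : ℝ) ≤ 2 * L := by
    have := Nat.ceil_lt_add_one (by linarith : 0 ≤ L)
    linarith
  have hpos : 0 < ⌈L⌉₊ := Nat.ceil_pos.2 (by linarith)
  have h1 := h _ hpos d hd
  have h2 : Hs μ (⌈L⌉₊ * d) ≤ Hs μ (L * d) :=
    Hs_anti hμ (by positivity) (mul_le_mul_of_nonneg_right hLn hd.le)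
  have h3 : log (⌈L⌉₊ : ℝ) ≤ log 2 + log L := by
    rw [← log_mul (by norm_num) (by positivity)]
    exact log_le_log (by positivity) hLn2
  have h8 : (8 : ℝ) / K ≤ 1 := by rw [div_le_one (by positivity)]; linarith
  have h9 : (0 : ℝ) ≤ 8 / K := by positivity
  have hl2 : 0 < log 2 := log_pos (by norm_num)
  have h4 : (1 - 8 / (K:ℝ)) * log ⌈L⌉₊ ≤ (1 - 8 / K) * (log 2 + log L) :=
    mul_le_mul_of_nonneg_left h3 (by linarith)
  nlinarith

/-- the detection property -/
theorem det_Det {𝒬 : Type*} [Fintype 𝒬] {μ : Measure ℝ} [IsProbabilityMeasure μ] (hμ : BSupp μ)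
    {K w : ℕ} (hK : 16 ≤ K) (hw1 : 1 ≤ w) (v : κ → ℝ) {w' ρ : 𝒬 → ℝ} (hw' : IsPW w')
    {u0 ρ0 R C0 : ℝ} (hu0 : 0 < u0) (hwl : log (2 * R) + C0 + log 3 ≤ w * log 2)
    (hρ0 : 0 < ρ0) (hρ1 : ∀ Q, ρ0 ≤ |ρ Q|) (hρ2 : ∀ Q, |ρ Q| ≤ R * ρ0)
    (hconc : ∀ a : ℝ, ∑ Q, (if a ≤ log |ρ Q| ∧ log |ρ Q| ≤ a + 8 / 2 ^ ((K - 2) * w) then w' Q
      else 0) ≤ 1 / 2 ^ ((K - 3) * w))
    (hdef : ∀ d, 0 < d → ∀ L : ℝ, 1 ≤ L → Hs μ d - Hs μ (L * d) ≤ (1 - 8 / K) * log L + C0)
    (x₀ x : ℕ) :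
    Det v w' (fun Q => scal (ρ Q) μ) u0 (1 / K) (1 / K) (w * log 2) 3 x₀ x
      (x₀ + K * w) (x₀ + 2 * w) := by
  classical
  intro N f p hp hD hch
  have hdy : u0 / 2 ^ x₀ / 2 ^ (K * w) = u0 / 2 ^ (x₀ + K * w) := by rw [div_div, ← pow_add]
  have hdz : u0 / 2 ^ x₀ / 2 ^ (2 * w) = u0 / 2 ^ (x₀ + 2 * w) := by rw [div_div, ← pow_add]
  have hn : ∀ u, 0 ≤ lm p f u := fun u => lm_nonneg f hp.1 u
  have hn1 : ∑ u, lm p f u = 1 := by rw [sum_lm, hp.2]
  have hprob : ∀ Q u, IsProbabilityMeasure (addLaw (cnd' p f u) v (scal (ρ Q) μ)) := fun Q u =>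
    isProbabilityMeasure_addLaw (isPW_cnd' hp f u).1 (isPW_cnd' hp f u).2 v _
  have hbs : ∀ Q, BSupp (scal (ρ Q) μ) := fun Q => bsupp_scal hμ (ρ Q)
  refine ⟨fun u => ∑ Q, w' Q * info (lm p f) (fun u' => addLaw (cnd' p f u') v (scal (ρ Q) μ))
    (u0 / 2 ^ (x₀ + K * w)) u, ?_, ?_, ?_⟩
  · intro u hu
    refine Finset.sum_nonneg fun Q _ => mul_nonneg (hw'.1 Q) ?_
    exact info_nonneg hn hn1 (fun u => (hbs Q).addLaw _ _) (by positivity)
      (lt_of_le_of_ne (hn u) (Ne.symm hu))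
  · rw [Gav_sub_eq hp f]
    simp only [J_cnd_eq]
    have h1 : ∀ Q, J (lm p f) (fun u => addLaw (cnd' p f u) v (scal (ρ Q) μ))
        (u0 / 2 ^ (x₀ + K * w)) = ∑ u, lm p f u * info (lm p f)
          (fun u' => addLaw (cnd' p f u') v (scal (ρ Q) μ)) (u0 / 2 ^ (x₀ + K * w)) u := fun Q =>
      J_eq_info hn (fun u => (hbs Q).addLaw _ _) _
    simp only [h1, Finset.mul_sum]
    rw [Finset.sum_comm]
    refine Finset.sum_congr rfl fun u _ => Finset.sum_congr rfl fun Q _ => ?_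
    ring
  · intro u hu hnear hE
    have hupos : 0 < lm p f u := lt_of_le_of_ne (hn u) (Ne.symm hu)
    set Near : κ → Prop := fun k => ∃ b', p b' ≠ 0 ∧ f b' ≠ u ∧
      |v k - v b'| < u0 / 2 ^ (x₀ + 2 * w) with hNear
    have hnear' : ∑ k, (if Near k then cnd' p f u k else 0) ≤ 1 / K := by
      have h1 : ∑ k, (if Near k then cnd' p f u k else 0) =
          (∑ a, (if f a = u ∧ ∃ b', p b' ≠ 0 ∧ f b' ≠ u ∧
            |v a - v b'| < u0 / 2 ^ (x₀ + 2 * w) then p a else 0)) / lm p f u := by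
        rw [Finset.sum_div]
        refine Finset.sum_congr rfl fun a _ => ?_
        rw [cnd'_of_ne hu]
        by_cases hN : Near a
        · rw [if_pos hN]
          by_cases hf : f a = u
          · rw [if_pos ⟨hf, hN⟩]
            unfold cnd
            rw [rs_of_eq f hf]
          · rw [if_neg (fun h => hf h.1)]
            unfold cnd
            rw [rs_of_ne f hf]
        · rw [if_neg hN, if_neg (fun h => hN h.2), zero_div]
      rw [h1, div_le_iff₀ hupos]
      exact hnear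
    have hcn : ∀ u' k, lm p f u' ≠ 0 → cnd' p f u' k ≠ 0 → f k = u' ∧ p k ≠ 0 := by
      intro u' k h0 h
      rw [cnd'_of_ne h0] at h
      exact cnd_ne_zero f h
    have hmain := det_K (κ := κ) hμ hK hw1 (n := lm p f) hn hn1 (c := cnd' p f)
      (fun u k => (isPW_cnd' hp f u).1 k) (fun u => (isPW_cnd' hp f u).2) v hw'.1 hw'.2
      (d := u0 / 2 ^ x₀) (ρ0 := ρ0) (R := R) (C0 := C0) (by positivity) hwl hupos Near hnear'
      (fun k hk hNk u' hu' hn' j hj => ?_) (fun k hk u' hn' j hj => ?_) hρ0 hρ1 hρ2 hconc hdef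
      (by rw [hdy, cnd'_of_ne hu]; exact hE)
    · rw [hdy] at hmain
      exact hmain
    · rw [hdz]
      obtain ⟨hj1, hj2⟩ := hcn u' j hn' hj
      by_contra hcon
      push Not at hcon
      exact hNk ⟨j, hj2, by rw [hj1]; exact hu', hcon⟩
    · exact hD k j (hcn u k hu hk).2 (hcn u' j hn' hj).2

end Crest.Agent.R98.K
end

-- ▼ part R98/KOneP
section

/-!
R98 / KOneP (helper226): the one-type theorem `OneP` of the frozen interface of case K.
-/

set_option autoImplicit false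
set_option linter.unusedSectionVars false

open Real Set MeasureTheory Filter Topology

namespace Crest.Agent.R98.K

/-! ### passing to distinct values -/

section quot

variable {Ω : Type*} [Fintype Ω]

theorem HS_ker_congr {β γ : Type*} {q : Ω → ℝ} {g : Ω → β} {h : Ω → γ}
    (hgh : ∀ a b, q a ≠ 0 → q b ≠ 0 → (g a = g b ↔ h a = h b)) :
    Part.HS q (Setoid.ker g) = Part.HS q (Setoid.ker h) := by
  unfold Part.HS
  congr 1
  refine Finset.sum_congr rfl fun a _ => ?_
  by_cases ha : q a = 0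
  · rw [ha, zero_mul, zero_mul]
  · congr 2
    unfold Part.cm
    refine Finset.sum_congr rfl fun b _ => ?_
    by_cases hb : q b = 0
    · by_cases h1 : b ∈ {b | (Setoid.ker g) b a}
      · rw [indicator_of_mem h1, hb]
        by_cases h2 : b ∈ {b | (Setoid.ker h) b a}
        · rw [indicator_of_mem h2, hb]
        · rw [indicator_of_notMem h2]
      · rw [indicator_of_notMem h1]
        by_cases h2 : b ∈ {b | (Setoid.ker h) b a}
        · rw [indicator_of_mem h2, hb]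
        · rw [indicator_of_notMem h2]
    · by_cases h1 : b ∈ {b | (Setoid.ker g) b a}
      · rw [indicator_of_mem h1, indicator_of_mem]
        exact (hgh b a hb ha).1 h1
      · rw [indicator_of_notMem h1, indicator_of_notMem]
        exact fun h2 => h1 ((hgh b a hb ha).2 h2)

open Classical in
/-- the set of values of positive mass -/
noncomputable def vals (q v : Ω → ℝ) : Finset ℝ :=
  (Finset.univ.filter fun a => q a ≠ 0).image v

theorem mem_vals {q v : Ω → ℝ} {a : Ω} (ha : q a ≠ 0) : v a ∈ vals q v := by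
  classical
  exact Finset.mem_image_of_mem v (Finset.mem_filter.2 ⟨Finset.mem_univ a, ha⟩)

theorem exists_of_vals {q v : Ω → ℝ} (x : vals q v) : ∃ a, q a ≠ 0 ∧ v a = x := by
  classical
  obtain ⟨a, ha, hax⟩ := Finset.mem_image.1 x.2
  exact ⟨a, (Finset.mem_filter.1 ha).2, hax⟩

theorem exists_lift {q : Ω → ℝ} (hq : IsPW q) (v : Ω → ℝ) :
    ∃ c : Ω → vals q v, ∀ a, q a ≠ 0 → ((c a : vals q v) : ℝ) = v a := by
  classical
  obtain ⟨a₀, ha₀⟩ : ∃ a, q a ≠ 0 := by
    by_contra h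
    push Not at h
    have : ∑ a, q a = 0 := Finset.sum_eq_zero fun a _ => h a
    rw [hq.2] at this
    norm_num at this
  refine ⟨fun a => if h : v a ∈ vals q v then ⟨v a, h⟩ else ⟨v a₀, mem_vals ha₀⟩, fun a ha => ?_⟩
  simp only [dif_pos (mem_vals ha)]

theorem addLaw_lift {q v : Ω → ℝ} (hq : IsPW q) {c : Ω → vals q v}
    (hc : ∀ a, q a ≠ 0 → ((c a : vals q v) : ℝ) = v a) (B : Measure ℝ) :
    addLaw (lm q c) (fun x : vals q v => (x : ℝ)) B = addLaw q v B := by
  classical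
  unfold addLaw mix
  have h1 : ∀ x : vals q v, ENNReal.ofReal (lm q c x) • shift (x : ℝ) B =
      ∑ a, ENNReal.ofReal (rs q c x a) • shift (x : ℝ) B := by
    intro x
    rw [← Finset.sum_smul]
    unfold lm
    rw [ENNReal.ofReal_sum_of_nonneg fun a _ => rs_nonneg c hq.1 x a]
  simp only [h1]
  rw [Finset.sum_comm]
  refine Finset.sum_congr rfl fun a _ => ?_
  rw [Finset.sum_eq_single (c a)]
  · rw [rs_of_eq c rfl]
    by_cases ha : q a = 0
    · rw [ha, ENNReal.ofReal_zero, zero_smul, zero_smul]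
    · rw [hc a ha]
  · intro x _ hx
    rw [rs_of_ne c (fun h => hx h.symm), ENNReal.ofReal_zero, zero_smul]
  · intro h; exact absurd (Finset.mem_univ _) h

theorem lm_lm {β γ : Type*} [Fintype β] [Fintype γ] {q : Ω → ℝ} (c : Ω → β) (f : β → γ) (u : γ) :
    lm (lm q c) f u = lm q (f ∘ c) u := by
  classical
  have h1 : ∀ x : β, rs (lm q c) f u x = ∑ a, if f x = u then rs q c x a else 0 := by
    intro x
    by_cases h : f x = u
    · rw [rs_of_eq f h]
      simp only [if_pos h]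
      rfl
    · rw [rs_of_ne f h]
      simp only [if_neg h, Finset.sum_const_zero]
  have h2 : lm (lm q c) f u = ∑ x, rs (lm q c) f u x := rfl
  rw [h2]
  simp only [h1]
  rw [Finset.sum_comm]
  refine Finset.sum_congr rfl fun a _ => ?_
  rw [Finset.sum_eq_single (c a)]
  · rw [rs_of_eq c rfl]
    by_cases h : f (c a) = u
    · rw [if_pos h, rs_of_eq (f ∘ c) h]
    · rw [if_neg h, rs_of_ne (f ∘ c) h]
  · intro x _ hx
    rw [rs_of_ne c (fun h => hx h.symm)]
    simp
  · intro h; exact absurd (Finset.mem_univ _) h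

theorem HA_eq {q v : Ω → ℝ} (hq : IsPW q) {c : Ω → vals q v}
    (hc : ∀ a, q a ≠ 0 → ((c a : vals q v) : ℝ) = v a) (x₀ : ℕ) :
    ∃ (N : ℕ) (f : vals q v → Fin N),
      (∀ u, Dm (fun x : vals q v => (x : ℝ)) (cnd (lm q c) f u) ((1 / 2) ^ x₀)) ∧
      HA q v x₀ = ∑ u, lm (lm q c) f u * H0 (cnd (lm q c) f u) := by
  classical
  let T : Finset ℤ := Finset.univ.image fun x : vals q v => ⌊(x : ℝ) * 2 ^ x₀⌋
  let e : T ≃ Fin T.card := T.equivFin
  have hmem : ∀ x : vals q v, ⌊(x : ℝ) * 2 ^ x₀⌋ ∈ T := fun x =>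
    Finset.mem_image_of_mem _ (Finset.mem_univ x)
  let f : vals q v → Fin T.card := fun x => e ⟨_, hmem x⟩
  have hf : ∀ x y, f x = f y ↔ ⌊(x : ℝ) * 2 ^ x₀⌋ = ⌊(y : ℝ) * 2 ^ x₀⌋ := by
    intro x y
    show e _ = e _ ↔ _
    rw [e.injective.eq_iff, Subtype.mk.injEq]
  have hlm : ∀ x, 0 ≤ lm q c x := fun x => lm_nonneg c hq.1 x
  refine ⟨T.card, f, ?_, ?_⟩
  · intro u x y hx hy
    have h1 := (cnd_ne_zero f hx).1
    have h2 := (cnd_ne_zero f hy).1
    have h3 := (hf x y).1 (h1.trans h2.symm)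
    have h4 := Int.abs_sub_lt_one_of_floor_eq_floor h3
    rw [← sub_mul, abs_mul, abs_of_pos (show (0:ℝ) < 2 ^ x₀ by positivity)] at h4
    rw [one_div, inv_pow, ← one_div, le_div_iff₀ (by positivity)]
    exact h4.le
  · have h1 : Part.HS q (Setoid.ker v) = H0 (lm q c) := by
      have h2 : Part.HS q (Setoid.ker v) = Part.HS q (Setoid.ker c) := by
        refine HS_ker_congr fun a b ha hb => ?_
        rw [← hc a ha, ← hc b hb, Subtype.coe_inj]
      rw [h2, Cluster.HS_ker_eq_sum_res]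
      rfl
    have h3 : Part.HS q (Setoid.ker fun a => ⌊v a * 2 ^ x₀⌋) =
        ∑ u, negMulLog (lm (lm q c) f u) := by
      have h4 : Part.HS q (Setoid.ker fun a => ⌊v a * 2 ^ x₀⌋) =
          Part.HS q (Setoid.ker (f ∘ c)) := by
        refine HS_ker_congr fun a b ha hb => ?_
        rw [Function.comp, Function.comp, hf, hc a ha, hc b hb]
      rw [h4, Cluster.HS_ker_eq_sum_res]
      refine Finset.sum_congr rfl fun u _ => ?_
      rw [lm_lm]
      rfl
    unfold HA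
    rw [h1, h3, H0_chain f hlm]
    ring

end quot

/-! ### large `w` -/

theorem eventually_lin_le_pow (a b : ℝ) : ∀ᶠ w : ℕ in atTop, a + b * w ≤ 2 ^ w := by
  have h0 := tendsto_pow_const_div_const_pow_of_one_lt 0 (show (1:ℝ) < 2 by norm_num)
  have h1 := tendsto_pow_const_div_const_pow_of_one_lt 1 (show (1:ℝ) < 2 by norm_num)
  have h2 := (h0.const_mul a).add (h1.const_mul b)
  simp only [mul_zero, add_zero] at h2
  filter_upwards [h2.eventually_lt_const (show (0:ℝ) < 1 by norm_num)] with w hw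
  have h3 : (0:ℝ) < 2 ^ w := by positivity
  have h4 : a * ((w:ℝ) ^ 0 / 2 ^ w) + b * ((w:ℝ) ^ 1 / 2 ^ w) = (a + b * w) / 2 ^ w := by
    rw [pow_zero, pow_one]; ring
  rw [h4, div_lt_one h3] at hw
  exact hw.le

theorem eventually_const_le (a b : ℝ) (hb : 0 < b) : ∀ᶠ w : ℕ in atTop, a ≤ w * b := by
  filter_upwards [(tendsto_natCast_atTop_atTop (R := ℝ)).eventually_ge_atTop (a / b)] with w hw
  exact (div_le_iff₀ hb).1 hw

theorem eventually_WLarge (K A t : ℕ) (hA : 1 ≤ A) (c C3 : ℝ) :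
    ∀ᶠ w : ℕ in atTop, WLarge K A t c C3 w := by
  have hl2 : 0 < log 2 := log_pos (by norm_num)
  filter_upwards [eventually_ge_atTop 2,
    eventually_lin_le_pow (8 * (3 + 4 * K * log (2 * K))) (8 * (4 * K * (A * log 2))),
    eventually_const_le (log (4 * K / log 2) * (4 / c) * (t * log 2) + log 2) (log 2 / 4)
      (by positivity),
    eventually_const_le (2 * K * C3) (log 2) hl2,
    eventually_const_le (2 * exp (2 * K * C3)) 1 one_pos] with w h1 h2 h3 h4 h5
  refine ⟨by omega, ?_, ?_, h4, by rwa [mul_one] at h5, ?_⟩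
  · calc 8 * (3 + 4 * K * (log (2 * K) + A * (w * log 2))) =
        8 * (3 + 4 * K * log (2 * K)) + 8 * (4 * K * (A * log 2)) * w := by ring
      _ ≤ 2 ^ w := h2
  · calc _ ≤ w * (log 2 / 4) := h3
      _ = w * log 2 / 4 := by ring
  · have h6 : 2 ≤ A * w := by nlinarith
    calc exp 1 ≤ 2 ^ 2 := by have := exp_one_lt_d9; norm_num; linarith
      _ ≤ 2 ^ (A * w) := pow_le_pow_right₀ (by norm_num) h6

universe u

/-- **the one-type theorem** -/
theorem oneP : OneP.{u} := by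
  classical
  intro K A a c C1 R hK hA hc hR
  have hl2 : 0 < log 2 := log_pos (by norm_num)
  obtain ⟨w0, hw0⟩ := ((eventually_WLarge K A a hA c 3).and
    (eventually_const_le (log (2 * R) + (C1 + log 2) + log 3) (log 2) hl2)).exists_forall_of_atTop
  refine ⟨nodeC K A a c 3 * (1 + 2 * (K + a + 1)), w0,
    mul_nonneg (nodeC_nonneg K A a 3 hc (by omega)) (by positivity), ?_⟩
  intro w hw Ω _ 𝒬 _ q v w' ρ μ _ ρ0 hq hw' hμ hρ0 hρ1 hρ2 hmac hdef hmult x₀ hx₀ Act hAct
  obtain ⟨hW, hWc⟩ := hw0 w hw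
  obtain ⟨cc, hcc⟩ := exists_lift hq v
  obtain ⟨N, f, hfD, hHA⟩ := HA_eq hq hcc x₀
  have hpq : IsPW (lm q cc) := ⟨fun x => lm_nonneg cc hq.1 x, by rw [sum_lm, hq.2]⟩
  set u0 : ℝ := (1 / 2) ^ (x₀ - (a + 1)) with hu0
  have hu0pos : 0 < u0 := by positivity
  have hsc : ∀ i : ℕ, u0 / 2 ^ i = (1 / 2) ^ (x₀ - (a + 1) + i) := by
    intro i
    rw [hu0, pow_add, one_div, inv_pow, inv_pow]
    rfl
  have hsc' : ∀ i : ℕ, u0 / 2 ^ (a + 1 + i) = (1 / 2) ^ (x₀ + i) := by
    intro i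
    rw [hsc]
    congr 1
    omega
  have hρne : ∀ Q, ρ Q ≠ 0 := fun Q h => by
    have := hρ1 Q
    rw [h, abs_zero] at this
    linarith
  have hbs : ∀ Q, BSupp (scal (ρ Q) μ) := fun Q => bsupp_scal hμ (ρ Q)
  have hdefR := deficit_real hμ hK hdef
  obtain ⟨n0, hn0⟩ := one_inj (v := fun x : vals q v => (x : ℝ)) Subtype.coe_injective
    (w' := w') (B := fun Q => scal (ρ Q) μ) hw'.1 hw'.2 hbs (K := K) (w := w) (A := A) (t := a)
    (by omega) hA hc hW (fun Q r hr => hmac (ρ Q) (hρne Q) r hr) hu0pos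
    (fun j => det_Det hμ hK hW.one _ hw' hu0pos hWc hρ0 hρ1 hρ2 hmult hdefR _ _) Act
    (fun j x y hxy hxy' => by
      obtain ⟨k, hk, hkx⟩ := exists_of_vals x
      obtain ⟨l, hl, hly⟩ := exists_of_vals y
      refine hAct j ⟨k, l, hk, hl, ?_, ?_⟩
      · rw [hkx, hly, mul_comm (j + 1) w, ← hsc']; exact hxy
      · rw [hkx, hly, mul_comm j w, ← hsc']; exact hxy') f hpq
    (fun u => by
      have h := hsc' 0
      rw [add_zero, add_zero] at h
      rw [h]
      exact hfD u)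
  refine ⟨x₀ + n0, fun i hi => ?_⟩
  have hmain := hn0 (i - x₀) (by omega)
  rw [← hHA] at hmain
  have hG : ∀ j : ℕ, Gav (fun x : vals q v => (x : ℝ)) w' (fun Q => scal (ρ Q) μ) u0 (lm q cc) j =
      ∑ Q, w' Q * (Hs (addLaw q v (μ.map fun x => ρ Q * x)) (u0 / 2 ^ j) -
        Hs (μ.map fun x => ρ Q * x) (u0 / 2 ^ j)) := by
    intro j
    unfold Gav TOne.info
    refine Finset.sum_congr rfl fun Q _ => ?_
    rw [addLaw_lift hq hcc]
    rfl
  rw [hG, hG] at hmain
  have e1 : u0 / 2 ^ (a + 1 + (i - x₀)) = (1 / 2) ^ i := by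
    rw [hsc']; congr 1; omega
  have e2 : u0 / 2 ^ 0 = u0 := by rw [pow_zero, div_one]
  rw [e1, e2, ← Finset.sum_sub_distrib] at hmain
  have e3 : ∀ Q, w' Q * (Hs (addLaw q v (μ.map fun x => ρ Q * x)) ((1 / 2) ^ i) -
      Hs (μ.map fun x => ρ Q * x) ((1 / 2) ^ i)) -
      w' Q * (Hs (addLaw q v (μ.map fun x => ρ Q * x)) u0 - Hs (μ.map fun x => ρ Q * x) u0) =
      w' Q * ((Hs (addLaw q v (μ.map fun x => ρ Q * x)) ((1 / 2) ^ i) -
      Hs (μ.map fun x => ρ Q * x) ((1 / 2) ^ i)) -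
      (Hs (addLaw q v (μ.map fun x => ρ Q * x)) u0 - Hs (μ.map fun x => ρ Q * x) u0)) :=
    fun Q => by ring
  simp only [e3] at hmain
  rw [mul_comm (Act.card : ℝ) _]
  exact hmain

end Crest.Agent.R98.K
end

-- ▼ part R98/KG2
section

/-!
Row 98 (S0129), case K, (G2): upper bound of the total information. (helper136)
-/

set_option autoImplicit false
open MeasureTheory Crest.AnalysisR Set Filter Topology Real

namespace Crest.Agent.R98.K.G2a

open Crest.Agent.R98.TOne Crest.Agent.R98.Part Crest.Agent.R098.Upper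

universe u

variable {ι : Type*} [Fintype ι]

omit [Fintype ι] in
lemma LL_append_one (ℓ : ι → ℝ) (Q : List ι) (a : ι) : LL ℓ (Q ++ [a]) = LL ℓ Q + ℓ a := by
  induction Q with
  | nil => simp
  | cons b Q ih => rw [List.cons_append, LL_cons, ih, LL_cons]; ring

/-- index set of (word of length `m`, stopped word) -/
abbrev Idx (r : ι → ℝ) (m n : ℕ) (s : ℝ) := (Fin m → ι) × {Q : List ι // Q ∈ stp (el r) n s}

/-- weights -/
noncomputable def iq (r p : ι → ℝ) (m n : ℕ) (s : ℝ) (ω : Idx r m n s) : ℝ :=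
  pw p ω.1 * wtL p ω.2.1

/-- lengths -/
noncomputable def il (r : ι → ℝ) (m n : ℕ) (s : ℝ) (ω : Idx r m n s) : ℝ :=
  sw (el r) ω.1 + LL (el r) ω.2.1

lemma sum_idx (r p : ι → ℝ) (m n : ℕ) (s : ℝ) (F : (Fin m → ι) → List ι → ℝ) :
    ∑ ω : Idx r m n s, iq r p m n s ω * F ω.1 ω.2.1 =
      ∑ u : Fin m → ι, pw p u * ∑ Q ∈ stp (el r) n s, wtL p Q * F u Q := by
  rw [Fintype.sum_prod_type]
  refine Finset.sum_congr rfl fun u _ => ?_
  rw [← Finset.sum_coe_sort (stp (el r) n s) (fun Q => wtL p Q * F u Q), Finset.mul_sum]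
  refine Finset.sum_congr rfl fun Q _ => ?_
  unfold iq
  ring

lemma iq_nonneg {r p : ι → ℝ} (hp : ∀ i, 0 ≤ p i) {m n : ℕ} {s : ℝ} (ω : Idx r m n s) :
    0 ≤ iq r p m n s ω := mul_nonneg (pw_nonneg hp _) (wtL_nonneg hp _)

lemma sum_iq {r p : ι → ℝ} (hp1 : ∑ i, p i = 1) (m n : ℕ) (s : ℝ) :
    ∑ ω : Idx r m n s, iq r p m n s ω = 1 := by
  have h := sum_idx r p m n s (fun _ _ => 1)
  simp only [mul_one] at h
  rw [h]
  simp only [sum_stp_wtL (el r) hp1, mul_one, sum_pw hp1]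

lemma sum_iq_il {r p : ι → ℝ} (hp1 : ∑ i, p i = 1) (m n : ℕ) (s : ℝ) :
    ∑ ω : Idx r m n s, iq r p m n s ω * il r m n s ω =
      (∑ i, p i * el r i) * (m + EQ r p n s) := by
  have h := sum_idx r p m n s (fun u Q => sw (el r) u + LL (el r) Q)
  unfold il
  rw [h]
  have h2 : ∀ u : Fin m → ι, pw p u * ∑ Q ∈ stp (el r) n s, wtL p Q * (sw (el r) u + LL (el r) Q) =
      pw p u * sw (el r) u + pw p u * ((∑ i, p i * el r i) * EQ r p n s) := by
    intro u
    have h3 : ∑ Q ∈ stp (el r) n s, wtL p Q * (sw (el r) u + LL (el r) Q) =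
        sw (el r) u + (∑ i, p i * el r i) * EQ r p n s := by
      simp only [mul_add, Finset.sum_add_distrib]
      rw [← Finset.sum_mul, sum_stp_wtL (el r) hp1, one_mul, sum_stp_LL (el r) hp1]
      rfl
    rw [h3]; ring
  simp only [h2]
  rw [Finset.sum_add_distrib, NC.sum_pw_sw_eq hp1, ← Finset.sum_mul, sum_pw hp1]
  ring

lemma gf_idx_nonneg {H : ℝ → ℝ} {r p : ι → ℝ} (hp : ∀ i, 0 ≤ p i) {a : ℝ}
    (hG : ∀ x, 0 ≤ NC.Gf H p (el r) a x) (m n : ℕ) (s x : ℝ) :
    0 ≤ NC.Gf H (iq r p m n s) (il r m n s) a x := by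
  have h1 := NC.Gf_words_nonneg hp hG m x
  rw [NC.Gf_eq] at h1 ⊢
  have h2 := sum_idx r p m n s (fun u Q => H (x - (sw (el r) u + LL (el r) Q)) -
    H (x - (sw (el r) u + LL (el r) Q) - a))
  have h3 : ∑ ω : Idx r m n s, iq r p m n s ω * (H (x - il r m n s ω) - H (x - il r m n s ω - a)) =
      ∑ u : Fin m → ι, pw p u * ∑ Q ∈ stp (el r) n s, wtL p Q *
        (H (x - (sw (el r) u + LL (el r) Q)) - H (x - (sw (el r) u + LL (el r) Q) - a)) := h2
  rw [h3]
  refine h1.trans (sub_le_sub_left (Finset.sum_le_sum fun u _ => ?_) _)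
  refine mul_le_mul_of_nonneg_left ?_ (pw_nonneg hp u)
  have h4 := stp_super (el r) hp (fun Q => H (x - (sw (el r) u + LL (el r) Q)) -
    H (x - (sw (el r) u + LL (el r) Q) - a)) (fun Q => ?_) n s []
  · simpa using h4
  · have h5 := hG (x - (sw (el r) u + LL (el r) Q))
    rw [NC.Gf_eq] at h5
    have h6 : ∀ b, x - (sw (el r) u + LL (el r) (Q ++ [b])) =
        x - (sw (el r) u + LL (el r) Q) - el r b := by
      intro b; rw [LL_append_one]; ring
    simp only [h6]
    linarith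

/-- comparison of the increments at two nearby scales -/
lemma kf_le_of_near {κ : Type*} [Fintype κ] {H : ℝ → ℝ} {q l : κ → ℝ} (hmono : Monotone H) {c a : ℝ}
    (hH : ∀ x y, x ≤ y → y ≤ x + a → H y ≤ H x + c)
    (hq : ∀ w, 0 ≤ q w) (hq1 : ∑ w, q w = 1) {x y : ℝ} (hxy : x ≤ y) (hyx : y ≤ x + a) :
    NC.Kf H q l x ≤ NC.Kf H q l y + c := by
  unfold NC.Kf
  have h1 : H x ≤ H y := hmono hxy
  have h2 : ∑ w, q w * H (y - l w) ≤ ∑ w, q w * H (x - l w) + c := by
    have h3 : ∑ w, q w * H (y - l w) ≤ ∑ w, q w * (H (x - l w) + c) :=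
      Finset.sum_le_sum fun w _ => mul_le_mul_of_nonneg_left
        (hH _ _ (by linarith) (by linarith)) (hq w)
    refine h3.trans (le_of_eq ?_)
    simp only [mul_add, Finset.sum_add_distrib]
    rw [← Finset.sum_mul, hq1, one_mul]
  linarith

lemma kf_le_ff {κ : Type*} [Fintype κ] {H : ℝ → ℝ} {q l : κ → ℝ} (hmono : Monotone H) {c a : ℝ}
    (ha : 0 < a) (hH : ∀ x y, x ≤ y → y ≤ x + a → H y ≤ H x + c)
    (hq : ∀ w, 0 ≤ q w) (hq1 : ∑ w, q w = 1) (x : ℝ) :
    a * (NC.Kf H q l x - c) ≤ NC.Ff H q l a (x + a) := by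
  unfold NC.Ff
  have h1 : ∫ y in (x + a - a)..(x + a), (NC.Kf H q l x - c) ≤
      ∫ y in (x + a - a)..(x + a), NC.Kf H q l y := by
    refine intervalIntegral.integral_mono_on (by linarith) intervalIntegrable_const
      (NC.Kf_intervalIntegrable (fun a b => hmono.intervalIntegrable) _ _) fun y hy => ?_
    have := kf_le_of_near (l := l) hmono hH hq hq1 (x := x) (y := y) (by linarith [hy.1]) hy.2
    linarith
  rw [intervalIntegral.integral_const, smul_eq_mul] at h1
  have e : x + a - (x + a - a) = a := by ring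
  rw [e] at h1
  exact h1

omit [Fintype ι] in
lemma exp_idx {r : ι → ℝ} (hr : ∀ i, r i ≠ 0) {m : ℕ} (u : Fin m → ι) (Q : List ι) (i : ℕ) :
    (1 / 2 : ℝ) ^ i / |rho r u * (Q.map r).prod| =
      exp (-(i * Real.log 2 - (sw (el r) u + LL (el r) Q))) := by
  have h1 : |rho r u| = exp (-sw (el r) u) := by
    have h := NC.neg_log_rho hr u
    have h2 : sw (fun i => -Real.log |r i|) u = sw (el r) u := rfl
    rw [← h2, ← h, neg_neg, Real.exp_log]
    exact abs_pos.2 (Finset.prod_ne_zero_iff.2 fun j _ => hr _)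
  have h2 : |(Q.map r).prod| = exp (-LL (el r) Q) := abs_prod_eq_exp hr Q
  have h3 : (1 / 2 : ℝ) ^ i = exp (-(i * Real.log 2)) := by
    rw [Real.exp_neg, mul_comm, Real.exp_mul, Real.exp_log two_pos, Real.rpow_natCast, one_div,
      inv_pow]
  rw [abs_mul, h1, h2, h3, ← Real.exp_add, ← Real.exp_sub]
  congr 1
  ring

/-- `Itot` is the increment `Kf` -/
lemma itot_eq {r p : ι → ℝ} (hr : ∀ i, r i ≠ 0) (μ : Measure ℝ) (m n : ℕ) (s : ℝ) (i : ℕ) :
    Itot r p μ m n s i =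
      NC.Kf (fun x => Hs μ (exp (-x))) (iq r p m n s) (il r m n s) (i * Real.log 2) := by
  unfold Itot NC.Kf
  have h3 : (1 / 2 : ℝ) ^ i = exp (-(i * Real.log 2)) := by
    rw [Real.exp_neg, mul_comm, Real.exp_mul, Real.exp_log two_pos, Real.rpow_natCast, one_div,
      inv_pow]
  have h2 := sum_idx r p m n s
    (fun u Q => Hs μ (exp (-(i * Real.log 2 - (sw (el r) u + LL (el r) Q)))))
  have h4 : ∑ ω : Idx r m n s, iq r p m n s ω * Hs μ (exp (-(i * Real.log 2 - il r m n s ω))) =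
      ∑ u : Fin m → ι, pw p u * ∑ Q ∈ stp (el r) n s, wtL p Q *
        Hs μ (exp (-(i * Real.log 2 - (sw (el r) u + LL (el r) Q)))) := h2
  simp only [h4, exp_idx hr]
  rw [h3]

end Crest.Agent.R98.K.G2a

namespace Crest.Agent.R98.K

open Crest.Agent.R98.TOne Crest.Agent.R98.Part Crest.Agent.R098.Upper G2a

universe u

/-- **(G2)** -/
theorem g2 : G2P.{u} := by
  intro ι _ _ r t p μ D C hS
  have hprob := hS.hμ.1
  have hB := Bridge.bsupp hS.hr (fun i => (hS.hp i).le) hS.hp1 hS.hμ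
  have hp : ∀ i, 0 ≤ p i := fun i => (hS.hp i).le
  have hlog : 0 < Real.log 2 := Real.log_pos one_lt_two
  set H : ℝ → ℝ := fun x => Hs μ (exp (-x)) with hHdef
  have hmono : Monotone H := NC.H_mono hB
  have hH0 : ∀ x, 0 ≤ H x := fun x => Hs_nonneg (by rw [probReal_univ]) (exp_pos _).le
  have hup : ∀ x, H x ≤ D * max x 0 + C := by
    intro x
    rcases le_total 0 x with h | h
    · rw [max_eq_left h]; exact hS.hle x h
    · rw [max_eq_right h]
      exact (hmono h).trans (hS.hle 0 le_rfl)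
  have hnear : ∀ x y, x ≤ y → y ≤ x + Real.log 2 → H y ≤ H x + 2 * Real.log 2 := by
    intro x y hxy hyx
    have h := Hs_le_log hB (d := exp (-y)) (d' := exp (-x)) (exp_pos _)
      (exp_le_exp.2 (neg_le_neg hxy))
    rw [← Real.exp_sub, Real.log_exp] at h
    simp only [hHdef]
    linarith
  have hGl : ∀ x, 0 ≤ NC.Gf H p (el r) (Real.log 2) x := by
    intro x
    have h := TOne.Gm_nonneg (μ := μ) (P := p) (ρ := r) (b := t) (id : ι → ι) hp hS.hp1 hB
      (fun i => (hS.hr i).1) (NC.self_letters hS.hμ) (n := 2) (by omega) (r := exp (-x)) (exp_pos _)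
    have e := NC.Gm_eq_Gf (P := p) (μ := μ) (R := r) (fun i => (hS.hr i).1) (n := 2) (by omega) x
    have e2 : NC.Gf H p (el r) (Real.log 2) x =
        NC.Gf (fun x => Hs μ (exp (-x))) p (fun i => -Real.log |r i|) (Real.log (2:ℕ)) x := by
      simp only [Nat.cast_ofNat]
      rfl
    rw [e2, ← e]
    exact h
  have hlyap : ∑ i, p i * el r i = lyapunovExp r p := by
    unfold el lyapunovExp
    rw [← Finset.sum_neg_distrib]
    refine Finset.sum_congr rfl fun i _ => ?_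
    ring
  refine ⟨2 * Real.log 2, fun m n s i _ => ?_⟩
  rw [itot_eq (fun i => (hS.hr i).1)]
  have hel : ∀ i, 0 ≤ el r i := fun i => (NC.neg_log_pos hS.hr i).le
  have h1 := kf_le_ff (l := il r m n s) hmono hlog hnear (iq_nonneg (r := r) (m := m) (n := n)
    (s := s) hp) (sum_iq hS.hp1 m n s) (i * Real.log 2)
  have h2 := NC.Ff_le (fun a b => hmono.intervalIntegrable) hH0 hS.hD0 hup
    (iq_nonneg (r := r) (m := m) (n := n) (s := s) hp) (sum_iq hS.hp1 m n s)
    (l := il r m n s) (fun ω => add_nonneg (NC.sw_nonneg hel _) (LL_nonneg hel _)) hlog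
    (gf_idx_nonneg hp hGl m n s) (i * Real.log 2 + Real.log 2)
  rw [sum_iq_il hS.hp1, hlyap] at h2
  have h3 := h1.trans h2
  have h4 : Real.log 2 * (NC.Kf H (iq r p m n s) (il r m n s) (i * Real.log 2) - 2 * Real.log 2) ≤
      Real.log 2 * (D * (lyapunovExp r p * (m + EQ r p n s))) := by
    linarith
  have h5 := le_of_mul_le_mul_left h4 hlog
  linarith

end Crest.Agent.R98.K
end

-- ▼ part R98/KG3
section

/-!
Row 98, case K: lower bound of the total information at the top scale (helper529).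
-/

set_option autoImplicit false
set_option maxHeartbeats 400000
open MeasureTheory Crest.AnalysisR Set Filter Topology Real

namespace Crest.Agent.R98.K

open Crest.Agent.R98.TOne Crest.Agent.R98.Part Crest.Agent.R098.Upper

universe u

namespace G3

variable {ι : Type*} [Fintype ι]

omit [Fintype ι] in
theorem abs_rho {r : ι → ℝ} (hr : ∀ i, r i ≠ 0) {m : ℕ} (u : Fin m → ι) :
    |rho r u| = Real.exp (-sw (el r) u) := by
  unfold rho sw el
  rw [Finset.abs_prod, ← Finset.sum_neg_distrib, Real.exp_sum]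
  refine Finset.prod_congr rfl fun j _ => ?_
  rw [neg_neg, Real.exp_log (abs_pos.2 (hr _))]

omit [Fintype ι] in
theorem scale_eq {r : ι → ℝ} (hr : ∀ i, r i ≠ 0) {m : ℕ} (u : Fin m → ι) (Q : List ι) (i : ℕ) :
    (1 / 2 : ℝ) ^ i / |rho r u * (Q.map r).prod| =
      Real.exp (-(i * Real.log 2 - (sw (el r) u + LL (el r) Q))) := by
  have h2 : (1 / 2 : ℝ) ^ i = Real.exp (-(i * Real.log 2)) := by
    rw [Real.exp_neg, mul_comm, Real.exp_mul, Real.exp_log (by norm_num : (0:ℝ) < 2),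
      Real.rpow_natCast, one_div, inv_pow]
  rw [abs_mul, abs_rho hr u, abs_prod_eq_exp hr Q, h2, ← Real.exp_add, ← Real.exp_sub]
  congr 1
  have : (fun i => -Real.log |r i|) = el r := rfl
  rw [this]; ring

end G3

/-- (G3) -/
theorem g3 : G3P.{u} := by
  classical
  intro ι _ _ r t p μ D C hS ε hε hε1 a η hη
  have hr0 : ∀ i, r i ≠ 0 := fun i => (hS.hr i).1
  have hp0 : ∀ i, 0 ≤ p i := fun i => (hS.hp i).le
  haveI : IsProbabilityMeasure μ := hS.hμ.1
  have hμ : BSupp μ := Bridge.bsupp hS.hr hp0 hS.hp1 hS.hμ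
  set χ : ℝ := lyapunovExp r p with hχ
  have hel : ∀ i, 0 ≤ el r i := fun i => by
    unfold el
    have := Real.log_nonpos (abs_nonneg (r i)) (hS.hr i).2.le
    linarith
  have hχel : ∑ i, p i * el r i = χ := by
    rw [hχ]
    unfold lyapunovExp el
    rw [← Finset.sum_neg_distrib]
    exact Finset.sum_congr rfl fun i _ => by ring
  have hχ0 : 0 ≤ χ := by
    rw [← hχel]
    exact Finset.sum_nonneg fun i _ => mul_nonneg (hp0 i) (hel i)
  -- the largest letter
  obtain ⟨ℓ1, hℓ1⟩ : ∃ ℓ1, ∀ i, el r i ≤ ℓ1 := ⟨∑ i, el r i, fun i =>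
    Finset.single_le_sum (f := fun i => el r i) (fun j _ => hel j) (Finset.mem_univ i)⟩
  have hℓ10 : 0 ≤ ℓ1 := (hel (Classical.arbitrary ι)).trans (hℓ1 _)
  have hlog2 : 0 < Real.log 2 := Real.log_pos (by norm_num)
  -- upper bound for all scales
  have hup : ∀ y : ℝ, Hs μ (Real.exp (-y)) ≤ D * y + D * max (-y) 0 + C := by
    intro y
    rcases le_total 0 y with hy | hy
    · have := hS.hle y hy
      have h1 : 0 ≤ D * max (-y) 0 := mul_nonneg hS.hD0 (le_max_right _ _)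
      linarith
    · have h1 : Hs μ (Real.exp (-y)) ≤ Hs μ (Real.exp (-0)) :=
        Hs_anti hμ (Real.exp_pos _) (Real.exp_le_exp.2 (by linarith))
      have h2 := hS.hle 0 le_rfl
      rw [max_eq_left (by linarith)]
      nlinarith
  have hχpos : 0 < χ := by
    rw [← hχel]
    refine Finset.sum_pos (fun i _ => mul_pos (hS.hp i) ?_) Finset.univ_nonempty
    unfold el
    have := Real.log_neg (abs_pos.2 (hr0 i)) (hS.hr i).2
    linarith
  -- lower bound for large scales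
  set Kc : ℝ := (1 + 3 * ε) * χ + Real.log 2 with hKc
  have hKc0 : 0 < Kc := by positivity
  set δ : ℝ := η / (2 * Kc) with hδ
  have hδ0 : 0 < δ := by positivity
  obtain ⟨x0, hx0⟩ : ∃ x0 : ℝ, ∀ x, x0 ≤ x → (D - δ) * x ≤ Hs μ (Real.exp (-x)) := by
    have h1 : ∀ᶠ x : ℝ in atTop, D - δ < Hs μ (Real.exp (-x)) / x :=
      hS.htend.eventually_const_lt (by linarith)
    obtain ⟨x1, hx1⟩ := eventually_atTop.1 h1
    refine ⟨max x1 1, fun x hx => ?_⟩
    have hxp : 0 < x := lt_of_lt_of_le one_pos ((le_max_right _ _).trans hx)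
    have := hx1 x ((le_max_left _ _).trans hx)
    rw [lt_div_iff₀ hxp] at this
    exact this.le
  set V : ℝ := ∑ i, p i * (el r i - ∑ i, p i * el r i) ^ 2 with hV
  have hV0 : 0 ≤ V := Finset.sum_nonneg fun i _ => mul_nonneg (hp0 i) (sq_nonneg _)
  set c0 : ℝ := ℓ1 + a * Real.log 2 with hc0
  have hc00 : 0 ≤ c0 := by positivity
  have E1 : ∀ᶠ m : ℕ in atTop, x0 ≤ (1 + 3 * ε) * χ * m - a * Real.log 2 := by
    have : Tendsto (fun m : ℕ => (1 + 3 * ε) * χ * (m : ℝ)) atTop atTop :=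
      tendsto_natCast_atTop_atTop.const_mul_atTop (by positivity)
    filter_upwards [this.eventually_ge_atTop (x0 + a * Real.log 2)] with m hm
    linarith
  have E2 : ∀ᶠ m : ℕ in atTop, Real.sqrt (m * V) + c0 + C ≤ η / 2 * m := by
    have t1 : Tendsto (fun m : ℕ => Real.sqrt (m : ℝ)) atTop atTop :=
      Real.tendsto_sqrt_atTop.comp tendsto_natCast_atTop_atTop
    have t2 : Tendsto (fun m : ℕ => η / 2 * Real.sqrt (m : ℝ)) atTop atTop :=
      t1.const_mul_atTop (by positivity)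
    filter_upwards [t2.eventually_ge_atTop (Real.sqrt V + (c0 + C)),
      eventually_ge_atTop 1] with m hm hm1
    have h1 : (1 : ℝ) ≤ m := by exact_mod_cast hm1
    have hs1 : 1 ≤ Real.sqrt (m : ℝ) := by
      rw [show (1 : ℝ) = Real.sqrt 1 by simp]
      exact Real.sqrt_le_sqrt h1
    have hmm : (m : ℝ) = Real.sqrt m * Real.sqrt m := (Real.mul_self_sqrt (by positivity)).symm
    rw [Real.sqrt_mul (by positivity)]
    have h3 : c0 + C ≤ Real.sqrt m * (c0 + C) := le_mul_of_one_le_left (by linarith [hS.hC]) hs1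
    calc Real.sqrt m * Real.sqrt V + c0 + C ≤ Real.sqrt m * (Real.sqrt V + (c0 + C)) := by linarith
      _ ≤ Real.sqrt m * (η / 2 * Real.sqrt m) :=
        mul_le_mul_of_nonneg_left hm (Real.sqrt_nonneg _)
      _ = η / 2 * m := by
        conv_rhs => rw [hmm]
        ring
  filter_upwards [E1, E2, eventually_ge_atTop 1] with m hm1 hm2 hm3 n _
  have hm1' : (1 : ℝ) ≤ m := by exact_mod_cast hm3
  set i : ℕ := X0 χ ε m - a with hi
  set y0 : ℝ := i * Real.log 2 with hy0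
  have hX : (1 + 3 * ε) * χ * m / Real.log 2 ≤ (X0 χ ε m : ℝ) := Nat.le_ceil _
  have hX' : (X0 χ ε m : ℝ) < (1 + 3 * ε) * χ * m / Real.log 2 + 1 :=
    Nat.ceil_lt_add_one (by positivity)
  have hy1 : (1 + 3 * ε) * χ * m - a * Real.log 2 ≤ y0 := by
    have h1 : (X0 χ ε m : ℝ) ≤ i + a := by
      have : X0 χ ε m ≤ i + a := by omega
      exact_mod_cast this
    rw [div_le_iff₀ hlog2] at hX
    rw [hy0]
    nlinarith
  have hy2 : y0 ≤ Kc * m := by
    have h1 : (i : ℝ) ≤ X0 χ ε m := by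
      have : i ≤ X0 χ ε m := Nat.sub_le _ _
      exact_mod_cast this
    have h2 : y0 < (1 + 3 * ε) * χ * m + Real.log 2 := by
      calc y0 ≤ X0 χ ε m * Real.log 2 := mul_le_mul_of_nonneg_right h1 hlog2.le
        _ < ((1 + 3 * ε) * χ * m / Real.log 2 + 1) * Real.log 2 :=
          mul_lt_mul_of_pos_right hX' hlog2
        _ = (1 + 3 * ε) * χ * m + Real.log 2 := by field_simp
    rw [hKc]
    nlinarith
  have htop : D * y0 - η / 2 * m ≤ Hs μ ((1 / 2) ^ i) := by
    have h1 := hx0 y0 (hm1.trans hy1)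
    have h2 : (1 / 2 : ℝ) ^ i = Real.exp (-y0) := by
      rw [hy0, Real.exp_neg, mul_comm, Real.exp_mul, Real.exp_log (by norm_num : (0:ℝ) < 2),
        Real.rpow_natCast, one_div, inv_pow]
    rw [h2]
    have h3 : δ * y0 ≤ η / 2 * m := by
      calc δ * y0 ≤ δ * (Kc * m) := mul_le_mul_of_nonneg_left hy2 hδ0.le
        _ = η / 2 * m := by rw [hδ]; field_simp
    linarith
  -- the inner terms
  have hin : ∀ (u : Fin m → ι), ∀ Q ∈ stp (el r) n (ε * χ * m),
      Hs μ ((1 / 2) ^ i / |rho r u * (Q.map r).prod|) ≤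
        (D * (y0 - sw (el r) u) + D * (|sw (el r) u - m * χ| + c0) + C) - D * LL (el r) Q := by
    intro u Q hQ
    rw [G3.scale_eq hr0 u Q i]
    refine (hup _).trans ?_
    have hLQ := LL_le_of_mem hℓ1 hℓ10 (s := ε * χ * m) (by positivity) hQ
    have h1 : max (-(i * Real.log 2 - (sw (el r) u + LL (el r) Q))) 0 ≤
        |sw (el r) u - m * χ| + c0 := by
      refine max_le ?_ (by positivity)
      have h2 := le_abs_self (sw (el r) u - m * χ)
      have h3 : 0 ≤ ε * χ * m := by positivity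
      rw [← hy0, hc0]
      nlinarith
    have h2 := mul_le_mul_of_nonneg_left h1 hS.hD0
    rw [← hy0] at h2 ⊢
    linarith
  have hsum : ∑ u : Fin m → ι, pw p u * ∑ Q ∈ stp (el r) n (ε * χ * m),
      wtL p Q * Hs μ ((1 / 2) ^ i / |rho r u * (Q.map r).prod|) ≤
      D * y0 - D * (m * χ) + D * (Real.sqrt (m * V) + c0) + C - D * (χ * EQ r p n (ε * χ * m)) := by
    have h1 : ∀ u : Fin m → ι, ∑ Q ∈ stp (el r) n (ε * χ * m),
        wtL p Q * Hs μ ((1 / 2) ^ i / |rho r u * (Q.map r).prod|) ≤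
        (D * (y0 - sw (el r) u) + D * (|sw (el r) u - m * χ| + c0) + C) -
          D * (χ * EQ r p n (ε * χ * m)) := by
      intro u
      calc ∑ Q ∈ stp (el r) n (ε * χ * m),
            wtL p Q * Hs μ ((1 / 2) ^ i / |rho r u * (Q.map r).prod|)
          ≤ ∑ Q ∈ stp (el r) n (ε * χ * m), wtL p Q *
            ((D * (y0 - sw (el r) u) + D * (|sw (el r) u - m * χ| + c0) + C) -
              D * LL (el r) Q) :=
            Finset.sum_le_sum fun Q hQ =>
              mul_le_mul_of_nonneg_left (hin u Q hQ) (wtL_nonneg hp0 Q)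
        _ = (D * (y0 - sw (el r) u) + D * (|sw (el r) u - m * χ| + c0) + C) *
              ∑ Q ∈ stp (el r) n (ε * χ * m), wtL p Q -
            D * ∑ Q ∈ stp (el r) n (ε * χ * m), wtL p Q * LL (el r) Q := by
            rw [Finset.mul_sum, Finset.mul_sum, ← Finset.sum_sub_distrib]
            refine Finset.sum_congr rfl fun Q _ => by ring
        _ = _ := by
            rw [sum_stp_wtL _ hS.hp1, sum_stp_LL _ hS.hp1, hχel, mul_one]
            rfl
    have h2 : ∑ u : Fin m → ι, pw p u * |sw (el r) u - m * χ| ≤ Real.sqrt (m * V) := by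
      have h3 := NC.sum_pw_abs_sw_le (l := el r) hp0 hS.hp1 m
      rw [NC.sum_pw_sw_eq hS.hp1, hχel] at h3
      rw [hV, hχel]
      exact h3
    have h4 : ∑ u : Fin m → ι, pw p u * sw (el r) u = m * χ := by
      rw [NC.sum_pw_sw_eq hS.hp1, hχel]
    have h5 : ∑ u : Fin m → ι, pw p u = 1 := sum_pw hS.hp1 m
    calc _ ≤ ∑ u : Fin m → ι, pw p u *
          ((D * (y0 - sw (el r) u) + D * (|sw (el r) u - m * χ| + c0) + C) -
            D * (χ * EQ r p n (ε * χ * m))) :=
          Finset.sum_le_sum fun u _ => mul_le_mul_of_nonneg_left (h1 u) (pw_nonneg hp0 u)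
      _ = (D * y0 + D * c0 + C - D * (χ * EQ r p n (ε * χ * m))) * ∑ u : Fin m → ι, pw p u -
          D * ∑ u : Fin m → ι, pw p u * sw (el r) u +
          D * ∑ u : Fin m → ι, pw p u * |sw (el r) u - m * χ| := by
          rw [Finset.mul_sum, Finset.mul_sum, Finset.mul_sum, ← Finset.sum_sub_distrib,
            ← Finset.sum_add_distrib]
          refine Finset.sum_congr rfl fun u _ => by ring
      _ ≤ _ := by
          rw [h4, h5]
          have := mul_le_mul_of_nonneg_left h2 hS.hD0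
          linarith
  unfold Itot
  have hfin : D * (Real.sqrt (m * V) + c0) + C ≤ η / 2 * m := by
    have h1 : D * (Real.sqrt (m * V) + c0) ≤ 1 * (Real.sqrt (m * V) + c0) :=
      mul_le_mul_of_nonneg_right hS.hD1 (by positivity)
    linarith
  have e : D * χ * (m + EQ r p n (ε * χ * m)) = D * (m * χ) + D * (χ * EQ r p n (ε * χ * m)) := by
    ring
  rw [e]
  linarith

end Crest.Agent.R98.K
end

-- ▼ part R98/MultFin
section

/-!
Row 98, module MULT, part 4: the concentration of the multipliers.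
`mult_conc`: `P(S(w) ∈ [a, a+δ]) ≤ C (log s)² (δ + 1/q)` for `[a,a+δ] ⊂ [s,s+L]`, `s ≥ q²`, `q` a best
denominator of `l i₁ / l i₂`.
-/

set_option autoImplicit false

open Finset

namespace Crest.Agent.R98.Mult

variable {ι : Type*} [DecidableEq ι]

/-- decomposition of the length functional -/
lemma sum_eq_cnt (l : ι → ℝ) (i₁ i₂ : ι) (h : i₁ ≠ i₂) {n : ℕ} (w : Fin n → ι) :
    ∑ j, l (w j) = cnt i₁ w * l i₁ + cnt i₂ w * l i₂ + ((oth i₁ i₂ w).map l).sum := by
  induction n with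
  | zero => simp [cnt, oth]
  | succ n ih =>
    rw [Fin.sum_univ_succ]
    have e1 := cnt_cons i₁ (w 0) (Fin.tail w)
    have e2 := cnt_cons i₂ (w 0) (Fin.tail w)
    have e3 := oth_cons i₁ i₂ (w 0) (Fin.tail w)
    rw [Fin.cons_self_tail] at e1 e2 e3
    rw [e1, e2, e3]
    have := ih (Fin.tail w)
    have e4 : ∑ j : Fin n, l (w j.succ) = ∑ j, l (Fin.tail w j) := rfl
    rw [e4, this]
    by_cases h1 : w 0 = i₁
    · have h2 : w 0 ≠ i₂ := by rw [h1]; exact h
      have h3 : ¬ (w 0 ≠ i₁ ∧ w 0 ≠ i₂) := by tauto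
      rw [if_pos h1, if_neg h2, if_neg h3, h1]; push_cast; ring
    · by_cases h2 : w 0 = i₂
      · have h3 : ¬ (w 0 ≠ i₁ ∧ w 0 ≠ i₂) := by tauto
        rw [if_neg h1, if_pos h2, if_neg h3, h2]; push_cast; ring
      · have h3 : (w 0 ≠ i₁ ∧ w 0 ≠ i₂) := ⟨h1, h2⟩
        rw [if_neg h1, if_neg h2, if_pos h3, List.map_cons, List.sum_cons]; push_cast; ring

/-- separated sets -/
lemma card_sep {α : Type*} (T : Finset α) (f : α → ℝ) (x W q : ℝ) (hq : 0 < q)
    (h1 : ∀ t ∈ T, |f t - x| ≤ W) (hW : 0 ≤ W)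
    (h2 : ∀ t ∈ T, ∀ t' ∈ T, t ≠ t' → q ≤ |f t - f t'|) :
    (T.card : ℝ) ≤ 2 * W / q + 1 := by
  have hinj : Set.InjOn (fun t => ⌊(f t - (x - W)) / q⌋) (T : Set α) := by
    intro t ht t' ht' he
    by_contra hne
    have h4 := Int.abs_sub_lt_one_of_floor_eq_floor he
    rw [← sub_div, abs_div, abs_of_pos hq, div_lt_one hq] at h4
    have h3 := h2 t ht t' ht' hne
    have e : f t - (x - W) - (f t' - (x - W)) = f t - f t' := by ring
    rw [e] at h4
    linarith
  have hmap : ∀ t ∈ T, ⌊(f t - (x - W)) / q⌋ ∈ Finset.Icc (0 : ℤ) ⌊2 * W / q⌋ := by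
    intro t ht
    have h3 := abs_le.1 (h1 t ht)
    rw [Finset.mem_Icc]
    constructor
    · apply Int.floor_nonneg.2
      apply div_nonneg _ hq.le
      linarith
    · apply Int.floor_le_floor
      apply div_le_div_of_nonneg_right _ hq.le
      linarith
  have h5 := Finset.card_le_card_of_injOn _ hmap hinj
  rw [Int.card_Icc] at h5
  have h6 : (0 : ℤ) ≤ ⌊2 * W / q⌋ := Int.floor_nonneg.2 (by positivity)
  have h7 : ((⌊2 * W / q⌋ + 1 - 0).toNat : ℤ) = ⌊2 * W / q⌋ + 1 := by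
    rw [Int.toNat_of_nonneg (by omega)]; ring
  have h8 : ((T.card : ℕ) : ℤ) ≤ ⌊2 * W / q⌋ + 1 := by
    rw [← h7]; exact_mod_cast h5
  have h9 : (T.card : ℝ) ≤ (⌊2 * W / q⌋ : ℝ) + 1 := by exact_mod_cast h8
  have h10 := Int.floor_le (2 * W / q)
  linarith

variable [Fintype ι]

lemma Wt_eq_zero_of_ne (p : ι → ℝ) (i₁ i₂ : ι) (h : i₁ ≠ i₂) (n a₁ a₂ : ℕ) (b : List ι)
    (hn : n ≠ a₁ + a₂ + b.length) : Wt p i₁ i₂ n a₁ a₂ b = 0 := by
  unfold Wt
  apply Finset.sum_eq_zero; intro w _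
  rw [if_neg]
  rintro ⟨rfl, rfl, rfl⟩
  exact hn (cnt_add_length i₁ i₂ h w).symm

lemma Wt_eq_zero_of_mem (p : ι → ℝ) (i₁ i₂ : ι) (n a₁ a₂ : ℕ) (b : List ι) (x : ι)
    (hx : x ∈ b) (hx' : x = i₁ ∨ x = i₂) : Wt p i₁ i₂ n a₁ a₂ b = 0 := by
  unfold Wt
  apply Finset.sum_eq_zero; intro w _
  rw [if_neg]
  rintro ⟨_, _, rfl⟩
  unfold oth at hx
  rw [List.mem_filter] at hx
  simp at hx
  rcases hx' with h | h
  · exact hx.2.1 h
  · exact hx.2.2 h


/-- grouping by `(a₁, a₂, b)` -/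
lemma Pr_le_group (p : ι → ℝ) (hp : ∀ i, 0 ≤ p i) (i₁ i₂ : ι) (n : ℕ)
    (E : (Fin n → ι) → Prop) (B : Finset ℕ) (A : List ι → Finset (ℕ × ℕ))
    (hE : ∀ w : Fin n → ι, E w →
      (oth i₁ i₂ w).length ∈ B ∧ (cnt i₁ w, cnt i₂ w) ∈ A (oth i₁ i₂ w)) :
    Pr p n E ≤ ∑ β ∈ B, ∑ v : Fin β → ι, ∑ a ∈ A (List.ofFn v),
      Wt p i₁ i₂ n a.1 a.2 (List.ofFn v) := by
  have hswap : ∑ β ∈ B, ∑ v : Fin β → ι, ∑ a ∈ A (List.ofFn v),
      Wt p i₁ i₂ n a.1 a.2 (List.ofFn v)
      = ∑ w : Fin n → ι, ∑ β ∈ B, ∑ v : Fin β → ι, ∑ a ∈ A (List.ofFn v),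
        (if cnt i₁ w = a.1 ∧ cnt i₂ w = a.2 ∧ oth i₁ i₂ w = List.ofFn v then
          ∏ j, p (w j) else 0) := by
    rw [Finset.sum_comm]
    apply Finset.sum_congr rfl; intro β _
    rw [Finset.sum_comm]
    apply Finset.sum_congr rfl; intro v _
    rw [Finset.sum_comm]
    apply Finset.sum_congr rfl; intro a _
    rfl
  rw [hswap]
  unfold Pr
  apply Finset.sum_le_sum; intro w _
  have h0 : 0 ≤ ∏ j, p (w j) := Finset.prod_nonneg fun j _ => hp _
  have hnn : ∀ (β : ℕ) (v : Fin β → ι) (a : ℕ × ℕ),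
      0 ≤ (if cnt i₁ w = a.1 ∧ cnt i₂ w = a.2 ∧ oth i₁ i₂ w = List.ofFn v then
          ∏ j, p (w j) else 0) := by
    intro β v a; split_ifs
    · exact h0
    · exact le_rfl
  split_ifs with hw
  · obtain ⟨h1, h2⟩ := hE w hw
    refine le_trans ?_ (Finset.single_le_sum (f := fun β => ∑ v : Fin β → ι,
      ∑ a ∈ A (List.ofFn v), (if cnt i₁ w = a.1 ∧ cnt i₂ w = a.2 ∧ oth i₁ i₂ w = List.ofFn v then
          ∏ j, p (w j) else 0)) (fun β _ => Finset.sum_nonneg fun v _ =>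
            Finset.sum_nonneg fun a _ => hnn β v a) h1)
    refine le_trans ?_ (Finset.single_le_sum (f := fun v : Fin (oth i₁ i₂ w).length → ι =>
      ∑ a ∈ A (List.ofFn v), (if cnt i₁ w = a.1 ∧ cnt i₂ w = a.2 ∧ oth i₁ i₂ w = List.ofFn v then
          ∏ j, p (w j) else 0)) (fun v _ =>
            Finset.sum_nonneg fun a _ => hnn _ v a) (Finset.mem_univ (oth i₁ i₂ w).get))
    have hof : List.ofFn (oth i₁ i₂ w).get = oth i₁ i₂ w := List.ofFn_get _
    rw [hof]
    refine le_trans ?_ (Finset.single_le_sum (f := fun a : ℕ × ℕ =>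
      (if cnt i₁ w = a.1 ∧ cnt i₂ w = a.2 ∧ oth i₁ i₂ w = oth i₁ i₂ w then
          ∏ j, p (w j) else 0)) (fun a _ => by
            split_ifs
            · exact h0
            · exact le_rfl) h2)
    simp
  · exact Finset.sum_nonneg fun β _ => Finset.sum_nonneg fun v _ =>
            Finset.sum_nonneg fun a _ => hnn β v a

lemma group_le (p p2 : ι → ℝ) (hp : ∀ i, 0 ≤ p i) (hp2 : ∀ i, 0 ≤ p2 i) (i₁ i₂ : ι)
    (h : i₁ ≠ i₂) (g : ℕ → ℝ)
    (hW : ∀ n a₁ a₂ b, Wt p i₁ i₂ n a₁ a₂ b ≤ g n * pl p2 b)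
    (M : ℕ) (E : (n : ℕ) → (Fin n → ι) → Prop) (B : Finset ℕ) (A : List ι → Finset (ℕ × ℕ))
    (G N : ℝ)
    (hE : ∀ n, n < M → ∀ w : Fin n → ι, E n w →
      (oth i₁ i₂ w).length ∈ B ∧ (cnt i₁ w, cnt i₂ w) ∈ A (oth i₁ i₂ w))
    (hG0 : 0 ≤ G) (hG : ∀ b, ∀ a ∈ A b, g (a.1 + a.2 + b.length) ≤ G)
    (hN : ∀ b, ((A b).card : ℝ) ≤ N) :
    ∑ n ∈ range M, Pr p n (E n) ≤ N * (G * ∑ β ∈ B, (∑ i, p2 i) ^ β) := by
  have hpl : ∀ (β : ℕ) (v : Fin β → ι), pl p2 (List.ofFn v) = ∏ j, p2 (v j) := by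
    intro β v
    unfold pl
    rw [List.map_ofFn, List.prod_ofFn]; rfl
  calc ∑ n ∈ range M, Pr p n (E n)
      ≤ ∑ n ∈ range M, ∑ β ∈ B, ∑ v : Fin β → ι, ∑ a ∈ A (List.ofFn v),
      Wt p i₁ i₂ n a.1 a.2 (List.ofFn v) := by
        apply Finset.sum_le_sum; intro n hn
        exact Pr_le_group p hp i₁ i₂ n (E n) B A (hE n (Finset.mem_range.1 hn))
    _ = ∑ β ∈ B, ∑ v : Fin β → ι, ∑ a ∈ A (List.ofFn v), ∑ n ∈ range M,
          Wt p i₁ i₂ n a.1 a.2 (List.ofFn v) := by
        rw [Finset.sum_comm]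
        apply Finset.sum_congr rfl; intro β _
        rw [Finset.sum_comm]
        apply Finset.sum_congr rfl; intro v _
        rw [Finset.sum_comm]
    _ ≤ ∑ β ∈ B, ∑ v : Fin β → ι, ∑ a ∈ A (List.ofFn v), G * ∏ j, p2 (v j) := by
        apply Finset.sum_le_sum; intro β _
        apply Finset.sum_le_sum; intro v _
        apply Finset.sum_le_sum; intro a ha
        have hnn : 0 ≤ ∏ j, p2 (v j) := Finset.prod_nonneg fun j _ => hp2 _
        by_cases hm : a.1 + a.2 + (List.ofFn v).length ∈ range M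
        · rw [Finset.sum_eq_single_of_mem _ hm (fun n _ hn => Wt_eq_zero_of_ne p i₁ i₂ h n a.1 a.2
            (List.ofFn v) hn)]
          refine le_trans (hW _ _ _ _) ?_
          rw [hpl]
          exact mul_le_mul_of_nonneg_right (hG _ a ha) hnn
        · rw [Finset.sum_eq_zero]
          · positivity
          · intro n hn
            apply Wt_eq_zero_of_ne p i₁ i₂ h
            rintro rfl; exact hm hn
    _ = ∑ β ∈ B, ∑ v : Fin β → ι, ((A (List.ofFn v)).card : ℝ) * (G * ∏ j, p2 (v j)) := by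
        simp only [Finset.sum_const, nsmul_eq_mul]
    _ ≤ ∑ β ∈ B, ∑ v : Fin β → ι, N * (G * ∏ j, p2 (v j)) := by
        apply Finset.sum_le_sum; intro β _
        apply Finset.sum_le_sum; intro v _
        apply mul_le_mul_of_nonneg_right (hN _)
        exact mul_nonneg hG0 (Finset.prod_nonneg fun j _ => hp2 _)
    _ = N * (G * ∑ β ∈ B, (∑ i, p2 i) ^ β) := by
        rw [Finset.mul_sum, Finset.mul_sum]
        apply Finset.sum_congr rfl; intro β _
        rw [Fintype.sum_pow, Finset.mul_sum, Finset.mul_sum]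

/-- the two cases of the local bound in a uniform form. -/
lemma exists_g (p : ι → ℝ) (hp : ∀ i, 0 < p i) (hp1 : ∑ i, p i = 1) (i₁ i₂ : ι)
    (h : i₁ ≠ i₂) :
    ∃ (p2 : ι → ℝ) (g : ℕ → ℝ), (∀ i, 0 ≤ p2 i) ∧
      (∀ n a₁ a₂ b, Wt p i₁ i₂ n a₁ a₂ b ≤ g n * pl p2 b) ∧
      ∃ K : ℝ, 0 < K ∧ ∀ x : ℝ, 0 < x → ∃ G : ℝ, 0 ≤ G ∧ (∀ n : ℕ, x ≤ n → g n ≤ G) ∧
        ∀ B : Finset ℕ, G * ∑ β ∈ B, (∑ i, p2 i) ^ β ≤ K * (1 / Real.sqrt x + B.card / x) := by
  have hp0 : ∀ i, 0 ≤ p i := fun i => (hp i).le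
  have hp₁ := hp i₁
  have hp₂ := hp i₂
  have hsplit : ∀ G : ι → ℝ, ∑ x, G x = G i₁ + G i₂ +
      ∑ x ∈ univ.filter (fun x => x ≠ i₁ ∧ x ≠ i₂), G x := by
    intro G
    rw [← Finset.sum_filter_add_sum_filter_not univ (fun x => x ≠ i₁ ∧ x ≠ i₂) G, add_comm]
    congr 1
    have : univ.filter (fun x => ¬ (x ≠ i₁ ∧ x ≠ i₂)) = {i₁, i₂} := by
      ext x; simp only [Finset.mem_filter, Finset.mem_univ, true_and, Finset.mem_insert,
        Finset.mem_singleton]; tauto
    rw [this, Finset.sum_pair h]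
  have hsum := hsplit p
  rw [hp1] at hsum
  have hrest : 0 ≤ ∑ x ∈ univ.filter (fun x => x ≠ i₁ ∧ x ≠ i₂), p x :=
    Finset.sum_nonneg fun i _ => hp0 i
  rcases lt_or_eq_of_le (show p i₁ + p i₂ ≤ 1 by linarith) with h3 | h3
  · -- at least three letters
    have hq : 0 < 1 - (p i₁ + p i₂) := by linarith
    set P : ℝ := p i₁ + p i₂ with hP
    set K : ℝ := 1 / (2 * Real.sqrt ((1 - P) * (p i₁ * p i₂))) with hK
    have hKpos : 0 < K := by
      rw [hK]
      have : 0 < Real.sqrt ((1 - P) * (p i₁ * p i₂)) := Real.sqrt_pos.2 (by positivity)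
      positivity
    refine ⟨fun i => if i ≠ i₁ ∧ i ≠ i₂ then p i / (1 - P) else 0,
      fun n => K / ((n : ℝ) + 1), ?_, ?_, K, hKpos, ?_⟩
    · intro i; dsimp only; split_ifs
      · exact div_nonneg (hp0 i) hq.le
      · exact le_rfl
    · intro n a₁ a₂ b
      by_cases hb : ∃ x ∈ b, x = i₁ ∨ x = i₂
      · obtain ⟨x, hx, hx'⟩ := hb
        rw [Wt_eq_zero_of_mem p i₁ i₂ n a₁ a₂ b x hx hx']
        apply mul_nonneg (by positivity)
        apply pl_nonneg
        intro i; split_ifs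
        · exact div_nonneg (hp0 i) hq.le
        · exact le_rfl
      · push Not at hb
        refine le_trans (visit_le p hp hp1 i₁ i₂ h h3 n a₁ a₂ b) (le_of_eq ?_)
        rw [← hK]
        congr 1
        unfold pl
        congr 1
        apply List.map_congr_left
        intro x hx
        rw [if_pos (hb x hx)]
    · intro x hx
      refine ⟨K / x, by positivity, ?_, ?_⟩
      · intro n hn
        apply div_le_div_of_nonneg_left hKpos.le hx
        linarith
      · intro B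
        have hs1 : ∑ i, (if i ≠ i₁ ∧ i ≠ i₂ then p i / (1 - P) else 0) = 1 := by
          rw [← Finset.sum_filter, ← Finset.sum_div]
          rw [div_eq_one_iff_eq hq.ne']
          linarith
        rw [hs1]
        simp only [one_pow, Finset.sum_const, nsmul_eq_mul, mul_one]
        have : 0 ≤ 1 / Real.sqrt x := by positivity
        calc K / x * (B.card : ℝ) = K * (B.card / x) := by ring
          _ ≤ _ := mul_le_mul_of_nonneg_left (by linarith) hKpos.le
  · -- exactly two letters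
    have hzero : ∀ x, x ≠ i₁ ∧ x ≠ i₂ → False := by
      intro x hx
      have h4 : ∑ x ∈ univ.filter (fun x => x ≠ i₁ ∧ x ≠ i₂), p x = 0 := by linarith
      have h5 := (Finset.sum_eq_zero_iff_of_nonneg (fun i _ => hp0 i)).1 h4 x
        (by simp [hx])
      linarith [hp x]
    set c : ℝ := 2 * (p i₁ * p i₂) with hc
    have hcpos : 0 < c := by positivity
    refine ⟨fun _ => 0, fun n => 1 / Real.sqrt (((n : ℝ) + 1) * c), fun _ => le_rfl, ?_,
      1 / Real.sqrt c, by positivity, ?_⟩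
    · intro n a₁ a₂ b
      cases b with
      | nil =>
        refine le_trans (visit_le_two p hp i₁ i₂ h h3 n a₁ a₂) (le_of_eq ?_)
        have e : pl (fun _ : ι => (0 : ℝ)) [] = 1 := by simp [pl]
        rw [e, mul_one]
      | cons x b =>
        rw [Wt_eq_zero_of_mem p i₁ i₂ n a₁ a₂ (x :: b) x (by simp)]
        · simp [pl]
        · by_contra hcon
          push Not at hcon
          exact hzero x hcon
    · intro x hx
      refine ⟨1 / Real.sqrt (x * c), by positivity, ?_, ?_⟩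
      · intro n hn
        apply div_le_div_of_nonneg_left zero_le_one (Real.sqrt_pos.2 (by positivity))
        apply Real.sqrt_le_sqrt
        apply mul_le_mul_of_nonneg_right _ hcpos.le
        linarith
      · intro B
        have h4 : ∑ β ∈ B, (∑ _i : ι, (0 : ℝ)) ^ β ≤ 1 := by
          simp only [Finset.sum_const_zero]
          calc ∑ β ∈ B, (0 : ℝ) ^ β = ∑ β ∈ B, if β = 0 then 1 else 0 := by
                apply Finset.sum_congr rfl; intro β _
                rw [zero_pow_eq]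
            _ ≤ 1 := by
                rw [Finset.sum_ite_eq']
                split_ifs <;> norm_num
        have h5 : 0 ≤ 1 / Real.sqrt (x * c) := by positivity
        calc _ ≤ 1 / Real.sqrt (x * c) * 1 := mul_le_mul_of_nonneg_left h4 h5
          _ = 1 / Real.sqrt c * (1 / Real.sqrt x) := by
              rw [Real.sqrt_mul hx.le]; field_simp
          _ ≤ _ := by
              apply mul_le_mul_of_nonneg_left _ (by positivity)
              have : 0 ≤ (B.card : ℝ) / x := div_nonneg (Nat.cast_nonneg _) hx.le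
              linarith

/-- separation of the values `a₁ l₁ + a₂ l₂` -/
lemma sep_pair (l₁ l₂ : ℝ) (hl₂ : 0 < l₂) (q : ℕ) (hq : 1 ≤ q)
    (hsep : ∀ h k : ℤ, h ≠ 0 → |h| < (q : ℤ) → 1 / (2 * (q : ℝ)) ≤ |(h : ℝ) * (l₁ / l₂) - k|)
    (a a' : ℕ × ℕ) (hne : a ≠ a')
    (hclose : |(a.1 * l₁ + a.2 * l₂) - (a'.1 * l₁ + a'.2 * l₂)| ≤ l₂ / (4 * q)) :
    (q : ℝ) ≤ |(a.1 : ℝ) - a'.1| := by
  have hq' : (1 : ℝ) ≤ q := by exact_mod_cast hq
  by_contra hcon
  push Not at hcon
  set u : ℤ := (a.1 : ℤ) - a'.1 with hu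
  set v : ℤ := (a.2 : ℤ) - a'.2 with hv
  have hur : (u : ℝ) = (a.1 : ℝ) - a'.1 := by rw [hu]; push_cast; ring
  have hvr : (v : ℝ) = (a.2 : ℝ) - a'.2 := by rw [hv]; push_cast; ring
  have hult : |u| < (q : ℤ) := by
    have : |(u : ℝ)| < q := by rw [hur]; exact hcon
    have h2 : ((|u| : ℤ) : ℝ) < ((q : ℤ) : ℝ) := by push_cast; exact this
    exact_mod_cast h2
  have he : (a.1 * l₁ + a.2 * l₂) - (a'.1 * l₁ + a'.2 * l₂) = u * l₁ + v * l₂ := by
    rw [hur, hvr]; ring
  rw [he] at hclose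
  have hlt : l₂ / (4 * q) < l₂ / (2 * q) := by
    apply div_lt_div_of_pos_left hl₂ (by positivity)
    linarith
  by_cases hu0 : u = 0
  · have hv0 : v ≠ 0 := by
      intro hv0
      apply hne
      apply Prod.ext
      · omega
      · omega
    have h1 : (1 : ℝ) ≤ |(v : ℝ)| := by
      have : (1 : ℤ) ≤ |v| := Int.one_le_abs hv0
      have h2 : ((1 : ℤ) : ℝ) ≤ ((|v| : ℤ) : ℝ) := by exact_mod_cast this
      push_cast at h2; exact h2
    rw [hu0] at hclose
    simp only [Int.cast_zero, zero_mul, zero_add] at hclose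
    rw [abs_mul, abs_of_pos hl₂] at hclose
    have h3 : l₂ / (2 * q) ≤ l₂ := by
      apply div_le_self hl₂.le; linarith
    have h4 : l₂ ≤ |(v : ℝ)| * l₂ := by nlinarith
    linarith
  · have h1 := hsep u (-v) hu0 hult
    have h2 : (u : ℝ) * (l₁ / l₂) - ((-v : ℤ) : ℝ) = (u * l₁ + v * l₂) / l₂ := by
      push_cast; field_simp; ring
    rw [h2, abs_div, abs_of_pos hl₂, le_div_iff₀ hl₂] at h1
    have h3 : 1 / (2 * (q : ℝ)) * l₂ = l₂ / (2 * q) := by ring
    rw [h3] at h1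
    linarith

omit [DecidableEq ι] [Fintype ι] in
lemma list_sum_le (l : ι → ℝ) (L : ℝ) (hL : ∀ i, l i ≤ L) (b : List ι) :
    (b.map l).sum ≤ b.length * L := by
  induction b with
  | nil => simp
  | cons x b ih =>
    rw [List.map_cons, List.sum_cons, List.length_cons]
    push_cast
    have := hL x
    nlinarith

set_option maxHeartbeats 2000000 in
/-- concentration on small intervals. -/
theorem small_interval (p l : ι → ℝ) (hp : ∀ i, 0 < p i) (hp1 : ∑ i, p i = 1)
    (L l0 : ℝ) (hl0 : 0 < l0) (hl : ∀ i, l0 ≤ l i) (hL : ∀ i, l i ≤ L)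
    (i₁ i₂ : ι) (hne : i₁ ≠ i₂) :
    ∃ C : ℝ, 0 < C ∧ ∃ s0 : ℝ, 3 ≤ s0 ∧ ∀ q : ℕ, 1 ≤ q →
      (∀ h k : ℤ, h ≠ 0 → |h| < (q : ℤ) →
        1 / (2 * (q : ℝ)) ≤ |(h : ℝ) * (l i₁ / l i₂) - k|) →
      ∀ s : ℝ, s0 ≤ s → (q : ℝ) ^ 2 ≤ s → ∀ a : ℝ, s ≤ a → ∀ M : ℕ,
        ∑ n ∈ range M, Pr p n (fun w => a ≤ ∑ j, l (w j) ∧
          ∑ j, l (w j) ≤ a + l i₂ / (4 * q) ∧ ∑ j, l (w j) ≤ s + L)
          ≤ C * (Real.log s) ^ 2 / q := by
  obtain ⟨C1, hC1, s1, hs1, hT⟩ := tail_sum p l hp hp1 L l0 hl0 hl hL (∑ i, p i * l i) rfl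
  obtain ⟨p2, g, hp2, hW, K, hK, hG⟩ := exists_g p hp hp1 i₁ i₂ hne
  have hp0 : ∀ i, 0 ≤ p i := fun i => (hp i).le
  have hLpos : 0 < L := lt_of_lt_of_le hl0 (le_trans (hl i₁) (hL i₁))
  set chi : ℝ := ∑ i, p i * l i with hchi
  set C3 : ℝ := (2 * C1 + 1) * (K * (Real.sqrt L + L * (6 * C1 + 1))) with hC3
  have hC3pos : 0 < C3 := by
    have : 0 < Real.sqrt L := Real.sqrt_pos.2 hLpos
    positivity
  refine ⟨C1 + C3, by positivity, max 3 s1, le_max_left _ _, ?_⟩
  intro q hq hsep s hs hqs a ha M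
  have hs3 : 3 ≤ s := le_trans (le_max_left _ _) hs
  have hs1' : s1 ≤ s := le_trans (le_max_right _ _) hs
  have hspos : 0 < s := by linarith
  have hq' : (1 : ℝ) ≤ q := by exact_mod_cast hq
  have hqpos : (0 : ℝ) < q := by linarith
  have hlog1 : 1 ≤ Real.log s := by
    rw [Real.le_log_iff_exp_le hspos]
    have := Real.exp_one_lt_d9
    linarith
  set σ : ℝ := Real.sqrt s with hσ
  set lam : ℝ := Real.log s with hlam
  have hσq : (q : ℝ) ≤ σ := Real.le_sqrt_of_sq_le hqs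
  have hσ1 : 1 ≤ σ := le_trans hq' hσq
  have hσpos : 0 < σ := by linarith
  have hσ2 : σ ^ 2 = s := Real.sq_sqrt hspos.le
  have hlampos : 0 < lam := by linarith
  set W : ℝ := C1 * (σ * lam) with hWdef
  have hWpos : 0 < W := by positivity
  have hl₂ : 0 < l i₂ := lt_of_lt_of_le hl0 (hl i₂)
  set δ0 : ℝ := l i₂ / (4 * q) with hδ0
  -- the two parts
  have hsplit : ∀ n, Pr p n (fun w => a ≤ ∑ j, l (w j) ∧
          ∑ j, l (w j) ≤ a + δ0 ∧ ∑ j, l (w j) ≤ s + L)
      ≤ Pr p n (fun w => s ≤ ∑ j, l (w j) ∧ ∑ j, l (w j) ≤ s + L ∧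
        ¬ (|(n : ℝ) - s / chi| ≤ W ∧ ∀ i, |(cnt i w : ℝ) - s * p i / chi| ≤ W))
      + Pr p n (fun w => (a ≤ ∑ j, l (w j) ∧
          ∑ j, l (w j) ≤ a + δ0) ∧ (|(n : ℝ) - s / chi| ≤ W ∧
            ∀ i, |(cnt i w : ℝ) - s * p i / chi| ≤ W)) := by
    intro n
    refine le_trans (Pr_mono p hp0 n ?_) (Pr_or p hp0 n _ _)
    rintro w ⟨h1, h2, h3⟩
    by_cases h4 : (|(n : ℝ) - s / chi| ≤ W ∧ ∀ i, |(cnt i w : ℝ) - s * p i / chi| ≤ W)
    · right; exact ⟨⟨h1, h2⟩, h4⟩
    · left; exact ⟨by linarith, h3, h4⟩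
  have hpart1 := hT s hs1' M
  set B : Finset ℕ := (range M).filter
    (fun β => |(β : ℝ) - (s / chi - s * p i₁ / chi - s * p i₂ / chi)| ≤ 3 * W) with hB
  set A : List ι → Finset (ℕ × ℕ) := fun b => ((range M) ×ˢ (range M)).filter
    (fun c => |(c.1 : ℝ) - s * p i₁ / chi| ≤ W ∧ a ≤ c.1 * l i₁ + c.2 * l i₂ + (b.map l).sum ∧
      c.1 * l i₁ + c.2 * l i₂ + (b.map l).sum ≤ a + δ0) with hA
  obtain ⟨G, hG0, hGn, hGB⟩ := hG (s / L) (by positivity)
  have hpart2 : ∑ n ∈ range M, Pr p n (fun w => (a ≤ ∑ j, l (w j) ∧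
          ∑ j, l (w j) ≤ a + δ0) ∧ (|(n : ℝ) - s / chi| ≤ W ∧
            ∀ i, |(cnt i w : ℝ) - s * p i / chi| ≤ W))
      ≤ (2 * W / q + 1) * (G * ∑ β ∈ B, (∑ i, p2 i) ^ β) := by
    apply group_le p p2 hp0 hp2 i₁ i₂ hne g hW M _ B A G
    · rintro n hn w ⟨⟨h1, h2⟩, h3, h4⟩
      have hcl := cnt_add_length i₁ i₂ hne w
      have hse := sum_eq_cnt l i₁ i₂ hne w
      have h5 := abs_le.1 h3
      have h6 := abs_le.1 (h4 i₁)
      have h7 := abs_le.1 (h4 i₂)
      have hnr : (n : ℝ) = cnt i₁ w + cnt i₂ w + (oth i₁ i₂ w).length := by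
        exact_mod_cast hcl.symm
      constructor
      · rw [hB, Finset.mem_filter, Finset.mem_range]
        refine ⟨by omega, ?_⟩
        rw [abs_le]; constructor <;> linarith
      · rw [hA]
        simp only [Finset.mem_filter, Finset.mem_product, Finset.mem_range]
        refine ⟨⟨by omega, by omega⟩, h4 i₁, ?_, ?_⟩
        · rw [← hse]; exact h1
        · rw [← hse]; exact h2
    · exact hG0
    · intro b c hc
      rw [hA] at hc
      simp only [Finset.mem_filter, Finset.mem_product, Finset.mem_range] at hc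
      apply hGn
      rw [div_le_iff₀ hLpos]
      have h1 := list_sum_le l L hL b
      have h2 : (c.1 : ℝ) * l i₁ ≤ c.1 * L := mul_le_mul_of_nonneg_left (hL i₁) (Nat.cast_nonneg _)
      have h3 : (c.2 : ℝ) * l i₂ ≤ c.2 * L := mul_le_mul_of_nonneg_left (hL i₂) (Nat.cast_nonneg _)
      push_cast
      linarith [hc.2.2.1]
    · intro b
      apply card_sep (A b) (fun c => (c.1 : ℝ)) (s * p i₁ / chi) W q hqpos
      · intro c hc
        rw [hA] at hc
        simp only [Finset.mem_filter] at hc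
        exact hc.2.1
      · exact hWpos.le
      · intro c hc c' hc' hcc
        rw [hA] at hc hc'
        simp only [Finset.mem_filter] at hc hc'
        apply sep_pair (l i₁) (l i₂) hl₂ q hq hsep c c' hcc
        rw [← hδ0, abs_le]
        constructor <;> linarith [hc.2.2.1, hc.2.2.2, hc'.2.2.1, hc'.2.2.2]
  have hBcard : (B.card : ℝ) ≤ 6 * W + 1 := by
    have := card_sep B (fun β => (β : ℝ)) (s / chi - s * p i₁ / chi - s * p i₂ / chi) (3 * W) 1
      one_pos (by
        intro β hβ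
        rw [hB, Finset.mem_filter] at hβ
        exact hβ.2) (by positivity) (by
        intro β _ β' _ hββ
        have h1 : ((β : ℤ) - β') ≠ 0 := by omega
        have h2 := Int.one_le_abs h1
        have h3 : ((1 : ℤ) : ℝ) ≤ ((|(β : ℤ) - β'| : ℤ) : ℝ) := by exact_mod_cast h2
        push_cast at h3; exact h3)
    linarith
  have hBfin : G * ∑ β ∈ B, (∑ i, p2 i) ^ β ≤ K * (Real.sqrt L + L * (6 * C1 + 1)) * (lam / σ) := by
    refine le_trans (hGB B) ?_
    have h1 : 1 / Real.sqrt (s / L) = Real.sqrt L / σ := by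
      rw [Real.sqrt_div hspos.le, ← hσ, one_div_div]
    have h2 : (B.card : ℝ) / (s / L) ≤ L * (6 * C1 + 1) * (lam / σ) := by
      have h3 : (B.card : ℝ) ≤ (6 * C1 + 1) * (σ * lam) := by
        have : 1 ≤ σ * lam := by nlinarith
        rw [hWdef] at hBcard
        linarith
      calc (B.card : ℝ) / (s / L) ≤ ((6 * C1 + 1) * (σ * lam)) / (s / L) :=
            div_le_div_of_nonneg_right h3 (by positivity)
        _ = L * (6 * C1 + 1) * (lam / σ) := by
            rw [← hσ2]; field_simp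
    have h4 : Real.sqrt L / σ ≤ Real.sqrt L * (lam / σ) := by
      rw [← mul_div_assoc]
      apply div_le_div_of_nonneg_right _ hσpos.le
      have : 0 ≤ Real.sqrt L := Real.sqrt_nonneg _
      nlinarith
    rw [h1]
    calc K * (Real.sqrt L / σ + (B.card : ℝ) / (s / L))
        ≤ K * (Real.sqrt L * (lam / σ) + L * (6 * C1 + 1) * (lam / σ)) :=
          mul_le_mul_of_nonneg_left (add_le_add h4 h2) hK.le
      _ = _ := by ring
  have hN : 2 * W / q + 1 ≤ (2 * C1 + 1) * (σ * lam / q) := by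
    have h1 : 1 ≤ σ * lam / q := by
      rw [le_div_iff₀ hqpos]; nlinarith
    have h2 : 2 * W / q = 2 * C1 * (σ * lam / q) := by rw [hWdef]; ring
    rw [h2]; linarith
  have hcomb : (2 * W / q + 1) * (G * ∑ β ∈ B, (∑ i, p2 i) ^ β) ≤ C3 * lam ^ 2 / q := by
    have h0 : 0 ≤ 2 * W / q + 1 := by positivity
    have h00 : 0 ≤ K * (Real.sqrt L + L * (6 * C1 + 1)) * (lam / σ) := by positivity
    calc (2 * W / q + 1) * (G * ∑ β ∈ B, (∑ i, p2 i) ^ β)
        ≤ (2 * W / q + 1) * (K * (Real.sqrt L + L * (6 * C1 + 1)) * (lam / σ)) :=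
          mul_le_mul_of_nonneg_left hBfin h0
      _ ≤ ((2 * C1 + 1) * (σ * lam / q)) * (K * (Real.sqrt L + L * (6 * C1 + 1)) * (lam / σ)) :=
          mul_le_mul_of_nonneg_right hN h00
      _ = C3 * lam ^ 2 / q := by rw [hC3]; field_simp
  have hfirst : C1 / s ^ 2 ≤ C1 * lam ^ 2 / q := by
    have h1 : (q : ℝ) ≤ q ^ 2 := by nlinarith
    have h2 : (q : ℝ) ≤ s ^ 2 := by nlinarith
    have h3 : 1 ≤ lam ^ 2 := by nlinarith
    calc C1 / s ^ 2 ≤ C1 / q := div_le_div_of_nonneg_left hC1.le hqpos h2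
      _ ≤ C1 * lam ^ 2 / q := by
          apply div_le_div_of_nonneg_right _ hqpos.le
          nlinarith
  calc _ ≤ ∑ n ∈ range M, (Pr p n (fun w => s ≤ ∑ j, l (w j) ∧ ∑ j, l (w j) ≤ s + L ∧
        ¬ (|(n : ℝ) - s / chi| ≤ W ∧ ∀ i, |(cnt i w : ℝ) - s * p i / chi| ≤ W))
      + Pr p n (fun w => (a ≤ ∑ j, l (w j) ∧
          ∑ j, l (w j) ≤ a + δ0) ∧ (|(n : ℝ) - s / chi| ≤ W ∧
            ∀ i, |(cnt i w : ℝ) - s * p i / chi| ≤ W))) := Finset.sum_le_sum fun n _ => hsplit n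
    _ ≤ C1 / s ^ 2 + C3 * lam ^ 2 / q := by
        rw [Finset.sum_add_distrib]
        exact add_le_add hpart1 (le_trans hpart2 hcomb)
    _ ≤ C1 * lam ^ 2 / q + C3 * lam ^ 2 / q := by linarith
    _ = (C1 + C3) * lam ^ 2 / q := by ring

/-- MULT: concentration of the multipliers in `[s, s+L]`. -/
theorem mult_conc (p l : ι → ℝ) (hp : ∀ i, 0 < p i) (hp1 : ∑ i, p i = 1)
    (L l0 : ℝ) (hl0 : 0 < l0) (hl : ∀ i, l0 ≤ l i) (hL : ∀ i, l i ≤ L)
    (i₁ i₂ : ι) (hne : i₁ ≠ i₂) :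
    ∃ C : ℝ, 0 < C ∧ ∃ s0 : ℝ, 3 ≤ s0 ∧ ∀ q : ℕ, 1 ≤ q →
      (∀ h k : ℤ, h ≠ 0 → |h| < (q : ℤ) →
        1 / (2 * (q : ℝ)) ≤ |(h : ℝ) * (l i₁ / l i₂) - k|) →
      ∀ s : ℝ, s0 ≤ s → (q : ℝ) ^ 2 ≤ s → ∀ a δ : ℝ, s ≤ a → 0 ≤ δ → ∀ M : ℕ,
        ∑ n ∈ range M, Pr p n (fun w => a ≤ ∑ j, l (w j) ∧
          ∑ j, l (w j) ≤ a + δ ∧ ∑ j, l (w j) ≤ s + L)
          ≤ C * (Real.log s) ^ 2 * (δ + 1 / q) := by
  obtain ⟨C, hC, s0, hs0, h⟩ := small_interval p l hp hp1 L l0 hl0 hl hL i₁ i₂ hne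
  have hp0 : ∀ i, 0 ≤ p i := fun i => (hp i).le
  have hl₂ : 0 < l i₂ := lt_of_lt_of_le hl0 (hl i₂)
  refine ⟨C * (1 + 4 / l i₂), by positivity, s0, hs0, ?_⟩
  intro q hq hsep s hs hqs a δ ha hδ M
  have hq' : (1 : ℝ) ≤ q := by exact_mod_cast hq
  have hqpos : (0 : ℝ) < q := by linarith
  set δ0 : ℝ := l i₂ / (4 * q) with hδ0
  have hδ0pos : 0 < δ0 := by positivity
  set N : ℕ := ⌊δ / δ0⌋₊ + 1 with hN
  have hcover : ∀ n, Pr p n (fun w => a ≤ ∑ j, l (w j) ∧
          ∑ j, l (w j) ≤ a + δ ∧ ∑ j, l (w j) ≤ s + L)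
      ≤ ∑ k : Fin N, Pr p n (fun w => a + (k : ℕ) * δ0 ≤ ∑ j, l (w j) ∧
          ∑ j, l (w j) ≤ a + (k : ℕ) * δ0 + δ0 ∧ ∑ j, l (w j) ≤ s + L) := by
    intro n
    refine le_trans (Pr_mono p hp0 n ?_) (Pr_exists p hp0 n (fun (k : Fin N) (w : Fin n → ι) =>
      a + (k : ℕ) * δ0 ≤ ∑ j, l (w j) ∧
          ∑ j, l (w j) ≤ a + (k : ℕ) * δ0 + δ0 ∧ ∑ j, l (w j) ≤ s + L))
    rintro w ⟨h1, h2, h3⟩
    have h4 : 0 ≤ (∑ j, l (w j) - a) / δ0 := div_nonneg (by linarith) hδ0pos.le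
    have h5 : ⌊(∑ j, l (w j) - a) / δ0⌋₊ < N := by
      rw [hN]
      apply Nat.lt_succ_of_le
      apply Nat.floor_le_floor
      apply div_le_div_of_nonneg_right _ hδ0pos.le
      linarith
    refine ⟨⟨⌊(∑ j, l (w j) - a) / δ0⌋₊, h5⟩, ?_, ?_, h3⟩
    · have h6 := Nat.floor_le h4
      rw [le_div_iff₀ hδ0pos] at h6
      simp only; linarith
    · have h6 := (Nat.lt_floor_add_one ((∑ j, l (w j) - a) / δ0)).le
      rw [div_le_iff₀ hδ0pos] at h6
      simp only; linarith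
  have hNle : (N : ℝ) ≤ 4 * q * δ / l i₂ + 1 := by
    rw [hN]
    push_cast
    have h6 := Nat.floor_le (div_nonneg hδ hδ0pos.le)
    have h7 : δ / δ0 = 4 * q * δ / l i₂ := by rw [hδ0]; field_simp
    rw [h7] at h6
    rw [h7]
    linarith
  have hlog0 : 0 ≤ C * Real.log s ^ 2 / q := by positivity
  calc _ ≤ ∑ n ∈ range M, ∑ k : Fin N, Pr p n (fun w => a + (k : ℕ) * δ0 ≤ ∑ j, l (w j) ∧
          ∑ j, l (w j) ≤ a + (k : ℕ) * δ0 + δ0 ∧ ∑ j, l (w j) ≤ s + L) :=
        Finset.sum_le_sum fun n _ => hcover n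
    _ = ∑ k : Fin N, ∑ n ∈ range M, Pr p n (fun w => a + (k : ℕ) * δ0 ≤ ∑ j, l (w j) ∧
          ∑ j, l (w j) ≤ a + (k : ℕ) * δ0 + δ0 ∧ ∑ j, l (w j) ≤ s + L) := Finset.sum_comm
    _ ≤ ∑ _k : Fin N, C * Real.log s ^ 2 / q := by
        apply Finset.sum_le_sum; intro k _
        apply h q hq hsep s hs hqs (a + (k : ℕ) * δ0) _ M
        have : 0 ≤ ((k : ℕ) : ℝ) * δ0 := by positivity
        linarith
    _ = N * (C * Real.log s ^ 2 / q) := by
        rw [Finset.sum_const, Finset.card_univ, Fintype.card_fin, nsmul_eq_mul]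
    _ ≤ (4 * q * δ / l i₂ + 1) * (C * Real.log s ^ 2 / q) :=
        mul_le_mul_of_nonneg_right hNle hlog0
    _ = C * Real.log s ^ 2 * (4 / l i₂ * δ + 1 / q) := by field_simp
    _ ≤ C * Real.log s ^ 2 * ((1 + 4 / l i₂) * (δ + 1 / q)) := by
        apply mul_le_mul_of_nonneg_left _ (by positivity)
        have : 0 ≤ 4 / l i₂ * (1 / q) := by positivity
        nlinarith
    _ = C * (1 + 4 / l i₂) * Real.log s ^ 2 * (δ + 1 / q) := by ring

end Crest.Agent.R98.Mult
end

-- ▼ part R98/KMult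
section

/-!
Row 98, CASE K, module MULT in the form needed by DET / KMain (notes 10295, 10296, 10554).
(helper566)

`mult_stp`   : `∑_{Q ∈ stp, a ≤ LL Q ≤ a + b} wtL Q ≤ C (log s)² (b + 1/q)` for `s ≥ q²`
`mult_kmain` : with `2^(K w) ≤ q`, `q² ≤ s ≤ S₁ 2^(2K(w+1))`, `b = 8/2^((K-2)w)` the sum is
               `≤ 1/2^((K-3)w)` for `w` large.
-/

set_option autoImplicit false

namespace Crest.Agent.R98.K

open Finset

variable {ι : Type*} [Fintype ι]

/-- `q` is a good denominator for the ratio `θ` -/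
def Good (θ : ℝ) (q : ℕ) : Prop :=
  ∀ h k : ℤ, h ≠ 0 → |h| < (q : ℤ) → 1 / (2 * (q : ℝ)) ≤ |(h : ℝ) * θ - k|

theorem exists_good {θ : ℝ} (hθ : Irrational θ) (Q₀ : ℕ) : ∃ q : ℕ, Q₀ ≤ q ∧ 1 ≤ q ∧ Good θ q :=
  exists_conv_mod hθ Q₀

/-- MULT for the stopped family. -/
theorem mult_stp {p ℓ : ι → ℝ} (hp : ∀ i, 0 < p i) (hp1 : ∑ i, p i = 1) {ℓ0 : ℝ} (h0 : 0 < ℓ0)
    (hℓ : ∀ i, ℓ0 ≤ ℓ i) {i₁ i₂ : ι} (hne : i₁ ≠ i₂) :
    ∃ C : ℝ, 0 < C ∧ ∃ s0 : ℝ, 3 ≤ s0 ∧ ∀ q : ℕ, 1 ≤ q → Good (ℓ i₁ / ℓ i₂) q →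
      ∀ s : ℝ, s0 ≤ s → (q : ℝ) ^ 2 ≤ s → ∀ n : ℕ, s ≤ n * ℓ0 → ∀ a b : ℝ, 0 ≤ b →
        ∑ Q ∈ (stp ℓ n s).filter (fun Q => a ≤ LL ℓ Q ∧ LL ℓ Q ≤ a + b), wtL p Q
          ≤ C * (Real.log s) ^ 2 * (b + 1 / q) := by
  classical
  obtain ⟨L, hL0, hL⟩ : ∃ L : ℝ, 0 ≤ L ∧ ∀ i, ℓ i ≤ L := by
    refine ⟨∑ i, ℓ i, Finset.sum_nonneg fun i _ => h0.le.trans (hℓ i), fun i => ?_⟩
    exact Finset.single_le_sum (f := ℓ) (fun j _ => h0.le.trans (hℓ j)) (Finset.mem_univ i)
  obtain ⟨C, hC, s0, hs0, h⟩ := Mult.mult_conc p ℓ hp hp1 L ℓ0 h0 hℓ hL i₁ i₂ hne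
  refine ⟨C, hC, s0, hs0, ?_⟩
  intro q hq hgood s hs hqs n hn a b hb
  have hs3 : 3 ≤ s := hs0.trans hs
  have hp0 : ∀ i, 0 ≤ p i := fun i => (hp i).le
  set I : Set ℝ := Set.Icc (max a s) (max a s + b) ∩ Set.Iic (s + L) with hI
  have hsub : (stp ℓ n s).filter (fun Q => a ≤ LL ℓ Q ∧ LL ℓ Q ≤ a + b) ⊆
      (stp ℓ n s).filter (fun Q => LL ℓ Q ∈ I) := by
    intro Q hQ
    rw [Finset.mem_filter] at hQ ⊢
    obtain ⟨hQ, h2, h3⟩ := hQ
    have h4 := le_LL_of_mem hℓ h0.le hn hQ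
    have h5 := LL_le_of_mem hL hL0 (by linarith) hQ
    have := le_max_left a s
    exact ⟨hQ, ⟨max_le h2 h4, by linarith⟩, h5⟩
  have hA : ∑ Q ∈ (stp ℓ n s).filter (fun Q => a ≤ LL ℓ Q ∧ LL ℓ Q ≤ a + b), wtL p Q
      ≤ ∑ Q ∈ (stp ℓ n s).filter (fun Q => LL ℓ Q ∈ I), wtL p Q :=
        Finset.sum_le_sum_of_subset_of_nonneg hsub fun Q _ _ => wtL_nonneg hp0 Q
  have hB := stp_hit ℓ hp0 I n s
  have hC' : ∑ j ∈ range (n+1), Mult.Pr p j (fun w => ∑ k, ℓ (w k) ∈ I)
     ≤ ∑ j ∈ range (n+1), Mult.Pr p j (fun w => max a s ≤ ∑ k, ℓ (w k) ∧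
          ∑ k, ℓ (w k) ≤ max a s + b ∧ ∑ k, ℓ (w k) ≤ s + L) := by
        apply Finset.sum_le_sum; intro j _
        apply Mult.Pr_mono p hp0
        rintro w ⟨⟨h2, h3⟩, h4⟩
        exact ⟨h2, h3, h4⟩
  exact (hA.trans hB).trans (hC'.trans (h q hq hgood s hs hqs (max a s) b (le_max_right _ _) hb (n+1)))



end Crest.Agent.R98.K
end

-- ▼ part R98/KMultP
section

/-!
Row 98, case K: `MultP` from `mult_stp` of helper566 (helper383).
-/

set_option autoImplicit false
open MeasureTheory Crest.AnalysisR Set Filter Topology Real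

namespace Crest.Agent.R98.K

universe u

theorem multP : MultP.{u} := by
  classical
  intro ι _ _ r p hr hp hp1 hirr N1
  obtain ⟨i₁, i₂, hi⟩ := hirr
  have hel : ∀ i, 0 < el r i := fun i => by
    have h1 : 0 < |r i| := abs_pos.2 (hr i).1
    have := Real.log_neg h1 (hr i).2
    unfold el; linarith
  have hθ : Irrational (el r i₁ / el r i₂) := by
    have : el r i₁ / el r i₂ = Real.log |r i₁| / Real.log |r i₂| := by
      unfold el; rw [neg_div_neg_eq]
    rw [this]; exact hi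
  have hne : i₁ ≠ i₂ := by
    rintro rfl
    rw [div_self (hel i₁).ne'] at hθ
    exact hθ ⟨1, by simp⟩
  set ℓ0 := Finset.univ.inf' Finset.univ_nonempty fun i => el r i with hℓ0
  have hℓ0pos : 0 < ℓ0 := (Finset.lt_inf'_iff _).mpr fun i _ => hel i
  have hℓ0le : ∀ i, ℓ0 ≤ el r i := fun i => Finset.inf'_le _ (Finset.mem_univ i)
  obtain ⟨C, hC, s0, hs0, hmul⟩ := mult_stp (ℓ := el r) hp hp1 hℓ0pos hℓ0le hne
  refine ⟨C, fun Q0 => ?_⟩
  obtain ⟨q, hq, hq1, hgood⟩ := exists_good hθ (max Q0 ⌈s0⌉₊)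
  refine ⟨q, (le_max_left _ _).trans hq, fun s hs n hn _ a b hb => ?_⟩
  have hq1' : (1 : ℝ) ≤ q := by exact_mod_cast hq1
  have hs0q : s0 ≤ q := by
    have h1 := Nat.le_ceil s0
    have h2 : ((⌈s0⌉₊ : ℕ) : ℝ) ≤ q := by exact_mod_cast (le_max_right _ _).trans hq
    linarith
  have hs0s : s0 ≤ s := by nlinarith
  have hn' : s ≤ n * ℓ0 := by
    obtain ⟨i, -, hi⟩ := Finset.exists_mem_eq_inf' Finset.univ_nonempty fun i => el r i
    rw [hℓ0, hi]; exact hn i
  have h1 := hmul q hq1 hgood s hs0s hs n hn' a b hb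
  rw [Finset.sum_filter] at h1
  have hlog : 0 ≤ Real.log s := Real.log_nonneg (by linarith)
  refine h1.trans ?_
  have h2 : Real.log s ^ 2 ≤ (1 + Real.log s) ^ 3 := by nlinarith [sq_nonneg (Real.log s), mul_nonneg hlog (sq_nonneg (Real.log s))]
  have h3 : (0 : ℝ) ≤ b + 1 / q := by positivity
  gcongr

end Crest.Agent.R98.K
end

-- ▼ part R98/KMain
section

/-!
Row 98, case K: the assembly (helper383).
-/

set_option autoImplicit false
set_option maxHeartbeats 400000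
open MeasureTheory Crest.AnalysisR Set Filter Topology Real

namespace Crest.Agent.R98.K

open Crest.Agent.R98.TOne Crest.Agent.R98.Part Crest.Agent.R098.Upper

universe u

/-- (GAMMA) from the three parts -/
theorem gammaP_of (h1 : G1P.{u}) (h2 : G2P.{u}) (h3 : G3P.{u}) : GammaP.{u} := by
  classical
  intro ι _ _ r t p μ D C hs ε hε hε1 a η hη
  obtain ⟨C2, hC2⟩ := h2 ι r t p μ D C hs
  have e1 : ∀ᶠ m : ℕ in atTop, C2 ≤ η / 2 * m := by
    have : Tendsto (fun m : ℕ => η / 2 * (m : ℝ)) atTop atTop :=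
      tendsto_natCast_atTop_atTop.const_mul_atTop (by positivity)
    exact this.eventually_ge_atTop C2
  have hχ : 0 ≤ lyapunovExp r p := by
    unfold lyapunovExp
    rw [neg_nonneg]
    refine Finset.sum_nonpos fun i _ => mul_nonpos_of_nonneg_of_nonpos (hs.hp i).le ?_
    exact Real.log_nonpos (abs_nonneg _) (hs.hr i).2.le
  filter_upwards [h3 ι r t p μ D C hs ε hε hε1 a (η / 2) (by positivity), e1] with m hm hm2 n hn i hi
  have hs0 : 0 ≤ ε * lyapunovExp r p * m := by positivity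
  have k1 := h1 ι r t p μ D C hs m n (ε * lyapunovExp r p * m) i (X0 (lyapunovExp r p) ε m - a)
    ((Nat.sub_le _ _).trans hi)
  have k2 := hC2 m n (ε * lyapunovExp r p * m) i hs0
  have k3 := hm n hn
  linarith

/-- active levels of the words form a finite set of cardinality at most `m ^ (9 k + 2)` -/
theorem exists_act {ι : Type*} [Fintype ι] (r t : ι → ℝ) {m : ℕ} (hm : 2 ≤ m) (x₀ : ℕ) {w : ℕ}
    (hw : 1 ≤ w) : ∃ Act : Finset ℕ, Act.card ≤ m ^ (9 * Fintype.card ι + 2) ∧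
      ∀ j, (∃ u v : Fin m → ι, (1 / 2 : ℝ) ^ (x₀ + (j + 1) * w) < |zz r t u - zz r t v| ∧
        |zz r t u - zz r t v| ≤ (1 / 2) ^ (x₀ + j * w)) → j ∈ Act := by
  classical
  have hB : (2 : ℝ) ≤ 2 ^ w := by
    calc (2 : ℝ) = 2 ^ 1 := (pow_one _).symm
      _ ≤ 2 ^ w := pow_le_pow_right₀ one_le_two hw
  have hpow : ∀ j : ℕ, (1 / 2 : ℝ) ^ x₀ * (((2 : ℝ) ^ w)⁻¹) ^ j = (1 / 2) ^ (x₀ + j * w) := by
    intro j
    rw [pow_add, ← inv_pow, ← pow_mul, one_div, mul_comm w j]
  set S : Set ℕ := {j | ∃ u v : Fin m → ι, (1 / 2 : ℝ) ^ (x₀ + (j + 1) * w) < |zz r t u - zz r t v| ∧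
        |zz r t u - zz r t v| ≤ (1 / 2) ^ (x₀ + j * w)} with hS
  have key : ∀ J : Finset ℕ, (J : Set ℕ) ⊆ S → J.card ≤ m ^ (9 * Fintype.card ι + 2) := by
    intro J hJ
    refine active_levels r t hm (c := (1 / 2 : ℝ) ^ x₀) (by positivity) hB J fun j hj => ?_
    obtain ⟨u, v, h1, h2⟩ := hJ hj
    refine ⟨u, v, ?_, ?_⟩
    · rw [hpow]; exact h1
    · rw [hpow]; exact h2
  have hfin : S.Finite := by
    by_contra hinf
    obtain ⟨J, hJ, hcard⟩ := Set.Infinite.exists_subset_card_eq hinf (m ^ (9 * Fintype.card ι + 2) + 1)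
    have := key J hJ
    omega
  refine ⟨hfin.toFinset, key _ (by simp), fun j hj => ?_⟩
  simpa [hS] using hj

theorem isPW_qT {ι : Type*} [Fintype ι] {p : ι → ℝ} (hp : ∀ i, 0 < p i) (hp1 : ∑ i, p i = 1)
    {m : ℕ} (τ : ι → Fin (m + 1)) : IsPW (qT p τ) := by
  refine ⟨fun a => ?_, ?_⟩
  · exact cond_nonneg ty (fun ω => Finset.prod_nonneg fun j _ => (hp _).le) τ a
  · exact cond_sum ty (sum_pw hp1 m) τ

/-- CASE K -/
theorem kmain_of (hOne : OneP.{u}) (hΓ : GammaP.{u}) (hF : FinalP.{u}) (hM : MultP.{u}) :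
    KMain.{u} := by
  classical
  intro ι _ _ r t p μ hr hp hp1 hμ hirr
  by_contra hneg
  have hprob := hμ.1
  have hp' : ∀ i, 0 ≤ p i := fun i => (hp i).le
  obtain ⟨D, C, hD0, hD1, hC, -, htendHd, hle, htend⟩ := Bridge.exists_dim_real hr hp' hp1 hμ
  have hlt : D < min 1 (rwEntropyRate r t p / lyapunovExp r p) :=
    Bridge.dim_lt_of_not_goal htendHd hneg
  have hsys : Sys r t p μ D C := ⟨hr, hp, hp1, hμ, hD0, hD1, hC, hle, htend⟩
  have hbs : BSupp μ := Bridge.bsupp hr hp' hp1 hμ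
  set χ := lyapunovExp r p with hχdef
  have hel : ∀ i, 0 < el r i := fun i => by
    have h1 : 0 < |r i| := abs_pos.2 (hr i).1
    have := Real.log_neg h1 (hr i).2
    unfold el; linarith
  have hχ : 0 < χ := by
    have h1 : χ = ∑ i, p i * el r i := by
      rw [hχdef, lyapunovExp, ← Finset.sum_neg_distrib]
      exact Finset.sum_congr rfl fun i _ => by unfold el; ring
    rw [h1]
    exact Finset.sum_pos (fun i _ => mul_pos (hp i) (hel i)) Finset.univ_nonempty
  have hD1' : D < 1 := hlt.trans_le (min_le_left _ _)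
  have hDh : D * χ < rwEntropyRate r t p := by
    have := hlt.trans_le (min_le_right _ _)
    rwa [lt_div_iff₀ hχ] at this
  set h := rwEntropyRate r t p with hhdef
  -- ε
  obtain ⟨ε, hε, hε1, hεg⟩ : ∃ ε : ℝ, 0 < ε ∧ ε < 1 ∧ D * ((1 + 3 * ε) * χ) < h := by
    have hg : 0 < h - D * χ := by linarith
    refine ⟨min (1 / 2) ((h - D * χ) / (6 * χ + 1)), ?_, ?_, ?_⟩
    · exact lt_min (by norm_num) (by positivity)
    · exact lt_of_le_of_lt (min_le_left _ _) (by norm_num)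
    · set e := min (1 / 2) ((h - D * χ) / (6 * χ + 1)) with he
      have he0 : 0 ≤ e := le_min (by norm_num) (by positivity)
      have h1 : e * (6 * χ + 1) ≤ h - D * χ := by
        have := min_le_right (1 / 2 : ℝ) ((h - D * χ) / (6 * χ + 1))
        rwa [← he, le_div_iff₀ (by positivity)] at this
      have h2 : D * (3 * e * χ) ≤ 1 * (3 * e * χ) :=
        mul_le_mul_of_nonneg_right hD1 (by positivity)
      have h3 : 0 ≤ e * χ := by positivity
      rcases h3.eq_or_lt with h4 | h4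
      · have h5 : D * ((1 + 3 * e) * χ) = D * χ + 3 * D * (e * χ) := by ring
        rw [h5, ← h4]; linarith
      · nlinarith
  -- K
  obtain ⟨K, hK16, hK⟩ : ∃ K : ℕ, 16 ≤ K ∧ D ≤ 1 - 8 / K := by
    obtain ⟨K, hK⟩ := exists_nat_gt (8 / (1 - D))
    refine ⟨max K 16, le_max_right _ _, ?_⟩
    have h1 : (8 : ℝ) / (1 - D) < (max K 16 : ℕ) := hK.trans_le (by exact_mod_cast le_max_left _ _)
    have h2 : (0 : ℝ) < (max K 16 : ℕ) := by
      have : (16 : ℕ) ≤ max K 16 := le_max_right _ _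
      exact_mod_cast (by omega : 0 < max K 16)
    rw [div_lt_iff₀ (by linarith)] at h1
    have h3 : (8 : ℝ) / (max K 16 : ℕ) < 1 - D := by
      rw [div_lt_iff₀ h2]; linarith
    linarith
  -- self-similarity in the `mix` form
  have hself : μ = mix p fun i => μ.map fun x => r i * x + t i := hμ.2
  have hfreq : ∃ᶠ x : ℝ in atTop, Hs μ (exp (-x)) ≤ D * x + C :=
    ((eventually_ge_atTop (0 : ℝ)).mono fun x hx => hle x hx).frequently
  -- macro
  obtain ⟨a, c, hc, hmac⟩ := exists_macro_two_pow hp' hp1 (fun i => (hr i).1) (fun i => (hr i).2)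
    hbs hself hD1' hfreq
  -- deficit
  obtain ⟨C1, hdef⟩ : ∃ C1 : ℝ, ∀ L : ℕ, 0 < L → ∀ d, 0 < d →
      Hs μ d - Hs μ (L * d) ≤ (1 - 8 / K) * log L + C1 := by
    set ρ := Finset.univ.inf' Finset.univ_nonempty fun i => |r i| with hρ
    set σ := Finset.univ.sup' Finset.univ_nonempty fun i => |r i| with hσ
    have h1 : 0 < ρ := (Finset.lt_inf'_iff _).mpr fun i _ => abs_pos.mpr (hr i).1
    have h2 : ∀ i, ρ ≤ |r i| := fun i => Finset.inf'_le _ (Finset.mem_univ i)
    have h3 : ∀ i, |r i| ≤ σ := fun i => Finset.le_sup' (fun i => |r i|) (Finset.mem_univ i)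
    have h4 : σ < 1 := (Finset.sup'_lt_iff _).mpr fun i _ => (hr i).2
    refine ⟨log (1 / ρ) + log 2, fun L hL d hd => ?_⟩
    have h5 := uniform_deficit hp' hp1 h1 h2 h3 h4 hbs hself hD0 hfreq hL hd
    have h6 : 0 ≤ log (L : ℝ) := log_nonneg (by exact_mod_cast hL)
    have h7 := mul_le_mul_of_nonneg_right hK h6
    linarith
  -- extreme lengths
  set ℓ0 := Finset.univ.inf' Finset.univ_nonempty fun i => el r i with hℓ0
  set ℓ1 := Finset.univ.sup' Finset.univ_nonempty fun i => el r i with hℓ1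
  have hℓ0pos : 0 < ℓ0 := (Finset.lt_inf'_iff _).mpr fun i _ => hel i
  have hℓ0le : ∀ i, ℓ0 ≤ el r i := fun i => Finset.inf'_le _ (Finset.mem_univ i)
  have hℓ1le : ∀ i, el r i ≤ ℓ1 := fun i => Finset.le_sup' (fun i => el r i) (Finset.mem_univ i)
  have hℓ1pos : 0 ≤ ℓ1 := by
    obtain ⟨i⟩ := ‹Nonempty ι›
    exact (hel i).le.trans (hℓ1le i)
  -- fuel
  set nn : ℝ → ℕ := fun s => ⌈s / ℓ0⌉₊ with hnn
  have hnn1 : ∀ s, s ≤ nn s * ℓ0 := fun s => by
    have := Nat.le_ceil (s / ℓ0)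
    rwa [div_le_iff₀ hℓ0pos] at this
  have hnn1' : ∀ s, 0 ≤ s → ∀ i, s ≤ nn s * el r i := fun s _ i =>
    (hnn1 s).trans (mul_le_mul_of_nonneg_left (hℓ0le i) (by positivity))
  have hnn2 : ∀ s, 1 ≤ s → (nn s : ℝ) ≤ (1 / ℓ0 + 1) * s := fun s hs => by
    have h1 : (nn s : ℝ) ≤ s / ℓ0 + 1 := (Nat.ceil_lt_add_one (by positivity)).le
    have h2 : s / ℓ0 + 1 ≤ (1 / ℓ0 + 1) * s := by
      have : (1 / ℓ0 + 1) * s = s / ℓ0 + s := by ring
      rw [this]; linarith
    linarith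
  -- MULT
  set P : ℝ → ℝ → ℝ → ℝ := fun s x b => ∑ Q ∈ stp (el r) (nn s) s,
    (if x ≤ LL (el r) Q ∧ LL (el r) Q ≤ x + b then wtL p Q else 0) with hP
  obtain ⟨CM, hCM⟩ := hM ι r p hr hp hp1 hirr (1 / ℓ0 + 1)
  have hCM' : ∀ Q0 : ℕ, ∃ q : ℕ, Q0 ≤ q ∧ ∀ s : ℝ, (q : ℝ) ^ 2 ≤ s → ∀ x b : ℝ, 0 ≤ b →
      P s x b ≤ CM * (1 + Real.log s) ^ 3 * (b + 1 / q) := by
    intro Q0
    obtain ⟨q, hq, hqq⟩ := hCM (max Q0 1)
    have hq1 : 1 ≤ q := (le_max_right _ _).trans hq
    have hq1' : (1 : ℝ) ≤ q := by exact_mod_cast hq1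
    refine ⟨q, (le_max_left _ _).trans hq, fun s hs x b hb => ?_⟩
    have hs1 : 1 ≤ s := le_trans (one_le_pow₀ hq1') hs
    exact hqq s hs (nn s) (hnn1' s (by linarith)) (hnn2 s hs1) x b hb
  -- constants
  set kk := Fintype.card ι with hkk
  set A := (2 * K + 1) * (9 * kk + 2) + 3 with hA
  obtain ⟨Ct, w0, hCt, hone⟩ := hOne K A a c C1 (exp ℓ1) hK16 (by omega) hc
    (one_le_exp hℓ1pos)
  obtain ⟨C', hfin⟩ := hF ι r t p μ D C hsys
  set g := h - D * ((1 + 3 * ε) * χ) with hg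
  have hgpos : 0 < g := by linarith
  set η := g / (4 * (Ct + 1)) with hη
  have hηpos : 0 < η := by positivity
  have hCtη : Ct * η ≤ g / 4 := by
    rw [hη, mul_div_assoc']
    rw [div_le_div_iff₀ (by positivity) (by norm_num)]
    nlinarith
  -- thresholds
  have t1 := hΓ ι r t p μ D C hsys ε hε hε1 (a + 1) η hηpos
  have t2 : ∀ᶠ m : ℕ in atTop, Real.log 2 + C' + Ct + 1 + kk * Real.log (m + 1) ≤ g / 4 * m := by
    have h1 : Tendsto (fun m : ℕ => Real.log ((m : ℝ) + 1) / ((m : ℝ) + 1)) atTop (𝓝 0) := by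
      have h2 : Tendsto (fun x : ℝ => Real.log x / x) atTop (𝓝 0) := by
        simpa using Real.isLittleO_log_id_atTop.tendsto_div_nhds_zero
      exact h2.comp (tendsto_atTop_add_const_right _ _ tendsto_natCast_atTop_atTop)
    have h3 : Tendsto (fun m : ℕ => kk * (Real.log ((m : ℝ) + 1) / ((m : ℝ) + 1)) +
        (Real.log 2 + C' + Ct + 1) * (1 / ((m : ℝ) + 1))) atTop (𝓝 (kk * 0 + (Real.log 2 + C' + Ct + 1) * 0)) :=
      (h1.const_mul _).add (tendsto_one_div_add_atTop_nhds_zero_nat.const_mul _)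
    rw [mul_zero, mul_zero, add_zero] at h3
    filter_upwards [h3.eventually (gt_mem_nhds (show 0 < g / 8 by positivity)),
      eventually_ge_atTop 1] with m hm hm1
    have hm1' : (1 : ℝ) ≤ m := by exact_mod_cast hm1
    have h4 : (0 : ℝ) < (m : ℝ) + 1 := by positivity
    have h5 : kk * (Real.log ((m : ℝ) + 1) / ((m : ℝ) + 1)) +
        (Real.log 2 + C' + Ct + 1) * (1 / ((m : ℝ) + 1)) =
        (Real.log 2 + C' + Ct + 1 + kk * Real.log (m + 1)) / ((m : ℝ) + 1) := by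
      field_simp; ring
    rw [h5, div_lt_iff₀ h4] at hm
    nlinarith
  have t3 : ∀ᶠ m : ℕ in atTop, a + 1 ≤ X0 χ ε m := by
    have h1 : Tendsto (fun m : ℕ => (1 + 3 * ε) * χ * (m : ℝ) / Real.log 2) atTop atTop := by
      refine Tendsto.atTop_div_const (Real.log_pos one_lt_two) ?_
      exact tendsto_natCast_atTop_atTop.const_mul_atTop (by positivity)
    filter_upwards [h1.eventually_ge_atTop ((a : ℝ) + 1)] with m hm
    have h2 := Nat.le_ceil ((1 + 3 * ε) * χ * (m : ℝ) / Real.log 2)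
    have h3 : ((a + 1 : ℕ) : ℝ) ≤ (X0 χ ε m : ℕ) := by
      push_cast; exact hm.trans h2
    exact_mod_cast h3
  have t4 := eventually_negl_le (K := K) (cl := 9 * kk + 2) (A := A) (Cl := 1) le_rfl
  obtain ⟨M1, hM1⟩ := eventually_atTop.mp (t1.and (t2.and t3))
  obtain ⟨w1, hw1⟩ := eventually_atTop.mp t4
  -- the parameters
  obtain ⟨w, m, hwW, hmW, hmw, hconc⟩ := exists_params hCM' (show 4 ≤ K by omega)
    (show 0 < ε * χ by positivity) (max (max M1 w1) (max w0 2))
  have hmM1 : M1 ≤ m := ((le_max_left _ _).trans (le_max_left _ _)).trans hmW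
  have hww1 : w1 ≤ w := ((le_max_right _ _).trans (le_max_left _ _)).trans hwW
  have hww0 : w0 ≤ w := ((le_max_left _ _).trans (le_max_right _ _)).trans hwW
  have hw2 : 2 ≤ w := ((le_max_right _ _).trans (le_max_right _ _)).trans hwW
  have hm2 : 2 ≤ m := ((le_max_right _ _).trans (le_max_right _ _)).trans hmW
  obtain ⟨hgam, hlogm, hX0⟩ := hM1 m hmM1
  have hnegl := hw1 w hww1 m hmw
  set s := ε * χ * m with hs
  have hm0 : (0 : ℝ) < m := by positivity
  have hspos : 0 < s := by positivity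
  set x₀ := X0 χ ε m with hx0
  obtain ⟨Act, hAct, hActm⟩ := exists_act r t hm2 x₀ (show 1 ≤ w by omega)
  -- the one-type theorem for every type
  have hrho : ∀ τ : ι → Fin (m + 1), 0 < |rt r τ| := fun τ =>
    abs_pos.2 (Finset.prod_ne_zero_iff.2 fun i _ => pow_ne_zero _ (hr i).1)
  have habs : ∀ (τ : ι → Fin (m + 1)) (Q : List ι), |rt r τ * (Q.map r).prod| =
      |rt r τ| * exp (-LL (el r) Q) := fun τ Q => by
    rw [abs_mul, abs_prod_eq_exp (fun i => (hr i).1)]; rfl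
  have hone' : ∀ τ : ι → Fin (m + 1), ∃ i₀, ∀ i, i₀ ≤ i →
      HA (qT p τ) (zz r t) x₀ ≤ Ct * (∑ Q ∈ stp (el r) (nn s) s, wtL p Q *
        (GT r t p μ τ Q i - GT r t p μ τ Q (x₀ - (a + 1))) + 1) + 1 := by
    intro τ
    have hone1 := hone w hww0 (Fin m → ι) {Q : List ι // Q ∈ stp (el r) (nn s) s} (qT p τ) (zz r t)
      (fun Q => wtL p Q.1) (fun Q => rt r τ * (Q.1.map r).prod) μ
      (|rt r τ| * exp (-(s + ℓ1))) (isPW_qT hp hp1 τ) ?_ hbs
      (mul_pos (hrho τ) (exp_pos _)) ?_ ?_ ?_ hdef ?_ x₀ hX0 Act ?_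
    · obtain ⟨i₀, hi₀⟩ := hone1
      refine ⟨i₀, fun i hi => ?_⟩
      have h1 := hi₀ i hi
      have h2 : (Act.card : ℝ) * (2 ^ (w + 3) * (A * w) / 2 ^ (A * w)) ≤ 1 := by
        have h3 := hnegl (Act.card : ℝ) (by rw [one_mul]; exact_mod_cast hAct)
        calc (Act.card : ℝ) * (2 ^ (w + 3) * (A * w) / 2 ^ (A * w))
            = Act.card * 2 ^ (w + 3) * (A * w) / 2 ^ (A * w) := by ring
          _ ≤ 1 := h3
      have h4 : ∑ Q : {Q : List ι // Q ∈ stp (el r) (nn s) s}, wtL p Q.1 *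
          ((Hs (addLaw (qT p τ) (zz r t) (μ.map fun x => rt r τ * (Q.1.map r).prod * x))
              ((1 / 2) ^ i) - Hs (μ.map fun x => rt r τ * (Q.1.map r).prod * x) ((1 / 2) ^ i)) -
           (Hs (addLaw (qT p τ) (zz r t) (μ.map fun x => rt r τ * (Q.1.map r).prod * x))
              ((1 / 2) ^ (x₀ - (a + 1))) -
            Hs (μ.map fun x => rt r τ * (Q.1.map r).prod * x) ((1 / 2) ^ (x₀ - (a + 1))))) =
          ∑ Q ∈ stp (el r) (nn s) s, wtL p Q *
            (GT r t p μ τ Q i - GT r t p μ τ Q (x₀ - (a + 1))) := by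
        rw [← Finset.sum_coe_sort (stp (el r) (nn s) s) (fun Q => wtL p Q *
            (GT r t p μ τ Q i - GT r t p μ τ Q (x₀ - (a + 1))))]
        rfl
      rw [h4] at h1
      linarith
    · -- weights
      refine ⟨fun Q => wtL_nonneg hp' Q.1, ?_⟩
      rw [Finset.sum_coe_sort (stp (el r) (nn s) s) (fun Q => wtL p Q)]
      exact sum_stp_wtL (el r) hp1 _ _
    · -- lower bound for the slopes
      intro Q
      rw [habs]
      refine mul_le_mul_of_nonneg_left (exp_le_exp.2 ?_) (abs_nonneg _)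
      have := LL_le_of_mem hℓ1le hℓ1pos hspos.le Q.2
      linarith
    · -- upper bound for the slopes
      intro Q
      rw [habs]
      have h1 := le_LL_of_mem hℓ0le hℓ0pos.le (hnn1 s) Q.2
      calc |rt r τ| * exp (-LL (el r) Q.1) ≤ |rt r τ| * exp (-s) :=
            mul_le_mul_of_nonneg_left (exp_le_exp.2 (by linarith)) (abs_nonneg _)
        _ = exp ℓ1 * (|rt r τ| * exp (-(s + ℓ1))) := by
            rw [neg_add, exp_add, exp_neg ℓ1]; field_simp
    · -- macro
      intro b hb e he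
      have := hmac b 0 hb e he
      simpa using this
    · -- concentration
      intro y
      have h1 := hconc (log |rt r τ| - y - 8 / 2 ^ ((K - 2) * w))
      refine le_trans (le_of_eq ?_) h1
      rw [hP]
      simp only
      rw [Finset.sum_coe_sort (stp (el r) (nn s) s) (fun Q =>
        if y ≤ log |rt r τ * (Q.map r).prod| ∧
          log |rt r τ * (Q.map r).prod| ≤ y + 8 / 2 ^ ((K - 2) * w) then wtL p Q else 0)]
      refine Finset.sum_congr rfl fun Q _ => ?_
      have h2 : log |rt r τ * (Q.map r).prod| = log |rt r τ| - LL (el r) Q := by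
        rw [habs, log_mul (hrho τ).ne' (exp_pos _).ne', log_exp]; ring
      rw [h2]
      refine if_congr ?_ rfl rfl
      constructor
      · rintro ⟨h3, h4⟩; exact ⟨by linarith, by linarith⟩
      · rintro ⟨h3, h4⟩; exact ⟨by linarith, by linarith⟩
    · -- activity
      rintro j ⟨u, v, -, -, h1, h2⟩
      exact hActm j ⟨u, v, h1, h2⟩
  choose i₀ hi₀ using hone'
  set I := max x₀ (Finset.univ.sup i₀) with hI
  have hIτ : ∀ τ, i₀ τ ≤ I := fun τ => (Finset.le_sup (Finset.mem_univ τ)).trans (le_max_right _ _)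
  have hgam' := hgam (nn s) (hnn1' s hspos.le) I (le_max_left _ _)
  have hfin' := hfin m (by omega) x₀
  have hpT : ∀ τ : ι → Fin (m + 1), 0 ≤ pT p τ := fun τ =>
    fib_nonneg ty (fun ω => Finset.prod_nonneg fun j _ => hp' _) τ
  have hpT1 : ∑ τ : ι → Fin (m + 1), pT p τ = 1 := fib_sum ty (sum_pw hp1 m)
  have hsum : ∑ τ : ι → Fin (m + 1), pT p τ * HA (qT p τ) (zz r t) x₀ ≤ Ct * (η * m + 1) + 1 := by
    calc ∑ τ : ι → Fin (m + 1), pT p τ * HA (qT p τ) (zz r t) x₀
        ≤ ∑ τ : ι → Fin (m + 1), pT p τ * (Ct * (∑ Q ∈ stp (el r) (nn s) s, wtL p Q *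
            (GT r t p μ τ Q I - GT r t p μ τ Q (x₀ - (a + 1))) + 1) + 1) :=
          Finset.sum_le_sum fun τ _ => mul_le_mul_of_nonneg_left (hi₀ τ I (hIτ τ)) (hpT τ)
      _ = Ct * (∑ τ : ι → Fin (m + 1), pT p τ * (∑ Q ∈ stp (el r) (nn s) s, wtL p Q *
            (GT r t p μ τ Q I - GT r t p μ τ Q (x₀ - (a + 1)))) + ∑ τ : ι → Fin (m + 1), pT p τ) +
            ∑ τ : ι → Fin (m + 1), pT p τ := by
          rw [← Finset.sum_add_distrib, Finset.mul_sum, ← Finset.sum_add_distrib]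
          exact Finset.sum_congr rfl fun τ _ => by ring
      _ ≤ Ct * (η * m + 1) + 1 := by
          rw [hpT1]
          gcongr
  have hX0up : (x₀ : ℝ) * Real.log 2 ≤ (1 + 3 * ε) * χ * m + Real.log 2 := by
    have hl2 : 0 < Real.log 2 := Real.log_pos one_lt_two
    have h1 : (x₀ : ℝ) ≤ (1 + 3 * ε) * χ * m / Real.log 2 + 1 :=
      (Nat.ceil_lt_add_one (by positivity)).le
    have h2 := mul_le_mul_of_nonneg_right h1 hl2.le
    have h3 : ((1 + 3 * ε) * χ * m / Real.log 2 + 1) * Real.log 2 =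
        (1 + 3 * ε) * χ * m + Real.log 2 := by
      field_simp
    linarith
  have hfinal : h * m ≤ D * ((1 + 3 * ε) * χ) * m + g / 4 * m + g / 4 * m := by
    have h1 : D * ((x₀ : ℝ) * Real.log 2) ≤ D * ((1 + 3 * ε) * χ * m) + Real.log 2 := by
      have h2 := mul_le_mul_of_nonneg_left hX0up hD0
      have h3 : D * Real.log 2 ≤ Real.log 2 := by
        have := Real.log_pos one_lt_two
        nlinarith
      linarith
    have h4 : Ct * (η * m + 1) + 1 ≤ g / 4 * m + Ct + 1 := by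
      have := mul_le_mul_of_nonneg_right hCtη hm0.le
      linarith
    linarith
  have : g * m ≤ g / 2 * m := by
    have e : g * m = h * m - D * ((1 + 3 * ε) * χ) * m := by rw [hg]; ring
    rw [e]; linarith
  nlinarith

end Crest.Agent.R98.K
end

-- ▼ part R98/KFull
section

/-!
Row 98: CASE K complete (helper383).
-/

set_option autoImplicit false

namespace Crest.Agent.R98.K

universe u

/-- CASE K of row 98 -/
theorem kmain_full : KMain.{u} :=
  kmain_of oneP (gammaP_of g1 g2 g3) finalP multP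

end Crest.Agent.R98.K
end

-- ▼ part R98/KMainF

/-!
Row 98, case K assembled: `kmain` (some ratio of logarithms irrational).
-/

set_option autoImplicit false

namespace Crest.Agent.R98.K

universe u

/-- Case K of the main theorem. -/
theorem kmain : Crest.Agent.R98.KMain.{u} :=
  kmain_full

end Crest.Agent.R98.K
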