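import Crest.Agent.R98.KTree
import Mathlib
import Crest.Agent.R98.TOneE

-- ▼ part R98/KNode
section

/-!
R98 / KNode (helper226): the node inequality of the rank `≥ 2` argument (helper383, note 10296,
paragraph (SUM)), as an inequality between real numbers.
-/

set_option autoImplicit false
set_option linter.unusedSectionVars false

open Real Set

namespace Crest.Agent.R98.K

variable {κ : Type*} [Fintype κ]

theorem negMulLog_le_of_le {x δ : ℝ} (hx : 0 ≤ x) (hxδ : x ≤ δ) (hδ : 0 < δ)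
    (hδ1 : δ ≤ exp (-1)) : negMulLog x ≤ negMulLog δ := by
  have hlog : log δ ≤ -1 := by
    have := log_le_log hδ hδ1
    rwa [log_exp] at this
  rcases hx.eq_or_lt with h0 | h0
  · rw [← h0, negMulLog_zero]
    exact negMulLog_nonneg hδ.le (hδ1.trans (by rw [exp_le_one_iff]; norm_num))
  · have h1 : log (δ / x) ≤ δ / x - 1 := log_le_sub_one_of_pos (by positivity)
    rw [log_div hδ.ne' h0.ne'] at h1
    have h2 : x * (log δ - log x) ≤ x * (δ / x - 1) := mul_le_mul_of_nonneg_left h1 h0.le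
    have h3 : x * (δ / x - 1) = δ - x := by field_simp
    unfold negMulLog
    nlinarith

/-- probability that two independent points lie in different children -/
theorem sum_lm_one_sub_le {p : κ → ℝ} (hp : IsPW p) {v : κ → ℝ} {N : ℕ} (f : κ → Fin N)
    {δ0 θ b : ℝ} (hδ : 0 ≤ δ0) (hθ : 0 ≤ θ) (hθ1 : θ ≤ 1 / 2)
    (hnear : ∀ u, δ0 ≤ lm p f u → ∑ a, (open Classical in if f a = u ∧
      ∃ b', p b' ≠ 0 ∧ f b' ≠ u ∧ |v a - v b'| < b then p a else 0) ≤ θ * lm p f u) :
    ∑ u, lm p f u * (1 - lm p f u) ≤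
      2 * (∑ a, ∑ b', (if b ≤ |v a - v b'| then p a * p b' else 0) + N * δ0) := by
  classical
  have hlm : ∀ u, lm p f u = ∑ a, if f a = u then p a else 0 := by
    intro u
    unfold lm
    refine Finset.sum_congr rfl fun a _ => ?_
    split_ifs with h
    · exact rs_of_eq f h
    · exact rs_of_ne f h
  have hone : ∑ u, lm p f u = 1 := by rw [sum_lm, hp.2]
  have hle1 : ∀ u, lm p f u ≤ 1 := fun u => by
    rw [← hone]
    exact Finset.single_le_sum (fun u _ => lm_nonneg f hp.1 u) (Finset.mem_univ u)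
  have h0 : ∀ u, 0 ≤ lm p f u := fun u => lm_nonneg f hp.1 u
  -- pairs in different children
  have hX : ∀ u, lm p f u * (1 - lm p f u) =
      ∑ a, if f a = u then p a * ∑ b', (if f b' ≠ u then p b' else 0) else 0 := by
    intro u
    have h1 : 1 - lm p f u = ∑ b', if f b' ≠ u then p b' else 0 := by
      rw [hlm u, ← hp.2, ← Finset.sum_sub_distrib]
      refine Finset.sum_congr rfl fun a _ => ?_
      by_cases h : f a = u <;> simp [h]
    rw [h1, hlm u, Finset.sum_mul]
    refine Finset.sum_congr rfl fun a _ => ?_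
    split_ifs <;> simp
  have hXu : ∀ u, lm p f u * (1 - lm p f u) ≤
      (∑ a, if f a = u then ∑ b', (if b ≤ |v a - v b'| then p a * p b' else 0) else 0) +
      (θ * (lm p f u * (1 - lm p f u)) + δ0) := by
    intro u
    have h2 : lm p f u * (1 - lm p f u) ≤
        (∑ a, if f a = u then ∑ b', (if b ≤ |v a - v b'| then p a * p b' else 0) else 0) +
        ∑ a, (if f a = u ∧ ∃ b', p b' ≠ 0 ∧ f b' ≠ u ∧ |v a - v b'| < b then p a else 0) *
          (1 - lm p f u) := by
      rw [hX u, ← Finset.sum_add_distrib]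
      refine Finset.sum_le_sum fun a _ => ?_
      by_cases h : f a = u
      · rw [if_pos h, if_pos h]
        by_cases hn : ∃ b', p b' ≠ 0 ∧ f b' ≠ u ∧ |v a - v b'| < b
        · rw [if_pos ⟨h, hn⟩]
          have h3 : ∑ b', (if f b' ≠ u then p b' else 0) = 1 - lm p f u := by
            rw [hlm u, ← hp.2, ← Finset.sum_sub_distrib]
            refine Finset.sum_congr rfl fun a _ => ?_
            by_cases h : f a = u <;> simp [h]
          rw [h3]
          have h4 : 0 ≤ ∑ b', (if b ≤ |v a - v b'| then p a * p b' else 0) :=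
            Finset.sum_nonneg fun b' _ => by
              split_ifs
              · exact mul_nonneg (hp.1 _) (hp.1 _)
              · exact le_rfl
          linarith
        · rw [if_neg (fun h' => hn h'.2), zero_mul, add_zero, Finset.mul_sum]
          refine Finset.sum_le_sum fun b' _ => ?_
          by_cases hb' : f b' ≠ u
          · rw [if_pos hb']
            by_cases hpb : p b' = 0
            · rw [hpb]; simp
            · have h5 : b ≤ |v a - v b'| := by
                by_contra hc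
                exact hn ⟨b', hpb, hb', not_le.1 hc⟩
              rw [if_pos h5]
          · rw [if_neg hb', mul_zero]
            split_ifs
            · exact mul_nonneg (hp.1 _) (hp.1 _)
            · exact le_rfl
      · rw [if_neg h, if_neg h, if_neg (fun h' => h h'.1)]
        simp
    refine h2.trans (add_le_add le_rfl ?_)
    rw [← Finset.sum_mul]
    have h6 : (0:ℝ) ≤ 1 - lm p f u := by linarith [hle1 u]
    by_cases hu : δ0 ≤ lm p f u
    · have h7 := hnear u hu
      have h8 := mul_le_mul_of_nonneg_right h7 h6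
      have h9 : θ * lm p f u * (1 - lm p f u) = θ * (lm p f u * (1 - lm p f u)) := by ring
      rw [h9] at h8
      refine (le_of_eq ?_).trans (h8.trans (by linarith))
      congr 1
    · have h10 : ∑ a, (if f a = u ∧ ∃ b', p b' ≠ 0 ∧ f b' ≠ u ∧ |v a - v b'| < b then p a else 0) ≤
          lm p f u := by
        rw [hlm u]
        refine Finset.sum_le_sum fun a _ => ?_
        by_cases h : f a = u
        · rw [if_pos h]
          split_ifs
          · exact le_rfl
          · exact hp.1 a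
        · rw [if_neg h, if_neg (fun h' => h h'.1)]
      have h11 : (∑ a, (if f a = u ∧ ∃ b', p b' ≠ 0 ∧ f b' ≠ u ∧ |v a - v b'| < b then p a
          else 0)) * (1 - lm p f u) ≤ lm p f u * 1 :=
        mul_le_mul h10 (by linarith [h0 u]) h6 (h0 u)
      have h12 : 0 ≤ θ * (lm p f u * (1 - lm p f u)) := mul_nonneg hθ (mul_nonneg (h0 u) h6)
      push Not at hu
      linarith
  have h13 := Finset.sum_le_sum fun u (_ : u ∈ Finset.univ) => hXu u
  rw [Finset.sum_add_distrib, Finset.sum_add_distrib, ← Finset.mul_sum] at h13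
  have h14 : ∑ u : Fin N, ∑ a, (if f a = u then ∑ b', (if b ≤ |v a - v b'| then p a * p b' else 0)
      else 0) = ∑ a, ∑ b', (if b ≤ |v a - v b'| then p a * p b' else 0) := by
    rw [Finset.sum_comm]
    refine Finset.sum_congr rfl fun a _ => ?_
    rw [Finset.sum_ite_eq]
    simp
  rw [h14, Finset.sum_const, Finset.card_univ, Fintype.card_fin, nsmul_eq_mul] at h13
  have h15 : 0 ≤ ∑ u, lm p f u * (1 - lm p f u) :=
    Finset.sum_nonneg fun u _ => mul_nonneg (h0 u) (by linarith [hle1 u])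
  nlinarith

/-- THE NODE INEQUALITY -/
theorem node_ineq {p : κ → ℝ} (hp : IsPW p) {v : κ → ℝ} {N : ℕ} (f : κ → Fin N)
    {δ0 θ b : ℝ} (hδ : 0 < δ0) (hδ1 : δ0 ≤ exp (-1)) (hθ : 0 ≤ θ) (hθ1 : θ ≤ 1 / 2)
    (hnear : ∀ u, δ0 ≤ lm p f u → ∑ a, (open Classical in if f a = u ∧
      ∃ b', p b' ≠ 0 ∧ f b' ≠ u ∧ |v a - v b'| < b then p a else 0) ≤ θ * lm p f u)
    {E g : Fin N → ℝ} (hE0 : ∀ u, lm p f u ≠ 0 → 0 ≤ E u) (hg0 : ∀ u, lm p f u ≠ 0 → 0 ≤ g u)
    {π0 lam C3 c4 R : ℝ} (hπ : 0 < π0) (hc4 : 0 < c4) (hR : 1 ≤ R) (hlam : 2 * C3 / π0 ≤ lam)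
    (hRl : -log δ0 ≤ R * lam)
    (hdet : ∀ u, δ0 ≤ lm p f u →
      π0 * min (-log (lm p f u)) lam - C3 ≤ E u ∨ c4 * lam ≤ g u) :
    ∑ u, negMulLog (lm p f u) ≤
      2 * R / π0 * ∑ u, lm p f u * E u + R / c4 * ∑ u, lm p f u * g u +
      exp (2 * C3 / π0) * (2 * (∑ a, ∑ b', (if b ≤ |v a - v b'| then p a * p b' else 0) + N * δ0)) +
      N * negMulLog δ0 := by
  have hone : ∑ u, lm p f u = 1 := by rw [sum_lm, hp.2]
  have hle1 : ∀ u, lm p f u ≤ 1 := fun u => by
    rw [← hone]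
    exact Finset.single_le_sum (fun u _ => lm_nonneg f hp.1 u) (Finset.mem_univ u)
  have h0 : ∀ u, 0 ≤ lm p f u := fun u => lm_nonneg f hp.1 u
  have hδle : δ0 ≤ 1 := hδ1.trans (by rw [exp_le_one_iff]; norm_num)
  have hη0 : 0 ≤ negMulLog δ0 := negMulLog_nonneg hδ.le hδle
  have hkey : ∀ u, negMulLog (lm p f u) ≤
      2 * R / π0 * (lm p f u * E u) + R / c4 * (lm p f u * g u) +
      exp (2 * C3 / π0) * (lm p f u * (1 - lm p f u)) + negMulLog δ0 := by
    intro u
    by_cases hu0 : lm p f u = 0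
    · rw [hu0, negMulLog_zero]; simp [hη0]
    have hpos : 0 < lm p f u := lt_of_le_of_ne (h0 u) (Ne.symm hu0)
    have t1 : 0 ≤ 2 * R / π0 * (lm p f u * E u) :=
      mul_nonneg (by positivity) (mul_nonneg (h0 u) (hE0 u hu0))
    have t2 : 0 ≤ R / c4 * (lm p f u * g u) :=
      mul_nonneg (by positivity) (mul_nonneg (h0 u) (hg0 u hu0))
    have t3 : 0 ≤ exp (2 * C3 / π0) * (lm p f u * (1 - lm p f u)) :=
      mul_nonneg (exp_pos _).le (mul_nonneg (h0 u) (by linarith [hle1 u]))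
    by_cases hu : δ0 ≤ lm p f u
    · have hs0 : 0 ≤ -log (lm p f u) := by
        have := log_nonpos (h0 u) (hle1 u); linarith
      have hsR : -log (lm p f u) ≤ R * lam := by
        have := log_le_log hδ hu; linarith
      have hneg : negMulLog (lm p f u) = lm p f u * (-log (lm p f u)) := by unfold negMulLog; ring
      rw [hneg]
      rcases hdet u hu with h | h
      · by_cases hs : 2 * C3 / π0 ≤ -log (lm p f u)
        · have hmin : 2 * C3 / π0 ≤ min (-log (lm p f u)) lam := le_min hs hlam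
          have hE : π0 / 2 * min (-log (lm p f u)) lam ≤ E u := by
            have h1 : C3 ≤ π0 / 2 * min (-log (lm p f u)) lam := by
              have := mul_le_mul_of_nonneg_left hmin (by positivity : 0 ≤ π0 / 2)
              have e : π0 / 2 * (2 * C3 / π0) = C3 := by field_simp
              linarith
            linarith
          have hmin2 : -log (lm p f u) / R ≤ min (-log (lm p f u)) lam := by
            refine le_min ?_ ?_
            · exact div_le_self hs0 hR
            · rw [div_le_iff₀ (by linarith)]; linarith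
          have h2 : -log (lm p f u) ≤ 2 * R / π0 * E u := by
            have h3 : π0 / 2 * (-log (lm p f u) / R) ≤ E u :=
              (mul_le_mul_of_nonneg_left hmin2 (by positivity)).trans hE
            have h4 := mul_le_mul_of_nonneg_left h3 (by positivity : 0 ≤ 2 * R / π0)
            have e : 2 * R / π0 * (π0 / 2 * (-log (lm p f u) / R)) = -log (lm p f u) := by
              have : R ≠ 0 := by positivity
              field_simp
            linarith
          have h5 := mul_le_mul_of_nonneg_left h2 (h0 u)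
          have e : lm p f u * (2 * R / π0 * E u) = 2 * R / π0 * (lm p f u * E u) := by ring
          linarith
        · push Not at hs
          have h1 : -log (lm p f u) ≤ exp (2 * C3 / π0) * (1 - lm p f u) := by
            have h2 : log (1 / lm p f u) ≤ 1 / lm p f u - 1 :=
              log_le_sub_one_of_pos (by positivity)
            rw [one_div, log_inv] at h2
            have h3 : (lm p f u)⁻¹ - 1 = (lm p f u)⁻¹ * (1 - lm p f u) := by field_simp
            have h4 : (lm p f u)⁻¹ ≤ exp (2 * C3 / π0) := by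
              rw [← exp_log (inv_pos.2 hpos), exp_le_exp, log_inv]
              exact hs.le
            rw [h3] at h2
            exact h2.trans (mul_le_mul_of_nonneg_right h4 (by linarith [hle1 u]))
          have h5 := mul_le_mul_of_nonneg_left h1 (h0 u)
          have e : lm p f u * (exp (2 * C3 / π0) * (1 - lm p f u)) =
            exp (2 * C3 / π0) * (lm p f u * (1 - lm p f u)) := by ring
          linarith
      · have h1 : -log (lm p f u) ≤ R / c4 * g u := by
          have h2 := mul_le_mul_of_nonneg_left h (by positivity : 0 ≤ R / c4)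
          have e : R / c4 * (c4 * lam) = R * lam := by field_simp
          linarith
        have h5 := mul_le_mul_of_nonneg_left h1 (h0 u)
        have e : lm p f u * (R / c4 * g u) = R / c4 * (lm p f u * g u) := by ring
        linarith
    · push Not at hu
      have := negMulLog_le_of_le (h0 u) hu.le hδ hδ1
      linarith
  have h1 := Finset.sum_le_sum fun u (_ : u ∈ Finset.univ) => hkey u
  rw [Finset.sum_add_distrib, Finset.sum_add_distrib, Finset.sum_add_distrib, ← Finset.mul_sum,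
    ← Finset.mul_sum, ← Finset.mul_sum, Finset.sum_const, Finset.card_univ, Fintype.card_fin,
    nsmul_eq_mul] at h1
  have h2 := mul_le_mul_of_nonneg_left (sum_lm_one_sub_le hp f hδ.le hθ hθ1 hnear)
    (exp_pos (2 * C3 / π0)).le
  linarith

end Crest.Agent.R98.K
end

-- ▼ part R98/KCut
section

/-!
# Row 98: the lemma (CUT) of note 10295

`q ≥ 0` weights of total mass `≤ 1` on a finite type, `v` real values. `ms x y` is the mass of the
points with `x ≤ v < y`. There are cuts `τ i`, one in each interval `[a + i d/2, a + i d/2 + d/4)`,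
such that every piece `[τ i, τ (i+1))` either has mass `< δ`, or the two end zones of width `b` have
each mass at most `η` times the mass of the piece.
-/

set_option autoImplicit false

open Finset

namespace Crest.Agent.R98.KCut

variable {Ω : Type*} [Fintype Ω]

open Classical in
/-- mass of the points with value in `[x, y)` -/
noncomputable def ms (q v : Ω → ℝ) (x y : ℝ) : ℝ := ∑ ω, if x ≤ v ω ∧ v ω < y then q ω else 0

section ms

variable {q v : Ω → ℝ}


theorem ms_mono (hq : ∀ ω, 0 ≤ q ω) {x y x' y' : ℝ} (hx : x' ≤ x) (hy : y ≤ y') :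
    ms q v x y ≤ ms q v x' y' := by
  refine Finset.sum_le_sum fun ω _ => ?_
  split_ifs with h1 h2 h2
  · exact le_rfl
  · exact absurd ⟨hx.trans h1.1, h1.2.trans_le hy⟩ h2
  · exact hq ω
  · exact le_rfl

theorem ms_add (q v : Ω → ℝ) {x y z : ℝ} (hxy : x ≤ y) (hyz : y ≤ z) :
    ms q v x y + ms q v y z = ms q v x z := by
  unfold ms
  rw [← Finset.sum_add_distrib]
  refine Finset.sum_congr rfl fun ω _ => ?_
  by_cases h1 : v ω < y
  · have h2 : ¬ (y ≤ v ω ∧ v ω < z) := fun h => absurd h.1 (not_le.2 h1)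
    rw [if_neg h2, add_zero]
    by_cases h3 : x ≤ v ω
    · rw [if_pos ⟨h3, h1⟩, if_pos ⟨h3, h1.trans_le hyz⟩]
    · rw [if_neg (fun h => h3 h.1), if_neg (fun h => h3 h.1)]
  · have h2 : ¬ (x ≤ v ω ∧ v ω < y) := fun h => h1 h.2
    rw [if_neg h2, zero_add]
    have h4 : y ≤ v ω := not_lt.1 h1
    by_cases h3 : v ω < z
    · rw [if_pos ⟨h4, h3⟩, if_pos ⟨hxy.trans h4, h3⟩]
    · rw [if_neg (fun h => h3 h.2), if_neg (fun h => h3 h.2)]

theorem ms_le_sum (hq : ∀ ω, 0 ≤ q ω) (x y : ℝ) : ms q v x y ≤ ∑ ω, q ω :=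
  Finset.sum_le_sum fun ω _ => by split_ifs <;> simp [hq ω]

end ms

/-- counting lemma: a nonincreasing sequence `≤ 1` that is multiplied by a factor `≤ 1 - η` at each
bad index and is `> η δ` at bad indices has few bad indices. -/
theorem card_bad_le {F : ℕ → ℝ} {η δ : ℝ} (hη : 0 < η) (hη1 : η ≤ 1) (hδ : 0 < δ) (hδ1 : δ ≤ 1)
    (hF0 : F 0 ≤ 1) (hmono : ∀ k, F (k + 1) ≤ F k) (bad : Finset ℕ)
    (h1 : ∀ k ∈ bad, F (k + 1) ≤ (1 - η) * F k) (h2 : ∀ k ∈ bad, η * δ < F k) :
    (bad.card : ℝ) ≤ 1 + Real.log (1 / (η * δ)) / η := by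
  classical
  have hηδ : 0 < η * δ := mul_pos hη hδ
  have hkey : ∀ k, F k ≤ (1 - η) ^ (bad.filter (· < k)).card := by
    intro k
    induction k with
    | zero => simpa using hF0
    | succ k ih =>
      by_cases hk : k ∈ bad
      · have hins : bad.filter (· < k + 1) = insert k (bad.filter (· < k)) := by
          ext j
          simp only [mem_filter, mem_insert]
          constructor
          · rintro ⟨hj, hjk⟩
            rcases Nat.lt_succ_iff_lt_or_eq.1 hjk with h | h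
            · exact Or.inr ⟨hj, h⟩
            · exact Or.inl h
          · rintro (rfl | ⟨hj, h⟩)
            · exact ⟨hk, Nat.lt_succ_self _⟩
            · exact ⟨hj, h.trans (Nat.lt_succ_self _)⟩
        rw [hins, Finset.card_insert_of_notMem (by simp), pow_succ]
        calc F (k + 1) ≤ (1 - η) * F k := h1 k hk
          _ ≤ (1 - η) * (1 - η) ^ (bad.filter (· < k)).card :=
              mul_le_mul_of_nonneg_left ih (by linarith)
          _ = _ := by ring
      · have hins : bad.filter (· < k + 1) = bad.filter (· < k) := by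
          ext j
          simp only [mem_filter]
          constructor
          · rintro ⟨hj, hjk⟩
            rcases Nat.lt_succ_iff_lt_or_eq.1 hjk with h | h
            · exact ⟨hj, h⟩
            · exact absurd (h ▸ hj) hk
          · rintro ⟨hj, h⟩
            exact ⟨hj, h.trans (Nat.lt_succ_self _)⟩
        rw [hins]
        exact (hmono k).trans ih
  rcases bad.eq_empty_or_nonempty with rfl | hne
  · have h1 : 0 ≤ Real.log (1 / (η * δ)) := by
      apply Real.log_nonneg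
      rw [le_div_iff₀ hηδ, one_mul]
      nlinarith
    have h2 : 0 ≤ Real.log (1 / (η * δ)) / η := div_nonneg h1 hη.le
    simp only [card_empty, Nat.cast_zero]
    linarith
  · set K := bad.max' hne with hK
    have hKb : K ∈ bad := bad.max'_mem hne
    have hcard : (bad.filter (· < K)).card = bad.card - 1 := by
      have : bad.filter (· < K) = bad.erase K := by
        ext j
        simp only [mem_filter, mem_erase]
        constructor
        · rintro ⟨hj, h⟩; exact ⟨h.ne, hj⟩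
        · rintro ⟨hne', hj⟩; exact ⟨hj, lt_of_le_of_ne (bad.le_max' j hj) hne'⟩
      rw [this, Finset.card_erase_of_mem hKb]
    have h3 : η * δ < (1 - η) ^ (bad.card - 1) := by
      rw [← hcard]; exact (h2 K hKb).trans_le (hkey K)
    have h4 : (1 - η) ^ (bad.card - 1) ≤ Real.exp (-(η * ((bad.card - 1 : ℕ) : ℝ))) := by
      have h5 : 1 - η ≤ Real.exp (-η) := by
        have := Real.add_one_le_exp (-η); linarith
      calc (1 - η) ^ (bad.card - 1) ≤ (Real.exp (-η)) ^ (bad.card - 1) :=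
            pow_le_pow_left₀ (by linarith) h5 _
        _ = Real.exp (-(η * ((bad.card - 1 : ℕ) : ℝ))) := by
            rw [← Real.exp_nat_mul]; congr 1; ring
    have h6 : Real.log (η * δ) < -(η * ((bad.card - 1 : ℕ) : ℝ)) := by
      have := Real.log_lt_log hηδ (h3.trans_le h4)
      rwa [Real.log_exp] at this
    have h7 : ((bad.card - 1 : ℕ) : ℝ) = (bad.card : ℝ) - 1 := by
      rw [Nat.cast_sub (Finset.card_pos.2 hne)]; simp
    rw [h7] at h6
    rw [one_div, Real.log_inv]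
    have h8 : (bad.card : ℝ) - 1 ≤ -Real.log (η * δ) / η := by
      rw [le_div_iff₀ hη]; linarith
    linarith

/-- one cut -/
theorem exists_cut {q v : Ω → ℝ} (hq : ∀ ω, 0 ≤ q ω) (hq1 : ∑ ω, q ω ≤ 1)
    {s d b η δ : ℝ} (hd : 0 < d) (hb : 0 < b) (hη : 0 < η) (hη1 : η ≤ 1) (hδ : 0 < δ)
    (hδ1 : δ ≤ 1) {K : ℕ} (hK : 2 * b * K ≤ d / 4)
    (hK2 : 2 * (1 + Real.log (1 / (η * δ)) / η) < K) :
    ∃ τ : ℝ, s ≤ τ ∧ τ < s + d / 4 ∧
      ms q v τ (τ + b) ≤ η * max (ms q v τ (s + d / 2)) δ ∧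
      ms q v (τ - b) τ ≤ η * max (ms q v (s - d / 4) τ) δ := by
  classical
  have hηδ : 0 < η * δ := mul_pos hη hδ
  let c : ℕ → ℝ := fun k => s + 2 * b * k
  have hc : ∀ k, c (k + 1) = c k + 2 * b := fun k => by simp only [c]; push_cast; ring
  have hc0 : ∀ k, s ≤ c k := fun k => by
    simp only [c]
    have : 0 ≤ 2 * b * (k : ℝ) := by positivity
    linarith
  have hck : ∀ k, k < K → c k + 2 * b ≤ s + d / 4 := fun k hk => by
    have h1 : ((k : ℝ) + 1) ≤ K := by exact_mod_cast hk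
    have h2 : 2 * b * ((k : ℝ) + 1) ≤ 2 * b * K := mul_le_mul_of_nonneg_left h1 (by positivity)
    simp only [c]; nlinarith
  -- right bad
  let badR : Finset ℕ := (range K).filter fun k =>
    η * max (ms q v (c k) (s + d / 2)) δ < ms q v (c k) (c k + b)
  let badL : Finset ℕ := (range K).filter fun k =>
    η * max (ms q v (s - d / 4) (c k)) δ < ms q v (c k - b) (c k)
  have hR : (badR.card : ℝ) ≤ 1 + Real.log (1 / (η * δ)) / η := by
    refine card_bad_le (F := fun k => ms q v (c k) (s + d / 2)) hη hη1 hδ hδ1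
      ((ms_le_sum hq _ _).trans hq1) (fun k => ?_) badR (fun k hk => ?_) (fun k hk => ?_)
    · exact ms_mono hq (by rw [hc]; linarith) le_rfl
    · obtain ⟨hkK, hbad⟩ := mem_filter.1 hk
      have hkK' := mem_range.1 hkK
      have h1 := ms_add q v (x := c k) (y := c k + b) (z := s + d / 2) (by linarith)
        (by have := hck k hkK'; linarith)
      have h2 : ms q v (c (k + 1)) (s + d / 2) ≤ ms q v (c k + b) (s + d / 2) :=
        ms_mono hq (by rw [hc]; linarith) le_rfl
      have h3 : η * ms q v (c k) (s + d / 2) ≤ ms q v (c k) (c k + b) :=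
        (mul_le_mul_of_nonneg_left (le_max_left _ _) hη.le).trans hbad.le
      show ms q v (c (k + 1)) (s + d / 2) ≤ (1 - η) * ms q v (c k) (s + d / 2)
      linarith
    · obtain ⟨hkK, hbad⟩ := mem_filter.1 hk
      have hkK' := mem_range.1 hkK
      have h3 : η * δ < ms q v (c k) (c k + b) :=
        (mul_le_mul_of_nonneg_left (le_max_right _ _) hη.le).trans_lt hbad
      exact h3.trans_le (ms_mono hq le_rfl (by have := hck k hkK'; linarith))
  have hL : (badL.card : ℝ) ≤ 1 + Real.log (1 / (η * δ)) / η := by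
    -- reversed sequence
    let c' : ℕ → ℝ := fun j => s + 2 * b * ((K : ℝ) - 1 - j)
    have hcc' : ∀ k, k < K → c' (K - 1 - k) = c k := fun k hk => by
      simp only [c', c]
      have h1 : ((K - 1 - k : ℕ) : ℝ) = (K : ℝ) - 1 - k := by
        rw [Nat.cast_sub (by omega), Nat.cast_sub (by omega)]; simp
      rw [h1]; ring
    let bad' : Finset ℕ := badL.image fun k => K - 1 - k
    have hcard : bad'.card = badL.card := by
      refine Finset.card_image_of_injOn ?_
      intro x hx y hy hxy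
      have hx' := mem_range.1 (mem_filter.1 hx).1
      have hy' := mem_range.1 (mem_filter.1 hy).1
      simp only at hxy
      omega
    rw [← hcard]
    have hc'succ : ∀ j, c' (j + 1) = c' j - 2 * b := fun j => by
      simp only [c']; push_cast; ring
    refine card_bad_le (F := fun j => ms q v (s - d / 4) (c' j)) hη hη1 hδ hδ1
      ((ms_le_sum hq _ _).trans hq1) (fun k => ?_) bad' (fun j hj => ?_) (fun j hj => ?_)
    · exact ms_mono hq le_rfl (by rw [hc'succ]; linarith)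
    · obtain ⟨k, hk, rfl⟩ := mem_image.1 hj
      obtain ⟨hkK, hbad⟩ := mem_filter.1 hk
      have hkK' := mem_range.1 hkK
      show ms q v (s - d / 4) (c' (K - 1 - k + 1)) ≤ (1 - η) * ms q v (s - d / 4) (c' (K - 1 - k))
      rw [hc'succ, hcc' k hkK']
      have hb4 : 2 * b ≤ d / 4 := by
        have h1 : (1 : ℝ) ≤ K := by exact_mod_cast (by omega : 1 ≤ K)
        nlinarith
      have h1 := ms_add q v (x := s - d / 4) (y := c k - b) (z := c k)
        (by have := hc0 k; linarith) (by linarith)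
      have h2 : ms q v (s - d / 4) (c k - 2 * b) ≤ ms q v (s - d / 4) (c k - b) :=
        ms_mono hq le_rfl (by linarith)
      have h3 : η * ms q v (s - d / 4) (c k) ≤ ms q v (c k - b) (c k) :=
        (mul_le_mul_of_nonneg_left (le_max_left _ _) hη.le).trans hbad.le
      linarith
    · obtain ⟨k, hk, rfl⟩ := mem_image.1 hj
      obtain ⟨hkK, hbad⟩ := mem_filter.1 hk
      have hkK' := mem_range.1 hkK
      show η * δ < ms q v (s - d / 4) (c' (K - 1 - k))
      rw [hcc' k hkK']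
      have hb4 : 2 * b ≤ d / 4 := by
        have h1 : (1 : ℝ) ≤ K := by exact_mod_cast (by omega : 1 ≤ K)
        nlinarith
      have h3 : η * δ < ms q v (c k - b) (c k) :=
        (mul_le_mul_of_nonneg_left (le_max_right _ _) hη.le).trans_lt hbad
      exact h3.trans_le (ms_mono hq (by have := hc0 k; linarith) le_rfl)
  -- choose a good index
  have hex : ∃ k ∈ range K, k ∉ badR ∪ badL := by
    by_contra hcon
    push Not at hcon
    have h1 : K ≤ (badR ∪ badL).card := by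
      calc K = (range K).card := (card_range K).symm
        _ ≤ _ := Finset.card_le_card hcon
    have h2 : ((badR ∪ badL).card : ℝ) ≤ badR.card + badL.card := by
      exact_mod_cast Finset.card_union_le _ _
    have h3 : (K : ℝ) ≤ (badR ∪ badL).card := by exact_mod_cast h1
    linarith
  obtain ⟨k, hkK, hk⟩ := hex
  have hkK' := mem_range.1 hkK
  rw [mem_union, not_or] at hk
  refine ⟨c k, hc0 k, by have := hck k hkK'; linarith, ?_, ?_⟩
  · by_contra h
    exact hk.1 (mem_filter.2 ⟨hkK, not_le.1 h⟩)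
  · by_contra h
    exact hk.2 (mem_filter.2 ⟨hkK, not_le.1 h⟩)

/-- **(CUT)** -/
theorem exists_cuts {q v : Ω → ℝ} (hq : ∀ ω, 0 ≤ q ω) (hq1 : ∑ ω, q ω ≤ 1)
    (a : ℝ) {d b η δ : ℝ} (hd : 0 < d) (hb : 0 < b) (hη : 0 < η) (hη1 : η ≤ 1) (hδ : 0 < δ)
    (hδ1 : δ ≤ 1) {K : ℕ} (hK : 2 * b * K ≤ d / 4)
    (hK2 : 2 * (1 + Real.log (1 / (η * δ)) / η) < K) :
    ∃ τ : ℤ → ℝ, (∀ i, a + i * (d / 2) ≤ τ i) ∧ (∀ i, τ i < a + i * (d / 2) + d / 4) ∧
      ∀ i, ms q v (τ i) (τ (i + 1)) < δ ∨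
        (ms q v (τ i) (τ i + b) ≤ η * ms q v (τ i) (τ (i + 1)) ∧
          ms q v (τ (i + 1) - b) (τ (i + 1)) ≤ η * ms q v (τ i) (τ (i + 1))) := by
  have h := fun i : ℤ => exists_cut (q := q) (v := v) hq hq1 (s := a + i * (d / 2)) hd hb hη hη1
    hδ hδ1 hK hK2
  choose τ h1 h2 h3 h4 using h
  refine ⟨τ, h1, h2, fun i => ?_⟩
  rcases lt_or_ge (ms q v (τ i) (τ (i + 1))) δ with hlt | hge
  · exact Or.inl hlt
  · right
    have e1 : a + ((i + 1 : ℤ) : ℝ) * (d / 2) = a + i * (d / 2) + d / 2 := by push_cast; ring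
    constructor
    · refine (h3 i).trans (mul_le_mul_of_nonneg_left (max_le ?_ hge) hη.le)
      refine ms_mono hq le_rfl ?_
      have := h1 (i + 1)
      rw [e1] at this
      exact this
    · refine (h4 (i + 1)).trans (mul_le_mul_of_nonneg_left (max_le ?_ hge) hη.le)
      refine ms_mono hq ?_ le_rfl
      have := h2 i
      rw [e1]
      linarith

/-- the label of a point -/
noncomputable def lab (a d : ℝ) (τ : ℤ → ℝ) (x : ℝ) : ℤ :=
  if x < τ ⌊(x - a) / (d / 2)⌋ then ⌊(x - a) / (d / 2)⌋ - 1 else ⌊(x - a) / (d / 2)⌋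

section lab

variable {a d : ℝ} {τ : ℤ → ℝ}

theorem lab_spec (hd : 0 < d) (h1 : ∀ i : ℤ, a + i * (d / 2) ≤ τ i)
    (h2 : ∀ i : ℤ, τ i < a + i * (d / 2) + d / 4) (x : ℝ) :
    τ (lab a d τ x) ≤ x ∧ x < τ (lab a d τ x + 1) := by
  have hd2 : 0 < d / 2 := by linarith
  set i : ℤ := ⌊(x - a) / (d / 2)⌋ with hi
  have hi1 : a + i * (d / 2) ≤ x := by
    have := Int.floor_le ((x - a) / (d / 2))
    rw [← hi, le_div_iff₀ hd2] at this
    linarith
  have hi2 : x < a + ((i : ℝ) + 1) * (d / 2) := by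
    have := Int.lt_floor_add_one ((x - a) / (d / 2))
    rw [← hi, div_lt_iff₀ hd2] at this
    linarith
  unfold lab
  rw [← hi]
  split_ifs with h
  · refine ⟨?_, by simpa using h⟩
    have := h2 (i - 1)
    push_cast at this
    nlinarith
  · refine ⟨not_lt.1 h, ?_⟩
    have := h1 (i + 1)
    push_cast at this
    linarith

theorem strictMono_cut (hd : 0 < d) (h1 : ∀ i : ℤ, a + i * (d / 2) ≤ τ i)
    (h2 : ∀ i : ℤ, τ i < a + i * (d / 2) + d / 4) : StrictMono τ := by
  refine strictMono_int_of_lt_succ fun i => ?_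
  have e1 := h2 i
  have e2 := h1 (i + 1)
  push_cast at e2
  linarith

theorem lab_eq_iff (hd : 0 < d) (h1 : ∀ i : ℤ, a + i * (d / 2) ≤ τ i)
    (h2 : ∀ i : ℤ, τ i < a + i * (d / 2) + d / 4) {x : ℝ} {i : ℤ} :
    lab a d τ x = i ↔ τ i ≤ x ∧ x < τ (i + 1) := by
  have hs := lab_spec hd h1 h2 x
  have hm := strictMono_cut hd h1 h2
  constructor
  · rintro rfl; exact hs
  · rintro ⟨h3, h4⟩
    have h5 : τ i < τ (lab a d τ x + 1) := h3.trans_lt hs.2
    have h6 : τ (lab a d τ x) < τ (i + 1) := hs.1.trans_lt h4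
    have h7 := hm.lt_iff_lt.1 h5
    have h8 := hm.lt_iff_lt.1 h6
    omega

theorem lab_mono (hd : 0 < d) (h1 : ∀ i : ℤ, a + i * (d / 2) ≤ τ i)
    (h2 : ∀ i : ℤ, τ i < a + i * (d / 2) + d / 4) : Monotone (lab a d τ) := by
  intro x y hxy
  have hx := lab_spec hd h1 h2 x
  have hy := lab_spec hd h1 h2 y
  have hm := strictMono_cut hd h1 h2
  have h5 : τ (lab a d τ x) < τ (lab a d τ y + 1) := (hx.1.trans hxy).trans_lt hy.2
  have := hm.lt_iff_lt.1 h5
  omega

end lab

open Classical in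
/-- **(CUT)**, label form. For weights `q` of total mass `≤ 1` and values `v` there is a labelling
`lab`, monotone in the value, such that points with the same label differ by less than `d`; every
label class either has mass `< δ` or the mass of its points that are within `b` of some point with
another label is at most `2 η` times the mass of the class; a set of diameter `≤ L` meets at most
`2 L / d + 3` label classes. -/
theorem exists_labels_full {q v : Ω → ℝ} (hq : ∀ ω, 0 ≤ q ω) (hq1 : ∑ ω, q ω ≤ 1)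
    {d b η δ : ℝ} (hd : 0 < d) (hb : 0 < b) (hη : 0 < η) (hη1 : η ≤ 1) (hδ : 0 < δ)
    (hδ1 : δ ≤ 1) {K : ℕ} (hK : 2 * b * K ≤ d / 4)
    (hK2 : 2 * (1 + Real.log (1 / (η * δ)) / η) < K) :
    ∃ l : Ω → ℤ, (∀ ω ω', (l ω : ℝ) - l ω' ≤ 2 * |v ω - v ω'| / d + 3 / 2) ∧
      (∀ ω ω', v ω ≤ v ω' → l ω ≤ l ω') ∧
      (∀ ω ω', l ω = l ω' → |v ω - v ω'| < d) ∧
      (∀ i, (∑ ω, if l ω = i then q ω else 0) < δ ∨
        (∑ ω, if l ω = i ∧ ∃ ω', l ω' ≠ i ∧ |v ω - v ω'| < b then q ω else 0)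
          ≤ 2 * η * ∑ ω, if l ω = i then q ω else 0) ∧
      (∀ (S : Finset Ω) (L : ℝ), 0 ≤ L → (∀ ω ∈ S, ∀ ω' ∈ S, |v ω - v ω'| ≤ L) →
        ((S.image l).card : ℝ) ≤ 2 * L / d + 3) := by
  obtain ⟨τ, h1, h2, h3⟩ := exists_cuts (q := q) (v := v) hq hq1 0 hd hb hη hη1 hδ hδ1 hK hK2
  have hm := strictMono_cut hd h1 h2
  let l : Ω → ℤ := fun ω => lab 0 d τ (v ω)
  have hl : ∀ ω i, l ω = i ↔ τ i ≤ v ω ∧ v ω < τ (i + 1) := fun ω i => lab_eq_iff hd h1 h2
  have hms : ∀ i, (∑ ω, if l ω = i then q ω else 0) = ms q v (τ i) (τ (i + 1)) := fun i => by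
    unfold ms
    refine Finset.sum_congr rfl fun ω _ => ?_
    simp only [hl]
  refine ⟨l, ?_, fun ω ω' h => lab_mono hd h1 h2 h, ?_, ?_, ?_⟩
  · intro ω ω'
    have e1 := (hl ω (l ω)).1 rfl
    have e2 := (hl ω' (l ω')).1 rfl
    have e3 := h1 (l ω)
    have e4 := h2 (l ω' + 1)
    push_cast at e4
    have e5 := le_abs_self (v ω - v ω')
    have e6 : ((l ω : ℝ) - l ω') * (d / 2) ≤ |v ω - v ω'| + 3 * d / 4 := by
      nlinarith [e1.1, e2.2, e5]
    have e7 : (l ω : ℝ) - l ω' ≤ (|v ω - v ω'| + 3 * d / 4) / (d / 2) := by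
      rw [le_div_iff₀ (by linarith)]; exact e6
    refine e7.trans (le_of_eq ?_)
    field_simp
    ring
  · intro ω ω' h
    have e1 := (hl ω (l ω')).1 h
    have e2 := (hl ω' (l ω')).1 rfl
    have e3 := h1 (l ω')
    have e4 := h2 (l ω' + 1)
    push_cast at e4
    rw [abs_lt]
    constructor <;> linarith [e1.1, e1.2, e2.1, e2.2]
  · intro i
    rw [hms]
    rcases h3 i with h | ⟨ha, hb'⟩
    · exact Or.inl h
    · right
      have hle : (∑ ω, if l ω = i ∧ ∃ ω', l ω' ≠ i ∧ |v ω - v ω'| < b then q ω else 0)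
          ≤ ms q v (τ i) (τ i + b) + ms q v (τ (i + 1) - b) (τ (i + 1)) := by
        unfold ms
        rw [← Finset.sum_add_distrib]
        refine Finset.sum_le_sum fun ω _ => ?_
        split_ifs with c1 c2 c3 c3 c2 c3 c3
        · linarith [hq ω]
        · linarith
        · linarith
        · exfalso
          obtain ⟨hli, ω', hne, hdist⟩ := c1
          obtain ⟨e1, e2⟩ := (hl ω i).1 hli
          have e3 : τ i + b ≤ v ω := by
            by_contra hcon; exact c2 ⟨e1, not_le.1 hcon⟩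
          have e4 : v ω < τ (i + 1) - b := by
            by_contra hcon; exact c3 ⟨not_lt.1 hcon, e2⟩
          rw [abs_lt] at hdist
          exact hne ((hl ω' i).2 ⟨by linarith [hdist.2], by linarith [hdist.1]⟩)
        · linarith [hq ω]
        · linarith [hq ω]
        · linarith [hq ω]
        · linarith
      linarith
  · intro S L hL hS
    rcases S.eq_empty_or_nonempty with rfl | hne
    · simp only [image_empty, card_empty, Nat.cast_zero]
      positivity
    · obtain ⟨ω0, hω0, hmin⟩ := S.exists_min_image l hne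
      obtain ⟨ω1, hω1, hmax⟩ := S.exists_max_image l hne
      have hsub : S.image l ⊆ Finset.Icc (l ω0) (l ω1) := by
        intro i hi
        obtain ⟨ω, hω, rfl⟩ := mem_image.1 hi
        exact Finset.mem_Icc.2 ⟨hmin ω hω, hmax ω hω⟩
      have hcard : ((S.image l).card : ℝ) ≤ (l ω1 + 1 - l ω0 : ℤ) := by
        have h5 := Finset.card_le_card hsub
        rw [Int.card_Icc] at h5
        have h6 : ((S.image l).card : ℤ) ≤ ((l ω1 + 1 - l ω0).toNat : ℤ) := by exact_mod_cast h5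
        have h7 : 0 ≤ l ω1 + 1 - l ω0 := by
          have := hmin ω1 hω1; omega
        rw [Int.toNat_of_nonneg h7] at h6
        exact_mod_cast h6
      refine hcard.trans ?_
      have e1 := (hl ω1 (l ω1)).1 rfl
      have e2 := (hl ω0 (l ω0)).1 rfl
      have e3 := h1 (l ω1)
      have e4 := h2 (l ω0 + 1)
      push_cast at e4
      have e5 := abs_le.1 (hS ω1 hω1 ω0 hω0)
      have e6 : ((l ω1 : ℝ) - l ω0) * (d / 2) ≤ L + 3 * d / 4 := by nlinarith [e1.1, e2.2, e5.2]
      push_cast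
      have e7 : (l ω1 : ℝ) - l ω0 ≤ (L + 3 * d / 4) / (d / 2) := by
        rw [le_div_iff₀ (by linarith)]; exact e6
      have e8 : (L + 3 * d / 4) / (d / 2) = 2 * L / d + 3 / 2 := by
        field_simp
        ring
      rw [e8] at e7
      linarith

open Classical in
theorem exists_labels {q v : Ω → ℝ} (hq : ∀ ω, 0 ≤ q ω) (hq1 : ∑ ω, q ω ≤ 1)
    {d b η δ : ℝ} (hd : 0 < d) (hb : 0 < b) (hη : 0 < η) (hη1 : η ≤ 1) (hδ : 0 < δ)
    (hδ1 : δ ≤ 1) {K : ℕ} (hK : 2 * b * K ≤ d / 4)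
    (hK2 : 2 * (1 + Real.log (1 / (η * δ)) / η) < K) :
    ∃ l : Ω → ℤ, (∀ ω ω', v ω ≤ v ω' → l ω ≤ l ω') ∧
      (∀ ω ω', l ω = l ω' → |v ω - v ω'| < d) ∧
      (∀ i, (∑ ω, if l ω = i then q ω else 0) < δ ∨
        (∑ ω, if l ω = i ∧ ∃ ω', l ω' ≠ i ∧ |v ω - v ω'| < b then q ω else 0)
          ≤ 2 * η * ∑ ω, if l ω = i then q ω else 0) ∧
      (∀ (S : Finset Ω) (L : ℝ), 0 ≤ L → (∀ ω ∈ S, ∀ ω' ∈ S, |v ω - v ω'| ≤ L) →
        ((S.image l).card : ℝ) ≤ 2 * L / d + 3) := by
  obtain ⟨l, -, h⟩ := exists_labels_full (v := v) hq hq1 hd hb hη hη1 hδ hδ1 hK hK2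
  exact ⟨l, h⟩

open Classical in
/-- **(CUT)**, label form, with an explicit hypothesis on `b`. -/
theorem exists_labels' {q v : Ω → ℝ} (hq : ∀ ω, 0 ≤ q ω) (hq1 : ∑ ω, q ω ≤ 1)
    {d b η δ : ℝ} (hd : 0 < d) (hb : 0 < b) (hη : 0 < η) (hη1 : η ≤ 1) (hδ : 0 < δ)
    (hδ1 : δ ≤ 1) (hbd : 8 * b * (3 + 2 * (Real.log (1 / (η * δ)) / η)) ≤ d) :
    ∃ l : Ω → ℤ, (∀ ω ω', v ω ≤ v ω' → l ω ≤ l ω') ∧
      (∀ ω ω', l ω = l ω' → |v ω - v ω'| < d) ∧
      (∀ i, (∑ ω, if l ω = i then q ω else 0) < δ ∨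
        (∑ ω, if l ω = i ∧ ∃ ω', l ω' ≠ i ∧ |v ω - v ω'| < b then q ω else 0)
          ≤ 2 * η * ∑ ω, if l ω = i then q ω else 0) ∧
      (∀ (S : Finset Ω) (L : ℝ), 0 ≤ L → (∀ ω ∈ S, ∀ ω' ∈ S, |v ω - v ω'| ≤ L) →
        ((S.image l).card : ℝ) ≤ 2 * L / d + 3) := by
  have hηδ : 0 < η * δ := mul_pos hη hδ
  have h1 : 0 ≤ Real.log (1 / (η * δ)) / η := by
    refine div_nonneg (Real.log_nonneg ?_) hη.le
    rw [le_div_iff₀ hηδ, one_mul]
    nlinarith
  set X : ℝ := 2 * (1 + Real.log (1 / (η * δ)) / η) with hX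
  have hX0 : 0 ≤ X := by positivity
  refine exists_labels hq hq1 hd hb hη hη1 hδ hδ1 (K := ⌊X⌋₊ + 1) ?_ ?_
  · have h2 : ((⌊X⌋₊ + 1 : ℕ) : ℝ) ≤ X + 1 := by
      push_cast
      linarith [Nat.floor_le hX0]
    have h3 : 2 * b * ((⌊X⌋₊ + 1 : ℕ) : ℝ) ≤ 2 * b * (X + 1) :=
      mul_le_mul_of_nonneg_left h2 (by positivity)
    have h4 : 8 * b * (X + 1) ≤ d := by
      refine le_trans (le_of_eq ?_) hbd
      rw [hX]; ring
    linarith
  · push_cast
    exact Nat.lt_floor_add_one X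


end Crest.Agent.R98.KCut
end

-- ▼ part R98/KGain
section

/-!
R98 / KGain (helper226): the averaged gain function satisfies the axioms `Gain` of the tree sum;
cut of a node into children (form of `KCut.exists_labels'` used by the node inequality); the two
facts T1a, T1b (TOneE) for the averaged gain.
-/

set_option autoImplicit false
set_option linter.unusedSectionVars false

open Real Set MeasureTheory

namespace Crest.Agent.R98.K

variable {κ : Type*} [Fintype κ]

theorem addLaw_eq_mix_cnd {U : Type*} [Fintype U] {p : κ → ℝ} (hp : ∀ a, 0 ≤ p a) (f : κ → U)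
    (v : κ → ℝ) (B : Measure ℝ) :
    addLaw p v B = mix (lm p f) fun u => addLaw (cnd p f u) v B := by
  unfold addLaw mix
  simp only [Finset.smul_sum, smul_smul]
  rw [Finset.sum_comm]
  refine Finset.sum_congr rfl fun k _ => ?_
  rw [← Finset.sum_smul]
  congr 1
  have h1 : ∀ u, ENNReal.ofReal (lm p f u) * ENNReal.ofReal (cnd p f u k) =
      ENNReal.ofReal (rs p f u k) := by
    intro u
    rw [← ENNReal.ofReal_mul (lm_nonneg f hp u), lm_mul_cnd f hp]
  simp only [h1]
  rw [← ENNReal.ofReal_sum_of_nonneg fun u _ => rs_nonneg f hp u k, sum_rs]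

/-- averaged gain at the scale `u0 / 2^i` -/
noncomputable def Gav {𝒬 : Type*} [Fintype 𝒬] (v : κ → ℝ) (w : 𝒬 → ℝ) (B : 𝒬 → Measure ℝ)
    (u0 : ℝ) (p : κ → ℝ) (i : ℕ) : ℝ := ∑ Q, w Q * TOne.info p v (B Q) (u0 / 2 ^ i)

section gav

variable {𝒬 : Type*} [Fintype 𝒬] {v : κ → ℝ} {w : 𝒬 → ℝ} {B : 𝒬 → Measure ℝ} {u0 : ℝ}

theorem info_sub_sum {U : Type*} [Fintype U] {p : κ → ℝ} (hp : IsPW p) (f : κ → U)
    (B : Measure ℝ) (d : ℝ) :
    TOne.info p v B d - ∑ u, lm p f u * TOne.info (cnd p f u) v B d =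
      J (lm p f) (fun u => addLaw (cnd p f u) v B) d := by
  have hone : ∑ u, lm p f u = 1 := by rw [sum_lm, hp.2]
  unfold J TOne.info
  rw [← addLaw_eq_mix_cnd hp.1 f v B]
  simp only [mul_sub, Finset.sum_sub_distrib]
  rw [← Finset.sum_mul, hone]
  ring

theorem scale_eq (hu : 0 < u0) {i j : ℕ} (hij : i ≤ j) :
    u0 / 2 ^ i = ((2 ^ (j - i) : ℕ) : ℝ) * (u0 / 2 ^ j) := by
  push_cast
  have h : (2:ℝ) ^ j = 2 ^ (j - i) * 2 ^ i := by rw [← pow_add]; congr 1; omega
  rw [h]
  field_simp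

theorem J_scale_le {U : Type*} [Fintype U] {p : κ → ℝ} (hp : IsPW p) (f : κ → U)
    {B : Measure ℝ} [IsProbabilityMeasure B] (hB : BSupp B) (hu : 0 < u0) {i j : ℕ} (hij : i ≤ j) :
    J (lm p f) (fun u => addLaw (cnd p f u) v B) (u0 / 2 ^ i) ≤
      J (lm p f) (fun u => addLaw (cnd p f u) v B) (u0 / 2 ^ j) := by
  rw [scale_eq hu hij]
  exact J_nsmul_le (fun u => lm_nonneg f hp.1 u) (fun u => hB.addLaw _ _) (by positivity)
    (by positivity)

theorem info_scale_le {p : κ → ℝ} (hp : IsPW p) {B : Measure ℝ} [IsProbabilityMeasure B]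
    (hB : BSupp B) (hu : 0 < u0) {i j : ℕ} (hij : i ≤ j) :
    TOne.info p v B (u0 / 2 ^ i) ≤ TOne.info p v B (u0 / 2 ^ j) := by
  rw [scale_eq hu hij]
  exact TOne.info_nsmul_le v hp.1 hp.2 hB (by positivity) (by positivity)

theorem gain_Gav (hw : ∀ Q, 0 ≤ w Q) [∀ Q, IsProbabilityMeasure (B Q)] (hB : ∀ Q, BSupp (B Q))
    (hu : 0 < u0) : Gain (Gav v w B u0) := by
  refine ⟨fun p hp i => ?_, fun p hp i j hij => ?_, fun N f p hp i j hij => ?_⟩
  · refine Finset.sum_nonneg fun Q _ => mul_nonneg (hw Q) ?_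
    exact TOne.info_nonneg v hp.1 hp.2 (hB Q) (by positivity)
  · exact Finset.sum_le_sum fun Q _ =>
      mul_le_mul_of_nonneg_left (info_scale_le hp (hB Q) hu hij) (hw Q)
  · have h1 : ∀ i, Gav v w B u0 p i - ∑ u, lm p f u * Gav v w B u0 (cnd p f u) i =
        ∑ Q, w Q * J (lm p f) (fun u => addLaw (cnd p f u) v (B Q)) (u0 / 2 ^ i) := by
      intro i
      have h2 : ∀ Q, J (lm p f) (fun u => addLaw (cnd p f u) v (B Q)) (u0 / 2 ^ i) =
          TOne.info p v (B Q) (u0 / 2 ^ i) -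
            ∑ u, lm p f u * TOne.info (cnd p f u) v (B Q) (u0 / 2 ^ i) :=
        fun Q => (info_sub_sum hp f (B Q) _).symm
      simp only [h2, Gav, mul_sub, Finset.sum_sub_distrib, Finset.mul_sum]
      congr 1
      rw [Finset.sum_comm]
      refine Finset.sum_congr rfl fun Q _ => Finset.sum_congr rfl fun u _ => ?_
      ring
    rw [h1, h1]
    exact Finset.sum_le_sum fun Q _ =>
      mul_le_mul_of_nonneg_left (J_scale_le hp f (hB Q) hu hij) (hw Q)

/-- the averaged information of the partition into children -/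
theorem Gav_sub_eq {U : Type*} [Fintype U] {p : κ → ℝ} (hp : IsPW p) (f : κ → U) (i : ℕ) :
    Gav v w B u0 p i - ∑ u, lm p f u * Gav v w B u0 (cnd p f u) i =
      ∑ Q, w Q * J (lm p f) (fun u => addLaw (cnd p f u) v (B Q)) (u0 / 2 ^ i) := by
  have h2 : ∀ Q, J (lm p f) (fun u => addLaw (cnd p f u) v (B Q)) (u0 / 2 ^ i) =
      TOne.info p v (B Q) (u0 / 2 ^ i) -
        ∑ u, lm p f u * TOne.info (cnd p f u) v (B Q) (u0 / 2 ^ i) :=
    fun Q => (info_sub_sum hp f (B Q) _).symm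
  simp only [h2, Gav, mul_sub, Finset.sum_sub_distrib, Finset.mul_sum]
  congr 1
  rw [Finset.sum_comm]
  refine Finset.sum_congr rfl fun Q _ => Finset.sum_congr rfl fun u _ => ?_
  ring

end gav

/-- cut of a node -/
theorem cut_node {p v : κ → ℝ} (hp : IsPW p) {d b η δ L : ℝ} (hd : 0 < d) (hb : 0 < b)
    (hη : 0 < η) (hη1 : η ≤ 1) (hδ : 0 < δ) (hδ1 : δ ≤ 1)
    (hbd : 8 * b * (3 + 2 * (log (1 / (η * δ)) / η)) ≤ d) (hL : 0 ≤ L) (hD : Dm v p L) :
    ∃ (N : ℕ) (f : κ → Fin N), (N : ℝ) ≤ 2 * L / d + 3 ∧ (∀ u, Dm v (cnd p f u) d) ∧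
      ∀ u, δ ≤ lm p f u → ∑ a, (open Classical in if f a = u ∧
        ∃ b', p b' ≠ 0 ∧ f b' ≠ u ∧ |v a - v b'| < b then p a else 0) ≤ 2 * η * lm p f u := by
  classical
  obtain ⟨l, _, h2, h3, h4⟩ := KCut.exists_labels' (q := p) (v := v) hp.1 hp.2.le hd hb hη hη1 hδ hδ1 hbd
  set S : Finset κ := Finset.univ.filter fun a => p a ≠ 0 with hS
  set T : Finset ℤ := S.image l with hT
  have hne : S.Nonempty := by
    by_contra h
    rw [Finset.not_nonempty_iff_eq_empty] at h
    have : ∑ a, p a = 0 := by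
      refine Finset.sum_eq_zero fun a _ => ?_
      by_contra ha
      have : a ∈ S := Finset.mem_filter.2 ⟨Finset.mem_univ a, ha⟩
      rw [h] at this
      exact absurd this (Finset.notMem_empty a)
    rw [hp.2] at this
    norm_num at this
  obtain ⟨a₀, ha₀⟩ := hne
  have hmem : ∀ a, p a ≠ 0 → l a ∈ T := fun a ha =>
    Finset.mem_image_of_mem l (Finset.mem_filter.2 ⟨Finset.mem_univ a, ha⟩)
  have ha₀' : l a₀ ∈ T := Finset.mem_image_of_mem l ha₀
  let e : T ≃ Fin T.card := T.equivFin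
  let f : κ → Fin T.card := fun a => if h : l a ∈ T then e ⟨l a, h⟩ else e ⟨l a₀, ha₀'⟩
  have hf : ∀ a (h : l a ∈ T), f a = e ⟨l a, h⟩ := fun a h => dif_pos h
  have hfeq : ∀ a b, l a ∈ T → l b ∈ T → (f a = f b ↔ l a = l b) := by
    intro a b ha hb
    rw [hf a ha, hf b hb, e.injective.eq_iff, Subtype.mk.injEq]
  have hfu : ∀ u a, l a ∈ T → (f a = u ↔ l a = (e.symm u : ℤ)) := by
    intro u a ha
    rw [hf a ha]
    constructor
    · intro h; rw [← h, e.symm_apply_apply]
    · intro h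
      have : (⟨l a, ha⟩ : T) = e.symm u := Subtype.ext h
      rw [this, e.apply_symm_apply]
  refine ⟨T.card, f, ?_, ?_, ?_⟩
  · refine h4 S L hL fun a ha b hb => ?_
    exact hD a b (Finset.mem_filter.1 ha).2 (Finset.mem_filter.1 hb).2
  · intro u a b ha hb
    obtain ⟨ha1, ha2⟩ := cnd_ne_zero f ha
    obtain ⟨hb1, hb2⟩ := cnd_ne_zero f hb
    have := (hfeq a b (hmem a ha2) (hmem b hb2)).1 (ha1.trans hb1.symm)
    exact (h2 a b this).le
  · intro u hu
    have hlm : lm p f u = ∑ a, if l a = (e.symm u : ℤ) then p a else 0 := by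
      unfold lm
      refine Finset.sum_congr rfl fun a _ => ?_
      by_cases ha : p a = 0
      · by_cases h : f a = u
        · rw [rs_of_eq f h, ha]; simp
        · rw [rs_of_ne f h, ha]; simp
      · by_cases h : f a = u
        · rw [rs_of_eq f h, if_pos ((hfu u a (hmem a ha)).1 h)]
        · rw [rs_of_ne f h, if_neg (fun h' => h ((hfu u a (hmem a ha)).2 h'))]
    rcases h3 (e.symm u : ℤ) with h | h
    · rw [← hlm] at h
      exact absurd hu (not_le.2 h)
    · rw [hlm]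
      refine le_trans (Finset.sum_le_sum fun a _ => ?_) h
      by_cases hpa : p a = 0
      · rw [hpa]; simp
      by_cases h5 : f a = u ∧ ∃ b', p b' ≠ 0 ∧ f b' ≠ u ∧ |v a - v b'| < b
      · obtain ⟨h6, b', h7, h8, h9⟩ := h5
        rw [if_pos ⟨h6, b', h7, h8, h9⟩, if_pos]
        refine ⟨(hfu u a (hmem a hpa)).1 h6, b', ?_, h9⟩
        intro h10
        exact h8 ((hfu u b' (hmem b' h7)).2 h10)
      · rw [if_neg h5]
        split_ifs
        · exact hp.1 a
        · exact le_rfl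

section tone

variable {𝒬 : Type*} [Fintype 𝒬] {v : κ → ℝ} {w : 𝒬 → ℝ} {B : 𝒬 → Measure ℝ} {u0 : ℝ}

/-- T1a for the averaged gain: `y - x = L` dyadic scales, diameter at most `u0 / 2^(x+t+1)` -/
theorem T1a_Gav (hw : ∀ Q, 0 ≤ w Q) (hw1 : ∑ Q, w Q = 1) [∀ Q, IsProbabilityMeasure (B Q)]
    (hB : ∀ Q, BSupp (B Q)) (hu : 0 < u0) {t : ℕ} {c : ℝ} (hc : 0 ≤ c)
    (hmac : ∀ Q r, 0 < r → TOne.Macro (B Q) (2 ^ t) r c) {p : κ → ℝ} (hp : IsPW p)
    {x y : ℕ} (hxy : x + t + 1 ≤ y) (hD : Dm v p (u0 / 2 ^ (x + t + 1))) :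
    c * ∑ a, ∑ b', (if u0 / 2 ^ y ≤ |v a - v b'| then p a * p b' else 0) ≤
      t * (Gav v w B u0 p y - Gav v w B u0 p x) := by
  have hb : 0 < u0 / 2 ^ y := by positivity
  set X := ∑ a, ∑ b', (if u0 / 2 ^ y ≤ |v a - v b'| then p a * p b' else 0) with hX
  have h1 : ∀ Q, c * X ≤ t * (TOne.info p v (B Q) (u0 / 2 ^ y) - TOne.info p v (B Q) (u0 / 2 ^ x)) := by
    intro Q
    have h2 := TOne.T1a v hp.1 hp.2 (hB Q) hc (hmac Q) hb (y - x - t)
    have h3 : X ≤ ∑ k, ∑ l, (if u0 / 2 ^ y ≤ |v l - v k| ∧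
        |v l - v k| < 2 ^ (y - x - t) * (u0 / 2 ^ y) then p k * p l else 0) := by
      refine Finset.sum_le_sum fun a _ => Finset.sum_le_sum fun b' _ => ?_
      by_cases hz : p a * p b' = 0
      · rw [hz]; simp
      · have ha : p a ≠ 0 := left_ne_zero_of_mul hz
        have hb' : p b' ≠ 0 := right_ne_zero_of_mul hz
        by_cases h4 : u0 / 2 ^ y ≤ |v a - v b'|
        · rw [if_pos h4, if_pos]
          refine ⟨by rwa [abs_sub_comm] at h4, ?_⟩
          have h5 := hD b' a hb' ha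
          refine lt_of_le_of_lt h5 ?_
          have h6 : (2:ℝ) ^ y = 2 ^ (y - x - t) * 2 ^ (x + t) := by
            rw [← pow_add]; congr 1; omega
          rw [h6, pow_succ]
          have : 2 ^ (y - x - t) * (u0 / (2 ^ (y - x - t) * 2 ^ (x + t))) = u0 / 2 ^ (x + t) := by
            field_simp
          rw [this]
          refine div_lt_div_of_pos_left hu (by positivity) ?_
          have : (0:ℝ) < 2 ^ (x + t) := by positivity
          linarith
        · rw [if_neg h4]
          split_ifs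
          · exact mul_nonneg (hp.1 _) (hp.1 _)
          · exact le_rfl
    have h4 := mul_le_mul_of_nonneg_left h3 hc
    refine h4.trans (h2.trans (le_of_eq ?_))
    rw [TOne.gain_eq_info]
    congr 3
    rw [scale_eq hu (show x ≤ y by omega)]
    congr 3
    omega
  have h2 := Finset.sum_le_sum fun Q (_ : Q ∈ Finset.univ) => mul_le_mul_of_nonneg_left (h1 Q) (hw Q)
  rw [← Finset.sum_mul, hw1, one_mul] at h2
  refine h2.trans (le_of_eq ?_)
  unfold Gav
  rw [← Finset.sum_sub_distrib, Finset.mul_sum]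
  refine Finset.sum_congr rfl fun Q _ => ?_
  ring

/-- T1b for the averaged gain -/
theorem T1b_Gav (hw : ∀ Q, 0 ≤ w Q) (hw1 : ∑ Q, w Q = 1) [∀ Q, IsProbabilityMeasure (B Q)]
    (hB : ∀ Q, BSupp (B Q)) (hu : 0 < u0) {t : ℕ} {c : ℝ} (hc : 0 < c)
    (hmac : ∀ Q r, 0 < r → TOne.Macro (B Q) (2 ^ t) r c) {p : κ → ℝ} (hp : IsPW p)
    {x M : ℕ} (hD : Dm v p (u0 / 2 ^ (x + t))) {s : ℝ} (hs : 0 < s) (hs2 : s ≤ 2) :
    Hs (addLaw p v (Measure.dirac 0)) (u0 / 2 ^ (x + t + M)) ≤ log 2 + M * s +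
      log (2 / s) * ((4 / c) * (t * (Gav v w B u0 p (x + t + M) - Gav v w B u0 p x) +
        t * log 2)) := by
  have h1 : ∀ Q, Hs (addLaw p v (Measure.dirac 0)) (u0 / 2 ^ (x + t + M)) ≤ log 2 + M * s +
      log (2 / s) * ((4 / c) * (t * (TOne.info p v (B Q) (u0 / 2 ^ (x + t + M)) -
        TOne.info p v (B Q) (u0 / 2 ^ x)) + t * log 2)) := by
    intro Q
    have h2 := TOne.T1b v hp.1 hp.2 (hB Q) hc (hmac Q)
      (show 0 < u0 / 2 ^ (x + t + M) by positivity) M (fun k l hk hl => by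
        have := hD k l hk hl
        refine this.trans (le_of_eq ?_)
        rw [scale_eq hu (show x + t ≤ x + t + M by omega)]
        push_cast
        congr 2
        omega) hs hs2
    refine h2.trans (le_of_eq ?_)
    rw [TOne.gain_eq_info]
    have h3 : ((2 ^ (M + t) : ℕ) : ℝ) * (u0 / 2 ^ (x + t + M)) = u0 / 2 ^ x := by
      rw [scale_eq hu (show x ≤ x + t + M by omega)]
      congr 3
      omega
    rw [h3]
  have h2 := Finset.sum_le_sum fun Q (_ : Q ∈ Finset.univ) => mul_le_mul_of_nonneg_left (h1 Q) (hw Q)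
  rw [← Finset.sum_mul, hw1, one_mul] at h2
  refine h2.trans (le_of_eq ?_)
  have h3 : ∀ Q, w Q * (log 2 + M * s + log (2 / s) * ((4 / c) *
      (t * (TOne.info p v (B Q) (u0 / 2 ^ (x + t + M)) - TOne.info p v (B Q) (u0 / 2 ^ x)) +
        t * log 2))) = w Q * (log 2 + M * s + log (2 / s) * ((4 / c) * (t * log 2))) +
      log (2 / s) * (4 / c) * t * (w Q * TOne.info p v (B Q) (u0 / 2 ^ (x + t + M)) -
        w Q * TOne.info p v (B Q) (u0 / 2 ^ x)) := fun Q => by ring
  simp only [h3]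
  rw [Finset.sum_add_distrib, ← Finset.sum_mul, hw1, one_mul, ← Finset.mul_sum,
    Finset.sum_sub_distrib]
  unfold Gav
  ring

end tone

end Crest.Agent.R98.K
end

-- ▼ part R98/KOne

/-!
R98 / KOne (helper226): the one-type theorem of case K (helper383, note 10554 (1)): entropy of the
atoms of a finite law inside the cells of size `d0`, bounded by the increment of the averaged gain.
-/

set_option autoImplicit false
set_option linter.unusedSectionVars false

open Real Set MeasureTheory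

namespace Crest.Agent.R98.K

variable {κ : Type*} [Fintype κ]

/-- the detection property (output of KDet) at the scales `u0 / 2^i`: child index `x`, fine index
`y`, separation index `z` -/
def Det {𝒬 : Type*} [Fintype 𝒬] (v : κ → ℝ) (w : 𝒬 → ℝ) (B : 𝒬 → Measure ℝ) (u0 : ℝ)
    (θ π0 lam C3 : ℝ) (x₀ x y z : ℕ) : Prop :=
  ∀ (N : ℕ) (f : κ → Fin N) (p : κ → ℝ), IsPW p → Dm v p (u0 / 2 ^ x₀) →
    (∀ u, Dm v (cnd p f u) (u0 / 2 ^ x)) →
    ∃ E : Fin N → ℝ, (∀ u, lm p f u ≠ 0 → 0 ≤ E u) ∧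
      ∑ u, lm p f u * E u = Gav v w B u0 p y - ∑ u, lm p f u * Gav v w B u0 (cnd p f u) y ∧
      ∀ u, lm p f u ≠ 0 →
        ∑ a, (open Classical in if f a = u ∧ ∃ b', p b' ≠ 0 ∧ f b' ≠ u ∧
          |v a - v b'| < u0 / 2 ^ z then p a else 0) ≤ θ * lm p f u →
        Hs (addLaw (cnd p f u) v (Measure.dirac 0)) (u0 / 2 ^ y) ≤ lam →
        π0 * min (-log (lm p f u)) lam - C3 ≤ E u

/-- the constant of the node inequality -/
noncomputable def nodeC (K A t : ℕ) (c C3 : ℝ) : ℝ :=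
  2 * A * K + A * (4 * (log (4 * K / log 2) * (4 / c)) * (t + 1)) + 2 * exp (2 * K * C3) * (t / c)

theorem nodeC_nonneg (K A t : ℕ) {c : ℝ} (C3 : ℝ) (hc : 0 < c) (hK : 2 ≤ K) :
    0 ≤ nodeC K A t c C3 := by
  unfold nodeC
  have h1 : 0 ≤ log (4 * K / log 2) := by
    refine log_nonneg ?_
    rw [le_div_iff₀ (log_pos (by norm_num)), one_mul]
    have h2 : log 2 ≤ 1 := by have := log_two_lt_d9; linarith
    have h3 : (2:ℝ) ≤ K := by exact_mod_cast hK
    linarith
  positivity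

/-- the conditions on `w` -/
structure WLarge (K A t : ℕ) (c C3 : ℝ) (w : ℕ) : Prop where
  one : 1 ≤ w
  cut : 8 * (3 + 4 * K * (log (2 * K) + A * (w * log 2))) ≤ 2 ^ w
  tb : log (4 * K / log 2) * (4 / c) * (t * log 2) + log 2 ≤ w * log 2 / 4
  det : 2 * K * C3 ≤ w * log 2
  neg : 2 * exp (2 * K * C3) ≤ w
  e : exp 1 ≤ 2 ^ (A * w)

theorem idx_eq (K w j t : ℕ) (hK : 2 ≤ K) :
    w * (j + 1) + 1 + t + (K - 1) * w = t + 1 + w * j + K * w := by
  obtain ⟨k, rfl⟩ : ∃ k, K = k + 1 := ⟨K - 1, by omega⟩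
  simp only [Nat.add_sub_cancel]
  ring

theorem L0_pos {K : ℕ} {c : ℝ} (hK : 2 ≤ K) (hc : 0 < c) :
    0 < log (4 * K / log 2) * (4 / c) := by
  have hK' : (2:ℝ) ≤ K := by exact_mod_cast hK
  refine mul_pos (log_pos ?_) (by positivity)
  rw [lt_div_iff₀ (log_pos (by norm_num)), one_mul]
  have h2 : log 2 ≤ 1 := by have := log_two_lt_d9; linarith
  linarith

/-- a child of large entropy at the fine scale has a large gain -/
theorem child_tb {𝒬 : Type*} [Fintype 𝒬] {v : κ → ℝ} {w' : 𝒬 → ℝ} {B : 𝒬 → Measure ℝ}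
    (hw : ∀ Q, 0 ≤ w' Q) (hw1 : ∑ Q, w' Q = 1) [∀ Q, IsProbabilityMeasure (B Q)]
    (hB : ∀ Q, BSupp (B Q)) {K w A t : ℕ} (hK : 2 ≤ K) {c C3 : ℝ} (hc : 0 < c)
    (hW : WLarge K A t c C3 w)
    (hmac : ∀ Q r, 0 < r → TOne.Macro (B Q) (2 ^ t) r c) {u0 : ℝ} (hu : 0 < u0) (j : ℕ)
    {p : κ → ℝ} (hp : IsPW p) (hD : Dm v p (u0 / 2 ^ (t + 1 + w * (j + 1))))
    (hbig : w * log 2 < Hs (addLaw p v (Measure.dirac 0)) (u0 / 2 ^ (t + 1 + w * j + K * w))) :
    1 / (4 * (log (4 * K / log 2) * (4 / c)) * (t + 1)) * (w * log 2) ≤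
      Gav v w' B u0 p (t + 1 + w * j + K * w) - Gav v w' B u0 p (w * (j + 1)) := by
  have hlog2 : 0 < log 2 := log_pos (by norm_num)
  have hlog2' : log 2 ≤ 1 := by have := log_two_lt_d9; linarith
  have hK' : (2:ℝ) ≤ K := by exact_mod_cast hK
  have hL0pos := L0_pos hK hc
  have hGain := gain_Gav (v := v) hw hB hu
  have h1 := T1b_Gav (v := v) hw hw1 hB hu hc hmac hp (x := w * (j + 1) + 1) (M := (K - 1) * w)
    (by rw [show w * (j + 1) + 1 + t = t + 1 + w * (j + 1) by ring]; exact hD)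
    (s := log 2 / (2 * K)) (by positivity)
    (by rw [div_le_iff₀ (by positivity)]; nlinarith)
  rw [idx_eq K w j t hK] at h1
  have h2 : log (2 / (log 2 / (2 * K))) * (4 / c) = log (4 * K / log 2) * (4 / c) := by
    congr 2; field_simp; ring
  have hηρ' : w * (j + 1) ≤ t + 1 + w * j + K * w := by nlinarith
  have hg0 := sub_nonneg.2 (hGain.2.1 _ hp _ _ hηρ')
  have h5' := hGain.2.1 _ hp (w * (j + 1)) (w * (j + 1) + 1) (by omega)
  have h7 := hW.tb
  generalize Gav v w' B u0 p (t + 1 + w * j + K * w) = g1 at *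
  generalize Gav v w' B u0 p (w * (j + 1)) = g2 at *
  generalize Gav v w' B u0 p (w * (j + 1) + 1) = g3 at *
  have h3 : (((K - 1) * w : ℕ) : ℝ) * (log 2 / (2 * K)) ≤ w * log 2 / 2 := by
    have h4 : (((K - 1) * w : ℕ) : ℝ) ≤ K * w := by
      rw [← Nat.cast_mul]
      exact_mod_cast Nat.mul_le_mul_right w (Nat.sub_le K 1)
    calc (((K - 1) * w : ℕ) : ℝ) * (log 2 / (2 * K)) ≤ K * w * (log 2 / (2 * K)) :=
          mul_le_mul_of_nonneg_right h4 (by positivity)
      _ = w * log 2 / 2 := by field_simp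
  rw [← mul_assoc, h2] at h1
  generalize log (4 * K / log 2) * (4 / c) = L0 at *
  have h4 : g1 - g3 ≤ g1 - g2 := by linarith
  have h5 : L0 * (t * (g1 - g3) + t * log 2) ≤ L0 * (t * (g1 - g2) + t * log 2) := by
    refine mul_le_mul_of_nonneg_left ?_ hL0pos.le
    have := mul_le_mul_of_nonneg_left h4 (Nat.cast_nonneg (α := ℝ) t)
    linarith
  have h6 : w * log 2 < log 2 + w * log 2 / 2 + L0 * (t * (g1 - g2) + t * log 2) := by
    linarith
  have h8 : w * log 2 / 4 ≤ L0 * (t * (g1 - g2)) := by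
    have e : L0 * (t * (g1 - g2) + t * log 2) = L0 * (t * (g1 - g2)) + L0 * (t * log 2) := by ring
    rw [e] at h6
    linarith
  have h9 : L0 * (t * (g1 - g2)) ≤ L0 * ((t + 1) * (g1 - g2)) := by
    refine mul_le_mul_of_nonneg_left ?_ hL0pos.le
    nlinarith
  have h10 : w * log 2 ≤ 4 * L0 * (t + 1) * (g1 - g2) := by linarith
  rw [one_div, inv_mul_le_iff₀ (by positivity)]
  linarith

set_option maxHeartbeats 1600000 in
/-- **the node inequality at an active node** -/
theorem node_active {𝒬 : Type*} [Fintype 𝒬] {v : κ → ℝ} {w' : 𝒬 → ℝ} {B : 𝒬 → Measure ℝ}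
    (hw : ∀ Q, 0 ≤ w' Q) (hw1 : ∑ Q, w' Q = 1) [∀ Q, IsProbabilityMeasure (B Q)]
    (hB : ∀ Q, BSupp (B Q)) {K w A t : ℕ} (hK : 2 ≤ K) (hA : 1 ≤ A) {c C3 : ℝ} (hc : 0 < c)
    (hW : WLarge K A t c C3 w)
    (hmac : ∀ Q r, 0 < r → TOne.Macro (B Q) (2 ^ t) r c) {u0 : ℝ} (hu : 0 < u0) (j : ℕ)
    (hdet : Det v w' B u0 (1 / K) (1 / K) (w * log 2) C3 (t + 1 + w * j) (t + 1 + w * (j + 1))
      (t + 1 + w * j + K * w) (t + 1 + w * j + 2 * w))
    {p : κ → ℝ} (hp : IsPW p) (hD : Dm v p (u0 / 2 ^ (t + 1 + w * j))) :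
    Node (Gav v w' B u0) v (nodeC K A t c C3) (2 ^ (w + 3) * (A * w) / 2 ^ (A * w))
      (t + 1 + w * j + K * w) (w * j) (w * (j + 1)) (u0 / 2 ^ (t + 1 + w * (j + 1))) p := by
  have hlog2 : 0 < log 2 := log_pos (by norm_num)
  have hK' : (2:ℝ) ≤ K := by exact_mod_cast hK
  have hA' : (1:ℝ) ≤ A := by exact_mod_cast hA
  have hw' : (1:ℝ) ≤ w := by exact_mod_cast hW.one
  set d := u0 / 2 ^ (t + 1 + w * (j + 1)) with hd
  set b := u0 / 2 ^ (t + 1 + w * j + 2 * w) with hb
  set δ0 : ℝ := 1 / 2 ^ (A * w) with hδ0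
  have hdpos : 0 < d := by positivity
  have hbpos : 0 < b := by positivity
  have hδpos : 0 < δ0 := by positivity
  have hδ1 : δ0 ≤ exp (-1) := by
    rw [exp_neg, hδ0, one_div]
    exact inv_anti₀ (exp_pos 1) hW.e
  have hδle : δ0 ≤ 1 := hδ1.trans (by rw [exp_le_one_iff]; norm_num)
  have hlogδ : -log δ0 = A * (w * log 2) := by
    rw [hδ0, one_div, log_inv, log_pow]; push_cast; ring
  have hbd : b = d / 2 ^ w := by
    rw [hb, hd, div_div, ← pow_add]
    congr 2
    ring
  have hcut : 8 * b * (3 + 2 * (log (1 / (1 / (2 * K) * δ0)) / (1 / (2 * K)))) ≤ d := by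
    have h1 : log (1 / (1 / (2 * K) * δ0)) = log (2 * K) + A * (w * log 2) := by
      rw [one_div, mul_inv, one_div, inv_inv, log_mul (by positivity) (by positivity), log_inv,
        hlogδ]
    rw [h1, hbd]
    have h2 : (log (2 * K) + A * (w * log 2)) / (1 / (2 * K)) =
        2 * K * (log (2 * K) + A * (w * log 2)) := by
      field_simp
    rw [h2]
    have h3 := hW.cut
    have h4 : 8 * (d / 2 ^ w) * (3 + 2 * (2 * K * (log (2 * K) + A * (w * log 2)))) =
        d / 2 ^ w * (8 * (3 + 4 * K * (log (2 * K) + A * (w * log 2)))) := by ring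
    rw [h4]
    calc d / 2 ^ w * (8 * (3 + 4 * K * (log (2 * K) + A * (w * log 2))))
        ≤ d / 2 ^ w * 2 ^ w := mul_le_mul_of_nonneg_left h3 (by positivity)
      _ = d := by field_simp
  obtain ⟨N, f, hN, hch, hnear⟩ := cut_node hp (d := d) (b := b) (η := 1 / (2 * K)) (δ := δ0)
    (L := u0 / 2 ^ (t + 1 + w * j)) hdpos hbpos (by positivity)
    (by rw [div_le_one (by positivity)]; linarith) hδpos hδle hcut (by positivity) hD
  have h2η : 2 * (1 / (2 * (K:ℝ))) = 1 / K := by field_simp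
  rw [h2η] at hnear
  have hN4 : (N : ℝ) ≤ 2 ^ (w + 2) := by
    have h1 : u0 / 2 ^ (t + 1 + w * j) / d = 2 ^ w := by
      rw [hd, show t + 1 + w * (j + 1) = t + 1 + w * j + w by ring, pow_add (2:ℝ) _ w]
      field_simp
    have h2 : 2 * (u0 / 2 ^ (t + 1 + w * j)) / d = 2 * 2 ^ w := by
      rw [mul_div_assoc, h1]
    rw [h2] at hN
    have h3 : (2:ℝ) ≤ 2 ^ w := by
      calc (2:ℝ) = 2 ^ 1 := by norm_num
        _ ≤ 2 ^ w := pow_le_pow_right₀ (by norm_num) hW.one
    rw [pow_add]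
    nlinarith
  obtain ⟨E, hE0, hEsum, hEdet⟩ := hdet N f p hp hD hch
  have hGain := gain_Gav (v := v) hw hB hu
  set G := Gav v w' B u0 with hG
  set ρ := t + 1 + w * j + K * w with hρ
  -- second window
  have hηρ' : w * (j + 1) ≤ ρ := by
    rw [hρ]; nlinarith [hW.one, hK]
  let g : Fin N → ℝ := fun u => G (cnd p f u) ρ - G (cnd p f u) (w * (j + 1))
  have hg0 : ∀ u, lm p f u ≠ 0 → 0 ≤ g u := fun u hu0 =>
    sub_nonneg.2 (hGain.2.1 _ (isPW_cnd f hp.1 hu0) _ _ hηρ')
  set L0 := log (4 * K / log 2) * (4 / c) with hL0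
  have hL0pos : 0 < L0 := L0_pos hK hc
  have htb : ∀ u, lm p f u ≠ 0 →
      w * log 2 < Hs (addLaw (cnd p f u) v (Measure.dirac 0)) (u0 / 2 ^ ρ) →
      1 / (4 * L0 * (t + 1)) * (w * log 2) ≤ g u := fun u hu0 hbig =>
    child_tb hw hw1 hB hK hc hW hmac hu j (isPW_cnd f hp.1 hu0) (hch u) hbig
  have hdet' : ∀ u, δ0 ≤ lm p f u →
      1 / (K:ℝ) * min (-log (lm p f u)) (w * log 2) - C3 ≤ E u ∨
        1 / (4 * L0 * (t + 1)) * (w * log 2) ≤ g u := by
    intro u hu
    have hu0 : lm p f u ≠ 0 := (hδpos.trans_le hu).ne'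
    rcases le_or_gt (Hs (addLaw (cnd p f u) v (Measure.dirac 0)) (u0 / 2 ^ ρ)) (w * log 2) with h | h
    · exact Or.inl (hEdet u hu0 (hnear u hu) h)
    · exact Or.inr (htb u hu0 h)
  have hnode := node_ineq hp f hδpos hδ1 (θ := 1 / K) (by positivity)
    (by rw [div_le_div_iff₀ (by positivity) (by norm_num)]; linarith) hnear hE0 hg0
    (π0 := 1 / K) (lam := w * log 2) (C3 := C3) (c4 := 1 / (4 * L0 * (t + 1))) (R := A)
    (by positivity) (by positivity) hA'
    (by have := hW.det; rw [div_div_eq_mul_div]; linarith)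
    (by rw [hlogδ]) hdet'
  -- first window
  have hT1a := T1a_Gav (v := v) hw hw1 hB hu hc.le hmac hp (x := w * j)
    (y := t + 1 + w * j + 2 * w) (by omega) (by
      rw [show w * j + t + 1 = t + 1 + w * j by ring]; exact hD)
  have hbρ : t + 1 + w * j + 2 * w ≤ ρ := by
    rw [hρ]; exact Nat.add_le_add_left (Nat.mul_le_mul_right w hK) _
  have hpair : ∑ a, ∑ b', (if b ≤ |v a - v b'| then p a * p b' else 0) ≤
      t / c * (G p ρ - G p (w * j)) := by
    have h1 := hGain.2.1 p hp _ _ hbρ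
    have h2 : (t:ℝ) * (G p (t + 1 + w * j + 2 * w) - G p (w * j)) ≤ t * (G p ρ - G p (w * j)) :=
      mul_le_mul_of_nonneg_left (by linarith) (by positivity)
    have h3 := hT1a.trans h2
    rw [div_mul_eq_mul_div, le_div_iff₀ hc]
    linarith
  have hηρ : w * j ≤ ρ := by rw [hρ]; nlinarith
  have hwin0 : 0 ≤ G p ρ - G p (w * j) := sub_nonneg.2 (hGain.2.1 p hp _ _ hηρ)
  have hinf0 : 0 ≤ G p ρ - ∑ u, lm p f u * G (cnd p f u) ρ := by
    rw [← hEsum]
    refine Finset.sum_nonneg fun u _ => ?_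
    by_cases hu0 : lm p f u = 0
    · rw [hu0, zero_mul]
    · exact mul_nonneg (lm_nonneg f hp.1 u) (hE0 u hu0)
  have hgs0 : 0 ≤ ∑ u, lm p f u * g u := by
    refine Finset.sum_nonneg fun u _ => ?_
    by_cases hu0 : lm p f u = 0
    · rw [hu0, zero_mul]
    · exact mul_nonneg (lm_nonneg f hp.1 u) (hg0 u hu0)
  refine ⟨N, f, hch, ?_⟩
  rw [hEsum] at hnode
  have hRc : (A:ℝ) / (1 / (4 * L0 * (t + 1))) = A * (4 * L0 * (t + 1)) := by
    field_simp
  have hπ : 2 * (A:ℝ) / (1 / K) = 2 * A * K := by field_simp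
  have hex : 2 * C3 / (1 / (K:ℝ)) = 2 * K * C3 := by field_simp
  rw [hRc, hπ, hex] at hnode
  set CC := nodeC K A t c C3 with hCC
  have hCCdef : CC = 2 * A * K + A * (4 * L0 * (t + 1)) + 2 * exp (2 * K * C3) * (t / c) := rfl
  have k1 : 2 * A * K * (G p ρ - ∑ u, lm p f u * G (cnd p f u) ρ) ≤
      CC * (G p ρ - ∑ u, lm p f u * G (cnd p f u) ρ) := by
    refine mul_le_mul_of_nonneg_right ?_ hinf0
    rw [hCCdef]
    have : 0 ≤ A * (4 * L0 * (t + 1)) + 2 * exp (2 * K * C3) * (t / c) := by positivity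
    linarith
  have k2 : A * (4 * L0 * (t + 1)) * ∑ u, lm p f u * g u ≤ CC * ∑ u, lm p f u * g u := by
    refine mul_le_mul_of_nonneg_right ?_ hgs0
    rw [hCCdef]
    have : 0 ≤ 2 * A * K + 2 * exp (2 * K * C3) * (t / c) := by positivity
    linarith
  have k3 : 2 * exp (2 * K * C3) * ∑ a, ∑ b', (if b ≤ |v a - v b'| then p a * p b' else 0) ≤
      CC * (G p ρ - G p (w * j)) := by
    have h1 := mul_le_mul_of_nonneg_left hpair (show 0 ≤ 2 * exp (2 * K * C3) by positivity)
    refine h1.trans ?_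
    rw [← mul_assoc]
    refine mul_le_mul_of_nonneg_right ?_ hwin0
    rw [hCCdef]
    have : 0 ≤ 2 * A * K + A * (4 * L0 * (t + 1)) := by positivity
    linarith
  have k4 : exp (2 * K * C3) * (2 * (N * δ0)) + N * negMulLog δ0 ≤
      2 ^ (w + 3) * (A * w) / 2 ^ (A * w) := by
    have h1 : negMulLog δ0 = δ0 * (A * (w * log 2)) := by
      rw [← hlogδ]; unfold negMulLog; ring
    rw [h1]
    have h2 : 2 * exp (2 * K * C3) + A * (w * log 2) ≤ 2 * (A * w) := by
      have h3 := hW.neg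
      have h4 : log 2 ≤ 1 := by have := log_two_lt_d9; linarith
      have h5 : (w:ℝ) ≤ A * w := le_mul_of_one_le_left (by positivity) hA'
      have h6 : A * (w * log 2) ≤ A * (w * 1) := by gcongr
      linarith
    calc exp (2 * K * C3) * (2 * (N * δ0)) + N * (δ0 * (A * (w * log 2)))
        = N * δ0 * (2 * exp (2 * K * C3) + A * (w * log 2)) := by ring
      _ ≤ 2 ^ (w + 2) * δ0 * (2 * (A * w)) := by gcongr
      _ = 2 ^ (w + 3) * (A * w) / 2 ^ (A * w) := by
          rw [hδ0, pow_succ (2:ℝ) (w + 2)]; ring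
  have hsumg : ∑ u, lm p f u * (G (cnd p f u) ρ - G (cnd p f u) (w * (j + 1))) =
      ∑ u, lm p f u * g u := rfl
  rw [hsumg]
  have hexp : exp (2 * K * C3) * (2 * (∑ a, ∑ b', (if b ≤ |v a - v b'| then p a * p b' else 0) +
      N * δ0)) = 2 * exp (2 * K * C3) * (∑ a, ∑ b', (if b ≤ |v a - v b'| then p a * p b' else 0)) +
      exp (2 * K * C3) * (2 * (N * δ0)) := by ring
  rw [hexp] at hnode
  linarith

end Crest.Agent.R98.K
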