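import Crest.Agent.R98.NCConc
import Crest.Agent.R98.HsCell
import Crest.Agent.R98.Bridge_Mg
import Crest.Agent.R98.F1
import Crest.Agent.R98.MacroT
import Crest.Agent.R98.CoreInst

/-!
Row 98 (S0129). Module NCASM, part (f): exponential collapse and near coincidences for the
partitions `Cl` (type and cells). (helper136)
-/

set_option autoImplicit false

namespace Crest.Agent.R98.NC

open Filter Real Finset MeasureTheory
open Crest.Agent.R098.Upper Crest.Agent.R98 Crest.AnalysisR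
open scoped Topology

section conv

variable {Ω 𝒯 : Type*} [Fintype Ω] [Fintype 𝒯]

omit [Fintype 𝒯] in
lemma sum_res_eq_fib (P : Ω → ℝ) (ty : Ω → 𝒯) (τ : 𝒯) :
    ∑ ω, Part.res P ty τ ω = TOne.fib P ty τ := by
  classical
  unfold Part.res TOne.fib
  refine Finset.sum_congr rfl fun ω _ => ?_
  by_cases h : ty ω = τ
  · rw [if_pos h]; exact Set.indicator_of_mem (show ω ∈ {a | ty a = τ} from h) P
  · rw [if_neg h]; exact Set.indicator_of_notMem (show ω ∉ {a | ty a = τ} from h) P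

omit [Fintype 𝒯] in
lemma cond_eq_res {P : Ω → ℝ} (ty : Ω → 𝒯) {τ : 𝒯} (h : TOne.fib P ty τ ≠ 0) (ω : Ω) :
    TOne.cond P ty τ ω = (∑ b, Part.res P ty τ b)⁻¹ * Part.res P ty τ ω := by
  classical
  rw [sum_res_eq_fib]
  unfold TOne.cond Part.res
  rw [if_neg h]
  by_cases h2 : ty ω = τ
  · rw [if_pos h2, Set.indicator_of_mem (show ω ∈ {a | ty a = τ} from h2) P, div_eq_inv_mul]
  · rw [if_neg h2, Set.indicator_of_notMem (show ω ∉ {a | ty a = τ} from h2) P, mul_zero]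

lemma addLaw_dirac (q v : Ω → ℝ) : addLaw q v (Measure.dirac (0:ℝ)) = HsCell.law q v := by
  unfold addLaw HsCell.law mix shift
  refine Finset.sum_congr rfl fun ω _ => ?_
  have h : Measure.map (fun x : ℝ => x + v ω) (Measure.dirac 0) = Measure.dirac (v ω) := by
    have hm : Measurable (fun x : ℝ => x + v ω) := by fun_prop
    rw [Measure.map_dirac' hm]
    simp
  show ENNReal.ofReal (q ω) • Measure.map (fun x : ℝ => x + v ω) (Measure.dirac 0) = _
  rw [h]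

/-- entropy of (cells ⊓ types) against the averaged conditional entropy -/
theorem HS_cell_inf_le {P : Ω → ℝ} (hP : ∀ ω, 0 ≤ P ω) (hP1 : ∑ ω, P ω = 1) (ty : Ω → 𝒯)
    (v : Ω → ℝ) {d : ℝ} (hd : 0 < d) :
    Part.HS P (Setoid.ker ty ⊓ Part.cell v d 0) ≤
      TOne.HBar P ty v d + log (Fintype.card 𝒯) + log 2 := by
  classical
  have h1 := Part.HS_inf P (Part.cell v d 0) (Setoid.ker ty)
  rw [inf_comm] at h1
  rw [h1, Part.HC_ker_eq hP]
  have h2 := Part.HS_ker_le_log_card hP hP1 ty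
  have h3 : ∑ τ, (∑ b, Part.res P ty τ b) *
      Part.HS (fun a => (∑ b, Part.res P ty τ b)⁻¹ * Part.res P ty τ a) (Part.cell v d 0) ≤
      ∑ τ, (TOne.fib P ty τ * Hs (addLaw (TOne.cond P ty τ) v (Measure.dirac 0)) d +
        TOne.fib P ty τ * log 2) := by
    refine Finset.sum_le_sum fun τ _ => ?_
    rw [sum_res_eq_fib]
    by_cases h : TOne.fib P ty τ = 0
    · rw [h]; simp
    · have e : (fun a => (TOne.fib P ty τ)⁻¹ * Part.res P ty τ a) = TOne.cond P ty τ := by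
        funext ω
        rw [cond_eq_res ty h, sum_res_eq_fib]
      rw [e, ← mul_add]
      refine mul_le_mul_of_nonneg_left ?_ (TOne.fib_nonneg ty hP τ)
      rw [addLaw_dirac]
      have h4 := HsCell.abs_Hs_law_sub_le (TOne.cond_nonneg ty hP τ) (TOne.cond_sum ty hP1 τ) v hd 0
      have h5 := abs_le.1 h4
      linarith [h5.1]
  refine (add_le_add h2 h3).trans (le_of_eq ?_)
  rw [Finset.sum_add_distrib, ← Finset.sum_mul, TOne.fib_sum ty hP1]
  unfold TOne.HBar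
  ring

end conv

section final

variable {ι : Type*} [Fintype ι]

lemma card_TyT (m : ℕ) : Fintype.card (TyT ι m) = (m+1) ^ Fintype.card ι := by
  classical
  have : Fintype.card (TyT ι m) = Fintype.card (ι → Fin (m+1)) := by
    unfold TyT
    exact Fintype.card_congr (Equiv.refl _)
  rw [this, Fintype.card_fun, Fintype.card_fin]

/-- `H(type, cells) ≤ EW + k log (m+1) + log 2` -/
theorem HS_Cl_le {p : ι → ℝ} (hp : ∀ i, 0 ≤ p i) (hp1 : ∑ i, p i = 1) (r t : ι → ℝ) (m : ℕ)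
    (X : ℝ) : Part.HS (pw p : (Fin m → ι) → ℝ) (Top.Cl r t m X) ≤
      EW p r t m X + (Fintype.card ι * log (m + 1) + log 2) := by
  have h := HS_cell_inf_le (P := fun u : Fin m → ι => pw p u) (fun u => pw_nonneg hp u)
    (sum_pw hp1 m) tyF (fun u => Top.cdot r t u) (exp_pos (-X))
  have e : (Top.Cl r t m X : Setoid (Fin m → ι)) =
      Setoid.ker tyF ⊓ Part.cell (fun u : Fin m → ι => Top.cdot r t u) (exp (-X)) 0 := by
    unfold Top.Cl
    congr 1
    unfold Top.Ty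
    ext u v
    rw [Setoid.ker_def, Setoid.ker_def, tyF_eq_iff]
  rw [e]
  refine h.trans (le_of_eq ?_)
  rw [card_TyT]
  unfold EW
  push_cast
  rw [Real.log_pow]
  ring

variable [MeasurableSpace ι] [DiscreteMeasurableSpace ι]

/-- everything at once for a ratio vector `r` -/
theorem data_of [Nonempty ι] {r t p : ι → ℝ} (hr : ∀ i, r i ≠ 0 ∧ |r i| < 1) (hp : ∀ i, 0 < p i)
    (hp1 : ∑ i, p i = 1) {μ : Measure ℝ} (hμ : IsSelfSimilarMeasure r t p μ)
    (hα : F.alpha p (Pi r t) < lyapunovExp r p) :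
    ∃ (a D C C₁ : ℝ), Env (fun x => Hs μ (exp (-x))) p (fun i => -log |r i|) a D C ∧
      T1Out (fun x => Hs μ (exp (-x))) p (fun i => -log |r i|) a (EW p r t) C₁ ∧
      F.alpha p (Pi r t) = D * ∑ i, p i * -log |r i| := by
  have hprob := hμ.1
  have hp0 : ∀ i, 0 ≤ p i := fun i => (hp i).le
  obtain ⟨D, C, hD0, hD1, hC, _, htend, hup, hlim⟩ := Bridge.exists_dim_real hr hp0 hp1 hμ
  have hB := Bridge.bsupp hr hp0 hp1 hμ
  have hα2 := alpha_Pi_eq hr hp hp1 hμ htend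
  have hχ : lyapunovExp r p = ∑ i, p i * -log |r i| := by
    unfold lyapunovExp
    rw [← Finset.sum_neg_distrib]
    exact Finset.sum_congr rfl fun i _ => by ring
  have hχ0 : 0 < lyapunovExp r p := by
    rw [hχ]
    exact Finset.sum_pos (fun i _ => mul_pos (hp i) (neg_log_pos hr i)) univ_nonempty
  have hDlt : D < 1 := by
    rw [hα2] at hα
    by_contra h
    push Not at h
    nlinarith
  have hfreq : ∃ᶠ x : ℝ in atTop, Hs μ (exp (-x)) ≤ D * x + C := by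
    refine Eventually.frequently ?_
    filter_upwards [eventually_ge_atTop 0] with x hx
    exact hup x hx
  obtain ⟨n, c, hn, hc, hmac⟩ := exists_macro hp0 hp1 (fun i => (hr i).1) (fun i => (hr i).2) hB
    (self_letters hμ) hDlt hfreq
  have hmac1 : ∀ ρ, 0 < ρ → TOne.Macro μ n ρ c := by
    intro ρ hρ
    have := hmac 1 0 one_ne_zero ρ hρ
    simpa using this
  have hn2 : 2 ≤ n := by
    by_contra h
    have hn1 : n = 1 := by omega
    subst hn1
    have := hmac1 1 one_pos 1 le_rfl (by norm_num)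
    simp only [TOne.W, Nat.cast_one, one_mul, sub_self] at this
    linarith
  have hup' : ∀ x, Hs μ (exp (-x)) ≤ D * max x 0 + C := by
    intro x
    rcases le_total 0 x with h | h
    · rw [max_eq_left h]; exact hup x h
    · rw [max_eq_right h]
      have h1 := H_mono hB h
      have h2 := hup 0 le_rfl
      simp only at h1
      exact h1.trans h2
  have hlow : ∀ D', D' < D → ∃ C', ∀ x, 0 ≤ x → D' * x - C' ≤ Hs μ (exp (-x)) := by
    intro D' hD'
    have h1 := hlim.eventually (eventually_gt_nhds hD')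
    obtain ⟨X0, hX0⟩ := (h1.and (eventually_gt_atTop 0)).exists_forall_of_atTop
    refine ⟨|D'| * |X0|, fun x hx => ?_⟩
    have hH0 : 0 ≤ Hs μ (exp (-x)) := Hs_nonneg (by rw [probReal_univ]) (exp_pos _).le
    rcases le_total X0 x with h | h
    · obtain ⟨h2, h3⟩ := hX0 x h
      have h4 : D' * x < Hs μ (exp (-x)) := by
        rwa [lt_div_iff₀ h3] at h2
      have : 0 ≤ |D'| * |X0| := by positivity
      linarith
    · have h2 : D' * x ≤ |D'| * |X0| := by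
        calc D' * x ≤ |D'| * x := mul_le_mul_of_nonneg_right (le_abs_self _) hx
          _ ≤ |D'| * |X0| := mul_le_mul_of_nonneg_left (h.trans (le_abs_self _)) (abs_nonneg _)
      linarith
  obtain ⟨C₁, hC₁⟩ := t1out_of hr hp0 hp1 hμ hD0 hup' hn2 hc hmac1
  exact ⟨log n, D, C, C₁, env_of hr hp0 hp1 hμ hD0 hup' hlow hn2, hC₁, by rw [hα2, hχ]⟩

lemma log_term_small (k : ℝ) {ε : ℝ} (hε : 0 < ε) :
    ∀ᶠ m : ℕ in atTop, k * log (m + 1) + log 2 ≤ ε * m := by
  have h1 : (fun x : ℝ => Real.log (x + 1)) =o[atTop] fun x : ℝ => x := by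
    have h2 : (fun x : ℝ => Real.log (x + 1)) =o[atTop] fun x : ℝ => x + 1 := by
      have := Real.isLittleO_log_id_atTop
      exact this.comp_tendsto (tendsto_atTop_add_const_right _ _ tendsto_id)
    refine h2.trans_isBigO ?_
    refine Asymptotics.IsBigO.of_bound 2 ?_
    filter_upwards [eventually_ge_atTop (1:ℝ)] with x hx
    rw [Real.norm_of_nonneg (by linarith), Real.norm_of_nonneg (by linarith)]
    linarith
  have h3 : ∀ᶠ x : ℝ in atTop, |Real.log (x + 1)| ≤ (ε / (2 * (|k| + 1))) * |x| := by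
    have := h1.bound (show 0 < ε / (2 * (|k| + 1)) by positivity)
    simpa [Real.norm_eq_abs] using this
  have h4 : ∀ᶠ m : ℕ in atTop, |Real.log ((m:ℝ) + 1)| ≤ (ε / (2 * (|k| + 1))) * |(m:ℝ)| :=
    tendsto_natCast_atTop_atTop.eventually h3
  have h5 : ∀ᶠ m : ℕ in atTop, 2 * log 2 / ε ≤ (m:ℝ) :=
    tendsto_natCast_atTop_atTop.eventually_ge_atTop _
  filter_upwards [h4, h5] with m h6 h7
  rw [div_le_iff₀ hε] at h7
  have hm : (0:ℝ) ≤ m := Nat.cast_nonneg m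
  rw [abs_of_nonneg hm] at h6
  have h8 : k * log (m + 1) ≤ |k| * ((ε / (2 * (|k| + 1))) * m) := by
    calc k * log ((m:ℝ) + 1) ≤ |k * log ((m:ℝ) + 1)| := le_abs_self _
      _ = |k| * |log ((m:ℝ) + 1)| := abs_mul _ _
      _ ≤ _ := mul_le_mul_of_nonneg_left h6 (abs_nonneg _)
  have h9 : |k| * ((ε / (2 * (|k| + 1))) * m) ≤ ε / 2 * m := by
    have e : |k| * ((ε / (2 * (|k| + 1))) * m) = (ε / 2 * m) * (|k| / (|k| + 1)) := by
      field_simp
    rw [e]
    have h10 : |k| / (|k| + 1) ≤ 1 := by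
      rw [div_le_one (by positivity)]; linarith
    have h11 : 0 ≤ ε / 2 * m := by positivity
    nlinarith
  linarith

/-- **exponential collapse** for the partitions `Cl` -/
theorem collapse_Cl [Nonempty ι] {r t p : ι → ℝ} (hr : ∀ i, r i ≠ 0 ∧ |r i| < 1)
    (hp : ∀ i, 0 < p i) (hp1 : ∑ i, p i = 1) (hα : F.alpha p (Pi r t) < lyapunovExp r p)
    {q ε : ℝ} (hq : 0 ≤ q) (hε : 0 < ε) :
    ∀ᶠ m : ℕ in atTop, Part.HS (pw p : (Fin m → ι) → ℝ) (Top.Cl r t m (q * m)) ≤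
      (F.alpha p (Pi r t) + ε) * m := by
  have hp0 : ∀ i, 0 ≤ p i := fun i => (hp i).le
  obtain ⟨ρ, hρ0, hρ1, hρ⟩ := exists_ratio hr
  have hμ := isSelfSimilar_law hρ hρ1 t ⟨hp0, hp1⟩
  obtain ⟨a, D, C, C₁, hE, hT, hαD⟩ := data_of hr hp hp1 hμ hα
  filter_upwards [collapse hE hT hq (half_pos hε), log_term_small (Fintype.card ι) (half_pos hε)]
    with m h1 h2
  have h3 := HS_Cl_le hp0 hp1 r t m (q * m)
  rw [hαD]
  nlinarith

/-- **near coincidences** for the partitions `Cl` -/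
theorem near_Cl [Nonempty ι] {r t p : ι → ℝ} (hr : ∀ i, r i ≠ 0 ∧ |r i| < 1)
    (hp : ∀ i, 0 < p i) (hp1 : ∑ i, p i = 1) (hα : F.alpha p (Pi r t) < lyapunovExp r p)
    (B : ℕ) {ε : ℝ} (hε : 0 < ε) :
    ∃ᶠ m : ℕ in atTop, Part.HS (pw p : (Fin m → ι) → ℝ)
      (Top.Cl r t m ((m:ℝ) * Real.log m ^ (B + 1))) ≤ (F.alpha p (Pi r t) + ε) * m := by
  have hp0 : ∀ i, 0 ≤ p i := fun i => (hp i).le
  obtain ⟨ρ, hρ0, hρ1, hρ⟩ := exists_ratio hr
  have hμ := isSelfSimilar_law hρ hρ1 t ⟨hp0, hp1⟩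
  obtain ⟨a, D, C, C₁, hE, hT, hαD⟩ := data_of hr hp hp1 hμ hα
  refine ((near_coincidences hE hT B (half_pos hε)).and_eventually
    (log_term_small (Fintype.card ι) (half_pos hε))).mono ?_
  rintro m ⟨h1, h2⟩
  have h3 := HS_Cl_le hp0 hp1 r t m ((m:ℝ) * Real.log m ^ (B + 1))
  rw [hαD]
  nlinarith

lemma rr_ok {σ ℓ : ι → ℝ} (hσ : Top.IsS σ) (hℓ : ∀ i, 0 < ℓ i) (i : ι) :
    Top.rr σ ℓ i ≠ 0 ∧ |Top.rr σ ℓ i| < 1 := by
  have h1 : |Top.rr σ ℓ i| = exp (-ℓ i) := by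
    unfold Top.rr
    rw [abs_mul, Top.abs_sign hσ i, one_mul, abs_of_pos (exp_pos _)]
  constructor
  · intro h
    rw [h, abs_zero] at h1
    exact absurd h1.symm (exp_pos _).ne'
  · rw [h1]
    exact (by simpa using Real.exp_lt_exp.2 (neg_lt_zero.2 (hℓ i)))

omit [MeasurableSpace ι] [DiscreteMeasurableSpace ι] in
lemma lyap_rr {p σ ℓ : ι → ℝ} (hσ : Top.IsS σ) :
    lyapunovExp (Top.rr σ ℓ) p = Top.chi p ℓ := by
  unfold lyapunovExp Top.chi
  rw [← Finset.sum_neg_distrib]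
  refine Finset.sum_congr rfl fun i _ => ?_
  have h1 : |Top.rr σ ℓ i| = exp (-ℓ i) := by
    unfold Top.rr
    rw [abs_mul, Top.abs_sign hσ i, one_mul, abs_of_pos (exp_pos _)]
  rw [h1, log_exp]
  ring

/-- (A1) of 803: exponential collapse -/
theorem collapse_rr [Nonempty ι] {p σ ℓ t : ι → ℝ} (hp : ∀ i, 0 < p i) (hp1 : ∑ i, p i = 1)
    (hσ : Top.IsS σ) (hℓ : ∀ i, 0 < ℓ i) (hα : Top.al p σ ℓ t < Top.chi p ℓ)
    {q ε : ℝ} (hq : 0 ≤ q) (hε : 0 < ε) :
    ∀ᶠ m : ℕ in atTop, Part.HS (pw p : (Fin m → ι) → ℝ) (Top.Cl (Top.rr σ ℓ) t m (q * m)) ≤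
      (Top.al p σ ℓ t + ε) * m :=
  collapse_Cl (rr_ok hσ hℓ) hp hp1 (by rw [lyap_rr hσ]; exact hα) hq hε

/-- (A2) of 803: near coincidences at `m (log m)^(B+1)` -/
theorem near_rr [Nonempty ι] {p σ ℓ t : ι → ℝ} (hp : ∀ i, 0 < p i) (hp1 : ∑ i, p i = 1)
    (hσ : Top.IsS σ) (hℓ : ∀ i, 0 < ℓ i) (hα : Top.al p σ ℓ t < Top.chi p ℓ)
    (B : ℕ) {ε : ℝ} (hε : 0 < ε) :
    ∃ᶠ m : ℕ in atTop, Part.HS (pw p : (Fin m → ι) → ℝ)
      (Top.Cl (Top.rr σ ℓ) t m ((m:ℝ) * Real.log m ^ (B + 1))) ≤ (Top.al p σ ℓ t + ε) * m :=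
  near_Cl (rr_ok hσ hℓ) hp hp1 (by rw [lyap_rr hσ]; exact hα) B hε



end final

end Crest.Agent.R98.NC
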