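import Crest.Agent.R98.CoreInst
import Crest.Agent.R98.CoreMk
import Crest.Agent.R98.Top0
import Crest.Agent.R98.BC
import Crest.Agent.R98.ExactC
import Crest.Agent.R98.F1
import Crest.Agent.R98.NCFinal

-- ▼ part R98/CoreLS
section

/-!
# Row 98: `LTP` and `STP` from (UNI) (helper587)
-/

set_option autoImplicit false

open Filter Topology Set Metric Finset MeasureTheory

namespace Crest.Agent.R98.Top

open Crest.Agent.R98

variable {ι : Type*} [Fintype ι] [MeasurableSpace ι] [DiscreteMeasurableSpace ι] {p σ : ι → ℝ}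

theorem ltP_of_uni (hp : (∀ i, 0 ≤ p i) ∧ ∑ i, p i = 1) (hσ : IsS σ)
    (hU : ∀ ℓ t : ι → ℝ, (∀ i, 0 < ℓ i) → F.alpha p (Pi (rr σ ℓ) t) < chi p ℓ →
      UniP p σ ℓ t) : LTP p σ := by
  intro ℓ t hℓ hα m s τ η ε A D
  exact (coreOfUni hp hσ hU).lt ℓ t hℓ hα m s τ η ε A D

theorem stP_of_uni (hp : (∀ i, 0 ≤ p i) ∧ ∑ i, p i = 1) (hσ : IsS σ)
    (hU : ∀ ℓ t : ι → ℝ, (∀ i, 0 < ℓ i) → F.alpha p (Pi (rr σ ℓ) t) < chi p ℓ →
      UniP p σ ℓ t) : STP p σ := by
  intro ℓ t hℓ hα hh m s τ η ε A D hs0 hη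
  exact (coreOfUni hp hσ hU).st ℓ t hℓ hα hh m s τ η ε A D hs0 hη

end Crest.Agent.R98.Top
end

-- ▼ part R98/TopCand
section

/-!
Row 98 (S0129). Module TOP: the candidates of level `m` (roots of the nonzero minors) are at most
`e^{Cm}`, hence Lebesgue almost every point of the ray stays `e^{-Cm}`-away from them. (helper430)
-/

set_option autoImplicit false

namespace Crest.Agent.R98.Top

open Crest.AnalysisR Crest.Agent.R98 Crest.Agent.R98.Part Crest.Agent.R098.Upper Filter Topology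
  MeasureTheory Polynomial

variable {ι : Type*} [Fintype ι]

omit [Fintype ι] in
lemma natDegree_ratP_le (σ : ι → ℝ) (a : ι → ℕ) (i : ι) : (ratP σ a i).natDegree ≤ a i := by
  unfold ratP
  split_ifs
  · rw [neg_one_mul, natDegree_neg]
    exact natDegree_X_pow_le _
  · rw [one_mul]
    exact natDegree_X_pow_le _

omit [Fintype ι] in
lemma natDegree_cw_ratP_le (σ : ι → ℝ) {a : ι → ℕ} {A : ℕ} (hA : ∀ i, a i ≤ A) {m : ℕ}
    (u : Fin m → ι) (i : ι) : (cw (ratP σ a) u i).natDegree ≤ A * m := by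
  classical
  induction m with
  | zero => simp
  | succ m ih =>
    obtain ⟨b, u, rfl⟩ := exists_cons u
    rw [cw_cons]
    refine (natDegree_add_le _ _).trans (max_le ?_ ?_)
    · split_ifs <;> simp
    · refine (natDegree_mul_le).trans ?_
      have h1 := (natDegree_ratP_le σ a b).trans (hA b)
      have h2 := ih u
      rw [Nat.mul_succ]
      omega

omit [Fintype ι] in
lemma natDegree_difP_le (σ : ι → ℝ) {a : ι → ℕ} {A : ℕ} (hA : ∀ i, a i ≤ A) {m : ℕ}
    (u v : Fin m → ι) (i : ι) : (difP σ a u v i).natDegree ≤ A * m := by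
  unfold difP
  refine (natDegree_sub_le _ _).trans (max_le ?_ ?_)
  · exact natDegree_cw_ratP_le σ hA u i
  · exact natDegree_cw_ratP_le σ hA v i

open Classical in
/-- the candidates as a finite set -/
noncomputable def CandF (σ : ι → ℝ) (a : ι → ℕ) (m : ℕ) : Finset ℂ :=
  (Finset.range (Fintype.card ι + 1)).biUnion fun e =>
    (Finset.univ : Finset ((Fin e → (Fin m → ι) × (Fin m → ι)) × (Fin e → ι))).biUnion fun x =>
      ((Exact.minor (fun i => difP σ a (x.1 i).1 (x.1 i).2) x.2).map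
        (Int.castRingHom ℂ)).roots.toFinset

lemma cand_subset (σ : ι → ℝ) (a : ι → ℕ) (m : ℕ) : Cand σ a m ⊆ (CandF σ a m : Set ℂ) := by
  classical
  rintro z ⟨e, R, J, he, hR, hne, hz⟩
  choose U V hUV using hR
  have hRe : R = fun i => difP σ a (U i) (V i) := funext hUV
  rw [Finset.mem_coe, CandF, Finset.mem_biUnion]
  refine ⟨e, Finset.mem_range.2 (Nat.lt_succ_of_le he), ?_⟩
  rw [Finset.mem_biUnion]
  refine ⟨(fun i => (U i, V i), J), Finset.mem_univ _, ?_⟩
  rw [Multiset.mem_toFinset, mem_roots]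
  · rw [IsRoot.def, eval_map]
    rw [hRe] at hz
    rw [aeval_def] at hz
    exact hz
  · rw [← hRe]
    exact (Polynomial.map_ne_zero_iff (RingHom.injective_int (Int.castRingHom ℂ))).2 hne

lemma card_candF_le (σ : ι → ℝ) {a : ι → ℕ} {A : ℕ} (hA : ∀ i, a i ≤ A) (m : ℕ) :
    (CandF σ a m).card ≤ (Fintype.card ι + 1) *
      (((Fintype.card ι ^ m * Fintype.card ι ^ m) * Fintype.card ι + 1) ^ Fintype.card ι *
        (Fintype.card ι * (A * m))) := by
  classical
  unfold CandF
  set k := Fintype.card ι with hk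
  calc _ ≤ ∑ e ∈ Finset.range (k + 1),
        ((Finset.univ : Finset ((Fin e → (Fin m → ι) × (Fin m → ι)) × (Fin e → ι))).biUnion fun x =>
          ((Exact.minor (fun i => difP σ a (x.1 i).1 (x.1 i).2) x.2).map
            (Int.castRingHom ℂ)).roots.toFinset).card := Finset.card_biUnion_le
    _ ≤ ∑ e ∈ Finset.range (k + 1), ((k ^ m * k ^ m) * k + 1) ^ k * (k * (A * m)) := by
        refine Finset.sum_le_sum fun e he => ?_
        have he' : e ≤ k := Nat.lt_succ_iff.1 (Finset.mem_range.1 he)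
        refine Finset.card_biUnion_le.trans ?_
        have h1 : ∀ x : ((Fin e → (Fin m → ι) × (Fin m → ι)) × (Fin e → ι)),
            ((Exact.minor (fun i => difP σ a (x.1 i).1 (x.1 i).2) x.2).map
            (Int.castRingHom ℂ)).roots.toFinset.card ≤ k * (A * m) := by
          intro x
          refine (Multiset.toFinset_card_le _).trans ?_
          refine (card_roots' _).trans ?_
          refine (natDegree_map_le).trans ?_
          refine (Exact.minor_natDegree (n := A * m) _ _ fun i j => natDegree_difP_le σ hA _ _ _).trans ?_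
          exact Nat.mul_le_mul_right _ he'
        refine (Finset.sum_le_sum fun x _ => h1 x).trans ?_
        rw [Finset.sum_const, Finset.card_univ, smul_eq_mul]
        refine Nat.mul_le_mul_right _ ?_
        rw [Fintype.card_prod, Fintype.card_fun, Fintype.card_fun, Fintype.card_prod,
          Fintype.card_fun, Fintype.card_fin, Fintype.card_fin, ← hk, ← mul_pow]
        calc (k ^ m * k ^ m * k) ^ e ≤ ((k ^ m * k ^ m) * k + 1) ^ e :=
              Nat.pow_le_pow_left (Nat.le_succ _) e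
          _ ≤ ((k ^ m * k ^ m) * k + 1) ^ k := Nat.pow_le_pow_right (Nat.succ_pos _) he'
    _ = _ := by rw [Finset.sum_const, Finset.card_range, smul_eq_mul]

/-- there are at most `e^{Cm}` candidates -/
lemma card_candF_le_exp [Nonempty ι] (σ : ι → ℝ) (a : ι → ℕ) :
    ∃ C : ℝ, ∀ᶠ m : ℕ in atTop, ((CandF σ a m).card : ℝ) ≤ Real.exp (C * m) := by
  obtain ⟨A, hA⟩ : ∃ A, ∀ i, a i ≤ A := ⟨Finset.univ.sup a, fun i => Finset.le_sup (Finset.mem_univ i)⟩
  set k := Fintype.card ι with hk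
  have hk1 : 1 ≤ k := Fintype.card_pos
  have hkR : (1:ℝ) ≤ k := by exact_mod_cast hk1
  have hlogk : 0 ≤ Real.log k := Real.log_nonneg hkR
  -- constant
  set D : ℝ := (k + 1) * ((2 * k) ^ k * (k * A)) with hD
  have hD0 : 0 ≤ D := by positivity
  refine ⟨2 * k * Real.log k + 1, ?_⟩
  -- eventually `D * m ≤ e^m`
  have h1 : ∀ᶠ m : ℕ in atTop, D * m ≤ Real.exp m := by
    have h2 : Tendsto (fun x : ℝ => Real.exp x / x) atTop atTop := by
      simpa using Real.tendsto_exp_div_pow_atTop 1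
    have h3 := (h2.comp tendsto_natCast_atTop_atTop).eventually_ge_atTop D
    filter_upwards [h3, eventually_gt_atTop 0] with m hm hm0
    have hmR : (0:ℝ) < m := by exact_mod_cast hm0
    simp only [Function.comp_apply] at hm
    rw [le_div_iff₀ hmR] at hm
    exact hm
  filter_upwards [h1] with m hm
  have h4 := card_candF_le σ hA m
  rw [← hk] at h4
  have h5 : ((CandF σ a m).card : ℝ) ≤ (k + 1) * (((k ^ m * k ^ m) * k + 1) ^ k * (k * (A * m))) := by
    exact_mod_cast h4
  refine h5.trans ?_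
  have h6 : ((k : ℝ) ^ m * k ^ m) * k + 1 ≤ (2 * k) * Real.exp (2 * Real.log k * m) := by
    have e1 : Real.exp (2 * Real.log k * m) = (k : ℝ) ^ m * k ^ m := by
      have : 2 * Real.log k * m = Real.log k * m + Real.log k * m := by ring
      rw [this, Real.exp_add, mul_comm (Real.log k), Real.exp_nat_mul, Real.exp_log (by linarith)]
    rw [e1]
    have h7 : (1:ℝ) ≤ (k : ℝ) ^ m * k ^ m := by
      have := one_le_pow₀ hkR (n := m)
      nlinarith
    nlinarith
  have h8 : (((k : ℝ) ^ m * k ^ m) * k + 1) ^ k ≤ (2 * k) ^ k * Real.exp (2 * k * Real.log k * m) := by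
    calc (((k : ℝ) ^ m * k ^ m) * k + 1) ^ k
        ≤ ((2 * k) * Real.exp (2 * Real.log k * m)) ^ k :=
          pow_le_pow_left₀ (by positivity) h6 k
      _ = (2 * k) ^ k * Real.exp (2 * k * Real.log k * m) := by
          rw [mul_pow, ← Real.exp_nat_mul]
          congr 2
          ring
  calc ((k : ℝ) + 1) * (((k ^ m * k ^ m) * k + 1) ^ k * (k * (A * m)))
      ≤ (k + 1) * (((2 * k) ^ k * Real.exp (2 * k * Real.log k * m)) * (k * (A * m))) := by
        gcongr
    _ = (D * m) * Real.exp (2 * k * Real.log k * m) := by rw [hD]; ring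
    _ ≤ Real.exp m * Real.exp (2 * k * Real.log k * m) := by gcongr
    _ = Real.exp ((2 * k * Real.log k + 1) * m) := by
        rw [← Real.exp_add]; congr 1; ring

/-- Lebesgue almost every point of the ray stays away from the candidates -/
theorem ae_cand_away [Nonempty ι] (σ : ι → ℝ) (a : ι → ℕ) {θ : ℝ} (hθ : 0 < θ) :
    ∃ C : ℝ, ∀ᵐ x : ℝ, 0 < x → ∀ᶠ m : ℕ in atTop, ∀ z ∈ Cand σ a m,
      Real.exp (-(C * m)) ≤ ‖z - (Real.exp (-(x * θ)) : ℝ)‖ := by
  classical
  obtain ⟨C, hC⟩ := card_candF_le_exp σ a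
  have h0 : 0 < Real.exp (-θ) := Real.exp_pos _
  have h1 : Real.exp (-θ) < 1 := Real.exp_lt_one_iff.2 (by linarith)
  have hcard : ∀ᶠ m : ℕ in atTop,
      ((((CandF σ a m).image fun z => ‖z‖).card : ℕ) : ℝ) ≤ Real.exp (C * m) := by
    filter_upwards [hC] with m hm
    refine le_trans ?_ hm
    exact_mod_cast Finset.card_image_le
  refine ⟨C + 2, ?_⟩
  filter_upwards [ae_rpow_away h0 h1 (fun m => (CandF σ a m).image fun z => ‖z‖) hcard] with x hx _
  filter_upwards [hx] with m hm z hz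
  have hz' : ‖z‖ ∈ (CandF σ a m).image fun z => ‖z‖ :=
    Finset.mem_image_of_mem _ (cand_subset σ a m hz)
  have h2 := hm _ hz'
  have e1 : Real.exp (-θ) ^ x = Real.exp (-(x * θ)) := by
    rw [← Real.exp_mul]; congr 1; ring
  rw [e1] at h2
  refine h2.trans ?_
  have h3 := abs_norm_sub_norm_le z ((Real.exp (-(x * θ)) : ℝ) : ℂ)
  rw [Complex.norm_real, Real.norm_eq_abs, abs_of_pos (Real.exp_pos _)] at h3
  rw [abs_sub_comm]
  exact h3

end Crest.Agent.R98.Top
end

-- ▼ part R98/ExactD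
section

/-!
Row 98 (S0129): asymptotic form of the one-variable exactness lemma.
-/

set_option autoImplicit false

open Polynomial

namespace Crest.Agent.R98.Exact

set_option maxHeartbeats 4000000 in
/-- **E1, asymptotic form.** The constant `C` depends on the number `k` of coordinates only. -/
theorem exactness_asymp (k : ℕ) : ∃ C : ℝ, 1 ≤ C ∧
    ∀ (κ : Type*) [Fintype κ], Fintype.card κ = k →
    ∀ (n : ℕ), 2 ≤ n → ∀ (b : ℝ), 1 ≤ b → ∀ (lam : ℝ), 1 / b ≤ lam → 1 / b ≤ 1 - lam →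
    ∀ (G N : ℝ), C * n * (Real.log n + Real.log b) ≤ G → G * (C * b * Real.log n) ^ k ≤ N →
    ∀ (PP : Set (κ → ℤ[X])), (∀ P ∈ PP, ∀ j, (P j).natDegree ≤ n) →
      (∀ P ∈ PP, ∀ j, l1 (P j) ≤ (n : ℝ) ^ 2) →
    ∃ z : ℂ, ‖z - lam‖ ≤ Real.exp (-G) ∧ ‖z‖ ≤ 1 ∧
      (z = lam ∨ ∃ (e : ℕ) (R : Fin e → κ → ℤ[X]) (J : Fin e → κ), e ≤ k ∧
        (∀ i, R i ∈ PP) ∧ minor R J ≠ 0 ∧ aeval z (minor R J) = 0) ∧
      ∀ t : κ → ℝ, (∀ P ∈ PP, ‖∑ j, (t j : ℂ) * aeval (lam : ℂ) (P j)‖ ≤ Real.exp (-N) * ‖t‖) →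
        ∃ t' : κ → ℂ, (∀ j, ‖t' j - t j‖ ≤ Real.exp (-(G / 2)) * ‖t‖) ∧
          ∀ P ∈ PP, ∑ j, t' j * aeval z (P j) = 0 := by
  -- constants
  set F : ℝ := (k.factorial : ℝ) with hF
  have hF1 : 1 ≤ F := by
    rw [hF]; exact_mod_cast Nat.one_le_iff_ne_zero.mpr (Nat.factorial_ne_zero k)
  have hlF : 0 ≤ Real.log F := Real.log_nonneg hF1
  -- L0 := log (k! H^k) ≤ c1 * log n
  set c1 : ℝ := 2 * Real.log F + 2 * k with hc1
  have hc10 : 0 ≤ c1 := by positivity
  set C : ℝ := 100 * (k + 1) * (c1 + 1) with hC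
  have hk0 : (0 : ℝ) ≤ k := Nat.cast_nonneg k
  have hC1 : 1 ≤ C := by
    rw [hC]
    nlinarith [mul_nonneg hk0 hc10]
  refine ⟨C, hC1, ?_⟩
  intro κ _ hcard n hn b hb lam hlb hlb1 G N hG hN PP hdeg hl1
  have hn' : (2 : ℝ) ≤ n := by exact_mod_cast hn
  have hlogn : 1 / 2 ≤ Real.log n := by
    have h1 : Real.log 2 ≤ Real.log n := Real.log_le_log (by norm_num) hn'
    have := Real.log_two_gt_d9
    linarith
  have hlogb : 0 ≤ Real.log b := Real.log_nonneg hb
  have hb0 : 0 < b := by linarith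
  have hlam0 : 0 < lam := lt_of_lt_of_le (by positivity) hlb
  have hlam1 : lam < 1 := by
    have : 0 < 1 / b := by positivity
    linarith
  set H : ℝ := (n : ℝ) ^ 2 with hH
  have hH1 : 1 ≤ H := by rw [hH]; nlinarith only [hn']
  set H' : ℝ := F * H ^ k with hH'
  have hH'pos : 0 < H' := by positivity
  have hH'1 : 1 ≤ H' := by
    have : (1 : ℝ) ≤ H ^ k := one_le_pow₀ hH1
    rw [hH']
    exact one_le_mul_of_one_le_of_one_le hF1 this
  have hlogH' : Real.log H' ≤ c1 * Real.log n := by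
    rw [hH', Real.log_mul (by positivity) (by positivity), Real.log_pow, hH, Real.log_pow, hc1]
    have h1 : Real.log F ≤ 2 * Real.log F * Real.log n := by
      nlinarith only [hlF, hlogn, mul_nonneg hlF (sub_nonneg.2 hlogn)]
    push_cast
    nlinarith only [h1]
  have hlogH'0 : 0 ≤ Real.log H' := Real.log_nonneg hH'1
  have hG0 : 0 ≤ G := by
    refine le_trans ?_ hG
    have : 0 ≤ Real.log n + Real.log b := by linarith
    positivity
  -- basic lower bounds for G
  have hGa : 100 * (k + 1) * (c1 + 1) * n * (Real.log n + Real.log b) ≤ G := hG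
  -- q
  set q : ℕ := ⌈2 * b * Real.log H'⌉₊ with hq
  have hq1 : 2 * b * Real.log H' ≤ q := Nat.le_ceil _
  have hq2 : (q : ℝ) ≤ 2 * b * Real.log H' + 1 :=
    (Nat.ceil_lt_add_one (by positivity)).le
  have hqC : (q : ℝ) + 1 ≤ C * b * Real.log n / (k + 1) := by
    have h2 : (q : ℝ) + 1 ≤ 2 * b * (c1 * Real.log n) + 2 := by
      have : 2 * b * Real.log H' ≤ 2 * b * (c1 * Real.log n) := by gcongr
      linarith
    have h3 : 2 * b * (c1 * Real.log n) + 2 ≤ 100 * (c1 + 1) * b * Real.log n := by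
      have h4 : 1 / 2 ≤ b * Real.log n := by nlinarith only [hb, hlogn]
      nlinarith only [h4, mul_nonneg hc10 (by linarith : (0 : ℝ) ≤ b * Real.log n)]
    refine (h2.trans h3).trans (le_of_eq ?_)
    rw [hC]
    field_simp
  have hqk : (((Fintype.card κ).factorial : ℝ) * H ^ (Fintype.card κ)) *
      ((1 + lam) / 2) ^ (q + 1) < 1 := by
    rw [hcard, ← hF, ← hH']
    have h2 : (1 + lam) / 2 ≤ Real.exp (-(1 / (2 * b))) := by
      have h3 := Real.add_one_le_exp (-(1 / (2 * b)))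
      have h4 : 1 / (2 * b) = (1 / b) / 2 := by field_simp
      rw [h4] at h3 ⊢
      linarith
    have h5 : ((1 + lam) / 2) ^ (q + 1) ≤ Real.exp (-(1 / (2 * b))) ^ (q + 1) :=
      pow_le_pow_left₀ (by linarith) h2 _
    have h6 : Real.exp (-(1 / (2 * b))) ^ (q + 1) < Real.exp (-(Real.log H')) := by
      rw [← Real.exp_nat_mul]
      apply Real.exp_lt_exp.mpr
      have h7 : Real.log H' ≤ q * (1 / (2 * b)) := by
        rw [mul_one_div, le_div_iff₀ (by positivity)]
        linarith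
      push_cast
      have h8 : 0 < 1 / (2 * b) := by positivity
      have h9 : ((q : ℝ) + 1) * -(1 / (2 * b)) = -(q * (1 / (2 * b))) - 1 / (2 * b) := by ring
      rw [h9]
      linarith
    calc H' * ((1 + lam) / 2) ^ (q + 1) ≤ H' * Real.exp (-(1 / (2 * b))) ^ (q + 1) := by gcongr
      _ < H' * Real.exp (-(Real.log H')) := by gcongr
      _ = 1 := by
        rw [Real.exp_neg, Real.exp_log hH'pos, mul_inv_cancel₀ hH'pos.ne']
  have hn0 : (0 : ℝ) < n := by linarith
  have hGl : ∀ x : ℝ, x ≤ 100 * (k + 1) * (c1 + 1) * n * (Real.log n + Real.log b) → x ≤ G :=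
    fun x hx => hx.trans hGa
  have hP1 : (0 : ℝ) ≤ k * c1 := by positivity
  have hsum : Real.log n ≤ Real.log n + Real.log b := by linarith
  -- hG0
  have hGexp0 : Real.exp (-G) ≤ 1 - lam := by
    refine le_trans ?_ hlb1
    have h2 : Real.log b ≤ G := by
      apply hGl
      have h3 : (1 : ℝ) ≤ 100 * (k + 1) * (c1 + 1) * n := by
        nlinarith only [mul_nonneg hP1 hn0.le, mul_nonneg hk0 hn0.le, mul_nonneg hc10 hn0.le, hn']
      have h4 : 0 ≤ Real.log n + Real.log b := by linarith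
      calc Real.log b ≤ 1 * (Real.log n + Real.log b) := by linarith
        _ ≤ _ := mul_le_mul_of_nonneg_right h3 h4
    calc Real.exp (-G) ≤ Real.exp (-(Real.log b)) := Real.exp_le_exp.mpr (by linarith)
      _ = 1 / b := by rw [Real.exp_neg, Real.exp_log hb0, one_div]
  have hGexp1 : Real.exp (-G) ≤ (lam * ((1 - lam) / 2)) ^ (Fintype.card κ * n) := by
    have h2 : 1 / b * (1 / b / 2) ≤ lam * ((1 - lam) / 2) := by
      gcongr
    have h3 : Real.exp (-(2 * Real.log b + 1)) ≤ 1 / b * (1 / b / 2) := by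
      have h4 : Real.exp (-(2 * Real.log b + 1)) = (1 / b) * (1 / b) * Real.exp (-1) := by
        rw [show -(2 * Real.log b + 1) = -Real.log b + -Real.log b + -1 by ring, Real.exp_add,
          Real.exp_add, Real.exp_neg (Real.log b), Real.exp_log hb0, one_div]
      rw [h4]
      have h5 : Real.exp (-1) ≤ 1 / 2 := by
        rw [Real.exp_neg, one_div]
        apply inv_anti₀ (by norm_num)
        have := Real.add_one_le_exp (1 : ℝ)
        linarith
      calc (1 / b) * (1 / b) * Real.exp (-1) ≤ (1 / b) * (1 / b) * (1 / 2) := by gcongr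
        _ = _ := by ring
    calc Real.exp (-G) ≤ Real.exp (-(2 * Real.log b + 1)) ^ (Fintype.card κ * n) := by
          rw [← Real.exp_nat_mul]
          apply Real.exp_le_exp.mpr
          rw [mul_neg]
          apply neg_le_neg
          apply hGl
          rw [hcard]
          push_cast
          have h6 : (1 : ℝ) ≤ 2 * (Real.log n + Real.log b) := by linarith
          have h7 : 2 * Real.log b + 1 ≤ 4 * (Real.log n + Real.log b) := by linarith
          have h8 : 0 ≤ Real.log n + Real.log b := by linarith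
          calc (k : ℝ) * n * (2 * Real.log b + 1) ≤ k * n * (4 * (Real.log n + Real.log b)) := by
                gcongr
            _ ≤ (100 * (k + 1) * (c1 + 1)) * n * (Real.log n + Real.log b) := by
                have h9 : (k : ℝ) * 4 ≤ 100 * (k + 1) * (c1 + 1) := by
                  nlinarith only [hP1, hk0, hc10]
                have h10 : 0 ≤ (n : ℝ) * (Real.log n + Real.log b) := by positivity
                calc (k : ℝ) * n * (4 * (Real.log n + Real.log b))
                    = (k * 4) * (n * (Real.log n + Real.log b)) := by ring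
                  _ ≤ (100 * (k + 1) * (c1 + 1)) * (n * (Real.log n + Real.log b)) :=
                    mul_le_mul_of_nonneg_right h9 h10
                  _ = _ := by ring
            _ = _ := by ring
      _ ≤ (1 / b * (1 / b / 2)) ^ (Fintype.card κ * n) := by gcongr
      _ ≤ _ := by gcongr
  -- hG2
  have hkn : ((Fintype.card κ * n : ℕ) : ℝ) = k * n := by rw [hcard]; push_cast; ring
  have hGexp2 : 2 * ((Fintype.card κ * n : ℕ) + 1 : ℝ) *
      (((Fintype.card κ).factorial : ℝ) * H ^ (Fintype.card κ)) ^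
        (2 * (Fintype.card κ * n) + 1) * Real.exp (-G) < 1 := by
    rw [hkn, hcard, ← hF, ← hH']
    have h2 : 2 * ((k : ℝ) * n + 1) ≤ Real.exp (2 * (k + 1) * n) := by
      have h3 := Real.add_one_le_exp (2 * ((k : ℝ) + 1) * n)
      nlinarith only [h3, mul_nonneg hk0 hn0.le, hn']
    have h4 : H' ^ (2 * (k * n) + 1) = Real.exp ((2 * (k * n) + 1 : ℕ) * Real.log H') := by
      rw [Real.exp_nat_mul, Real.exp_log hH'pos]
    have h5 : ((2 * (k * n) + 1 : ℕ) : ℝ) * Real.log H' ≤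
        (2 * (k * n) + 1) * (c1 * Real.log n) := by
      push_cast
      gcongr
    have h6 : 2 * (k + 1) * (n : ℝ) + (2 * (k * n) + 1) * (c1 * Real.log n) < G := by
      have h7 : (n : ℝ) ≤ 2 * (n * Real.log n) := by nlinarith only [hn0, hlogn]
      have h8 : (2 * ((k : ℝ) * n) + 1) ≤ 2 * (k + 1) * n := by nlinarith only [hn']
      have h9 : 0 ≤ c1 * Real.log n := by positivity
      have h10 : (2 * ((k : ℝ) * n) + 1) * (c1 * Real.log n) ≤ 2 * (k + 1) * n * (c1 * Real.log n) := by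
        gcongr
      have h11 : 2 * (k + 1) * (n : ℝ) ≤ 4 * (k + 1) * (n * Real.log n) := by
        nlinarith only [h7, hk0, mul_nonneg hk0 (sub_nonneg.2 h7)]
      have h12 : 0 < (k + 1) * ((n : ℝ) * Real.log n) := by positivity
      have h13 : 0 ≤ (k + 1) * c1 * ((n : ℝ) * Real.log n) := by positivity
      have h14 : 2 * (k + 1) * (n : ℝ) + (2 * (k * n) + 1) * (c1 * Real.log n) <
          100 * (k + 1) * (c1 + 1) * (n * Real.log n) := by
        nlinarith only [h10, h11, h12, h13]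
      refine lt_of_lt_of_le h14 (le_trans ?_ hGa)
      have h15 : 0 ≤ 100 * (k + 1) * (c1 + 1) * (n : ℝ) := by positivity
      calc 100 * (k + 1) * (c1 + 1) * ((n : ℝ) * Real.log n)
          = 100 * (k + 1) * (c1 + 1) * (n : ℝ) * Real.log n := by ring
        _ ≤ 100 * (k + 1) * (c1 + 1) * (n : ℝ) * (Real.log n + Real.log b) := by gcongr
    calc 2 * ((k : ℝ) * n + 1) * H' ^ (2 * (k * n) + 1) * Real.exp (-G)
        ≤ Real.exp (2 * (k + 1) * n) * Real.exp ((2 * (k * n) + 1) * (c1 * Real.log n)) *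
          Real.exp (-G) := by
          rw [h4]
          have := Real.exp_le_exp.mpr h5
          gcongr
      _ = Real.exp (2 * (k + 1) * n + (2 * (k * n) + 1) * (c1 * Real.log n) - G) := by
          rw [← Real.exp_add, ← Real.exp_add]
          congr 1
      _ < 1 := by
          rw [Real.exp_lt_one_iff] 
          linarith
  have hN' : G * (Fintype.card κ + 1) * (q + 1) ^ (Fintype.card κ) ≤ N := by
    refine le_trans ?_ hN
    rw [hcard, mul_assoc]
    apply mul_le_mul_of_nonneg_left _ hG0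
    rcases Nat.eq_zero_or_pos k with hk | hk
    · subst hk
      simp
    · have h2 : ((q : ℝ) + 1) ^ k ≤ (C * b * Real.log n / (k + 1)) ^ k :=
        pow_le_pow_left₀ (by positivity) hqC _
      have h3 : ((k : ℝ) + 1) ≤ (k + 1) ^ k := by
        calc ((k : ℝ) + 1) = (k + 1) ^ 1 := (pow_one _).symm
          _ ≤ (k + 1) ^ k := pow_le_pow_right₀ (by linarith) hk
      calc ((k : ℝ) + 1) * (q + 1) ^ k ≤ (k + 1) ^ k * (C * b * Real.log n / (k + 1)) ^ k := by
            gcongr
        _ = (C * b * Real.log n) ^ k := by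
            rw [← mul_pow]
            congr 1
            field_simp
  obtain ⟨z, hz1, hz2, hz3, hz4⟩ := exactness PP hH1 hdeg hl1 hlam0 hlam1 q hqk hG0 hGexp0
    hGexp1 hGexp2 hN'
  refine ⟨z, hz1, hz2, ?_, ?_⟩
  · rcases hz3 with h | ⟨e, R, J, he, h⟩
    · exact Or.inl h
    · exact Or.inr ⟨e, R, J, by rw [← hcard]; exact he, h⟩
  · intro t ht
    obtain ⟨t', h1, h2⟩ := hz4 t ht
    refine ⟨t', fun j => (h1 j).trans ?_, h2⟩
    apply mul_le_mul_of_nonneg_right _ (norm_nonneg t)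
    rw [hcard, ← hF, ← hH']
    -- 2 k^2 H' (1 + k n H) ≤ exp (G/2)
    have h3 : 2 * (k : ℝ) ^ 2 ≤ Real.exp (2 * (k + 1)) := by
      have := Real.quadratic_le_exp_of_nonneg (by positivity : (0 : ℝ) ≤ 2 * ((k : ℝ) + 1))
      nlinarith only [this, hk0]
    have h4 : H' ≤ Real.exp (c1 * Real.log n) := by
      calc H' = Real.exp (Real.log H') := (Real.exp_log hH'pos).symm
        _ ≤ _ := Real.exp_le_exp.mpr hlogH'
    have h5 : 1 + k * n * H ≤ Real.exp (k + 3 * Real.log n + 1) := by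
      have h6 : Real.exp (k + 3 * Real.log n + 1) = Real.exp (k + 1) * (n : ℝ) ^ 3 := by
        rw [show (k : ℝ) + 3 * Real.log n + 1 = (k + 1) + 3 * Real.log n by ring, Real.exp_add]
        congr 1
        rw [show (3 : ℝ) * Real.log n = ((3 : ℕ) : ℝ) * Real.log n by norm_num, Real.exp_nat_mul,
          Real.exp_log hn0]
      rw [h6, hH]
      have h7 := Real.add_one_le_exp ((k : ℝ) + 1)
      have h8 : (1 : ℝ) ≤ (n : ℝ) ^ 3 := one_le_pow₀ (by linarith)
      calc 1 + k * (n : ℝ) * (n : ℝ) ^ 2 = 1 + k * (n : ℝ) ^ 3 := by ring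
        _ ≤ (k + 1 + 1) * (n : ℝ) ^ 3 := by nlinarith only [h8, hk0]
        _ ≤ _ := by gcongr
    have h9 : 2 * (k + 1) + c1 * Real.log n + (k + 3 * Real.log n + 1) ≤ G / 2 := by
      have h10 : 2 * (2 * (k + 1) + c1 * Real.log n + (k + 3 * Real.log n + 1)) ≤
          100 * (k + 1) * (c1 + 1) * (n * Real.log n) := by
        have h11 : Real.log n ≤ n * Real.log n := by nlinarith only [hlogn, hn']
        have h12 : 1 ≤ n * Real.log n := by nlinarith only [hlogn, hn']
        have h13 : 0 ≤ (k : ℝ) * (n * Real.log n) := by positivity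
        have h14 : 0 ≤ c1 * ((n : ℝ) * Real.log n) := by positivity
        have h15 : 0 ≤ (k : ℝ) * c1 * ((n : ℝ) * Real.log n) := by positivity
        have h16 : c1 * Real.log n ≤ c1 * (n * Real.log n) := by gcongr
        have h17 : (k : ℝ) ≤ k * (n * Real.log n) := by nlinarith only [h12, hk0]
        nlinarith only [h11, h12, h13, h14, h15, h16, h17]
      have h18 : 100 * (k + 1) * (c1 + 1) * ((n : ℝ) * Real.log n) ≤ G := by
        refine le_trans ?_ hGa
        have h15 : 0 ≤ 100 * (k + 1) * (c1 + 1) * (n : ℝ) := by positivity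
        calc 100 * (k + 1) * (c1 + 1) * ((n : ℝ) * Real.log n)
            = 100 * (k + 1) * (c1 + 1) * (n : ℝ) * Real.log n := by ring
          _ ≤ 100 * (k + 1) * (c1 + 1) * (n : ℝ) * (Real.log n + Real.log b) := by gcongr
      linarith
    have hH0 : 0 ≤ 1 + k * n * H := by positivity
    calc 2 * (k : ℝ) ^ 2 * H' * (1 + k * n * H) * Real.exp (-G)
        ≤ Real.exp (2 * (k + 1)) * Real.exp (c1 * Real.log n) *
            Real.exp (k + 3 * Real.log n + 1) * Real.exp (-G) := by gcongr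
      _ = Real.exp ((2 * (k + 1) + c1 * Real.log n + (k + 3 * Real.log n + 1)) - G) := by
          rw [← Real.exp_add, ← Real.exp_add, ← Real.exp_add]
          congr 1
      _ ≤ Real.exp (-(G / 2)) := Real.exp_le_exp.mpr (by linarith)

end Crest.Agent.R98.Exact
end

-- ▼ part R98/KW1r
section

/-!
Row 98 (S0129): the exactness step of the final logic in rank one (`KW1r`).
-/

set_option autoImplicit false

namespace Crest.Agent.R98.Top

open Crest.AnalysisR Crest.Agent.R98 Crest.Agent.R98.Part Crest.Agent.R098.Upper Filter Topology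
  MeasureTheory Polynomial

set_option linter.unusedSectionVars false

variable {ι : Type*} [Fintype ι]

section poly

lemma l1_X_pow (k : ℕ) : Exact.l1 (X ^ k : ℤ[X]) ≤ 1 := by
  have h : (X ^ k : ℤ[X]).support ⊆ {k} := by
    intro i hi
    rw [Polynomial.mem_support_iff, Polynomial.coeff_X_pow] at hi
    simp only [Finset.mem_singleton]
    by_contra h
    exact hi (by simp [h])
  rw [Exact.l1_eq_of_subset h]
  simp

lemma l1_ratP (σ : ι → ℝ) (a : ι → ℕ) (i : ι) : Exact.l1 (ratP σ a i) ≤ 1 := by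
  unfold ratP
  split_ifs
  · rw [neg_mul, one_mul, Exact.l1_neg]
    exact l1_X_pow _
  · rw [one_mul]
    exact l1_X_pow _

lemma natDegree_ratP (σ : ι → ℝ) (a : ι → ℕ) (i : ι) : (ratP σ a i).natDegree ≤ a i := by
  unfold ratP
  split_ifs
  · rw [neg_mul, one_mul, Polynomial.natDegree_neg]
    exact Polynomial.natDegree_X_pow_le _
  · rw [one_mul]
    exact Polynomial.natDegree_X_pow_le _

lemma l1_cw_ratP (σ : ι → ℝ) (a : ι → ℕ) {m : ℕ} (u : Fin m → ι) (i : ι) :
    Exact.l1 (cw (ratP σ a) u i) ≤ m := by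
  classical
  induction m with
  | zero => simp
  | succ m ih =>
    obtain ⟨b, u, rfl⟩ := exists_cons u
    rw [cw_cons]
    refine (Exact.l1_add _ _).trans ?_
    have h1 : Exact.l1 (if b = i then 1 else 0 : ℤ[X]) ≤ 1 := by
      split_ifs <;> simp
    have h2 : Exact.l1 (ratP σ a b * cw (ratP σ a) u i) ≤ 1 * m := by
      refine (Exact.l1_mul _ _).trans ?_
      exact mul_le_mul (l1_ratP σ a b) (ih u) (Exact.l1_nonneg _) zero_le_one
    push_cast
    linarith

lemma natDegree_cw_ratP (σ : ι → ℝ) (a : ι → ℕ) {B : ℕ} (hB : ∀ i, a i ≤ B) {m : ℕ}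
    (u : Fin m → ι) (i : ι) : (cw (ratP σ a) u i).natDegree ≤ B * m := by
  classical
  induction m with
  | zero => simp
  | succ m ih =>
    obtain ⟨b, u, rfl⟩ := exists_cons u
    rw [cw_cons]
    refine (Polynomial.natDegree_add_le _ _).trans (max_le ?_ ?_)
    · split_ifs <;> simp
    · refine Polynomial.natDegree_mul_le.trans ?_
      have h1 := natDegree_ratP σ a b
      have h2 := ih u
      have h3 := hB b
      calc _ ≤ B + B * m := by omega
        _ = B * (m + 1) := by ring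

lemma aeval_ratP {σ : ι → ℝ} (hσ : IsS σ) (a : ι → ℕ) (z : ℂ) (i : ι) :
    aeval z (ratP σ a i) = (σ i : ℂ) * z ^ a i := by
  unfold ratP
  rcases hσ i with h | h
  · rw [h]
    norm_num
  · rw [h]
    norm_num

lemma aeval_cw_ratP {σ : ι → ℝ} (hσ : IsS σ) (a : ι → ℕ) (z : ℂ) {m : ℕ} (u : Fin m → ι) (i : ι) :
    aeval z (cw (ratP σ a) u i) = cw (fun i => (σ i : ℂ) * z ^ a i) u i := by
  have h := map_cw ((aeval z : ℤ[X] →ₐ[ℤ] ℂ) : ℤ[X] →+* ℂ) (ratP σ a) u i
  have h2 : (fun i => ((aeval z : ℤ[X] →ₐ[ℤ] ℂ) : ℤ[X] →+* ℂ) (ratP σ a i)) =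
      fun i => (σ i : ℂ) * z ^ a i := by
    funext i
    exact aeval_ratP hσ a z i
  rw [h2] at h
  exact h

lemma aeval_difP {σ : ι → ℝ} (hσ : IsS σ) (a : ι → ℕ) (z : ℂ) {m : ℕ} (u v : Fin m → ι) (i : ι) :
    aeval z (difP σ a u v i) = cw (fun i => (σ i : ℂ) * z ^ a i) u i -
      cw (fun i => (σ i : ℂ) * z ^ a i) v i := by
  unfold difP
  rw [map_sub, aeval_cw_ratP hσ, aeval_cw_ratP hσ]

lemma rayc_eq (σ : ι → ℝ) (a : ι → ℕ) (θ : ℝ) (s : ℂ) :
    rayc σ (fun i => a i * θ) s = fun i => (σ i : ℂ) * (Complex.exp (-(1 + s) * θ)) ^ a i := by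
  funext i
  unfold rayc
  rw [← Complex.exp_nat_mul]
  congr 2
  push_cast
  ring

lemma rr_eq (σ : ι → ℝ) (a : ι → ℕ) (θ : ℝ) :
    (fun i => ((rr σ (fun i => a i * θ) i : ℝ) : ℂ)) =
      fun i => (σ i : ℂ) * ((Real.exp (-θ) : ℝ) : ℂ) ^ a i := by
  funext i
  unfold rr
  push_cast
  rw [← Complex.exp_nat_mul]
  congr 2
  ring

lemma ofReal_cw (r : ι → ℝ) {m : ℕ} (u : Fin m → ι) (i : ι) :
    ((cw r u i : ℝ) : ℂ) = cw (fun i => (r i : ℂ)) u i := by
  have h := map_cw Complex.ofRealHom r u i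
  simpa using h

lemma sum_difP_real {σ : ι → ℝ} (hσ : IsS σ) (a : ι → ℕ) (θ : ℝ) {m : ℕ} (u v : Fin m → ι)
    (t : ι → ℝ) : ∑ j, (t j : ℂ) * aeval ((Real.exp (-θ) : ℝ) : ℂ) (difP σ a u v j) =
      ((cdot (rr σ (fun i => a i * θ)) t u - cdot (rr σ (fun i => a i * θ)) t v : ℝ) : ℂ) := by
  unfold cdot
  simp only [Complex.ofReal_sub, Complex.ofReal_sum, Complex.ofReal_mul]
  rw [← Finset.sum_sub_distrib]
  refine Finset.sum_congr rfl fun j _ => ?_
  rw [aeval_difP hσ, ofReal_cw, ofReal_cw, rr_eq]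
  ring

end poly

/-- the complex parameter `s` attached to a point `z` near `exp (-θ)` -/
lemma exists_param {θ : ℝ} (hθ : 0 < θ) {z : ℂ} {δ : ℝ}
    (hz : ‖z - ((Real.exp (-θ) : ℝ) : ℂ)‖ ≤ δ) (hδ : δ * Real.exp θ ≤ 1 / 2) :
    ∃ s : ℂ, Complex.exp (-(1 + s) * θ) = z ∧ ‖s‖ ≤ 2 * Real.exp θ / θ * δ ∧
      (z = ((Real.exp (-θ) : ℝ) : ℂ) → s = 0) := by
  set w : ℂ := (z - ((Real.exp (-θ) : ℝ) : ℂ)) * ((Real.exp θ : ℝ) : ℂ) with hw
  have hee : ((Real.exp (-θ) : ℝ) : ℂ) * ((Real.exp θ : ℝ) : ℂ) = 1 := by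
    rw [← Complex.ofReal_mul, ← Real.exp_add]
    simp
  have hwn : ‖w‖ ≤ δ * Real.exp θ := by
    rw [hw, norm_mul, Complex.norm_real, Real.norm_of_nonneg (Real.exp_pos _).le]
    gcongr
  have hw1 : ‖w‖ ≤ 1 / 2 := hwn.trans hδ
  have h1w : (1 + w) ≠ 0 := by
    intro h
    have h2 : w = -1 := by linear_combination h
    rw [h2] at hw1
    norm_num at hw1
  have hz1 : z = ((Real.exp (-θ) : ℝ) : ℂ) * (1 + w) := by
    rw [hw]
    linear_combination (-(z - ((Real.exp (-θ) : ℝ) : ℂ))) * hee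
  have hθc : (θ : ℂ) ≠ 0 := by exact_mod_cast hθ.ne'
  refine ⟨-Complex.log (1 + w) / θ, ?_, ?_, ?_⟩
  · have h3 : -(1 + -Complex.log (1 + w) / (θ : ℂ)) * θ = -θ + Complex.log (1 + w) := by
      field_simp
      ring
    rw [h3, Complex.exp_add, Complex.exp_log h1w, hz1]
    push_cast
    rfl
  · rw [norm_div, norm_neg, Complex.norm_real, Real.norm_of_nonneg hθ.le, div_le_iff₀ hθ]
    have h4 := Complex.norm_log_one_add_half_le_self hw1
    have h5 : ‖Complex.log (1 + w)‖ ≤ 2 * (δ * Real.exp θ) := by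
      have h6 : (0 : ℝ) ≤ δ * Real.exp θ := (norm_nonneg _).trans hwn
      calc ‖Complex.log (1 + w)‖ ≤ 3 / 2 * ‖w‖ := h4
        _ ≤ 3 / 2 * (δ * Real.exp θ) := by gcongr
        _ ≤ _ := by linarith
    calc ‖Complex.log (1 + w)‖ ≤ 2 * (δ * Real.exp θ) := h5
      _ = 2 * Real.exp θ / θ * δ * θ := by field_simp
  · intro h
    have h6 : w = 0 := by rw [hw, h, sub_self, zero_mul]
    rw [h6]
    simp

/-- the exactness step in rank one -/
theorem kw1r {σ : ι → ℝ} (hσ : IsS σ) (a : ι → ℕ) (_ha : ∀ i, 1 ≤ a i) {θ : ℝ} (hθ : 0 < θ)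
    (t : ι → ℝ) (W : Submodule ℝ (ι → ℝ)) (C₅ : ℝ)
    (hBC : BC2 (rr σ fun i => a i * θ) t W (fun m => m) C₅) :
    ∀ᶠ m : ℕ in atTop, ∃ (s : ℂ) (K : Submodule ℂ (ι → ℂ)),
      Apx σ (fun i => a i * θ) t W m ((m : ℝ) * (Real.log m) ^ (Fintype.card ι + 4)) 0 0
        (m * Real.log m) s K ∧ (s = 0 ∨ Complex.exp (-(1 + s) * θ) ∈ Cand σ a m) := by
  classical
  set k := Fintype.card ι with hk
  obtain ⟨C, hC1, hC⟩ := Exact.exactness_asymp k
  -- constants
  set lam : ℝ := Real.exp (-θ) with hlam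
  have hlam0 : 0 < lam := Real.exp_pos _
  have hlam1 : lam < 1 := by rw [hlam]; exact Real.exp_lt_one_iff.mpr (by linarith)
  set b : ℝ := max (1 / lam) (1 / (1 - lam)) with hb
  have hb1 : 1 ≤ b := by
    refine le_trans ?_ (le_max_left _ _)
    rw [le_div_iff₀ hlam0]
    linarith
  have hb0 : 0 < b := by linarith
  have hbl : 1 / b ≤ lam := by
    rw [div_le_iff₀ hb0]
    calc (1 : ℝ) = lam * (1 / lam) := by field_simp
      _ ≤ lam * b := by gcongr; exact le_max_left _ _
  have hbl1 : 1 / b ≤ 1 - lam := by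
    have h1 : 0 < 1 - lam := by linarith
    rw [div_le_iff₀ hb0]
    calc (1 : ℝ) = (1 - lam) * (1 / (1 - lam)) := by field_simp
      _ ≤ (1 - lam) * b := by gcongr; exact le_max_right _ _
  set B : ℕ := ∑ i, a i with hB
  have haB : ∀ i, a i ≤ B := fun i => Finset.single_le_sum (f := a) (fun _ _ => Nat.zero_le _)
    (Finset.mem_univ i)
  set A' : ℕ := B + 2 with hA'
  have hA'2 : (2 : ℝ) ≤ (A' : ℝ) := by rw [hA']; push_cast; linarith [(Nat.cast_nonneg B : (0 : ℝ) ≤ B)]
  have hlogA : 0 ≤ Real.log A' := Real.log_nonneg (by linarith)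
  have hlogb : 0 ≤ Real.log b := Real.log_nonneg hb1
  set D : ℝ := (C * b * (Real.log A' + 1)) ^ k with hD
  have hD0 : 0 ≤ D := by positivity
  set c3 : ℝ := 2 * Real.exp θ / θ with hc3
  have hc30 : 0 < c3 := by positivity
  -- eventual largeness of log m
  have hlog : ∀ x : ℝ, ∀ᶠ m : ℕ in atTop, x ≤ Real.log m := fun x =>
    (Real.tendsto_log_atTop.comp tendsto_natCast_atTop_atTop).eventually_ge_atTop x
  filter_upwards [hBC, hlog 1, hlog (C * A' * (Real.log A' + Real.log b + 1)),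
    hlog (2 * D + |C₅| + 1), hlog (|Real.log c3| + 1), hlog (θ + 1),
    eventually_ge_atTop 1] with m hBCm hL1 hL2 hL3 hL4 hL5 hm1
  set L : ℝ := Real.log m with hL
  have hm0 : (1 : ℝ) ≤ m := by exact_mod_cast hm1
  set n : ℕ := A' * m with hn
  have hncast : (n : ℝ) = A' * m := by rw [hn]; push_cast; ring
  have hn2 : 2 ≤ n := by
    rw [hn, hA']
    nlinarith
  have hlogn : Real.log n = Real.log A' + L := by
    rw [hncast, Real.log_mul (by linarith) (by linarith)]
  set G : ℝ := 2 * m * L ^ 2 with hG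
  set X : ℝ := (m : ℝ) * L ^ (k + 4) with hX
  set N : ℝ := X - C₅ * m with hN
  have hG1 : C * n * (Real.log n + Real.log b) ≤ G := by
    rw [hlogn, hncast, hG]
    have h1 : Real.log A' + L + Real.log b ≤ (Real.log A' + Real.log b + 1) * L := by
      nlinarith only [hlogA, hlogb, hL1]
    have h2 : C * A' * (Real.log A' + L + Real.log b) ≤ L * L := by
      calc C * A' * (Real.log A' + L + Real.log b)
          ≤ C * A' * ((Real.log A' + Real.log b + 1) * L) := by gcongr
        _ = (C * A' * (Real.log A' + Real.log b + 1)) * L := by ring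
        _ ≤ L * L := by gcongr
    calc C * (A' * m) * (Real.log A' + L + Real.log b)
        = m * (C * A' * (Real.log A' + L + Real.log b)) := by ring
      _ ≤ m * (L * L) := by gcongr
      _ ≤ 2 * m * L ^ 2 := by nlinarith only [hm0, hL1, mul_nonneg (by linarith : (0 : ℝ) ≤ m) (sq_nonneg L)]
  have hL0 : 0 ≤ L := by linarith
  have hN1 : G * (C * b * Real.log n) ^ k ≤ N := by
    have h1 : C * b * Real.log n ≤ C * b * (Real.log A' + 1) * L := by
      rw [hlogn]
      have h2 : Real.log A' + L ≤ (Real.log A' + 1) * L := by nlinarith only [hlogA, hL1]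
      calc C * b * (Real.log A' + L) ≤ C * b * ((Real.log A' + 1) * L) := by gcongr
        _ = _ := by ring
    have h3 : (C * b * Real.log n) ^ k ≤ D * L ^ k := by
      rw [hD, ← mul_pow]
      apply pow_le_pow_left₀ _ h1
      rw [hlogn]
      positivity
    have h4 : G * (C * b * Real.log n) ^ k ≤ 2 * D * (m * L ^ (k + 2)) := by
      calc G * (C * b * Real.log n) ^ k ≤ G * (D * L ^ k) := by gcongr
        _ = 2 * D * (m * L ^ (k + 2)) := by rw [hG]; ring
    have h5 : C₅ * m ≤ |C₅| * (m * L ^ (k + 2)) := by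
      have h6 : (1 : ℝ) ≤ L ^ (k + 2) := one_le_pow₀ hL1
      calc C₅ * m ≤ |C₅| * m := by gcongr; exact le_abs_self _
        _ ≤ |C₅| * (m * L ^ (k + 2)) := by
          gcongr
          exact le_mul_of_one_le_right (by linarith) h6
    have h7 : (2 * D + |C₅|) * (m * L ^ (k + 2)) ≤ X := by
      have h8 : 2 * D + |C₅| ≤ L ^ 2 := by nlinarith only [hL3, hL1]
      calc (2 * D + |C₅|) * (m * L ^ (k + 2)) ≤ L ^ 2 * (m * L ^ (k + 2)) := by gcongr
        _ = X := by rw [hX]; ring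
    rw [hN]
    linarith
  -- the family of near pairs
  set PP : Set (ι → ℤ[X]) := {P | ∃ u v : Fin m → ι,
    Near (rr σ fun i => a i * θ) t X u v ∧ P = difP σ a u v} with hPP
  have hdeg : ∀ P ∈ PP, ∀ j, (P j).natDegree ≤ n := by
    rintro P ⟨u, v, _, rfl⟩ j
    unfold difP
    refine (Polynomial.natDegree_sub_le _ _).trans (max_le ?_ ?_)
    · refine (natDegree_cw_ratP σ a haB u j).trans ?_
      rw [hn, hA']
      exact Nat.mul_le_mul_right m (by omega)
    · refine (natDegree_cw_ratP σ a haB v j).trans ?_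
      rw [hn, hA']
      exact Nat.mul_le_mul_right m (by omega)
  have hl1 : ∀ P ∈ PP, ∀ j, Exact.l1 (P j) ≤ (n : ℝ) ^ 2 := by
    rintro P ⟨u, v, _, rfl⟩ j
    unfold difP
    rw [sub_eq_add_neg]
    refine (Exact.l1_add _ _).trans ?_
    rw [Exact.l1_neg]
    have h1 := l1_cw_ratP σ a u j
    have h2 := l1_cw_ratP σ a v j
    have h3 : (2 : ℝ) * m ≤ n := by rw [hncast]; nlinarith only [hA'2, hm0]
    have h4 : (1 : ℝ) ≤ n := by linarith
    nlinarith only [h1, h2, h3, h4]
  obtain ⟨z, hz1, hz2, hz3, hz4⟩ := hC ι hk.symm n hn2 b hb1 lam hbl hbl1 G N hG1 hN1 PP hdeg hl1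
  -- the parameter s
  have hmL : L ≤ m * L := le_mul_of_one_le_left hL0 hm0
  have hmL2 : m * L ≤ m * L ^ 2 := by
    have : L ≤ L ^ 2 := by nlinarith only [hL1]
    gcongr
  have hGbig : θ + 1 ≤ G := by
    rw [hG]
    nlinarith only [hL5, hmL, hmL2, mul_nonneg (by linarith : (0 : ℝ) ≤ m) (sq_nonneg L)]
  obtain ⟨s, hs1, hs2, hs3⟩ := exists_param hθ hz1 (by
    rw [← Real.exp_add]
    have h1 : Real.exp (-G + θ) ≤ Real.exp (-1) := Real.exp_le_exp.mpr (by linarith)
    have h2 : Real.exp (-1) ≤ 1 / 2 := by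
      rw [Real.exp_neg, one_div]
      apply inv_anti₀ (by norm_num)
      have := Real.add_one_le_exp (1 : ℝ)
      linarith
    exact h1.trans h2)
  let K : Submodule ℂ (ι → ℂ) :=
    { carrier := {t' | ∀ P ∈ PP, ∑ j, t' j * aeval z (P j) = 0}
      add_mem' := by
        intro x y hx hy P hP
        simp only [Pi.add_apply, add_mul, Finset.sum_add_distrib, hx P hP, hy P hP, add_zero]
      zero_mem' := by
        intro P _
        simp
      smul_mem' := by
        intro c x hx P hP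
        simp only [Pi.smul_apply, smul_eq_mul, mul_assoc, ← Finset.mul_sum, hx P hP, mul_zero] }
  refine ⟨s, K, ⟨?_, ?_, ?_⟩, ?_⟩
  · refine hs2.trans ?_
    rw [← hc3]
    have h1 : c3 ≤ Real.exp (m * L) := by
      calc c3 = Real.exp (Real.log c3) := (Real.exp_log hc30).symm
        _ ≤ _ := Real.exp_le_exp.mpr (by
          have := le_abs_self (Real.log c3)
          linarith)
    calc c3 * Real.exp (-G) ≤ Real.exp (m * L) * Real.exp (-G) := by gcongr
      _ = Real.exp (m * L - G) := by rw [← Real.exp_add]; congr 1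
      _ ≤ Real.exp (-(m * L)) := Real.exp_le_exp.mpr (by rw [hG]; linarith)
  · intro t' ht' u v huv
    have h1 := ht' (difP σ a u v) ⟨u, v, huv, rfl⟩
    rw [rayc_eq, hs1]
    have h2 : ∑ i, (cw (fun i => (σ i : ℂ) * z ^ a i) u i - cw (fun i => (σ i : ℂ) * z ^ a i) v i) *
        t' i = 0 := by
      rw [← h1]
      refine Finset.sum_congr rfl fun j _ => ?_
      rw [aeval_difP hσ]
      ring
    rw [h2, norm_zero]
    simp
  · intro t' ht'
    obtain ⟨t'', h1, h2⟩ := hz4 t' (by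
      rintro P ⟨u, v, huv, rfl⟩
      rw [sum_difP_real hσ, Complex.norm_real, Real.norm_eq_abs]
      have h3 := hBCm u v t' ht'
      refine h3.trans ?_
      have h4 : Real.exp (C₅ * m) * |cdot (rr σ fun i => a i * θ) t u -
          cdot (rr σ fun i => a i * θ) t v| ≤ Real.exp (-N) := by
        calc _ ≤ Real.exp (C₅ * m) * Real.exp (-X) := by
              gcongr
              exact huv.2
          _ = Real.exp (-N) := by
              rw [← Real.exp_add, hN]
              congr 1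
              ring
      gcongr)
    refine ⟨t'', h2, fun i => (h1 i).trans ?_⟩
    apply mul_le_mul_of_nonneg_right _ (norm_nonneg t')
    apply Real.exp_le_exp.mpr
    rw [hG]
    linarith
  · rcases hz3 with h | ⟨e, R, J, he, hR, hne, hroot⟩
    · exact Or.inl (hs3 h)
    · right
      rw [hs1]
      refine ⟨e, R, J, he, ?_, hne, hroot⟩
      intro i
      obtain ⟨u, v, _, huv⟩ := hR i
      exact ⟨u, v, huv⟩

end Crest.Agent.R98.Top
end

-- ▼ part R98/RMainOf
section

/-!
Row 98 (S0129). Case R from its two inputs: (UNI) and the near coincidences (helper803).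
-/

set_option autoImplicit false

namespace Crest.Agent.R98.Top

open Crest.AnalysisR Crest.Agent.R98 Crest.Agent.R98.Part Crest.Agent.R098.Upper Filter Topology
  MeasureTheory

universe u

/-- near coincidences (T1) -/
def NCP {ι : Type*} [Fintype ι] [MeasurableSpace ι] (p σ : ι → ℝ) : Prop :=
  ∀ ℓ t : ι → ℝ, (∀ i, 0 < ℓ i) → al p σ ℓ t < chi p ℓ → ∀ ε > 0, ∃ᶠ m : ℕ in atTop,
    HS (pw p : (Fin m → ι) → ℝ) (Cl (rr σ ℓ) t m (lv ι m)) ≤ (al p σ ℓ t + ε) * m

lemma rr_sign {ι : Type*} {r ℓ : ι → ℝ} (hr : ∀ i, r i ≠ 0 ∧ |r i| < 1)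
    (hℓ : ∀ i, -Real.log |r i| = ℓ i) : rr (fun i => Real.sign (r i)) ℓ = r := by
  funext i
  unfold rr
  rw [← hℓ i, neg_neg, Real.exp_log (abs_pos.mpr (hr i).1)]
  show Real.sign (r i) * |r i| = r i
  rcases lt_or_gt_of_ne (hr i).1 with h | h
  · rw [Real.sign_of_neg h, abs_of_neg h]; ring
  · rw [Real.sign_of_pos h, abs_of_pos h]; ring

lemma isS_sign' {ι : Type*} {r : ι → ℝ} (hr : ∀ i, r i ≠ 0 ∧ |r i| < 1) :
    IsS fun i => Real.sign (r i) := by
  intro i
  rcases lt_or_gt_of_ne (hr i).1 with h | h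
  · exact Or.inr (Real.sign_of_neg h)
  · exact Or.inl (Real.sign_of_pos h)

/-- case R from its inputs -/
theorem rmain_of
    (hU : ∀ (ι : Type u) [Fintype ι] [Nonempty ι] [MeasurableSpace ι] [DiscreteMeasurableSpace ι]
      (p σ : ι → ℝ), (∀ i, 0 < p i) → ∑ i, p i = 1 → IsS σ →
      ∀ ℓ t : ι → ℝ, (∀ i, 0 < ℓ i) → F.alpha p (Pi (rr σ ℓ) t) < chi p ℓ → UniP p σ ℓ t)
    (hNC : ∀ (ι : Type u) [Fintype ι] [Nonempty ι] [MeasurableSpace ι]
      [DiscreteMeasurableSpace ι] (p σ : ι → ℝ), (∀ i, 0 < p i) → ∑ i, p i = 1 → IsS σ →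
      NCP p σ) :
    RMain.{u} := by
  intro ι _ _ r t p μ hr hp hp1 hμ hirr
  let _ : MeasurableSpace ι := ⊤
  have : DiscreteMeasurableSpace ι := ⟨fun _ => trivial⟩
  obtain ⟨β, a, hβ, ha, hl⟩ := exists_int_ratio hr hirr
  by_contra hgoal
  obtain ⟨D, C, -, -, -, -, -, -, -, -, h1, h2⟩ := ctr_of_not_goal hr hp hp1 hμ hgoal
  set σ : ι → ℝ := fun i => Real.sign (r i) with hσdef
  have hσ : IsS σ := isS_sign' hr
  have hrr : rr σ (fun i => a i * β) = r := rr_sign hr hl
  have hp0 : ∀ i, 0 ≤ p i := fun i => (hp i).le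
  have hPV : (∀ i, 0 ≤ p i) ∧ ∑ i, p i = 1 := ⟨hp0, hp1⟩
  have hl' : (fun i => -Real.log |r i|) = fun i => (a i : ℝ) * β := funext hl
  rw [hl'] at h1
  have hU' := hU ι p σ hp hp1 hσ
  refine rank_one hp0 hp1 (mkCore hPV hσ (ltP_of_uni hPV hσ hU') (stP_of_uni hPV hσ hU')) a
    (fun i => ha i) hβ (ae_cand_away σ a hβ)
    (fun θ' hθ' t' W C₅ hBC => kw1r hσ a (fun i => ha i) hθ' t' W C₅ hBC)
    (hNC ι p σ hp hp1 hσ) t ⟨?_, ?_⟩
  · show F.alpha p (Pi (rr σ fun i => a i * β) t) < chi p fun i => a i * β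
    rw [hrr]
    exact h1
  · show F.alpha p (Pi (rr σ fun i => a i * β) t) < hX p (rr σ fun i => a i * β) t
    rw [hrr]
    exact h2

end Crest.Agent.R98.Top
end

-- ▼ part R98/RMainUni

/-!
Row 98 (S0129). Case R from (UNI) alone (helper803).
-/

set_option autoImplicit false

namespace Crest.Agent.R98.Top

open Crest.AnalysisR Crest.Agent.R98 Crest.Agent.R98.Part Crest.Agent.R098.Upper Filter Topology
  MeasureTheory

universe u

/-- near coincidences in the shape of `rmain_of` -/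
theorem ncP {ι : Type*} [Fintype ι] [Nonempty ι] [MeasurableSpace ι] [DiscreteMeasurableSpace ι]
    {p σ : ι → ℝ} (hp : ∀ i, 0 < p i) (hp1 : ∑ i, p i = 1) (hσ : IsS σ) : NCP p σ := by
  intro ℓ t hℓ hα ε hε
  exact NC.near_rr hp hp1 hσ hℓ hα (Fintype.card ι + 3) hε

/-- case R from (UNI) -/
theorem rmain_of_uni
    (hU : ∀ (ι : Type u) [Fintype ι] [Nonempty ι] [MeasurableSpace ι] [DiscreteMeasurableSpace ι]
      (p σ : ι → ℝ), (∀ i, 0 < p i) → ∑ i, p i = 1 → IsS σ →
      ∀ ℓ t : ι → ℝ, (∀ i, 0 < ℓ i) → F.alpha p (Pi (rr σ ℓ) t) < chi p ℓ → UniP p σ ℓ t) :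
    RMain.{u} :=
  rmain_of hU fun _ => fun _ _ hp hp1 hσ => ncP hp hp1 hσ

end Crest.Agent.R98.Top
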