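import Crest.Agent.R98.UniD
import Crest.Agent.R98.FC
import Crest.Agent.R98.EndDefs
import Crest.Agent.R98.FDMesh
import Crest.Agent.R98.Word5
import Crest.Agent.R98.CoreMk
import Crest.Agent.R98.NCFinal
import Crest.Agent.R98.EndJet
import Crest.Agent.R98.RMainUni

-- ▼ part R98/UniE
section

/-!
Row 98, module UNI (helper549), part E: the core contradiction.
-/

set_option autoImplicit false

namespace Crest.Agent.R98

open Finset MeasureTheory Filter Crest.AnalysisR Crest.Agent.R98.Part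
open scoped Topology

section Core

variable {ι : Type*} [Fintype ι] [Nonempty ι] [MeasurableSpace ι] [DiscreteMeasurableSpace ι]

/-- a unit functional vanishing on the complement is killed by measurability -/
lemma xi_zero {σ ℓ p t : ι → ℝ} {J : ℕ} {ξ : EJ ι J →L[ℝ] ℂ}
    (hπ : ∀ v, ξ ((VJ σ ℓ p t J).starProjection v) = 0)
    (hF : ∀ φ : ℂ →L[ℝ] ℝ, Fac p (Pi (rayR σ ℓ 0) t) fun w => φ (ξ (ji σ ℓ J w))) : ξ = 0 := by
  have key : ∀ φ : ℂ →L[ℝ] ℝ, φ.comp ξ = 0 := by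
    intro φ
    set a := (InnerProductSpace.toDual ℝ (EJ ι J)).symm (φ.comp ξ) with ha
    have h1 : ∀ v, inner ℝ a v = φ (ξ v) := by
      intro v
      rw [ha, InnerProductSpace.toDual_symm_apply]
      rfl
    have h2 : a ∈ VJ σ ℓ p t J := by
      rw [mem_VJ]
      refine (hF φ).congr (Eventually.of_forall fun w => ?_)
      exact (h1 _).symm
    have h3 : inner ℝ a a = (0 : ℝ) := by
      rw [h1 a, ← Submodule.starProjection_eq_self_iff.2 h2, hπ, map_zero]
    have h4 : a = 0 := inner_self_eq_zero.1 h3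
    refine ContinuousLinearMap.ext fun v => ?_
    rw [ContinuousLinearMap.comp_apply, ← h1 v, h4]
    simp
  refine ContinuousLinearMap.ext fun v => ?_
  have h1 := DFunLike.congr_fun (key Complex.reCLM) v
  have h2 := DFunLike.congr_fun (key Complex.imCLM) v
  exact Complex.ext h1 h2

end Core

section Step

variable {ι : Type*} [Fintype ι] [Nonempty ι] [MeasurableSpace ι] [DiscreteMeasurableSpace ι]

/-- submodularity and the join bound at one level -/
lemma join_step {σ ℓ p : ι → ℝ} (hp : (∀ i, 0 ≤ p i) ∧ ∑ i, p i = 1) {n : ℕ}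
    {A R : Setoid (Fin n → ι)} {w : ι → ℝ} {e a b c χ : ℝ} (he : 0 ≤ e)
    (hA : ∀ u v, A u v → |∑ i, cw (rayR σ ℓ 0) u i * w i - ∑ i, cw (rayR σ ℓ 0) v i * w i| ≤ e)
    (hR : ∀ u v, R u v → |∑ i, cw (rayR σ ℓ 0) u i * w i - ∑ i, cw (rayR σ ℓ 0) v i * w i| ≤ e)
    (hcard : (Fintype.card (Fin n → ι) : ℝ) * e ≤ Real.exp (-(χ * n)))
    (hlow : ∀ S : Setoid (Fin n → ι),
      (∀ u v, S u v → |∑ i, cw (rayR σ ℓ 0) u i * w i - ∑ i, cw (rayR σ ℓ 0) v i * w i| ≤
        Real.exp (-(χ * n))) → c ≤ HW p S)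
    (hHA : HW p A ≤ a) (hHR : HW p R ≤ b) : HW p (A ⊓ R) ≤ a + b - c := by
  have h1 : c ≤ HW p (A ⊔ R) := by
    refine hlow _ fun u v huv => ?_
    have h := dist_le_of_sup (s := A) (t := R)
      (v := fun u : Fin n → ι => ∑ i, cw (rayR σ ℓ 0) u i * w i) he
      (fun u v h => by rw [Real.dist_eq]; exact hA u v h)
      (fun u v h => by rw [Real.dist_eq]; exact hR u v h) huv
    rw [Real.dist_eq] at h
    exact h.trans hcard
  have h2 := HW_sup_add_inf_le hp.1 A R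
  linarith

end Step

section Main

variable {ι : Type*} [Fintype ι] [Nonempty ι] [MeasurableSpace ι] [DiscreteMeasurableSpace ι]

/-- constants: `K e^{-C₀ n} ≤ e^{-χ n}` and `k^n K e^{-C₀ n} ≤ e^{-χ n}` -/
lemma const_step {χ : ℝ} {k : ℕ} (hk : 1 ≤ k) {n : ℕ} {K x : ℝ} (hK : K ≤ Real.exp n)
    (hx0 : 0 ≤ x) (hx : x ≤ Real.exp (-((χ + Real.log k + 1) * n))) :
    K * x ≤ Real.exp (-(χ * n)) ∧ ((k : ℝ) ^ n) * (K * x) ≤ Real.exp (-(χ * n)) := by
  have hk0 : (0 : ℝ) < k := by exact_mod_cast hk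
  have hlog : 0 ≤ Real.log k := Real.log_nonneg (by exact_mod_cast hk)
  have e1 : (k : ℝ) ^ n = Real.exp (Real.log k * n) := by
    rw [mul_comm, Real.exp_nat_mul, Real.exp_log hk0]
  have h1 : (k : ℝ) ^ n * (K * x) ≤ Real.exp (-(χ * n)) := by
    calc (k : ℝ) ^ n * (K * x) ≤ (k : ℝ) ^ n * (Real.exp n * x) := by gcongr
      _ ≤ (k : ℝ) ^ n * (Real.exp n * Real.exp (-((χ + Real.log k + 1) * n))) := by gcongr
      _ = Real.exp (-(χ * n)) := by
          rw [e1, ← Real.exp_add, ← Real.exp_add]; congr 1; ring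
  refine ⟨?_, h1⟩
  rcases le_or_gt (K * x) 0 with h | h
  · exact h.trans (Real.exp_pos _).le
  · refine le_trans ?_ h1
    have : (1 : ℝ) ≤ (k : ℝ) ^ n := one_le_pow₀ (by exact_mod_cast hk)
    nlinarith

/-- the core of UNI -/
theorem uni_core {σ ℓ p t : ι → ℝ} (hσ : ∀ i, |σ i| ≤ 1) {ℓ0 : ℝ} (hℓ : ∀ i, ℓ0 ≤ ℓ i)
    (h0 : 0 < ℓ0) (hp : (∀ i, 0 ≤ p i) ∧ ∑ i, p i = 1) {α χ : ℝ} (hχ : 0 ≤ χ) (J : ℕ)
    (hst : ∀ a ∈ VJ σ ℓ p t J, shT J a ∈ VJ σ ℓ p t J)
    (hR : SoftR σ ℓ p t α J) (hL : SoftL σ ℓ p t α χ) (hF : SoftF σ ℓ p t α χ (ℂ × EJ ι J))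
    {m : ℕ → ℕ} (hm : Tendsto m atTop atTop) {s : ℕ → ℂ} (hs : Tendsto s atTop (𝓝 0))
    {τ : ℕ → ι → ℂ} (hτ : ∀ i, Tendsto (fun j => τ j i) atTop (𝓝 (t i : ℂ)))
    {η : ℕ → ℝ} {A : ∀ j, Setoid (Fin (m j) → ι)}
    (hH : ∀ κ > 0, ∀ᶠ j in atTop, HW p (A j) ≤ (α + κ) * m j)
    (hty : ∀ j u v, A j u v → wtype u = wtype v)
    (hA : ∀ j u v, A j u v → ‖val σ ℓ (s j) (τ j) u - val σ ℓ (s j) (τ j) v‖ ≤ η j)
    {d : ℕ → ℝ} (hd0 : ∀ j, 0 < d j) (hdD : ∀ j, DJ σ ℓ p t 0 (s j) (τ j) ≤ d j)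
    (hds : ∀ j, ‖s j‖ ≤ d j ^ 2) (hη : ∀ j, η j ≤ d j ^ (2 * J + 2))
    (hX : Tendsto (fun j => -Real.log (d j) / m j) atTop atTop)
    (hbad : ∀ j, d j ^ (2 * J + 1) ≤ DJ σ ℓ p t J (s j) (τ j)) : False := by
  classical
  set V := VJ σ ℓ p t J with hV
  set P := V.starProjection with hP
  have hPN := proj_shJ hst
  set N : EJ ι J →L[ℝ] EJ ι J := shJ J with hN
  set D : ℕ → ℝ := fun j => DJ σ ℓ p t J (s j) (τ j) with hD
  have hDpos : ∀ j, 0 < D j := fun j => (pow_pos (hd0 j) _).trans_le (hbad j)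
  set φ : ℕ → EJ ι J →L[ℝ] ℂ := fun j => (AJ J (s j) (τ j)).comp P with hφ
  set ξ : ℕ → EJ ι J →L[ℝ] ℂ := fun j => (D j)⁻¹ • (AJ J (s j) (τ j) - φ j) with hξ
  have hPP : ∀ v, P (P v) = P v := fun v =>
    Submodule.starProjection_eq_self_iff.2 (Submodule.starProjection_apply_mem _ _)
  have hφP : ∀ j v, φ j (P v) = φ j v := by
    intro j v
    show AJ J (s j) (τ j) (P (P v)) = AJ J (s j) (τ j) (P v)
    rw [hPP]
  have hξ1 : ∀ j, ‖ξ j‖ = 1 := by
    intro j
    show ‖(D j)⁻¹ • (AJ J (s j) (τ j) - φ j)‖ = 1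
    rw [norm_smul, Real.norm_of_nonneg (inv_nonneg.2 (hDpos j).le)]
    exact inv_mul_cancel₀ (hDpos j).ne'
  haveI : ProperSpace (EJ ι J →L[ℝ] ℂ) := FiniteDimensional.proper ℝ _
  obtain ⟨ξ', hξ', ψ, hψ, hlim⟩ := (isCompact_sphere (0 : EJ ι J →L[ℝ] ℂ) 1).tendsto_subseq
    (x := ξ) (fun j => by simp [hξ1 j])
  have hψt := hψ.tendsto_atTop
  -- constants
  set C0 : ℝ := χ + Real.log (Fintype.card ι : ℕ) + 1 with hC0
  have hk : 1 ≤ Fintype.card ι := Fintype.card_pos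
  have hlogk : 0 ≤ Real.log (Fintype.card ι : ℕ) := Real.log_nonneg (by exact_mod_cast hk)
  have hC0pos : 0 < C0 := by positivity
  obtain ⟨hnn, hup, hlo⟩ := nn_facts hd0 hm hX hC0pos
  set nb : ℕ → ℕ := fun j => ⌊-Real.log (d j) / (C0 * m j)⌋₊ with hnb
  -- `d → 0`
  have hdlim : Tendsto d atTop (𝓝 0) := by
    have h1 : Tendsto (fun j => Real.exp (-(C0 * ((m j * nb j : ℕ) : ℝ)))) atTop (𝓝 0) := by
      have := (tendsto_natCast_atTop_atTop (R := ℝ)).comp hnn
      exact Real.tendsto_exp_neg_atTop_nhds_zero.comp (this.const_mul_atTop hC0pos)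
    exact squeeze_zero' (Eventually.of_forall fun j => (hd0 j).le) hup h1
  have hd1 : ∀ᶠ j in atTop, d j ≤ 1 := by
    filter_upwards [hdlim.eventually (gt_mem_nhds (zero_lt_one))] with j hj using hj.le
  set T : ℝ := ∑ i, |t i| + 1 with hT
  have hTpos : 0 ≤ T := by positivity
  have hτT : ∀ᶠ j in atTop, ∑ i, ‖τ j i‖ ≤ T := by
    have h1 : Tendsto (fun j => ∑ i, ‖τ j i‖) atTop (𝓝 (∑ i, |t i|)) := by
      refine tendsto_finsetSum _ fun i _ => ?_
      have := (hτ i).norm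
      simpa using this
    filter_upwards [h1.eventually (gt_mem_nhds (lt_add_one _))] with j hj using hj.le
  have hs4 : ∀ᶠ j in atTop, ‖s j‖ ≤ 1 / 4 := by
    have h1 : Tendsto (fun j => ‖s j‖) atTop (𝓝 0) := by simpa using hs.norm
    filter_upwards [h1.eventually (gt_mem_nhds (by norm_num : (0 : ℝ) < 1 / 4))] with j hj
      using hj.le
  -- the off-diagonal part
  set β : ℕ → EJ ι J →L[ℝ] ℂ := fun j => (D j)⁻¹ • (s j • φ j - (φ j).comp N) with hβ
  have hβv : ∀ j v, β j v = (D j)⁻¹ • (s j * φ j v - φ j (N v)) := fun j v => rfl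
  have hβP : ∀ j v, β j (P v) = β j v := fun j v => beta_proj hPN (hφP j) (hβv j) v
  have hβeq : ∀ j, β j = (ξ j).comp N - s j • ξ j +
      (D j)⁻¹ • (s j • AJ J (s j) (τ j) - (AJ J (s j) (τ j)).comp N) := by
    intro j
    refine ContinuousLinearMap.ext fun v => ?_
    show (D j)⁻¹ • (s j * φ j v - φ j (N v)) =
      (D j)⁻¹ • (AJ J (s j) (τ j) (N v) - φ j (N v)) -
        s j * ((D j)⁻¹ • (AJ J (s j) (τ j) v - φ j v)) +
        (D j)⁻¹ • (s j * AJ J (s j) (τ j) v - AJ J (s j) (τ j) (N v))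
    simp only [Complex.real_smul]
    ring
  have hβlim : Tendsto (fun j => β (ψ j)) atTop (𝓝 (ξ'.comp N)) := by
    have h1 : Tendsto (fun j => (ξ (ψ j)).comp N) atTop (𝓝 (ξ'.comp N)) :=
      ((((ContinuousLinearMap.compL ℝ (EJ ι J) (EJ ι J) ℂ).flip N).continuous.tendsto ξ').comp
        hlim)
    have h2 : Tendsto (fun j => s (ψ j) • ξ (ψ j)) atTop (𝓝 0) := by
      rw [tendsto_zero_iff_norm_tendsto_zero]
      have e1 : ∀ j, ‖s (ψ j) • ξ (ψ j)‖ = ‖s (ψ j)‖ := fun j => by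
        rw [norm_smul, hξ1, mul_one]
      simp only [e1]
      simpa using (hs.comp hψt).norm
    have h3 : Tendsto (fun j => (D j)⁻¹ • (s j • AJ J (s j) (τ j) - (AJ J (s j) (τ j)).comp N))
        atTop (𝓝 0) := by
      rw [tendsto_zero_iff_norm_tendsto_zero]
      have h4 : Tendsto (fun j => d j * T) atTop (𝓝 0) := by
        simpa using hdlim.mul_const T
      refine squeeze_zero' (Eventually.of_forall fun _ => norm_nonneg _) ?_ h4
      filter_upwards [hτT, hs4] with j hj hj4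
      rw [norm_smul, Real.norm_of_nonneg (inv_nonneg.2 (hDpos j).le), norm_sub_rev]
      have h5 := norm_AJ_comp_shJ_le J (s := s j) (by linarith) (τ j)
      have h6 : ‖s j‖ ^ (J + 1) ≤ d j ^ (2 * J + 2) := by
        calc ‖s j‖ ^ (J + 1) ≤ (d j ^ 2) ^ (J + 1) := pow_le_pow_left₀ (norm_nonneg _) (hds j) _
          _ = _ := by rw [← pow_mul]; congr 1
      have h7 : ‖s j‖ ^ (J + 1) * ∑ i, ‖τ j i‖ ≤ D j * (d j * T) := by
        calc ‖s j‖ ^ (J + 1) * ∑ i, ‖τ j i‖ ≤ d j ^ (2 * J + 2) * T := by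
              have := (hd0 j).le
              gcongr
          _ = d j ^ (2 * J + 1) * (d j * T) := by ring
          _ ≤ D j * (d j * T) := by
              have := (hd0 j).le
              have := hbad j
              gcongr
      rw [inv_mul_le_iff₀ (hDpos j)]
      exact h5.trans h7
    have h4 := (h1.sub h2).add (h3.comp hψt)
    simp only [sub_zero, add_zero] at h4
    refine h4.congr fun j => ?_
    exact (hβeq (ψ j)).symm
  have hβ'P : ∀ v, (ξ'.comp N) (P v) = ξ' (N v) := by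
    intro v
    have h1 : Tendsto (fun j => β (ψ j) (P v)) atTop (𝓝 ((ξ'.comp N) (P v))) :=
      ((ContinuousLinearMap.apply ℝ ℂ (P v)).continuous.tendsto _).comp hβlim
    have h2 : Tendsto (fun j => β (ψ j) v) atTop (𝓝 ((ξ'.comp N) v)) :=
      ((ContinuousLinearMap.apply ℝ ℂ v).continuous.tendsto _).comp hβlim
    refine tendsto_nhds_unique h1 (h2.congr fun j => ?_)
    exact (hβP (ψ j) v).symm
  -- finite word values
  have hpf : ∀ (j : ℕ) {n : ℕ} (u : Fin n → ι),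
      pfin (gen σ ℓ (LJ P N (s j) (β j))) (fun a => TJ P (D j) (φ j) (τ j a, bJ J a)) u =
        TJ P (D j) (φ j) (val σ ℓ (s j) (τ j) u, jf σ ℓ J u) := by
    intro j n u
    rw [pfin_comp (T := TJ P (D j) (φ j))
      (fun a => comp_gen σ ℓ (TJ_comp hPN (hφP j) (hβv j)) a), pfin_Lsrc]
    rfl
  -- entropy and closeness
  have hent : ∀ κ > 0, ∀ᶠ j in atTop, ∃ S : Setoid (Fin (m j * nb j) → ι),
      HW p S ≤ (α + κ) * ((m j * nb j : ℕ) : ℝ) ∧ ∀ u v, S u v →
        ‖pfin (gen σ ℓ (LJ P N (s j) (β j))) (fun a => TJ P (D j) (φ j) (τ j a, bJ J a)) u -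
          pfin (gen σ ℓ (LJ P N (s j) (β j))) (fun a => TJ P (D j) (φ j) (τ j a, bJ J a)) v‖ ≤
          Real.exp (-(χ * ((m j * nb j : ℕ) : ℝ))) := by
    intro κ hκ
    set q : ℝ := 2 * C0 * (2 * J + 1) + C0 with hq
    have hqpos : 0 < q := by positivity
    obtain ⟨ε, hε, hLn⟩ := hL (κ / 3) (by positivity)
    have hw : ∀ᶠ j in atTop, ∀ i,
        |wv ((AJ 0 (s j) (τ j)).comp (VJ σ ℓ p t 0).starProjection) i - t i| < ε := by
      rw [eventually_all]
      intro i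
      have h1 := tendsto_wv (s := s) hσ hℓ h0 p t hτ i
      have h2 := (tendsto_iff_dist_tendsto_zero.1 h1).eventually (gt_mem_nhds hε)
      filter_upwards [h2] with j hj
      rwa [Real.dist_eq] at hj
    set q0 : ℝ := Real.exp (-ℓ0 / 2) with hq0
    have hq01 : q0 < 1 := exp_half_lt_one h0
    have h1q : 0 < 1 - q0 := by linarith
    set K1 : ℝ := 1 / (1 - q0) + 8 * jK ℓ0 * T + 2 * K0 ι ℓ0 + T with hK1
    set K2 : ℝ := 1 / (1 - q0) + (J + 1) * T + 1 with hK2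
    have hjK := jK_pos h0
    have hK0 : 0 ≤ K0 ι ℓ0 := Real.sqrt_nonneg _
    filter_upwards [hm.eventually_ge_atTop 1,
      hH (κ / 3) (by positivity), hnn.eventually (hR q hqpos (κ / 3) (by positivity)),
      hnn.eventually hLn, hw, hup, hlo, hd1, hτT, hs4, ev_le_exp hnn K1, ev_le_exp hnn K2]
      with j hm1 hHj hRj' hLj' hwj hupj hloj hd1j hTj hs4j hK1j hK2j
    have hRj : ∃ R : Setoid (Fin (m j * nb j) → ι),
        HW p R ≤ (α + κ / 3) * ((m j * nb j : ℕ) : ℝ) ∧ ∀ u v, R u v → wtype u = wtype v ∧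
          ‖P (jf σ ℓ J u - jf σ ℓ J v)‖ ≤ Real.exp (-(q * ((m j * nb j : ℕ) : ℝ))) := hRj'
    have hLj : ∀ w : ι → ℝ, (∀ i, |w i - t i| < ε) → ∀ S : Setoid (Fin (m j * nb j) → ι),
        (∀ u v, S u v →
          |∑ i, cw (rayR σ ℓ 0) u i * w i - ∑ i, cw (rayR σ ℓ 0) v i * w i| ≤
          Real.exp (-(χ * ((m j * nb j : ℕ) : ℝ)))) →
        (α - κ / 3) * ((m j * nb j : ℕ) : ℝ) ≤ HW p S := hLj'
    set n : ℕ := m j * nb j with hn
    obtain ⟨R, hR1, hR2⟩ := hRj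
    set B : Setoid (Fin n → ι) := blk (A j) (nb j) with hB
    have hBty : ∀ u v, B u v → wtype u = wtype v := blk_wtype (hty j) (nb j)
    have hs1 : ‖s j‖ ≤ 1 := by linarith
    have hη0 : 0 ≤ η j := by
      obtain ⟨i0⟩ := ‹Nonempty ι›
      exact (norm_nonneg _).trans (hA j (fun _ => i0) (fun _ => i0) ((A j).refl _))
    have hBval : ∀ u v, B u v →
        ‖val σ ℓ (s j) (τ j) u - val σ ℓ (s j) (τ j) v‖ ≤ η j / (1 - q0) := by
      intro u v huv
      exact norm_blk_le (fun i => norm_rayC_le hσ hℓ h0.le (s := s j) (by linarith) i) hq01 (τ j)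
        hm1 (hty j) (hA j) (nb j) u v huv
    have hdj0 := hd0 j
    have hT0 : 0 ≤ ∑ i, ‖τ j i‖ := Finset.sum_nonneg fun _ _ => norm_nonneg _
    set e' : ℝ := Real.exp (-(q * n)) with he'
    set x : ℝ := Real.exp (-(C0 * n)) with hx
    have hx0 : 0 ≤ x := (Real.exp_pos _).le
    have hdx : d j ≤ x := hupj
    have he'x : e' ≤ x := by
      refine Real.exp_le_exp.2 ?_
      have : C0 * n ≤ q * n := by
        refine mul_le_mul_of_nonneg_right ?_ (Nat.cast_nonneg _)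
        have : 0 ≤ 2 * C0 * (2 * (J : ℝ) + 1) := by positivity
        linarith
      linarith
    have hpow1 : d j ^ (2 * J + 2) ≤ d j := by
      calc d j ^ (2 * J + 2) ≤ d j ^ 1 := pow_le_pow_of_le_one hdj0.le hd1j (by omega)
        _ = d j := pow_one _
    have hηd : η j / (1 - q0) ≤ 1 / (1 - q0) * d j := by
      rw [div_eq_mul_one_div, mul_comm]
      exact mul_le_mul_of_nonneg_left ((hη j).trans hpow1) (by positivity)
    -- base values
    have hbA : ∀ u v, B u v →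
        |∑ i, cw (rayR σ ℓ 0) u i *
            wv ((AJ 0 (s j) (τ j)).comp (VJ σ ℓ p t 0).starProjection) i -
          ∑ i, cw (rayR σ ℓ 0) v i *
            wv ((AJ 0 (s j) (τ j)).comp (VJ σ ℓ p t 0).starProjection) i| ≤ K1 * x := by
      intro u v huv
      refine (base_A hσ hℓ h0 hs4j (τ j) u v (hBval u v huv)).trans ?_
      have h1 : ‖s j‖ ≤ d j := (hds j).trans (by nlinarith)
      have h2 : 8 * jK ℓ0 * (∑ i, ‖τ j i‖) * ‖s j‖ ≤ 8 * jK ℓ0 * T * d j := by gcongr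
      have h3 : 2 * K0 ι ℓ0 * DJ σ ℓ p t 0 (s j) (τ j) ≤ 2 * K0 ι ℓ0 * d j :=
        mul_le_mul_of_nonneg_left (hdD j) (by positivity)
      have h4 : (1 / (1 - q0) + 8 * jK ℓ0 * T + 2 * K0 ι ℓ0) * d j ≤ K1 * x := by
        refine mul_le_mul ?_ hdx hdj0.le (by positivity)
        rw [hK1]; linarith
      nlinarith
    have hbR : ∀ u v, R u v →
        |∑ i, cw (rayR σ ℓ 0) u i *
            wv ((AJ 0 (s j) (τ j)).comp (VJ σ ℓ p t 0).starProjection) i -
          ∑ i, cw (rayR σ ℓ 0) v i *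
            wv ((AJ 0 (s j) (τ j)).comp (VJ σ ℓ p t 0).starProjection) i| ≤ K1 * x := by
      intro u v huv
      refine (base_R hs1 (τ j) u v (hR2 u v huv).2).trans ?_
      have : T ≤ K1 := by
        rw [hK1]
        have : 0 ≤ 1 / (1 - q0) + 8 * jK ℓ0 * T + 2 * K0 ι ℓ0 := by positivity
        linarith
      calc (∑ i, ‖τ j i‖) * Real.exp (-(q * n)) ≤ T * x := by
            refine mul_le_mul hTj he'x (Real.exp_pos _).le hTpos
        _ ≤ K1 * x := mul_le_mul_of_nonneg_right this hx0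
    have hcs := const_step (χ := χ) (k := Fintype.card ι) hk (n := n) (K := K1) (x := x) hK1j hx0
      (le_refl _)
    have hcs2 := const_step (χ := χ) (k := Fintype.card ι) hk (n := n) (K := K2) (x := x) hK2j hx0
      (le_refl _)
    have hK1x : 0 ≤ K1 * x := by positivity
    have hHB : HW p B ≤ (α + κ / 3) * n := by
      rw [hB, HW_blk hp]
      have : (nb j : ℝ) * HW p (A j) ≤ nb j * ((α + κ / 3) * m j) :=
        mul_le_mul_of_nonneg_left hHj (Nat.cast_nonneg _)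
      rw [hn]
      push_cast
      linarith
    have hfin := join_step (σ := σ) (ℓ := ℓ) hp hK1x hbA hbR
      (by rw [Fintype.card_fun, Fintype.card_fin]; push_cast; exact hcs.2)
      (fun S hS => hLj _ hwj S hS) hHB hR1
    refine ⟨B ⊓ R, ?_, ?_⟩
    · refine hfin.trans (le_of_eq ?_)
      ring
    · intro u v huv
      have huB : B u v := huv.1
      have huR : R u v := huv.2
      rw [hpf, hpf]
      refine (close_TJ hs1 (τ j) u v (hDpos j) (hBval u v huB) (hR2 u v huR).2).trans ?_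
      refine le_trans ?_ hcs2.1
      have hDinv : (D j)⁻¹ ≤ (d j ^ (2 * J + 1))⁻¹ :=
        inv_anti₀ (pow_pos hdj0 _) (hbad j)
      have hDi0 : 0 ≤ (D j)⁻¹ := (inv_pos.2 (hDpos j)).le
      -- first error term
      have e1 : (D j)⁻¹ * (η j / (1 - q0)) ≤ 1 / (1 - q0) * x := by
        calc (D j)⁻¹ * (η j / (1 - q0))
            ≤ (d j ^ (2 * J + 1))⁻¹ * (d j ^ (2 * J + 2) / (1 - q0)) := by
              have := hη j
              gcongr
          _ = 1 / (1 - q0) * d j := by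
              have h9 : d j ^ (2 * J + 1) ≠ 0 := (pow_pos hdj0 _).ne'
              have h10 : (d j ^ (2 * J + 1))⁻¹ * (d j ^ (2 * J + 2) / (1 - q0)) =
                  ((d j ^ (2 * J + 1))⁻¹ * d j ^ (2 * J + 1)) * (1 / (1 - q0) * d j) := by
                rw [show 2 * J + 2 = (2 * J + 1) + 1 from rfl, pow_succ (d j) (2 * J + 1)]; ring
              rw [h10, inv_mul_cancel₀ h9, one_mul]
          _ ≤ 1 / (1 - q0) * x := by gcongr
      have e2 : (D j)⁻¹ * e' ≤ x := by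
        have h1 : (d j ^ (2 * J + 1))⁻¹ ≤ Real.exp (2 * C0 * n * (2 * J + 1)) := by
          have h2 : Real.exp (-(2 * C0 * n)) ^ (2 * J + 1) ≤ d j ^ (2 * J + 1) :=
            pow_le_pow_left₀ (Real.exp_pos _).le hloj _
          have h3 : Real.exp (-(2 * C0 * n)) ^ (2 * J + 1) =
              (Real.exp (2 * C0 * n * (2 * J + 1)))⁻¹ := by
            rw [← Real.exp_nat_mul, ← Real.exp_neg]
            congr 1; push_cast; ring
          rw [h3] at h2
          have := inv_anti₀ (by positivity) h2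
          rwa [inv_inv] at this
        calc (D j)⁻¹ * e' ≤ Real.exp (2 * C0 * n * (2 * J + 1)) * e' :=
              mul_le_mul_of_nonneg_right (hDinv.trans h1) (Real.exp_pos _).le
          _ = x := by
              rw [he', hx, ← Real.exp_add]; congr 1; rw [hq]; ring
      have e3 : (D j)⁻¹ * (η j / (1 - q0) + (J + 1) * (∑ i, ‖τ j i‖) * e') + e' ≤
          1 / (1 - q0) * x + (J + 1) * T * x + x := by
        have e4 : (D j)⁻¹ * ((J + 1) * (∑ i, ‖τ j i‖) * e') ≤ (J + 1) * T * x := by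
          calc (D j)⁻¹ * ((J + 1) * (∑ i, ‖τ j i‖) * e')
              = (J + 1) * (∑ i, ‖τ j i‖) * ((D j)⁻¹ * e') := by ring
            _ ≤ (J + 1) * T * x := by
                have : 0 ≤ (D j)⁻¹ * e' := mul_nonneg hDi0 (Real.exp_pos _).le
                gcongr
        rw [mul_add]
        linarith
      refine e3.trans (le_of_eq ?_)
      rw [hK2]; ring
  -- the limit process
  have hTI : ∀ a, (TI P ξ').comp (GJ σ ℓ J a) =
      (gen σ ℓ (LJ P N 0 (ξ'.comp N)) a).comp (TI P ξ') := fun a =>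
    comp_gen σ ℓ (TI_comp hPN hβ'P) a
  have hproc : IsProc (gen σ ℓ (LJ P N 0 (ξ'.comp N))) (fun a => TI P ξ' (bJ J a))
      (fun w => TI P ξ' (ji σ ℓ J w)) := (isProc_ji hσ hℓ h0 J).comp hTI
  set φ0 : (ℂ × EJ ι J) →L[ℝ] ℝ :=
    (innerSL ℝ (lift0 J (at0 t))).comp (ContinuousLinearMap.snd ℝ ℂ (EJ ι J)) with hφ0
  have hφ0w : ∀ w, φ0 (TI P ξ' (ji σ ℓ J w)) = Pi (rayR σ ℓ 0) t w := by
    intro w
    show inner ℝ (lift0 J (at0 t)) (P (ji σ ℓ J w)) = _
    have h := Submodule.starProjection_inner_eq_zero (K := V) (ji σ ℓ J w) (lift0 J (at0 t))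
      (lift0_mem (at0_mem hσ hℓ h0 p t))
    rw [inner_sub_left, sub_eq_zero] at h
    rw [real_inner_comm, hP, ← h, real_inner_comm, inner_lift0, res0_ji, inner_at0_ji hσ hℓ h0]
  have hconc := hF (fun j => LJ P N (s (ψ j)) (β (ψ j))) (LJ P N 0 (ξ'.comp N))
    (fun j a => TJ P (D (ψ j)) (φ (ψ j)) (τ (ψ j) a, bJ J a)) (fun a => TI P ξ' (bJ J a))
    (fun w => TI P ξ' (ji σ ℓ J w)) (fun j => m (ψ j) * nb (ψ j)) φ0
    (tendsto_LJ (hs.comp hψt) hβlim) ⟨J + 2, LJ_nilpotent hPN (shJ_nilpotent J) _⟩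
    (by
      intro a
      have h1 : ∀ j, TJ P (D (ψ j)) (φ (ψ j)) (τ (ψ j) a, bJ J a) =
          (ξ (ψ j) (bJ J a), P (bJ J a)) := by
        intro j
        rw [TJ_apply]
        refine Prod.ext ?_ rfl
        show (D (ψ j))⁻¹ • (τ (ψ j) a - φ (ψ j) (bJ J a)) =
          (D (ψ j))⁻¹ • (AJ J (s (ψ j)) (τ (ψ j)) (bJ J a) - φ (ψ j) (bJ J a))
        rw [AJ_bJ]
      simp only [h1]
      exact (((ContinuousLinearMap.apply ℝ ℂ (bJ J a)).continuous.tendsto _).comp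
        hlim).prodMk_nhds tendsto_const_nhds)
    (hnn.comp hψt) hproc hφ0w (fun κ hκ => hψt.eventually (hent κ hκ))
  have hξ0 : ξ' = 0 := by
    refine xi_zero (σ := σ) (ℓ := ℓ) (p := p) (t := t) ?_ ?_
    · intro v
      have h1 : Tendsto (fun j => ξ (ψ j) (P v)) atTop (𝓝 (ξ' (P v))) :=
        ((ContinuousLinearMap.apply ℝ ℂ (P v)).continuous.tendsto _).comp hlim
      refine tendsto_nhds_unique h1 ?_
      refine tendsto_const_nhds.congr fun j => ?_
      show (0 : ℂ) = (D (ψ j))⁻¹ • (AJ J (s (ψ j)) (τ (ψ j)) (P v) - φ (ψ j) (P v))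
      have : φ (ψ j) (P v) = AJ J (s (ψ j)) (τ (ψ j)) (P v) := hφP (ψ j) v
      rw [this, sub_self, smul_zero]
    · intro φ1
      exact hconc (φ1.comp (ContinuousLinearMap.fst ℝ ℂ (EJ ι J)))
  rw [mem_sphere_zero_iff_norm, hξ0, norm_zero] at hξ'
  exact zero_ne_one hξ'

end Main

end Crest.Agent.R98
end

-- ▼ part R98/FE
section

/-!
Row 98, module F (helper893): (F2) in the shape of the ending (`IsProc`, `Fac` of EndDefs).
-/

set_option autoImplicit false
set_option linter.unusedSectionVars false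
set_option linter.unusedSimpArgs false

namespace Crest.Agent.R98.F

open MeasureTheory ProbabilityTheory Filter Topology Real
open Crest.Agent.R098.Upper

noncomputable section

variable {ι : Type*} [Fintype ι] [mι : MeasurableSpace ι] [DiscreteMeasurableSpace ι]

/-- `Fac` = almost everywhere measurability -/
theorem fac_iff {p : ι → ℝ} {Y X : (ℕ → ι) → ℝ} :
    Fac p Y X ↔ AEStronglyMeasurable[MeasurableSpace.comap Y inferInstance] X (PP p) := by
  constructor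
  · rintro ⟨f, hf, e⟩
    refine ⟨fun w => f (Y w), ?_, e⟩
    have : Measurable[MeasurableSpace.comap Y inferInstance] (fun w => f (Y w)) :=
      hf.comp (comap_measurable Y)
    exact this.stronglyMeasurable
  · rintro ⟨G, hG, e⟩
    obtain ⟨g, hg, rfl⟩ := hG.exists_eq_measurable_comp
    exact ⟨g, hg.measurable, e⟩


/-- vector version -/
theorem alpha_le_of_fac_pi {p : ι → ℝ} (hp : (∀ i, 0 ≤ p i) ∧ ∑ i, p i = 1) {K : Type*}
    [Fintype K] {Y : (ℕ → ι) → ℝ} {X : (ℕ → ι) → K → ℝ} (hY : Measurable Y) (hX : Measurable X)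
    (h : ∀ k, Fac p Y (fun w => X w k)) : alpha p X ≤ alpha p Y :=
  alpha_mono_aesm_pi hp hY hX fun k => fac_iff.1 (h k)


section proc

variable {E : Type*} [NormedAddCommGroup E] [NormedSpace ℝ E] [FiniteDimensional ℝ E]

theorem gen_injective {σ ℓ : ι → ℝ} {L : E →L[ℝ] E} {a : ι} (hσ : σ a ≠ 0) :
    Function.Injective (gen σ ℓ L a) := by
  have : CompleteSpace E := FiniteDimensional.complete ℝ E
  let _ : NormedAlgebra ℚ (E →L[ℝ] E) := NormedAlgebra.restrictScalars ℚ ℝ (E →L[ℝ] E)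
  have hu : IsUnit (NormedSpace.exp ((-(ℓ a)) • L) : E →L[ℝ] E) :=
    NormedSpace.isUnit_exp _
  obtain ⟨u, hu⟩ := hu
  intro x y hxy
  have h1 : (NormedSpace.exp ((-(ℓ a)) • L) : E →L[ℝ] E) x =
      (NormedSpace.exp ((-(ℓ a)) • L) : E →L[ℝ] E) y := by
    have : σ a • (NormedSpace.exp ((-(ℓ a)) • L) : E →L[ℝ] E) x =
        σ a • (NormedSpace.exp ((-(ℓ a)) • L) : E →L[ℝ] E) y := hxy
    exact smul_right_injective E hσ this
  rw [← hu] at h1
  have h2 : ((u⁻¹ : (E →L[ℝ] E)ˣ) : E →L[ℝ] E) ((u : E →L[ℝ] E) x) =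
      ((u⁻¹ : (E →L[ℝ] E)ˣ) : E →L[ℝ] E) ((u : E →L[ℝ] E) y) := by rw [h1]
  have h3 : ∀ z : E, ((u⁻¹ : (E →L[ℝ] E)ˣ) : E →L[ℝ] E) ((u : E →L[ℝ] E) z) = z := by
    intro z
    have : (((u⁻¹ : (E →L[ℝ] E)ˣ) : E →L[ℝ] E) * (u : E →L[ℝ] E)) z = z := by
      rw [Units.inv_mul]; rfl
    exact this
  rwa [h3, h3] at h2

variable [MeasurableSpace E] [BorelSpace E]

theorem proc_measurable {G : ι → E →L[ℝ] E} {b : ι → E} {Φ : (ℕ → ι) → E}
    (h : Crest.Agent.R98.IsProc G b Φ) : Measurable Φ := by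
  let e := (Module.finBasis ℝ E).equivFunL
  have h1 : Measurable (fun w => e (Φ w)) := by
    refine measurable_pi_lambda _ fun i => ?_
    exact h.meas ((ContinuousLinearMap.proj (R := ℝ) (φ := fun _ => ℝ) i).comp
      (e : E →L[ℝ] (Fin (Module.finrank ℝ E) → ℝ)))
  have h2 : Φ = fun w => e.symm (e (Φ w)) := by
    funext w; simp
  rw [h2]
  exact e.symm.continuous.measurable.comp h1

/-- the bridge between the two notions of process -/
theorem proc_bridge {G : ι → E →L[ℝ] E} {b : ι → E} {Φ : (ℕ → ι) → E}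
    (h : Crest.Agent.R98.IsProc G b Φ) (hG : ∀ a, Function.Injective (G a)) :
    IsProc Φ (fun a x => b a + G a x) := by
  refine ⟨proc_measurable h, fun a => ?_, fun w => ?_⟩
  · have h1 : IsClosedEmbedding (G a) :=
      LinearMap.isClosedEmbedding_of_injective (f := (G a : E →ₗ[ℝ] E))
        (LinearMap.ker_eq_bot.2 (hG a))
    have h2 : IsClosedEmbedding (fun x => b a + G a x) :=
      (Homeomorph.addLeft (b a)).isClosedEmbedding.comp h1
    exact h2.measurableEmbedding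
  · conv_lhs => rw [← scons_sh w]
    rw [h.eq]

/-- **(F2) in the shape of the ending** -/
theorem fac_of_alpha_le {p : ι → ℝ} (hp : (∀ i, 0 ≤ p i) ∧ ∑ i, p i = 1)
    {G : ι → E →L[ℝ] E} {b : ι → E} {Φ : (ℕ → ι) → E}
    (h : Crest.Agent.R98.IsProc G b Φ) (hG : ∀ a, Function.Injective (G a))
    {Y : (ℕ → ι) → ℝ} {ρ τ : ι → ℝ} (hρ : ∀ a, ρ a ≠ 0)
    (hY : ∀ a w, Y (scons a w) = τ a + ρ a * Y w) {φ0 : E →L[ℝ] ℝ} (hφ0 : ∀ w, φ0 (Φ w) = Y w)
    (hα : alpha p Φ ≤ alpha p Y) (φ : E →L[ℝ] ℝ) : Fac p Y (fun w => φ (Φ w)) := by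
  have := isProb_PP hp
  have hΦ := proc_bridge h hG
  have hYm : Measurable Y := by
    have : Y = fun w => φ0 (Φ w) := by funext w; rw [hφ0]
    rw [this]
    exact h.meas φ0
  have hYp : IsProc Y (fun a x => τ a + ρ a * x) := by
    refine ⟨hYm, fun a => ?_, fun w => ?_⟩
    · have h2 : IsClosedEmbedding (fun x : ℝ => τ a + ρ a * x) :=
        (Homeomorph.addLeft (τ a)).isClosedEmbedding.comp
          (Homeomorph.mulLeft₀ (ρ a) (hρ a)).isClosedEmbedding
      exact h2.measurableEmbedding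
    · conv_lhs => rw [← scons_sh w]
      rw [hY]
  have hle : MeasurableSpace.comap Y inferInstance ≤ MeasurableSpace.comap Φ inferInstance := by
    have e : Y = φ0 ∘ Φ := by funext w; exact (hφ0 w).symm
    rw [e, ← MeasurableSpace.comap_comp]
    exact MeasurableSpace.comap_mono φ0.continuous.measurable.comap_le
  refine fac_iff.2 (F2_aesm hp hΦ hYp hle hα φ.continuous.measurable ?_)
  obtain ⟨C, hC⟩ := h.bdd
  refine Integrable.of_bound (h.meas φ).aestronglyMeasurable (‖φ‖ * C)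
    (Eventually.of_forall fun w => ?_)
  exact (φ.le_opNorm _).trans (mul_le_mul_of_nonneg_left (hC w) (norm_nonneg _))


end proc

end

end Crest.Agent.R98.F
namespace Crest.Agent.R98.F.Fac
end Crest.Agent.R98.F.Fac
end

-- ▼ part R98/FDPack
section

/-!
# Row 98: packaging of the processes of `EndDefs` (helper896, FD)
-/

set_option autoImplicit false
set_option linter.unusedSectionVars false
set_option linter.unusedVariables false

namespace Crest.Agent.R98.FD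

open MeasureTheory Real Filter Topology
open Crest.Agent.R098.Upper (pw sw pw_nonneg sum_succ pw_cons sw_cons sum_pw)
open Crest.Agent.R98 (PP scons isProb_PP PP_cons gen pfin Part.HS)

/-! ### entropy of a partition of the words -/

section HSlink

variable {ι : Type*} [Fintype ι] [MeasurableSpace ι] [DiscreteMeasurableSpace ι] {p : ι → ℝ}
  {P : Measure (ℕ → ι)} [IsProbabilityMeasure P]

theorem FV_word {n : ℕ} {γ : Type*} (g : (Fin n → ι) → γ) :
    FV (fun w : ℕ → ι => g (pre n w)) := (FV_pre (ι := ι) n).comp g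

theorem real_word [Nonempty ι] (hP : WM p P) {n : ℕ} {γ : Type*} [DecidableEq γ]
    (g : (Fin n → ι) → γ) (c : γ) :
    P.real ((fun w : ℕ → ι => g (pre n w)) ⁻¹' {c})
      = ∑ u ∈ Finset.univ.filter (fun u => g u = c), pw p u := by
  have := Proc.real_pre_set hP (Finset.univ.filter (fun u : Fin n → ι => g u = c))
  rw [← this]
  congr 1
  ext w
  simp

theorem HP_word [Nonempty ι] (hP : WM p P) {n : ℕ} {γ : Type*} (g : (Fin n → ι) → γ) :
    HP P (fun w : ℕ → ι => g (pre n w)) = Part.HS (pw p) (Setoid.ker g) := by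
  classical
  have h1 : HP P (fun w : ℕ → ι => g (pre n w)) = ∑ c ∈ Finset.univ.image g,
      negMulLog (∑ u ∈ Finset.univ.filter (fun u => g u = c), pw p u) := by
    rw [HP_eq P (Finset.univ.image g) fun w => Finset.mem_image_of_mem _ (Finset.mem_univ _)]
    exact Finset.sum_congr rfl fun c _ => by rw [real_word hP g c]
  rw [h1]
  unfold Part.HS
  have hcm : ∀ a, Part.cm (pw p) (Setoid.ker g) a
      = ∑ u ∈ Finset.univ.filter (fun u => g u = g a), pw p u := by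
    intro a
    unfold Part.cm
    rw [Finset.sum_filter]
    refine Finset.sum_congr rfl fun b _ => ?_
    by_cases h : g b = g a
    · rw [if_pos h, Set.indicator_of_mem (show b ∈ {b | (Setoid.ker g) b a} from h)]
    · rw [if_neg h, Set.indicator_of_notMem (show b ∉ {b | (Setoid.ker g) b a} from h)]
  simp only [hcm]
  rw [← Finset.sum_neg_distrib]
  rw [← Finset.sum_fiberwise_of_maps_to (s := (Finset.univ : Finset (Fin n → ι)))
    (t := Finset.univ.image g) (g := g) fun u _ => Finset.mem_image_of_mem _ (Finset.mem_univ _)]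
  refine Finset.sum_congr rfl fun c _ => ?_
  rw [negMulLog, neg_mul, Finset.sum_mul, ← Finset.sum_neg_distrib]
  refine Finset.sum_congr rfl fun u hu => ?_
  rw [Finset.mem_filter] at hu
  rw [hu.2]

theorem HP_setoid [Nonempty ι] (hP : WM p P) {n : ℕ} (S : Setoid (Fin n → ι)) :
    HP P (fun w : ℕ → ι => (Quotient.mk S (pre n w) : Quotient S)) = Part.HS (pw p) S := by
  have h := HP_word hP (fun u : Fin n → ι => (Quotient.mk S u : Quotient S))
  rw [h]
  congr 1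
  ext a b
  exact Quotient.eq

end HSlink

/-! ### class bounds for the cells of finite words -/

namespace Proc

variable {ι : Type*} [Fintype ι] [Nonempty ι] [MeasurableSpace ι] [DiscreteMeasurableSpace ι]
  {l sg : ι → ℝ} {κ : Type*} [Fintype κ] {p : ι → ℝ}
  {P : Measure (ℕ → ι)} [IsProbabilityMeasure P]

theorem fcell_le_HS (hP : WM p P) (X : Proc l sg κ) (n : ℕ) (x : ℝ) (S : Setoid (Fin n → ι))
    {R : ℝ} (hR : 0 ≤ R) (h : ∀ u v, S u v → ‖X.F.A (-x) (X.fin u) - X.F.A (-x) (X.fin v)‖ ≤ R) :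
    HP P (X.fcell n x) ≤ Part.HS (pw p) S + Fintype.card κ * log (2 * R + 3) := by
  rw [← HP_setoid hP S]
  refine HP_fl_le P (X.FV_fcell n x) (FV_word _) hR fun w w' hw => ?_
  exact h _ _ (Quotient.eq.1 hw)

end Proc

/-! ### processes of `EndDefs` -/

section Pack

variable {E : Type*} [NormedAddCommGroup E] [NormedSpace ℝ E] [FiniteDimensional ℝ E]
  {κ : Type*} [Fintype κ]

/-- bounds for the flow of a generator -/
structure GB (L : E →L[ℝ] E) (C d : ℝ) : Prop where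
  hC : 1 ≤ C
  hd0 : 0 ≤ d
  hd : d ≤ 1 / 2
  bd : ∀ x, 0 ≤ x → ‖NormedSpace.exp ((-x) • L)‖ ≤ C * exp (-((1 - d) * x))
  bd' : ∀ x, 0 ≤ x → ‖NormedSpace.exp (x • L)‖ ≤ C * exp ((1 + d) * x)

theorem exp_add_gen (L : E →L[ℝ] E) (x y : ℝ) :
    NormedSpace.exp ((x + y) • L) = NormedSpace.exp (x • L) * NormedSpace.exp (y • L) := by
  have : CompleteSpace E := FiniteDimensional.complete ℝ E
  let _ : NormedAlgebra ℚ (E →L[ℝ] E) := NormedAlgebra.restrictScalars ℚ ℝ (E →L[ℝ] E)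
  rw [add_smul]
  exact NormedSpace.exp_add_of_commute ((Commute.refl L).smul_left x |>.smul_right y)

/-- the flow of a generator in coordinates -/
noncomputable def mkFlow (e : E ≃L[ℝ] (κ → ℝ)) {L : E →L[ℝ] E} {C d : ℝ} (h : GB L C d) :
    Flow κ where
  A := fun x => ((e : E →L[ℝ] (κ → ℝ)).comp
    ((NormedSpace.exp ((-x) • L)).comp (e.symm : (κ → ℝ) →L[ℝ] E)) : (κ → ℝ) →L[ℝ] (κ → ℝ))
  zero := by
    intro v
    simp only [neg_zero, zero_smul, NormedSpace.exp_zero]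
    show e ((1 : E →L[ℝ] E) (e.symm v)) = v
    simp
  add := by
    intro x y v
    show e ((NormedSpace.exp ((-(x + y)) • L)) (e.symm v)) =
      e ((NormedSpace.exp ((-x) • L)) (e.symm (e ((NormedSpace.exp ((-y) • L)) (e.symm v)))))
    rw [e.symm_apply_apply, neg_add, exp_add_gen]
    rfl
  C := max 1 (‖(e : E →L[ℝ] (κ → ℝ))‖ * C * ‖(e.symm : (κ → ℝ) →L[ℝ] E)‖)
  d := d
  hC := le_max_left _ _
  hd0 := h.hd0
  hd := h.hd
  bd := by
    intro x hx v
    have h1 : ‖e ((NormedSpace.exp ((-x) • L)) (e.symm v))‖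
        ≤ ‖(e : E →L[ℝ] (κ → ℝ))‖ * (C * exp (-((1 - d) * x)) *
          (‖(e.symm : (κ → ℝ) →L[ℝ] E)‖ * ‖v‖)) := by
      refine ((e : E →L[ℝ] (κ → ℝ)).le_opNorm _).trans ?_
      refine mul_le_mul_of_nonneg_left ?_ (norm_nonneg _)
      refine (ContinuousLinearMap.le_opNorm _ _).trans ?_
      exact mul_le_mul (h.bd x hx) ((e.symm : (κ → ℝ) →L[ℝ] E).le_opNorm v) (norm_nonneg _)
        (by have := h.hC; positivity)
    refine h1.trans ?_
    have h2 := le_max_right 1 (‖(e : E →L[ℝ] (κ → ℝ))‖ * C * ‖(e.symm : (κ → ℝ) →L[ℝ] E)‖)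
    calc _ = (‖(e : E →L[ℝ] (κ → ℝ))‖ * C * ‖(e.symm : (κ → ℝ) →L[ℝ] E)‖)
          * exp (-((1 - d) * x)) * ‖v‖ := by ring
      _ ≤ _ := by gcongr
  bd' := by
    intro x hx v
    have h1 : ‖e ((NormedSpace.exp ((-(-x)) • L)) (e.symm v))‖
        ≤ ‖(e : E →L[ℝ] (κ → ℝ))‖ * (C * exp ((1 + d) * x) *
          (‖(e.symm : (κ → ℝ) →L[ℝ] E)‖ * ‖v‖)) := by
      rw [neg_neg]
      refine ((e : E →L[ℝ] (κ → ℝ)).le_opNorm _).trans ?_
      refine mul_le_mul_of_nonneg_left ?_ (norm_nonneg _)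
      refine (ContinuousLinearMap.le_opNorm _ _).trans ?_
      exact mul_le_mul (h.bd' x hx) ((e.symm : (κ → ℝ) →L[ℝ] E).le_opNorm v) (norm_nonneg _)
        (by have := h.hC; positivity)
    refine h1.trans ?_
    have h2 := le_max_right 1 (‖(e : E →L[ℝ] (κ → ℝ))‖ * C * ‖(e.symm : (κ → ℝ) →L[ℝ] E)‖)
    calc _ = (‖(e : E →L[ℝ] (κ → ℝ))‖ * C * ‖(e.symm : (κ → ℝ) →L[ℝ] E)‖)
          * exp ((1 + d) * x) * ‖v‖ := by ring
      _ ≤ _ := by gcongr

theorem mkFlow_A (e : E ≃L[ℝ] (κ → ℝ)) {L : E →L[ℝ] E} {C d : ℝ} (h : GB L C d) (x : ℝ)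
    (v : κ → ℝ) : (mkFlow e h).A x v = e (NormedSpace.exp ((-x) • L) (e.symm v)) := rfl



variable {ι : Type*} [Fintype ι] [Nonempty ι] [MeasurableSpace ι] [DiscreteMeasurableSpace ι]
  {σ ℓ : ι → ℝ}

/-- the process in coordinates -/
noncomputable def mkProc (e : E ≃L[ℝ] (κ → ℝ)) {L : E →L[ℝ] E} {C d : ℝ} (h : GB L C d)
    {b : ι → E} {Φ : (ℕ → ι) → E} (hΦ : Crest.Agent.R98.IsProc (gen σ ℓ L) b Φ) {B : ℝ}
    (hB : ∀ w, ‖Φ w‖ ≤ B) : Proc ℓ σ κ where
  F := mkFlow e h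
  b := fun i => e (b i)
  Φ := fun w => e (Φ w)
  B := ‖(e : E →L[ℝ] (κ → ℝ))‖ * B
  meas := by
    refine measurable_pi_lambda _ fun i => ?_
    exact hΦ.meas ((ContinuousLinearMap.proj (R := ℝ) (φ := fun _ => ℝ) i).comp
      (e : E →L[ℝ] (κ → ℝ)))
  hB := fun w => ((e : E →L[ℝ] (κ → ℝ)).le_opNorm _).trans
    (mul_le_mul_of_nonneg_left (hB w) (norm_nonneg _))
  rec' := by
    intro i w
    rw [cs_eq_scons, hΦ.eq, map_add, mkFlow_A, e.symm_apply_apply, add_comm]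
    congr 1
    show e ((σ i • NormedSpace.exp ((-(ℓ i)) • L)) (Φ w)) = _
    rw [smul_apply, map_smul]

theorem mkProc_fin (e : E ≃L[ℝ] (κ → ℝ)) {L : E →L[ℝ] E} {C d : ℝ} (h : GB L C d)
    {b : ι → E} {Φ : (ℕ → ι) → E} (hΦ : Crest.Agent.R98.IsProc (gen σ ℓ L) b Φ) {B : ℝ}
    (hB : ∀ w, ‖Φ w‖ ≤ B) {n : ℕ} (u : Fin n → ι) :
    (mkProc e h hΦ hB).fin u = e (pfin (gen σ ℓ L) b u) := by
  induction n with
  | zero =>
    show (0 : κ → ℝ) = e 0
    simp
  | succ n ih =>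
    have h1 : (mkProc e h hΦ hB).fin u = σ (u 0) • (mkFlow e h).A (ℓ (u 0))
      ((mkProc e h hΦ hB).fin (Fin.tail u)) + e (b (u 0)) := rfl
    have h2 : pfin (gen σ ℓ L) b u = b (u 0) + gen σ ℓ L (u 0) (pfin (gen σ ℓ L) b (Fin.tail u)) :=
      rfl
    rw [h1, h2, ih, mkFlow_A, e.symm_apply_apply, map_add, add_comm]
    congr 1
    show _ = e ((σ (u 0) • NormedSpace.exp ((-(ℓ (u 0))) • L)) _)
    rw [smul_apply, map_smul]

variable {p : ι → ℝ}

theorem alpha_coord [MeasurableSpace E] [BorelSpace E] (hp : (∀ i, 0 ≤ p i) ∧ ∑ i, p i = 1)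
    (e : E ≃L[ℝ] (κ → ℝ)) {Φ : (ℕ → ι) → E} (hΦ : Measurable Φ) :
    F.alpha p (fun w => e (Φ w)) = F.alpha p Φ := by
  have he : Measurable e := e.continuous.measurable
  have hes : Measurable e.symm := e.symm.continuous.measurable
  refine le_antisymm (F.alpha_mono hp hΦ ?_) (F.alpha_mono hp (he.comp hΦ) ?_)
  · have : (fun w => e (Φ w)) = e ∘ Φ := rfl
    rw [this, ← MeasurableSpace.comap_comp]
    exact MeasurableSpace.comap_mono he.comap_le
  · have : Φ = e.symm ∘ (fun w => e (Φ w)) := by funext w; simp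
    conv_lhs => rw [this]
    rw [← MeasurableSpace.comap_comp]
    exact MeasurableSpace.comap_mono hes.comap_le

end Pack

end Crest.Agent.R98.FD
end

-- ▼ part R98/FDJoint
section

/-!
# Row 98: joint processes and the transfer of collapse, (F3) (helper896, FD)
-/

set_option autoImplicit false
set_option linter.unusedSectionVars false
set_option linter.unusedVariables false

namespace Crest.Agent.R98.FD

open MeasureTheory Real Filter Topology
open Crest.Agent.R098.Upper (pw sw pw_nonneg sum_succ pw_cons sw_cons sum_pw)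
open Crest.Agent.R98 (PP scons isProb_PP PP_cons)

section JointFlow

variable {κ κ' : Type*} [Fintype κ] [Fintype κ']

theorem norm_sumElim_le {a : κ → ℝ} {b : κ' → ℝ} {r : ℝ} (hr : 0 ≤ r) (ha : ‖a‖ ≤ r)
    (hb : ‖b‖ ≤ r) : ‖(Sum.elim a b : κ ⊕ κ' → ℝ)‖ ≤ r := by
  rw [pi_norm_le_iff_of_nonneg hr]
  rintro (i | i)
  · exact (norm_le_pi_norm a i).trans ha
  · exact (norm_le_pi_norm b i).trans hb

theorem norm_inl_le (v : κ ⊕ κ' → ℝ) : ‖fun i => v (Sum.inl i)‖ ≤ ‖v‖ := by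
  rw [pi_norm_le_iff_of_nonneg (norm_nonneg _)]
  intro i
  exact norm_le_pi_norm v _

theorem norm_inr_le (v : κ ⊕ κ' → ℝ) : ‖fun i => v (Sum.inr i)‖ ≤ ‖v‖ := by
  rw [pi_norm_le_iff_of_nonneg (norm_nonneg _)]
  intro i
  exact norm_le_pi_norm v _

/-- the joint flow -/
noncomputable def jFlow (F : Flow κ) (F' : Flow κ') : Flow (κ ⊕ κ') where
  A := fun x =>
    { toFun := fun v => Sum.elim (F.A x fun i => v (Sum.inl i)) (F'.A x fun i => v (Sum.inr i))
      map_add' := by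
        intro v w
        funext i
        rcases i with i | i
        · have : (fun i => (v + w) (Sum.inl i)) = (fun i => v (Sum.inl i)) + fun i => w (Sum.inl i) :=
            rfl
          simp only [Sum.elim_inl, Pi.add_apply]
          have h := congrFun (map_add (F.A x) (fun i => v (Sum.inl i)) fun i => w (Sum.inl i)) i
          exact h
        · have h := congrFun (map_add (F'.A x) (fun i => v (Sum.inr i)) fun i => w (Sum.inr i)) i
          exact h
      map_smul' := by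
        intro c v
        funext i
        rcases i with i | i
        · exact congrFun (map_smul (F.A x) c fun i => v (Sum.inl i)) i
        · exact congrFun (map_smul (F'.A x) c fun i => v (Sum.inr i)) i }
  zero := by
    intro v
    funext i
    rcases i with i | i
    · exact congrFun (F.zero fun i => v (Sum.inl i)) i
    · exact congrFun (F'.zero fun i => v (Sum.inr i)) i
  add := by
    intro x y v
    funext i
    rcases i with i | i
    · exact congrFun (F.add x y fun i => v (Sum.inl i)) i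
    · exact congrFun (F'.add x y fun i => v (Sum.inr i)) i
  C := max F.C F'.C
  d := max F.d F'.d
  hC := F.hC.trans (le_max_left _ _)
  hd0 := F.hd0.trans (le_max_left _ _)
  hd := max_le F.hd F'.hd
  bd := by
    intro x hx v
    have h0 : 0 ≤ max F.C F'.C * exp (-((1 - max F.d F'.d) * x)) * ‖v‖ := by
      have := F.hC0.le.trans (le_max_left F.C F'.C)
      positivity
    refine norm_sumElim_le h0 ?_ ?_
    · refine (F.bd x hx _).trans ?_
      have h1 : exp (-((1 - F.d) * x)) ≤ exp (-((1 - max F.d F'.d) * x)) := by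
        rw [exp_le_exp]
        have := le_max_left F.d F'.d
        nlinarith
      exact mul_le_mul (mul_le_mul (le_max_left _ _) h1 (exp_pos _).le
        (F.hC0.le.trans (le_max_left _ _))) (norm_inl_le v) (norm_nonneg _)
        (mul_nonneg (F.hC0.le.trans (le_max_left _ _)) (exp_pos _).le)
    · refine (F'.bd x hx _).trans ?_
      have h1 : exp (-((1 - F'.d) * x)) ≤ exp (-((1 - max F.d F'.d) * x)) := by
        rw [exp_le_exp]
        have := le_max_right F.d F'.d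
        nlinarith
      exact mul_le_mul (mul_le_mul (le_max_right _ _) h1 (exp_pos _).le
        (F.hC0.le.trans (le_max_left _ _))) (norm_inr_le v) (norm_nonneg _)
        (mul_nonneg (F.hC0.le.trans (le_max_left _ _)) (exp_pos _).le)
  bd' := by
    intro x hx v
    have h0 : 0 ≤ max F.C F'.C * exp ((1 + max F.d F'.d) * x) * ‖v‖ := by
      have := F.hC0.le.trans (le_max_left F.C F'.C)
      positivity
    refine norm_sumElim_le h0 ?_ ?_
    · refine (F.bd' x hx _).trans ?_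
      have h1 : exp ((1 + F.d) * x) ≤ exp ((1 + max F.d F'.d) * x) := by
        rw [exp_le_exp]
        have := le_max_left F.d F'.d
        nlinarith
      exact mul_le_mul (mul_le_mul (le_max_left _ _) h1 (exp_pos _).le
        (F.hC0.le.trans (le_max_left _ _))) (norm_inl_le v) (norm_nonneg _)
        (mul_nonneg (F.hC0.le.trans (le_max_left _ _)) (exp_pos _).le)
    · refine (F'.bd' x hx _).trans ?_
      have h1 : exp ((1 + F'.d) * x) ≤ exp ((1 + max F.d F'.d) * x) := by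
        rw [exp_le_exp]
        have := le_max_right F.d F'.d
        nlinarith
      exact mul_le_mul (mul_le_mul (le_max_right _ _) h1 (exp_pos _).le
        (F.hC0.le.trans (le_max_left _ _))) (norm_inr_le v) (norm_nonneg _)
        (mul_nonneg (F.hC0.le.trans (le_max_left _ _)) (exp_pos _).le)


end JointFlow

namespace Proc

variable {ι : Type*} [Fintype ι] [Nonempty ι] [MeasurableSpace ι] [DiscreteMeasurableSpace ι]
  {l sg : ι → ℝ} {κ κ' : Type*} [Fintype κ] [Fintype κ']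
  {p : ι → ℝ} {P : Measure (ℕ → ι)} [IsProbabilityMeasure P]

/-- the joint process -/
noncomputable def joint (X : Proc l sg κ) (Y : Proc l sg κ') : Proc l sg (κ ⊕ κ') where
  F := jFlow X.F Y.F
  b := fun i => Sum.elim (X.b i) (Y.b i)
  Φ := fun w => Sum.elim (X.Φ w) (Y.Φ w)
  B := max X.B Y.B
  meas := by
    rw [measurable_pi_iff]
    rintro (i | i)
    · exact (measurable_pi_iff.1 X.meas) i
    · exact (measurable_pi_iff.1 Y.meas) i
  hB := fun w => norm_sumElim_le (X.B_nonneg.trans (le_max_left _ _))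
    ((X.hB w).trans (le_max_left _ _)) ((Y.hB w).trans (le_max_right _ _))
  rec' := by
    intro i w
    funext j
    rcases j with j | j
    · exact congrFun (X.rec' i w) j
    · exact congrFun (Y.rec' i w) j

theorem HP_joint_cell (X : Proc l sg κ) (Y : Proc l sg κ') (x : ℝ) :
    (X.joint Y).h P x = HP P (pr (X.cell x) (Y.cell x)) := by
  refine HP_congr P ((X.joint Y).FV_cell x) ((X.FV_cell x).pair (Y.FV_cell x)) fun w w' => ?_
  have h1 : ∀ w, (X.joint Y).sc x w = Sum.elim (X.sc x w) (Y.sc x w) := fun w => rfl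
  simp only [pr, Prod.mk.injEq]
  constructor
  · intro h
    constructor
    · funext k
      have := congrFun h (Sum.inl k)
      exact this
    · funext k
      have := congrFun h (Sum.inr k)
      exact this
  · rintro ⟨h2, h3⟩
    funext k
    rcases k with k | k
    · exact congrFun h2 k
    · exact congrFun h3 k

/-- conditional entropy of the joint cells is `o(x)` when the rates agree -/
theorem cond_small (hp : (∀ i, 0 ≤ p i) ∧ ∑ i, p i = 1) (hsg : ∀ i, |sg i| = 1)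
    (hl : ∀ i, 0 < l i) (X : Proc l sg κ) (Y : Proc l sg κ')
    (hα : F.alpha p (X.joint Y).Φ ≤ F.alpha p Y.Φ) {ε : ℝ} (hε : 0 < ε) :
    ∃ D : ℝ, ∀ x, 0 ≤ x → HP (PP p) (pr (X.cell x) (Y.cell x)) ≤ HP (PP p) (Y.cell x) + ε * x + D := by
  have := isProb_PP hp
  have hP := WM_PP hp
  obtain ⟨a, M, ha, hal, hM⟩ := exists_bounds hl
  have hχ : 0 < ∑ i, p i * l i := by
    have h1 : ∑ i, p i * a ≤ ∑ i, p i * l i :=
      Finset.sum_le_sum fun i _ => mul_le_mul_of_nonneg_left (hal i) (hp.1 i)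
    rw [← Finset.sum_mul, hp.2, one_mul] at h1
    linarith
  set χ := ∑ i, p i * l i with hχd
  obtain ⟨D1, hD1⟩ := (X.joint Y).h_upper hP hsg hl hp.1 hp.2
    (fun n x => (X.joint Y).MI_cell_le hp hsg n x) (ε := ε * χ / 2) (by positivity)
  obtain ⟨x0, D2, hD2⟩ := Y.h_lower_unif hP hsg hl hp.1 hp.2
    (fun n => Y.exists_MI_cell_ge hp hsg n) (ε := ε * χ / 2) (by positivity) Y.F.C
  refine ⟨D1 + D2, fun x hx => ?_⟩
  have h1 := hD1 x hx
  have h2 := hD2 Y le_rfl (fun w => by rw [sub_self, norm_zero]; exact zero_le_one) x hx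
  rw [HP_joint_cell] at h1
  have h3 : Y.h (PP p) x = HP (PP p) (Y.cell x) := rfl
  rw [h3] at h2
  have h4 : (F.alpha p (X.joint Y).Φ + ε * χ / 2) / χ * x
      ≤ (F.alpha p Y.Φ + ε * χ / 2) / χ * x := by
    gcongr
  have h5 : (F.alpha p Y.Φ + ε * χ / 2) / χ * x = (F.alpha p Y.Φ - ε * χ / 2) / χ * x + ε * x := by
    field_simp
    ring
  linarith

/-- functions of the prefix and of the tail are independent -/
theorem indep_pre_sh (hP : WM p P) {n : ℕ} {γ δ : Type*} (a : (Fin n → ι) → γ)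
    {f : (ℕ → ι) → δ} (hf : FV f) (c : γ) (v : δ) :
    P.real ((fun w => a (pre n w)) ⁻¹' {c} ∩ (fun w => f (sh^[n] w)) ⁻¹' {v})
      = P.real ((fun w => a (pre n w)) ⁻¹' {c}) * P.real ((fun w => f (sh^[n] w)) ⁻¹' {v}) := by
  classical
  have key : ∀ S : Finset (Fin n → ι), P.real (pre n ⁻¹' (S : Set (Fin n → ι)) ∩
      (fun w => f (sh^[n] w)) ⁻¹' {v}) = (∑ u ∈ S, pw p u) * P.real (f ⁻¹' {v}) := by
    intro S
    have e : pre n ⁻¹' (S : Set (Fin n → ι)) ∩ (fun w => f (sh^[n] w)) ⁻¹' {v}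
        = ⋃ u ∈ S, (pre n ⁻¹' {u} ∩ (fun w => f (sh^[n] w)) ⁻¹' {v} : Set (ℕ → ι)) := by
      ext w; simp
    rw [e, measureReal_biUnion_finset]
    · rw [Finset.sum_mul]
      refine Finset.sum_congr rfl fun u _ => ?_
      rw [hP.real_pre_inter u ((hf.sh n).meas v)]
      congr 2
      ext w
      simp [sh_app]
    · intro x _ y _ hxy
      refine Set.disjoint_left.2 fun w hx hy => hxy ?_
      have h1 : pre n w = x := hx.1
      have h2 : pre n w = y := hy.1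
      rw [← h1, ← h2]
    · intro u _
      exact ((FV_pre (ι := ι) n).meas u).inter ((hf.sh n).meas v)
  have e1 : (fun w : ℕ → ι => a (pre n w)) ⁻¹' {c}
      = pre n ⁻¹' ((Finset.univ.filter fun u => a u = c : Finset (Fin n → ι)) : Set (Fin n → ι)) := by
    ext w; simp
  have h1 := key (Finset.univ.filter fun u => a u = c)
  have h2 := key Finset.univ
  have h3 := real_pre_set hP (Finset.univ.filter fun u : Fin n → ι => a u = c)
  have h4 := real_pre_set hP (Finset.univ : Finset (Fin n → ι))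
  have e2 : (pre n ⁻¹' ((Finset.univ : Finset (Fin n → ι)) : Set (Fin n → ι))) =
      (Set.univ : Set (ℕ → ι)) := by ext w; simp
  rw [e2, Set.univ_inter] at h2
  rw [e2] at h4
  have h5 : ∑ u : Fin n → ι, pw p u = 1 := by rw [← h4]; simp
  rw [h5, one_mul] at h2
  rw [e1, h1, h3, h2]

theorem sc_tail (X : Proc l sg κ) (n : ℕ) (x : ℝ) (w : ℕ → ι) :
    X.sc x w = X.F.A (-x) (X.fin (pre n w))
      + pw sg (pre n w) • X.F.A (sw l (pre n w)) (X.sc x (sh^[n] w)) := by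
  have h1 : X.Φ w = X.fin (pre n w) + pw sg (pre n w) • X.F.A (sw l (pre n w)) (X.Φ (sh^[n] w)) := by
    conv_lhs => rw [← app_pre n w]
    rw [X.Φ_app]
  unfold sc
  rw [h1, map_add, map_smul, ← X.F.add, ← X.F.add]
  congr 4
  ring

/-- comparison of the finite cell with the infinite cell, given the tail -/
theorem fin_osc (hl : ∀ i, 0 < l i) (hsg : ∀ i, |sg i| = 1) (X : Proc l sg κ) {n : ℕ} {x : ℝ}
    {w w' : ℕ → ι}
    (h1 : X.cell x w = X.cell x w') (h2 : sw l (pre n w) = sw l (pre n w'))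
    (h3 : pw sg (pre n w) = pw sg (pre n w')) (h4 : X.cell x (sh^[n] w) = X.cell x (sh^[n] w')) :
    ‖X.F.A (-x) (X.fin (pre n w)) - X.F.A (-x) (X.fin (pre n w'))‖ ≤ 1 + X.F.C := by
  have e1 : X.F.A (-x) (X.fin (pre n w)) - X.F.A (-x) (X.fin (pre n w'))
      = (X.sc x w - X.sc x w') - pw sg (pre n w) •
        X.F.A (sw l (pre n w)) (X.sc x (sh^[n] w) - X.sc x (sh^[n] w')) := by
    rw [X.sc_tail n x w, X.sc_tail n x w', map_sub, smul_sub, ← h2, ← h3]
    abel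
  rw [e1]
  have hsw : 0 ≤ sw l (pre n w) := Finset.sum_nonneg fun j _ => (hl _).le
  refine (norm_sub_le _ _).trans (add_le_add (fl_eq_dist h1) ?_)
  rw [norm_smul, Real.norm_eq_abs, abs_pw hsg, one_mul]
  refine (X.F.bd1 hsw _).trans ?_
  have := fl_eq_dist h4
  have h5 : ‖X.sc x (sh^[n] w) - X.sc x (sh^[n] w')‖ ≤ 1 := this
  have := X.F.hC0
  nlinarith

theorem inf_osc (hl : ∀ i, 0 < l i) (hsg : ∀ i, |sg i| = 1) (X : Proc l sg κ) {n : ℕ} {x : ℝ}
    {w w' : ℕ → ι}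
    (h1 : X.fcell n x w = X.fcell n x w') (h2 : sw l (pre n w) = sw l (pre n w'))
    (h3 : pw sg (pre n w) = pw sg (pre n w')) (h4 : X.cell x (sh^[n] w) = X.cell x (sh^[n] w')) :
    ‖X.sc x w - X.sc x w'‖ ≤ 1 + X.F.C := by
  have e1 : X.sc x w - X.sc x w' = (X.F.A (-x) (X.fin (pre n w)) - X.F.A (-x) (X.fin (pre n w')))
      + pw sg (pre n w) • X.F.A (sw l (pre n w)) (X.sc x (sh^[n] w) - X.sc x (sh^[n] w')) := by
    rw [X.sc_tail n x w, X.sc_tail n x w', map_sub, smul_sub, ← h2, ← h3]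
    abel
  rw [e1]
  have hsw : 0 ≤ sw l (pre n w) := Finset.sum_nonneg fun j _ => (hl _).le
  refine (norm_add_le _ _).trans (add_le_add (fl_eq_dist h1) ?_)
  rw [norm_smul, Real.norm_eq_abs, abs_pw hsg, one_mul]
  refine (X.F.bd1 hsw _).trans ?_
  have h5 : ‖X.sc x (sh^[n] w) - X.sc x (sh^[n] w')‖ ≤ 1 := fl_eq_dist h4
  have := X.F.hC0
  nlinarith

/-- **(F3), cell form** -/
theorem transfer (hP : WM p P) (hl : ∀ i, 0 < l i) (hsg : ∀ i, |sg i| = 1) (X : Proc l sg κ)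
    (Y : Proc l sg κ') (n : ℕ) (x : ℝ) {T : Type*} (τ : (Fin n → ι) → T)
    (hτ : ∀ u v, τ u = τ v → sw l u = sw l v ∧ pw sg u = pw sg v) :
    HP P (pr (X.fcell n x) fun w => τ (pre n w)) ≤ HP P (pr (Y.fcell n x) fun w => τ (pre n w))
      + (HP P (pr (X.cell x) (Y.cell x)) - HP P (Y.cell x))
      + Fintype.card κ * log (2 * (1 + X.F.C) + 3) + Fintype.card κ' * log (2 * (1 + Y.F.C) + 3) := by
  set f := X.cell x with hf
  set g := Y.cell x with hg
  set f' := X.fcell n x with hf'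
  set g' := Y.fcell n x with hg'
  set t : (ℕ → ι) → T := fun w => τ (pre n w) with ht
  set D : (ℕ → ι) → (κ → ℤ) × (κ' → ℤ) := fun w => pr f g (sh^[n] w) with hD
  have Ff : FV f := X.FV_cell x
  have Fg : FV g := Y.FV_cell x
  have Ff' : FV f' := X.FV_fcell n x
  have Fg' : FV g' := Y.FV_fcell n x
  have Ft : FV t := FV_word τ
  have FD : FV D := (Ff.pair Fg).sh n
  -- (1) submodularity
  have h1 := HP_submod P Ff (Ft.pair FD) Fg
  -- HP (g,(f,(t,D))) + HP g ≤ HP (g,f) + HP (g,(t,D))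
  have e1 : HP P (pr g f) = HP P (pr f g) := HP_comm P Fg Ff
  -- (2) finite cells from infinite cells
  have h2 : HP P (pr f' (pr g (pr f (pr t D)))) ≤ HP P (pr g (pr f (pr t D)))
      + Fintype.card κ * log (2 * (1 + X.F.C) + 3) := by
    refine HP_fl_pair_le P (X.FV_fcell n x) (Fg.pair (Ff.pair (Ft.pair FD)))
      (by linarith [X.F.hC0]) fun w w' hw => ?_
    simp only [pr, Prod.mk.injEq] at hw
    obtain ⟨_, hw2, hw3, hw4⟩ := hw
    have h5 := hτ _ _ hw3
    simp only [hD, pr, Prod.mk.injEq] at hw4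
    exact X.fin_osc hl hsg hw2 h5.1 h5.2 hw4.1
  -- (3) infinite cell of Y from the finite cell
  have h3 : HP P (pr g (pr g' (pr t D))) ≤ HP P (pr g' (pr t D))
      + Fintype.card κ' * log (2 * (1 + Y.F.C) + 3) := by
    refine HP_fl_pair_le P (Y.FV_cell x) (Fg'.pair (Ft.pair FD))
      (by linarith [Y.F.hC0]) fun w w' hw => ?_
    simp only [pr, Prod.mk.injEq] at hw
    obtain ⟨hw2, hw3, hw4⟩ := hw
    have h5 := hτ _ _ hw3
    simp only [hD, pr, Prod.mk.injEq] at hw4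
    exact Y.inf_osc hl hsg hw2 h5.1 h5.2 hw4.2
  have h4 : HP P (pr g (pr t D)) ≤ HP P (pr g (pr g' (pr t D))) :=
    HP_le_of_det P (Fg.pair (Fg'.pair (Ft.pair FD))) (Fg.pair (Ft.pair FD)) fun w w' hw => by
      simp only [pr, Prod.mk.injEq] at hw ⊢
      exact ⟨hw.1, hw.2.2⟩
  have h5 : HP P (pr g' (pr t D)) ≤ HP P (pr g' t) + HP P D := by
    have h6 := HP_pair_le_add P (Fg'.pair Ft) FD
    have e : HP P (pr (pr g' t) D) = HP P (pr g' (pr t D)) :=
      HP_congr P ((Fg'.pair Ft).pair FD) (Fg'.pair (Ft.pair FD)) fun w w' => by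
        simp only [pr, Prod.mk.injEq]; tauto
    rw [e] at h6
    exact h6
  -- (4) independence
  have h6 : HP P (pr (pr f' t) D) = HP P (pr f' t) + HP P D := by
    refine HP_indep P (Ff'.pair Ft) FD fun a b => ?_
    exact indep_pre_sh hP (fun u => ((fun k => ⌊X.F.A (-x) (X.fin u) k⌋ : κ → ℤ), τ u))
      (Ff.pair Fg) a b
  have h7 : HP P (pr (pr f' t) D) ≤ HP P (pr f' (pr g (pr f (pr t D)))) :=
    HP_le_of_det P (Ff'.pair (Fg.pair (Ff.pair (Ft.pair FD)))) ((Ff'.pair Ft).pair FD)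
      fun w w' hw => by
        simp only [pr, Prod.mk.injEq] at hw ⊢
        exact ⟨⟨hw.1, hw.2.2.2.1⟩, hw.2.2.2.2⟩
  rw [e1] at h1
  linarith

end Proc

end Crest.Agent.R98.FD
end

-- ▼ part R98/FDF3
section

/-!
# Row 98: (F3) in the class form of the ending (helper896, FD)
-/

set_option autoImplicit false
set_option linter.unusedSectionVars false
set_option linter.unusedVariables false

namespace Crest.Agent.R98.FD

open MeasureTheory Real Filter Topology
open Crest.Agent.R098.Upper (pw sw pw_nonneg sum_succ pw_cons sw_cons sum_pw)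
open Crest.Agent.R98 (PP scons isProb_PP PP_cons rayR gen pfin wtype cw rho Fac)

/-- the one-dimensional flow -/
noncomputable def eFlow : Flow Unit where
  A := fun x => exp (-x) • LinearMap.id
  zero := by intro v; simp
  add := by
    intro x y v
    simp only [LinearMap.smul_apply, LinearMap.id_apply, smul_smul]
    rw [neg_add, exp_add]
  C := 1
  d := 0
  hC := le_rfl
  hd0 := le_rfl
  hd := by norm_num
  bd := by
    intro x hx v
    simp only [LinearMap.smul_apply, LinearMap.id_apply]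
    rw [norm_smul, Real.norm_eq_abs, abs_of_pos (exp_pos _)]
    simp
  bd' := by
    intro x hx v
    simp only [LinearMap.smul_apply, LinearMap.id_apply]
    rw [norm_smul, Real.norm_eq_abs, abs_of_pos (exp_pos _)]
    simp

theorem eFlow_A (x : ℝ) (v : Unit → ℝ) : eFlow.A x v = exp (-x) • v := rfl

section One

variable {ι : Type*} [Fintype ι] [Nonempty ι] [MeasurableSpace ι] [DiscreteMeasurableSpace ι]
  {σ ℓ : ι → ℝ}

theorem rayR0_eq (σ ℓ : ι → ℝ) (i : ι) : rayR σ ℓ 0 i = σ i * exp (-(ℓ i)) := by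
  simp [rayR]

theorem abs_rayR0_le (hσ : ∀ i, |σ i| = 1) {ℓ0 : ℝ} (h0 : ∀ i, ℓ0 ≤ ℓ i) (i : ι) :
    |rayR σ ℓ 0 i| ≤ exp (-ℓ0) := by
  rw [rayR0_eq, abs_mul, hσ, one_mul, abs_of_pos (exp_pos _), exp_le_exp]
  linarith [h0 i]

/-- the real process `Π_ω` -/
noncomputable def oneProc (hσ : ∀ i, |σ i| = 1) {ℓ0 : ℝ} (hpos : 0 < ℓ0) (h0 : ∀ i, ℓ0 ≤ ℓ i)
    (t : ι → ℝ) : Proc ℓ σ Unit where
  F := eFlow
  b := fun i _ => t i
  Φ := fun w _ => Crest.Agent.R98.Pi (rayR σ ℓ 0) t w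
  B := (∑ i, |t i|) / (1 - exp (-ℓ0))
  meas := by
    rw [measurable_pi_iff]
    intro _
    exact Crest.Agent.R98.measurable_Pi (abs_rayR0_le hσ h0) (by rw [exp_lt_one_iff]; linarith) t
  hB := by
    intro w
    have h1 : exp (-ℓ0) < 1 := by rw [exp_lt_one_iff]; linarith
    have h2 := Crest.Agent.R98.abs_Pi_le (abs_rayR0_le hσ h0) h1 t w
    rw [pi_norm_le_iff_of_nonneg ((abs_nonneg _).trans h2)]
    intro _
    exact h2
  rec' := by
    intro i w
    have h1 : exp (-ℓ0) < 1 := by rw [exp_lt_one_iff]; linarith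
    funext k
    rw [cs_eq_scons]
    show Crest.Agent.R98.Pi (rayR σ ℓ 0) t (scons i w) = _
    rw [Crest.Agent.R98.Pi_scons (abs_rayR0_le hσ h0) h1, rayR0_eq, eFlow_A]
    simp only [Pi.add_apply, Pi.smul_apply, smul_eq_mul]
    ring

theorem oneProc_fin (hσ : ∀ i, |σ i| = 1) {ℓ0 : ℝ} (hpos : 0 < ℓ0) (h0 : ∀ i, ℓ0 ≤ ℓ i)
    (t : ι → ℝ) {n : ℕ} (u : Fin n → ι) :
    (oneProc hσ hpos h0 t).fin u = fun _ => ∑ i, cw (rayR σ ℓ 0) u i * t i := by
  classical
  induction n with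
  | zero =>
    show (0 : Unit → ℝ) = _
    funext _
    simp
  | succ n ih =>
    have h1 : (oneProc hσ hpos h0 t).fin u = σ (u 0) • eFlow.A (ℓ (u 0))
      ((oneProc hσ hpos h0 t).fin (Fin.tail u)) + fun _ => t (u 0) := rfl
    rw [h1, ih, eFlow_A]
    funext k
    have h2 : ∀ i, cw (rayR σ ℓ 0) u i = (if u 0 = i then 1 else 0)
        + rayR σ ℓ 0 (u 0) * cw (rayR σ ℓ 0) (Fin.tail u) i := by
      intro i
      have h3 := Crest.Agent.R98.cw_cons (rayR σ ℓ 0) (u 0) (Fin.tail u) i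
      rw [Fin.cons_self_tail] at h3
      rw [h3]
    simp only [h2, add_mul, Finset.sum_add_distrib, ite_mul, one_mul, zero_mul,
      Finset.sum_ite_eq, Finset.mem_univ, if_true, Pi.add_apply, Pi.smul_apply, smul_eq_mul]
    rw [rayR0_eq]
    simp only [mul_assoc, ← Finset.mul_sum]
    ring

end One

section Main

variable {ι : Type*} [Fintype ι] [Nonempty ι] [MeasurableSpace ι] [DiscreteMeasurableSpace ι]
  {σ ℓ p : ι → ℝ} {E : Type*} [NormedAddCommGroup E] [NormedSpace ℝ E] [FiniteDimensional ℝ E]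

theorem sw_eq_of_wtype {n : ℕ} {u v : Fin n → ι} (h : wtype u = wtype v) (l : ι → ℝ) :
    sw l u = sw l v := by
  classical
  have key : ∀ u : Fin n → ι, sw l u = ∑ i, wtype u i * l i := by
    intro u
    unfold sw wtype
    rw [← Finset.sum_fiberwise_of_maps_to (s := Finset.univ) (t := Finset.univ) (g := u)
      (fun _ _ => Finset.mem_univ _)]
    refine Finset.sum_congr rfl fun i _ => ?_
    rw [Finset.sum_congr rfl fun j hj => by rw [(Finset.mem_filter.1 hj).2]]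
    rw [Finset.sum_const, nsmul_eq_mul]
  rw [key, key, h]

/-- **(F3)**: collapse is inherited by the functionals which are measurable with respect to the
projection -/
theorem F3 (hσ : ∀ i, |σ i| = 1) (hℓ : ∀ i, 0 < ℓ i) (hp : (∀ i, 0 ≤ p i) ∧ ∑ i, p i = 1)
    (t : ι → ℝ) {L : E →L[ℝ] E} {C d : ℝ} (hL : GB L C d) {b : ι → E} {Φ : (ℕ → ι) → E}
    (hΦ : Crest.Agent.R98.IsProc (gen σ ℓ L) b Φ)
    (hfac : ∀ φ : E →L[ℝ] ℝ, Fac p (Crest.Agent.R98.Pi (rayR σ ℓ 0) t) (fun w => φ (Φ w)))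
    (hcol : ∀ q > 0, ∀ η > 0, ∀ᶠ n : ℕ in atTop, ∃ S : Setoid (Fin n → ι),
      Part.HS (pw p) S ≤ (F.alpha p (Crest.Agent.R98.Pi (rayR σ ℓ 0) t) + η) * n ∧
      ∀ u v, S u v → wtype u = wtype v ∧
        |∑ i, (cw (rayR σ ℓ 0) u i - cw (rayR σ ℓ 0) v i) * t i| ≤ exp (-q * n))
    {q : ℝ} (hq : 0 < q) {η : ℝ} (hη : 0 < η) :
    ∀ᶠ n : ℕ in atTop, ∃ S : Setoid (Fin n → ι),
      Part.HS (pw p) S ≤ (F.alpha p (Crest.Agent.R98.Pi (rayR σ ℓ 0) t) + η) * n ∧
      ∀ u v, S u v → wtype u = wtype v ∧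
        ‖pfin (gen σ ℓ L) b u - pfin (gen σ ℓ L) b v‖ ≤ exp (-q * n) := by
  classical
  have hprob := isProb_PP hp
  have hP := WM_PP hp
  obtain ⟨ℓ0, M, h0, hal, hM⟩ := exists_bounds hℓ
  obtain ⟨B, hB⟩ := hΦ.bdd
  set e := (Module.finBasis ℝ E).equivFunL with he
  set X := mkProc e hL hΦ hB with hX
  set Y := oneProc hσ h0 hal t with hY
  set α := F.alpha p (Crest.Agent.R98.Pi (rayR σ ℓ 0) t) with hα
  have hr : ∀ i, |rayR σ ℓ 0 i| ≤ exp (-ℓ0) := abs_rayR0_le hσ hal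
  have h1 : exp (-ℓ0) < 1 := by rw [exp_lt_one_iff]; linarith
  have hPim : Measurable (Crest.Agent.R98.Pi (rayR σ ℓ 0) t) :=
    Crest.Agent.R98.measurable_Pi hr h1 t
  -- the rate of the joint process
  have hαj : F.alpha p (X.joint Y).Φ ≤ F.alpha p Y.Φ := by
    have h2 : F.alpha p (X.joint Y).Φ ≤ α := by
      refine F.alpha_le_of_fac_pi hp hPim (X.joint Y).meas fun k => ?_
      rcases k with k | k
      · have h3 := hfac ((ContinuousLinearMap.proj (R := ℝ) (φ := fun _ => ℝ) k).comp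
          (e : E →L[ℝ] (Fin (Module.finrank ℝ E) → ℝ)))
        exact h3
      · exact Fac.self p _
    have h3 : α ≤ F.alpha p Y.Φ := by
      refine F.alpha_mono hp Y.meas ?_
      have e1 : Crest.Agent.R98.Pi (rayR σ ℓ 0) t = (fun v : Unit → ℝ => v ()) ∘ Y.Φ := rfl
      rw [e1, ← MeasurableSpace.comap_comp]
      exact MeasurableSpace.comap_mono (measurable_pi_apply ()).comap_le
    exact h2.trans h3
  set q' : ℝ := 2 * q + 2 with hq'
  have hq'0 : 0 < q' := by positivity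
  obtain ⟨D, hD⟩ := Proc.cond_small hp hσ hℓ X Y hαj (ε := η / (3 * q')) (by positivity)
  -- eventually
  set K1 : ℝ := Fintype.card (Fin (Module.finrank ℝ E)) * log (2 * (1 + X.F.C) + 3)
    + Fintype.card Unit * log (2 * (1 + Y.F.C) + 3) with hK1
  set Q : ℝ := ‖(e.symm : (Fin (Module.finrank ℝ E) → ℝ) →L[ℝ] E)‖ * X.F.C with hQ
  have hev1 : ∀ᶠ n : ℕ in atTop, D + K1 + log 5 ≤ η / 3 * n := by
    have : Tendsto (fun n : ℕ => η / 3 * (n : ℝ)) atTop atTop :=
      tendsto_natCast_atTop_atTop.const_mul_atTop (by positivity)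
    exact this.eventually_ge_atTop _
  have hev2 : ∀ᶠ n : ℕ in atTop, Q ≤ exp (n : ℝ) := by
    have : Tendsto (fun n : ℕ => exp (n : ℝ)) atTop atTop :=
      tendsto_exp_atTop.comp tendsto_natCast_atTop_atTop
    exact this.eventually_ge_atTop _
  filter_upwards [hcol q' hq'0 (η / 3) (by positivity), hev1, hev2] with n hn h2 h3
  obtain ⟨S', hS', hS'c⟩ := hn
  set x : ℝ := q' * n with hx
  have hx0 : 0 ≤ x := by positivity
  set g : (Fin n → ι) → (Fin (Module.finrank ℝ E) → ℤ) × (ι → ℕ) :=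
    fun u => ((fun k => ⌊X.F.A (-x) (X.fin u) k⌋), wtype u) with hg
  refine ⟨Setoid.ker g, ?_, ?_⟩
  · have e1 : Part.HS (pw p) (Setoid.ker g)
        = HP (PP p) (pr (X.fcell n x) fun w => wtype (pre n w)) := by
      rw [← HP_word hP g]; rfl
    have h4 := Proc.transfer (P := PP p) hP hℓ hσ X Y n x (fun u : Fin n → ι => wtype u)
      (fun u v huv => ⟨sw_eq_of_wtype huv ℓ, Crest.Agent.R98.rho_congr_wtype σ huv⟩)
    have h5 := hD x hx0
    have h6 : HP (PP p) (pr (Y.fcell n x) fun w => wtype (pre n w))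
        ≤ Part.HS (pw p) S' + log 5 := by
      have h7 : HP (PP p) (pr (Y.fcell n x) fun w => (Quotient.mk S' (pre n w) : Quotient S'))
          ≤ HP (PP p) (fun w => (Quotient.mk S' (pre n w) : Quotient S'))
            + Fintype.card Unit * log (2 * 1 + 3) := by
        refine HP_fl_pair_le (PP p) (Y.FV_fcell n x) (FV_word _) zero_le_one fun w w' hw => ?_
        have h8 := (hS'c _ _ (Quotient.eq.1 hw)).2
        rw [hY, oneProc_fin, oneProc_fin]
        have e2 : (oneProc hσ h0 hal t).F = eFlow := rfl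
        rw [e2, ← map_sub, eFlow_A, neg_neg, norm_smul, Real.norm_eq_abs, abs_of_pos (exp_pos _)]
        have e3 : ‖(fun _ : Unit => ∑ i, cw (rayR σ ℓ 0) (pre n w) i * t i)
            - fun _ => ∑ i, cw (rayR σ ℓ 0) (pre n w') i * t i‖ ≤ exp (-q' * n) := by
          rw [pi_norm_le_iff_of_nonneg (exp_pos _).le]
          intro _
          rw [Pi.sub_apply, ← Finset.sum_sub_distrib, Real.norm_eq_abs]
          simp only [← sub_mul]
          exact h8
        calc exp x * _ ≤ exp x * exp (-q' * n) := mul_le_mul_of_nonneg_left e3 (exp_pos _).le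
          _ = 1 := by rw [← exp_add, hx]; ring_nf; simp
      rw [HP_setoid hP S'] at h7
      have h9 : HP (PP p) (pr (Y.fcell n x) fun w => wtype (pre n w))
          ≤ HP (PP p) (pr (Y.fcell n x) fun w => (Quotient.mk S' (pre n w) : Quotient S')) :=
        HP_le_of_det (PP p) ((Y.FV_fcell n x).pair (FV_word _))
          ((Y.FV_fcell n x).pair (FV_word (fun u : Fin n → ι => wtype u))) fun w w' hw => by
            simp only [pr, Prod.mk.injEq] at hw ⊢
            exact ⟨hw.1, (hS'c _ _ (Quotient.eq.1 hw.2)).1⟩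
      have e4 : (Fintype.card Unit : ℝ) * log (2 * 1 + 3) = log 5 := by
        rw [Fintype.card_unit]; norm_num
      rw [e4] at h7
      linarith
    rw [e1]
    have h10 : η / (3 * q') * x = η / 3 * n := by rw [hx]; field_simp
    rw [h10] at h5
    have h11 : (α + η) * n = (α + η / 3) * n + η / 3 * n + η / 3 * n := by ring
    rw [h11]
    linarith
  · intro u v huv
    have h4 : g u = g v := huv
    have h5 : wtype u = wtype v := congrArg Prod.snd h4
    refine ⟨h5, ?_⟩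
    have h6 : (fun k => ⌊X.F.A (-x) (X.fin u) k⌋) = fun k => ⌊X.F.A (-x) (X.fin v) k⌋ :=
      congrArg Prod.fst h4
    have h7 : ‖X.F.A (-x) (X.fin u) - X.F.A (-x) (X.fin v)‖ ≤ 1 := by
      rw [pi_norm_le_iff_of_nonneg zero_le_one]
      intro k
      exact (Int.abs_sub_lt_one_of_floor_eq_floor (congrFun h6 k)).le
    have h8 : ‖X.fin u - X.fin v‖ ≤ X.F.C * exp (-((q + 1) * n)) := by
      have e1 : X.fin u - X.fin v = X.F.A x (X.F.A (-x) (X.fin u) - X.F.A (-x) (X.fin v)) := by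
        rw [map_sub, X.F.cancel, X.F.cancel]
      rw [e1]
      refine (X.F.bd x hx0 _).trans ?_
      have h9 : exp (-((1 - X.F.d) * x)) ≤ exp (-((q + 1) * n)) := by
        rw [exp_le_exp]
        have h10 := X.F.hd
        have h11 : (q + 1) * (n : ℝ) = x / 2 := by rw [hx, hq']; ring
        rw [h11]
        nlinarith
      calc X.F.C * exp (-((1 - X.F.d) * x)) * _ ≤ X.F.C * exp (-((q + 1) * n)) * 1 := by
            refine mul_le_mul (mul_le_mul_of_nonneg_left h9 X.F.hC0.le) h7 (norm_nonneg _) ?_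
            exact mul_nonneg X.F.hC0.le (exp_pos _).le
        _ = _ := mul_one _
    have h9 : pfin (gen σ ℓ L) b u - pfin (gen σ ℓ L) b v = e.symm (X.fin u - X.fin v) := by
      rw [hX, mkProc_fin, mkProc_fin, ← map_sub, e.symm_apply_apply]
    rw [h9]
    refine ((e.symm : (Fin (Module.finrank ℝ E) → ℝ) →L[ℝ] E).le_opNorm _).trans ?_
    calc _ ≤ ‖(e.symm : (Fin (Module.finrank ℝ E) → ℝ) →L[ℝ] E)‖
          * (X.F.C * exp (-((q + 1) * n))) := mul_le_mul_of_nonneg_left h8 (norm_nonneg _)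
      _ = Q * exp (-((q + 1) * n)) := by rw [hQ]; ring
      _ ≤ exp n * exp (-((q + 1) * n)) := mul_le_mul_of_nonneg_right h3 (exp_pos _).le
      _ = exp (-q * n) := by rw [← exp_add]; ring_nf

end Main

end Crest.Agent.R98.FD
end

-- ▼ part R98/F4
section

/-!
# Row 98: (F4), class form (helper582)

Entropy of finite words near a real parameter `t`: if words in one class have values within
`K exp(-χ n)` at a parameter `t'` close to `t`, the entropy of the classes is at least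
`(α(t) - η) n`.
-/

set_option autoImplicit false
set_option linter.unusedSectionVars false
set_option linter.unusedVariables false

namespace Crest.Agent.R98.FD

open MeasureTheory Real Filter Topology
open Crest.Agent.R098.Upper (pw sw pw_nonneg sum_succ pw_cons sw_cons sum_pw)
open Crest.Agent.R98 (PP scons isProb_PP PP_cons Part.HS Pi cw cw_cons Pi_scons abs_Pi_le
  measurable_Pi exists_cons)

section One

/-- the flow `exp (-x)` on `ℝ` -/
noncomputable def f4Flow : Flow (Fin 1) where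
  A := fun x => exp (-x) • (LinearMap.id : (Fin 1 → ℝ) →ₗ[ℝ] (Fin 1 → ℝ))
  zero := by intro v; simp
  add := by
    intro x y v
    simp only [LinearMap.smul_apply, LinearMap.id_apply, smul_smul]
    rw [← exp_add, neg_add]
  C := 1
  d := 0
  hC := le_rfl
  hd0 := le_rfl
  hd := by norm_num
  bd := by
    intro x _ v
    simp only [LinearMap.smul_apply, LinearMap.id_apply, norm_smul, Real.norm_eq_abs, abs_exp]
    simp
  bd' := by
    intro x _ v
    simp only [LinearMap.smul_apply, LinearMap.id_apply, norm_smul, Real.norm_eq_abs, abs_exp]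
    simp

theorem f4Flow_A (x : ℝ) (v : Fin 1 → ℝ) : f4Flow.A x v = exp (-x) • v := rfl

variable {ι : Type*} [Fintype ι] [Nonempty ι] [MeasurableSpace ι] [DiscreteMeasurableSpace ι]
  {σ ℓ : ι → ℝ}

/-- the coding map at a real parameter as a process -/
noncomputable def f4Proc {q : ℝ} (hr : ∀ i, |σ i * exp (-(ℓ i))| ≤ q) (hq : q < 1) (t : ι → ℝ) :
    Proc ℓ σ (Fin 1) where
  F := f4Flow
  b := fun i _ => t i
  Φ := fun w _ => Pi (fun i => σ i * exp (-(ℓ i))) t w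
  B := (∑ i, |t i|) / (1 - q)
  meas := measurable_pi_lambda _ fun _ => measurable_Pi hr hq t
  hB := by
    intro w
    have h0 : (0 : ℝ) ≤ (∑ i, |t i|) / (1 - q) :=
      div_nonneg (Finset.sum_nonneg fun _ _ => abs_nonneg _) (by linarith)
    rw [pi_norm_le_iff_of_nonneg h0]
    intro _
    exact abs_Pi_le hr hq t w
  rec' := by
    intro i w
    funext k
    rw [cs_eq_scons, Pi_scons hr hq]
    simp only [f4Flow_A, Pi.add_apply, Pi.smul_apply, smul_eq_mul]
    ring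

variable {q : ℝ} (hr : ∀ i, |σ i * exp (-(ℓ i))| ≤ q) (hq : q < 1)

theorem f4Proc_fin (t : ι → ℝ) {n : ℕ} (u : Fin n → ι) :
    (f4Proc hr hq t).fin u = fun _ => ∑ i, cw (fun i => σ i * exp (-(ℓ i))) u i * t i := by
  classical
  induction n with
  | zero =>
    funext k
    show (0 : ℝ) = _
    simp
  | succ n ih =>
    obtain ⟨a, u, rfl⟩ := exists_cons u
    have h1 : (f4Proc hr hq t).fin (Fin.cons a u : Fin (n + 1) → ι)
        = σ a • f4Flow.A (ℓ a) ((f4Proc hr hq t).fin u) + fun _ => t a := by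
      have e1 : (Fin.cons a u : Fin (n + 1) → ι) 0 = a := rfl
      have e2 : Fin.tail (Fin.cons a u : Fin (n + 1) → ι) = u := Fin.tail_cons _ _
      show σ ((Fin.cons a u : Fin (n + 1) → ι) 0) • f4Flow.A (ℓ ((Fin.cons a u : Fin (n + 1) → ι) 0))
        ((f4Proc hr hq t).fin (Fin.tail (Fin.cons a u : Fin (n + 1) → ι))) + _ = _
      rw [e1, e2]
      rfl
    rw [h1, ih]
    funext k
    simp only [f4Flow_A, Pi.add_apply, Pi.smul_apply, smul_eq_mul, cw_cons, add_mul, ite_mul,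
      one_mul, zero_mul, Finset.sum_add_distrib, Finset.sum_ite_eq, Finset.mem_univ, if_true]
    simp only [Finset.mul_sum]
    rw [add_comm]
    congr 1
    refine Finset.sum_congr rfl fun i _ => ?_
    ring

theorem f4_Pi_sub (t t' : ι → ℝ) (w : ℕ → ι) :
    Pi (fun i => σ i * exp (-(ℓ i))) t' w - Pi (fun i => σ i * exp (-(ℓ i))) t w
      = Pi (fun i => σ i * exp (-(ℓ i))) (t' - t) w := by
  unfold Pi
  rw [← Finset.sum_sub_distrib]
  refine Finset.sum_congr rfl fun i _ => ?_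
  simp only [Pi.sub_apply]
  ring

end One

section Main

variable {ι : Type*} [Fintype ι] [Nonempty ι] [MeasurableSpace ι] [DiscreteMeasurableSpace ι]
  {σ ℓ p : ι → ℝ}

theorem f4_rate (hσ : ∀ i, |σ i| = 1) (hl : ∀ i, 0 < ℓ i) :
    ∃ q : ℝ, q < 1 ∧ ∀ i, |σ i * exp (-(ℓ i))| ≤ q := by
  obtain ⟨i, hi⟩ := Finite.exists_max fun i => |σ i * exp (-(ℓ i))|
  refine ⟨_, ?_, hi⟩
  rw [abs_mul, hσ, one_mul, abs_exp, exp_lt_one_iff]
  linarith [hl i]

/-- **(F4), class form**, with a constant -/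
theorem F4K (hp : (∀ i, 0 ≤ p i) ∧ ∑ i, p i = 1) (hσ : ∀ i, |σ i| = 1) (hl : ∀ i, 0 < ℓ i)
    (t : ι → ℝ) {η : ℝ} (hη : 0 < η) (K : ℝ) :
    ∃ ε : ℝ, 0 < ε ∧ ∃ n0 : ℕ, ∀ n : ℕ, n0 ≤ n → ∀ t' : ι → ℝ, ‖t' - t‖ ≤ ε →
      ∀ S : Setoid (Fin n → ι),
      (∀ u v, S u v → |∑ i, (cw (fun i => σ i * exp (-(ℓ i))) u i
        - cw (fun i => σ i * exp (-(ℓ i))) v i) * t' i| ≤ K * exp (-((∑ i, p i * ℓ i) * n))) →
      (F.alpha p (Pi (fun i => σ i * exp (-(ℓ i))) t) - η) * n ≤ Part.HS (pw p) S := by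
  obtain ⟨q, hq, hr⟩ := f4_rate hσ hl
  have := isProb_PP hp
  have hP := WM_PP hp
  set X := f4Proc hr hq t with hX
  have hα : F.alpha p X.Φ = F.alpha p (Pi (fun i => σ i * exp (-(ℓ i))) t) := by
    have h := alpha_coord hp (ContinuousLinearEquiv.funUnique (Fin 1) ℝ ℝ).symm
      (measurable_Pi hr hq t)
    rw [← h]
    congr 1
  obtain ⟨θ, hθ, hθχ, hF⟩ := X.fcell_lower hP hσ hl hp.1 hp.2
    (fun n => X.exists_MI_cell_ge hp hσ n) (ε := η / 2) (by linarith)
  set B : ℝ := (∑ i, (|t i| + 1)) / (1 - q) with hB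
  obtain ⟨x0, n1, hn1⟩ := hF 1 B
  have hq1 : 0 < 1 - q := by linarith
  set c : ℝ := exp (max x0 0) * (Fintype.card ι / (1 - q)) + 1 with hc
  have hc0 : 0 < c := by positivity
  set R : ℝ := |K| with hR
  obtain ⟨n2, hn2⟩ := exists_nat_gt (log (2 * R + 3) / (η / 2))
  refine ⟨min 1 (1 / c), by positivity, max n1 n2, fun n hn t' ht' S hS => ?_⟩
  have hti : ∀ i, |t' i - t i| ≤ min 1 (1 / c) := fun i =>
    (norm_le_pi_norm (t' - t) i).trans ht'
  set Y := f4Proc hr hq t' with hY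
  have hYB : Y.B ≤ B := by
    show (∑ i, |t' i|) / (1 - q) ≤ _
    rw [hB]
    refine div_le_div_of_nonneg_right (Finset.sum_le_sum fun i _ => ?_) hq1.le
    have h1 := (hti i).trans (min_le_left _ _)
    have h2 : |t' i| ≤ |t i| + |t' i - t i| := by
      have := abs_add_le (t i) (t' i - t i)
      rwa [add_sub_cancel] at this
    linarith
  have hclose : ∀ w, ‖Y.sc x0 w - X.sc x0 w‖ ≤ 1 := by
    intro w
    have e : Y.sc x0 w - X.sc x0 w
        = fun _ => exp x0 * Pi (fun i => σ i * exp (-(ℓ i))) (t' - t) w := by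
      funext k
      rw [← f4_Pi_sub]
      show exp (-(-x0)) * _ - exp (-(-x0)) * _ = _
      rw [neg_neg, mul_sub]
      rfl
    rw [e, pi_norm_le_iff_of_nonneg zero_le_one]
    intro _
    rw [Real.norm_eq_abs, abs_mul, abs_exp]
    have h1 := abs_Pi_le hr hq (t' - t) w
    have h2 : ∑ i, |(t' - t) i| ≤ Fintype.card ι * (1 / c) := by
      refine (Finset.sum_le_sum fun i _ => (hti i).trans (min_le_right _ _)).trans_eq ?_
      simp
    have h3 : |Pi (fun i => σ i * exp (-(ℓ i))) (t' - t) w|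
        ≤ Fintype.card ι * (1 / c) / (1 - q) :=
      h1.trans (div_le_div_of_nonneg_right h2 hq1.le)
    have h4 : exp x0 ≤ exp (max x0 0) := exp_le_exp.2 (le_max_left _ _)
    calc exp x0 * |Pi (fun i => σ i * exp (-(ℓ i))) (t' - t) w|
        ≤ exp (max x0 0) * (Fintype.card ι * (1 / c) / (1 - q)) :=
          mul_le_mul h4 h3 (abs_nonneg _) (exp_pos _).le
      _ = (exp (max x0 0) * (Fintype.card ι / (1 - q))) / c := by ring
      _ ≤ 1 := by
          rw [div_le_one hc0, hc]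
          linarith
  have h1 := hn1 Y le_rfl hYB hclose n ((le_max_left _ _).trans hn)
  rw [hα] at h1
  set χ := ∑ i, p i * ℓ i with hχ
  have h2 := Y.fcell_le_HS hP n ((χ - θ) * n) S (R := R) (abs_nonneg _) ?_
  · have h3 : (n2 : ℝ) ≤ n := by exact_mod_cast (le_max_right _ _).trans hn
    have h4 : log (2 * R + 3) ≤ η / 2 * n := by
      have h5 : log (2 * R + 3) / (η / 2) < n := lt_of_lt_of_le hn2 h3
      rw [div_lt_iff₀ (by linarith)] at h5
      linarith
    have h6 : ((Fintype.card (Fin 1) : ℕ) : ℝ) = 1 := by simp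
    rw [h6, one_mul] at h2
    linarith
  · intro u v huv
    have e : Y.F.A (-((χ - θ) * n)) (Y.fin u) - Y.F.A (-((χ - θ) * n)) (Y.fin v)
        = fun _ => exp ((χ - θ) * n) * ∑ i, (cw (fun i => σ i * exp (-(ℓ i))) u i
          - cw (fun i => σ i * exp (-(ℓ i))) v i) * t' i := by
      rw [hY, f4Proc_fin, f4Proc_fin]
      funext k
      show exp (-(-((χ - θ) * n))) * _ - exp (-(-((χ - θ) * n))) * _ = _
      rw [neg_neg, ← mul_sub]
      simp only [LinearMap.id_apply]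
      rw [← Finset.sum_sub_distrib]
      congr 1
      refine Finset.sum_congr rfl fun i _ => ?_
      ring
    rw [e, pi_norm_le_iff_of_nonneg (abs_nonneg _)]
    intro _
    rw [Real.norm_eq_abs, abs_mul, abs_exp]
    calc exp ((χ - θ) * n) * |∑ i, (cw (fun i => σ i * exp (-(ℓ i))) u i
          - cw (fun i => σ i * exp (-(ℓ i))) v i) * t' i|
        ≤ exp ((χ - θ) * n) * (R * exp (-(χ * n))) := by
          refine mul_le_mul_of_nonneg_left ((hS u v huv).trans ?_) (exp_pos _).le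
          exact mul_le_mul_of_nonneg_right (le_abs_self _) (exp_pos _).le
      _ = R * exp (-(θ * n)) := by
          rw [mul_left_comm, ← exp_add]
          congr 2; ring
      _ ≤ R * 1 := by
          refine mul_le_mul_of_nonneg_left ?_ (abs_nonneg _)
          rw [exp_le_one_iff]
          have : 0 ≤ θ * n := by positivity
          linarith
      _ = R := mul_one _

/-- **(F4), class form** -/
theorem F4 (hp : (∀ i, 0 ≤ p i) ∧ ∑ i, p i = 1) (hσ : ∀ i, |σ i| = 1) (hl : ∀ i, 0 < ℓ i)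
    (t : ι → ℝ) {η : ℝ} (hη : 0 < η) :
    ∃ ε : ℝ, 0 < ε ∧ ∀ᶠ n : ℕ in atTop, ∀ t' : ι → ℝ, ‖t' - t‖ < ε →
      ∀ S : Setoid (Fin n → ι),
      (∀ u v, S u v → |∑ i, (cw (fun i => σ i * exp (-(ℓ i))) u i
        - cw (fun i => σ i * exp (-(ℓ i))) v i) * t' i| ≤ exp (-((∑ i, p i * ℓ i) * n))) →
      (F.alpha p (Pi (fun i => σ i * exp (-(ℓ i))) t) - η) * n ≤ Part.HS (pw p) S := by
  obtain ⟨ε, hε, n0, h⟩ := F4K hp hσ hl t hη 1
  refine ⟨ε, hε, ?_⟩
  filter_upwards [eventually_ge_atTop n0] with n hn t' ht' S hS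
  exact h n hn t' ht'.le S (by simpa only [one_mul] using hS)



end Main

end Crest.Agent.R98.FD
end

-- ▼ part R98/GenFlow
section

/-!
R98 / GenFlow (helper529): uniform exponential bounds for generators close to `1 + nilpotent`,
bounds for `gprod`, existence, boundedness and stability of processes.
-/

set_option autoImplicit false

open MeasureTheory Filter Topology
open scoped Nat

namespace Crest.Agent.R98.GF

section algebra

variable {A : Type*} [NormedRing A]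

theorem norm_pow_le_K (x : A) (n : ℕ) : ‖x ^ n‖ ≤ max 1 ‖(1 : A)‖ * ‖x‖ ^ n := by
  rcases Nat.eq_zero_or_pos n with h | h
  · subst h
    simp
  · have h1 := norm_pow_le' x h
    have h2 : 1 * ‖x‖ ^ n ≤ max 1 ‖(1 : A)‖ * ‖x‖ ^ n :=
      mul_le_mul_of_nonneg_right (le_max_left _ _) (by positivity)
    linarith

theorem norm_pow_le_of_pow {N : A} {k : ℕ} (hk : 0 < k) {d M : ℝ} (hd : 0 < d)
    (h1 : ‖N ^ k‖ ≤ d ^ k) (h2 : ‖N‖ ≤ M) (n : ℕ) :
    ‖N ^ n‖ ≤ (max 1 ‖(1 : A)‖) ^ 2 * (max 1 (M / d)) ^ k * d ^ n := by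
  set K := max 1 ‖(1 : A)‖ with hK
  have hK1 : 1 ≤ K := le_max_left _ _
  set T := max 1 (M / d) with hT
  have hT1 : 1 ≤ T := le_max_left _ _
  have e : N ^ n = (N ^ k) ^ (n / k) * N ^ (n % k) := by
    rw [← pow_mul, ← pow_add, Nat.div_add_mod]
  have hM : M ≤ T * d := by
    have := le_max_right 1 (M / d)
    rw [div_le_iff₀ hd] at this
    exact this
  have a1 : ‖(N ^ k) ^ (n / k)‖ ≤ K * (d ^ k) ^ (n / k) :=
    (norm_pow_le_K _ _).trans (mul_le_mul_of_nonneg_left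
      (pow_le_pow_left₀ (norm_nonneg _) h1 _) (by positivity))
  have a2 : ‖N ^ (n % k)‖ ≤ K * (T ^ k * d ^ (n % k)) := by
    refine (norm_pow_le_K _ _).trans (mul_le_mul_of_nonneg_left ?_ (by positivity))
    calc ‖N‖ ^ (n % k) ≤ (T * d) ^ (n % k) := pow_le_pow_left₀ (norm_nonneg _) (h2.trans hM) _
      _ = T ^ (n % k) * d ^ (n % k) := mul_pow _ _ _
      _ ≤ T ^ k * d ^ (n % k) :=
        mul_le_mul_of_nonneg_right (pow_le_pow_right₀ hT1 (Nat.mod_lt _ hk).le) (by positivity)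
  rw [e]
  calc ‖(N ^ k) ^ (n / k) * N ^ (n % k)‖ ≤ ‖(N ^ k) ^ (n / k)‖ * ‖N ^ (n % k)‖ := norm_mul_le _ _
    _ ≤ (K * (d ^ k) ^ (n / k)) * (K * (T ^ k * d ^ (n % k))) := by gcongr
    _ = K ^ 2 * T ^ k * d ^ n := by
      have : d ^ n = (d ^ k) ^ (n / k) * d ^ (n % k) := by
        rw [← pow_mul, ← pow_add, Nat.div_add_mod]
      rw [this]; ring

variable [NormedAlgebra ℝ A] [CompleteSpace A]

theorem norm_exp_smul_le {N : A} {C d : ℝ} (h : ∀ n, ‖N ^ n‖ ≤ C * d ^ n) (y : ℝ) :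
    ‖NormedSpace.exp (y • N)‖ ≤ C * Real.exp (d * |y|) := by
  have h1 : HasSum (fun n : ℕ => C * ((d * |y|) ^ n / n !)) (C * Real.exp (d * |y|)) := by
    have := NormedSpace.expSeries_div_hasSum_exp (d * |y|)
    rw [← Real.exp_eq_exp_ℝ] at this
    exact this.mul_left C
  rw [NormedSpace.exp_eq_tsum ℝ]
  refine tsum_of_norm_bounded h1 fun n => ?_
  rw [norm_smul, smul_pow, norm_smul, norm_inv, norm_pow, Real.norm_natCast, Real.norm_eq_abs]
  calc ((n ! : ℕ) : ℝ)⁻¹ * (|y| ^ n * ‖N ^ n‖) ≤ ((n ! : ℕ) : ℝ)⁻¹ * (|y| ^ n * (C * d ^ n)) := by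
        gcongr
        exact h n
    _ = C * ((d * |y|) ^ n / n !) := by
        rw [mul_pow]; ring

theorem exp_add_of_commute' {x y : A} (h : Commute x y) :
    NormedSpace.exp (x + y) = NormedSpace.exp x * NormedSpace.exp y := by
  letI : NormedAlgebra ℚ A := NormedAlgebra.restrictScalars ℚ ℝ A
  exact NormedSpace.exp_add_of_commute h

theorem exp_smul_one_add (y : ℝ) (N : A) :
    NormedSpace.exp (y • (1 + N)) = Real.exp y • NormedSpace.exp (y • N) := by
  rw [smul_add, exp_add_of_commute']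
  · have h1 : y • (1 : A) = algebraMap ℝ A y := (Algebra.algebraMap_eq_smul_one y).symm
    rw [h1, ← NormedSpace.algebraMap_exp_comm y, ← Real.exp_eq_exp_ℝ,
      Algebra.algebraMap_eq_smul_one, smul_mul_assoc, one_mul]
  · exact ((Commute.one_left N).smul_left y).smul_right y

theorem exp_smul_add (x y : ℝ) (L : A) :
    NormedSpace.exp ((x + y) • L) = NormedSpace.exp (x • L) * NormedSpace.exp (y • L) := by
  rw [add_smul, exp_add_of_commute']
  exact ((Commute.refl L).smul_left x).smul_right y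

/-- **(G1)** -/
theorem exists_exp_bound {L : A} (hL : IsNilpotent (L - 1)) {d : ℝ} (hd : 0 < d) :
    ∃ C δ : ℝ, 1 ≤ C ∧ 0 < δ ∧ ∀ L' : A, ‖L' - L‖ ≤ δ → ∀ x : ℝ, 0 ≤ x →
      ‖NormedSpace.exp ((-x) • L')‖ ≤ C * Real.exp (-((1 - d) * x)) ∧
      ‖NormedSpace.exp (x • L')‖ ≤ C * Real.exp ((1 + d) * x) := by
  obtain ⟨k₀, hk₀⟩ := hL
  set k := k₀ + 1 with hk
  have hkk : (L - 1) ^ k = 0 := by rw [hk, pow_succ, hk₀, zero_mul]
  have hcont : Continuous fun L' : A => ‖(L' - 1) ^ k‖ := by fun_prop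
  have h0 : ‖(L - 1) ^ k‖ < d ^ k := by rw [hkk, norm_zero]; positivity
  have hev := (hcont.tendsto L).eventually (eventually_lt_nhds h0)
  obtain ⟨δ, hδ, hball⟩ := Metric.eventually_nhds_iff.mp hev
  set M := ‖L - 1‖ + δ with hM
  set C := (max 1 ‖(1 : A)‖) ^ 2 * (max 1 (M / d)) ^ k with hC
  have hC1 : 1 ≤ C := by
    have h1 : (1:ℝ) ≤ (max 1 ‖(1 : A)‖) ^ 2 := one_le_pow₀ (le_max_left _ _)
    have h2 : (1:ℝ) ≤ (max 1 (M / d)) ^ k := one_le_pow₀ (le_max_left _ _)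
    nlinarith
  refine ⟨C, δ / 2, hC1, half_pos hδ, fun L' hL' x hx => ?_⟩
  have hb : ∀ n, ‖(L' - 1) ^ n‖ ≤ C * d ^ n := by
    intro n
    refine norm_pow_le_of_pow (Nat.succ_pos _) hd ?_ ?_ n
    · refine (hball ?_).le
      rw [dist_eq_norm]
      linarith [half_lt_self hδ]
    · have : L' - 1 = (L' - L) + (L - 1) := by abel
      rw [this]
      refine (norm_add_le _ _).trans ?_
      rw [hM]
      linarith [half_lt_self hδ]
  have e : L' = 1 + (L' - 1) := by abel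
  constructor
  · rw [e, exp_smul_one_add, norm_smul, Real.norm_eq_abs, abs_of_pos (Real.exp_pos _)]
    have h1 := norm_exp_smul_le hb (-x)
    rw [abs_neg, abs_of_nonneg hx] at h1
    calc Real.exp (-x) * ‖NormedSpace.exp ((-x) • (L' - 1))‖
        ≤ Real.exp (-x) * (C * Real.exp (d * x)) :=
          mul_le_mul_of_nonneg_left h1 (Real.exp_pos _).le
      _ = C * (Real.exp (-x) * Real.exp (d * x)) := by ring
      _ = C * Real.exp (-((1 - d) * x)) := by
          rw [← Real.exp_add]; congr 2; ring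
  · rw [e, exp_smul_one_add, norm_smul, Real.norm_eq_abs, abs_of_pos (Real.exp_pos _)]
    have h1 := norm_exp_smul_le hb x
    rw [abs_of_nonneg hx] at h1
    calc Real.exp x * ‖NormedSpace.exp (x • (L' - 1))‖
        ≤ Real.exp x * (C * Real.exp (d * x)) :=
          mul_le_mul_of_nonneg_left h1 (Real.exp_pos _).le
      _ = C * (Real.exp x * Real.exp (d * x)) := by ring
      _ = C * Real.exp ((1 + d) * x) := by
          rw [← Real.exp_add]; congr 2; ring

end algebra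

section words

variable {ι E : Type*} [NormedAddCommGroup E] [NormedSpace ℝ E]

/-- composition of the letter maps `σ_a exp(-ℓ_a L)` along a word -/
theorem gprod_gen [CompleteSpace E] (σ ℓ : ι → ℝ) (L : E →L[ℝ] E) {n : ℕ} (u : Fin n → ι) :
    gprod (gen σ ℓ L) u = (∏ j, σ (u j)) • NormedSpace.exp ((-(∑ j, ℓ (u j))) • L) := by
  induction n with
  | zero =>
    simp only [gprod_zero, Finset.univ_eq_empty, Finset.prod_empty, Finset.sum_empty, neg_zero,
      zero_smul, one_smul, NormedSpace.exp_zero]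
    rfl
  | succ n ih =>
    obtain ⟨a, u, rfl⟩ := exists_cons u
    rw [gprod_cons, ih, Fin.prod_univ_succ, Fin.sum_univ_succ]
    simp only [Fin.cons_zero, Fin.cons_succ]
    have h : NormedSpace.exp ((-ℓ a + -∑ j, ℓ (u j)) • L) =
        NormedSpace.exp ((-ℓ a) • L) * NormedSpace.exp ((-∑ j, ℓ (u j)) • L) :=
      exp_smul_add _ _ L
    rw [neg_add, h]
    unfold gen
    rw [ContinuousLinearMap.smul_comp, ContinuousLinearMap.comp_smul, smul_smul]
    rfl

/-- **(G2)**, bound of `gprod` by the total length of the word -/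
theorem norm_gprod_le [CompleteSpace E] {σ ℓ : ι → ℝ} (hσ : ∀ a, |σ a| = 1) {L : E →L[ℝ] E}
    {C c : ℝ} (hL : ∀ x : ℝ, 0 ≤ x → ‖NormedSpace.exp ((-x) • L)‖ ≤ C * Real.exp (-(c * x)))
    (hℓ : ∀ a, 0 ≤ ℓ a) {n : ℕ} (u : Fin n → ι) :
    ‖gprod (gen σ ℓ L) u‖ ≤ C * Real.exp (-(c * ∑ j, ℓ (u j))) := by
  rw [gprod_gen, norm_smul, Real.norm_eq_abs, Finset.abs_prod]
  simp only [hσ, Finset.prod_const_one, one_mul]
  exact hL _ (Finset.sum_nonneg fun j _ => hℓ _)

/-- **(G2)**, geometric bound -/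
theorem norm_gprod_le_pow [CompleteSpace E] {σ ℓ : ι → ℝ} (hσ : ∀ a, |σ a| = 1) {L : E →L[ℝ] E}
    {C c : ℝ} (hC : 0 ≤ C) (hc : 0 ≤ c)
    (hL : ∀ x : ℝ, 0 ≤ x → ‖NormedSpace.exp ((-x) • L)‖ ≤ C * Real.exp (-(c * x)))
    {ℓ₀ : ℝ} (hℓ₀ : 0 ≤ ℓ₀) (hℓ : ∀ a, ℓ₀ ≤ ℓ a) {n : ℕ} (u : Fin n → ι) :
    ‖gprod (gen σ ℓ L) u‖ ≤ C * (Real.exp (-(c * ℓ₀))) ^ n := by
  refine (norm_gprod_le hσ hL (fun a => hℓ₀.trans (hℓ a)) u).trans ?_
  refine mul_le_mul_of_nonneg_left ?_ hC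
  rw [← Real.exp_nat_mul]
  refine Real.exp_le_exp.mpr ?_
  have h1 : (n : ℝ) * ℓ₀ ≤ ∑ j, ℓ (u j) := by
    have := Finset.sum_le_sum fun j (_ : j ∈ (Finset.univ : Finset (Fin n))) => hℓ (u j)
    simpa using this
  nlinarith [mul_le_mul_of_nonneg_left h1 hc]

/-- partial sums -/
theorem pfin_append (G : ι → E →L[ℝ] E) (b : ι → E) (n : ℕ) (w : ℕ → ι) :
    pfin G b (pre (n + 1) w) = pfin G b (pre n w) + gprod G (pre n w) (b (w n)) := by
  induction n generalizing w with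
  | zero =>
    have : pre 1 w = (Fin.cons (w 0) (pre 0 (sh 1 w)) : Fin 1 → ι) := by
      funext j
      rw [Subsingleton.elim j 0]
      rfl
    rw [this, pfin_cons]
    simp
  | succ n ih =>
    have h1 : ∀ m, pre (m + 1) w = (Fin.cons (w 0) (pre m (sh 1 w)) : Fin (m + 1) → ι) := by
      intro m
      conv_lhs => rw [← scons_sh w]
      exact pre_succ_scons m (w 0) (sh 1 w)
    rw [h1 (n + 1), pfin_cons, ih (sh 1 w), h1 n, pfin_cons, gprod_cons, map_add]
    simp only [ContinuousLinearMap.comp_apply]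
    have h2 : sh 1 w n = w (n + 1) := rfl
    rw [h2]
    abel

theorem pfin_eq_sum (G : ι → E →L[ℝ] E) (b : ι → E) (n : ℕ) (w : ℕ → ι) :
    pfin G b (pre n w) = ∑ j ∈ Finset.range n, gprod G (pre j w) (b (w j)) := by
  induction n with
  | zero => simp
  | succ n ih => rw [pfin_append, ih, Finset.sum_range_succ]

/-- the infinite-word functional -/
noncomputable def pinf (G : ι → E →L[ℝ] E) (b : ι → E) (w : ℕ → ι) : E :=
  ∑' j, gprod G (pre j w) (b (w j))

section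

variable {G : ι → E →L[ℝ] E} {b : ι → E} {C q M : ℝ}

theorem norm_term_le (hC : 0 ≤ C) (hq : 0 ≤ q) (hG : ∀ (n : ℕ) (u : Fin n → ι), ‖gprod G u‖ ≤ C * q ^ n)
    (hb : ∀ a, ‖b a‖ ≤ M) (w : ℕ → ι) (j : ℕ) :
    ‖gprod G (pre j w) (b (w j))‖ ≤ C * M * q ^ j := by
  refine ((gprod G (pre j w)).le_opNorm _).trans ?_
  calc ‖gprod G (pre j w)‖ * ‖b (w j)‖ ≤ (C * q ^ j) * M :=
        mul_le_mul (hG j _) (hb _) (norm_nonneg _) (by positivity)
    _ = C * M * q ^ j := by ring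

theorem summable_term [CompleteSpace E] (hC : 0 ≤ C) (hq : 0 ≤ q) (hq1 : q < 1)
    (hG : ∀ (n : ℕ) (u : Fin n → ι), ‖gprod G u‖ ≤ C * q ^ n)
    (hb : ∀ a, ‖b a‖ ≤ M) (w : ℕ → ι) : Summable fun j => gprod G (pre j w) (b (w j)) :=
  Summable.of_norm_bounded ((summable_geometric_of_lt_one hq hq1).mul_left _)
    (norm_term_le hC hq hG hb w)

theorem tendsto_pfin_pinf [CompleteSpace E] (hC : 0 ≤ C) (hq : 0 ≤ q) (hq1 : q < 1)
    (hG : ∀ (n : ℕ) (u : Fin n → ι), ‖gprod G u‖ ≤ C * q ^ n)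
    (hb : ∀ a, ‖b a‖ ≤ M) (w : ℕ → ι) :
    Tendsto (fun n => pfin G b (pre n w)) atTop (𝓝 (pinf G b w)) := by
  simp only [pfin_eq_sum]
  exact (summable_term hC hq hq1 hG hb w).hasSum.tendsto_sum_nat

theorem norm_pinf_le [CompleteSpace E] (hC : 0 ≤ C) (hq : 0 ≤ q) (hq1 : q < 1)
    (hG : ∀ (n : ℕ) (u : Fin n → ι), ‖gprod G u‖ ≤ C * q ^ n)
    (hb : ∀ a, ‖b a‖ ≤ M) (w : ℕ → ι) : ‖pinf G b w‖ ≤ C * M / (1 - q) :=
  tsum_of_norm_bounded (by
    have := (hasSum_geometric_of_lt_one hq hq1).mul_left (C * M)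
    rwa [← div_eq_mul_inv] at this) (norm_term_le hC hq hG hb w)

variable [Finite ι] [MeasurableSpace ι] [DiscreteMeasurableSpace ι]

/-- **(G2)**: existence of the process -/
theorem isProc_pinf [CompleteSpace E] (hC : 0 ≤ C) (hq : 0 ≤ q) (hq1 : q < 1)
    (hG : ∀ (n : ℕ) (u : Fin n → ι), ‖gprod G u‖ ≤ C * q ^ n)
    (hb : ∀ a, ‖b a‖ ≤ M) : IsProc G b (pinf G b) where
  eq := by
    intro a w
    unfold pinf
    rw [(summable_term hC hq hq1 hG hb (scons a w)).tsum_eq_zero_add,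
      ContinuousLinearMap.map_tsum _ (summable_term hC hq hq1 hG hb w)]
    congr 1
  bdd := ⟨_, norm_pinf_le hC hq hq1 hG hb⟩
  meas := by
    intro f
    refine measurable_of_tendsto_metrizable (f := fun n w => f (pfin G b (pre n w)))
      (fun n => ?_) (tendsto_pi_nhds.2 fun w => ?_)
    · have : (fun w : ℕ → ι => f (pfin G b (pre n w))) =
          (fun u : Fin n → ι => f (pfin G b u)) ∘ pre n := rfl
      rw [this]
      exact (measurable_of_countable _).comp (measurable_pre n)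
    · exact (f.continuous.tendsto _).comp (tendsto_pfin_pinf hC hq hq1 hG hb w)

end

section

variable [MeasurableSpace ι] {G : ι → E →L[ℝ] E} {b : ι → E} {Φ : (ℕ → ι) → E} {C q M : ℝ}

theorem norm_pfin_le (hC : 0 ≤ C) (hq : 0 ≤ q) (hq1 : q < 1)
    (hG : ∀ (n : ℕ) (u : Fin n → ι), ‖gprod G u‖ ≤ C * q ^ n)
    (hb : ∀ a, ‖b a‖ ≤ M) (n : ℕ) (w : ℕ → ι) : ‖pfin G b (pre n w)‖ ≤ C * M / (1 - q) := by
  have hM : 0 ≤ M := (norm_nonneg _).trans (hb (w 0))
  rw [pfin_eq_sum]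
  refine (norm_sum_le _ _).trans ?_
  refine (Finset.sum_le_sum fun j _ => norm_term_le hC hq hG hb w j).trans ?_
  rw [← Finset.mul_sum, div_eq_mul_inv]
  refine mul_le_mul_of_nonneg_left ?_ (by positivity)
  rw [← tsum_geometric_of_lt_one hq hq1]
  exact (summable_geometric_of_lt_one hq hq1).sum_le_tsum _ fun j _ => by positivity

/-- every process satisfies the uniform bound -/
theorem norm_proc_le (h : IsProc G b Φ) (hC : 0 ≤ C) (hq : 0 ≤ q) (hq1 : q < 1)
    (hG : ∀ (n : ℕ) (u : Fin n → ι), ‖gprod G u‖ ≤ C * q ^ n)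
    (hb : ∀ a, ‖b a‖ ≤ M) (w : ℕ → ι) : ‖Φ w‖ ≤ C * M / (1 - q) := by
  obtain ⟨B, hB⟩ := h.bdd
  have hlim : Tendsto (fun n : ℕ => C * M / (1 - q) + C * q ^ n * B) atTop
      (𝓝 (C * M / (1 - q) + C * 0 * B)) :=
    tendsto_const_nhds.add (((tendsto_pow_atTop_nhds_zero_of_lt_one hq hq1).const_mul C).mul_const B)
  rw [mul_zero, zero_mul, add_zero] at hlim
  refine ge_of_tendsto' hlim fun n => ?_
  have h1 := h.cat (pre n w) (sh n w)
  rw [cat_pre_sh] at h1
  rw [h1]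
  refine (norm_add_le _ _).trans (add_le_add (norm_pfin_le hC hq hq1 hG hb n w) ?_)
  refine ((gprod G (pre n w)).le_opNorm _).trans ?_
  exact mul_le_mul (hG n _) (hB _) (norm_nonneg _) (by positivity)

/-- distance to the finite words -/
theorem norm_proc_sub_pfin_le (h : IsProc G b Φ) (hC : 0 ≤ C) (hq : 0 ≤ q) (hq1 : q < 1)
    (hG : ∀ (n : ℕ) (u : Fin n → ι), ‖gprod G u‖ ≤ C * q ^ n)
    (hb : ∀ a, ‖b a‖ ≤ M) (n : ℕ) (w : ℕ → ι) :
    ‖Φ w - pfin G b (pre n w)‖ ≤ C * q ^ n * (C * M / (1 - q)) := by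
  have h1 := h.cat (pre n w) (sh n w)
  rw [cat_pre_sh] at h1
  rw [h1, add_sub_cancel_left]
  refine ((gprod G (pre n w)).le_opNorm _).trans ?_
  exact mul_le_mul (hG n _) (norm_proc_le h hC hq hq1 hG hb _) (norm_nonneg _) (by positivity)

theorem proc_unique {Φ' : (ℕ → ι) → E} (h : IsProc G b Φ) (h' : IsProc G b Φ') (hC : 0 ≤ C)
    (hq : 0 ≤ q) (hq1 : q < 1)
    (hG : ∀ (n : ℕ) (u : Fin n → ι), ‖gprod G u‖ ≤ C * q ^ n) : Φ = Φ' := by
  funext w
  obtain ⟨B, hB⟩ := h.bdd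
  obtain ⟨B', hB'⟩ := h'.bdd
  have hlim : Tendsto (fun n : ℕ => C * q ^ n * (B + B')) atTop (𝓝 (C * 0 * (B + B'))) :=
    ((tendsto_pow_atTop_nhds_zero_of_lt_one hq hq1).const_mul C).mul_const _
  rw [mul_zero, zero_mul] at hlim
  have : ‖Φ w - Φ' w‖ ≤ 0 := by
    refine ge_of_tendsto' hlim fun n => ?_
    have h1 := h.cat (pre n w) (sh n w)
    have h2 := h'.cat (pre n w) (sh n w)
    rw [cat_pre_sh] at h1 h2
    rw [h1, h2, add_sub_add_left_eq_sub, ← map_sub]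
    refine ((gprod G (pre n w)).le_opNorm _).trans ?_
    refine mul_le_mul (hG n _) ?_ (norm_nonneg _) (by positivity)
    exact (norm_sub_le _ _).trans (add_le_add (hB _) (hB' _))
  exact sub_eq_zero.mp (norm_le_zero_iff.mp this)

end

end words

section stability

variable {ι E : Type*} [NormedAddCommGroup E] [NormedSpace ℝ E]


theorem tendsto_pfin {α : Type*} {F : Filter α} {G' : α → ι → E →L[ℝ] E} {G : ι → E →L[ℝ] E}
    (hG : ∀ a, Tendsto (fun j => G' j a) F (𝓝 (G a))) {b' : α → ι → E} {b : ι → E}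
    (hb : ∀ a, Tendsto (fun j => b' j a) F (𝓝 (b a))) {n : ℕ} (u : Fin n → ι) :
    Tendsto (fun j => pfin (G' j) (b' j) u) F (𝓝 (pfin G b u)) := by
  induction n with
  | zero => simpa using tendsto_const_nhds
  | succ n ih =>
    obtain ⟨a, u, rfl⟩ := exists_cons u
    simp only [pfin_cons]
    refine (hb a).add ?_
    exact (isBoundedBilinearMap_apply.continuous.tendsto (G a, pfin G b u)).comp
      ((hG a).prodMk_nhds (ih u))

variable [Finite ι] [MeasurableSpace ι]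

/-- **(G3)**, abstract form: uniform convergence of the processes -/
theorem tendsto_proc {α : Type*} {F : Filter α} {G' : α → ι → E →L[ℝ] E} {G : ι → E →L[ℝ] E}
    (hG : ∀ a, Tendsto (fun j => G' j a) F (𝓝 (G a))) {b' : α → ι → E} {b : ι → E}
    (hb : ∀ a, Tendsto (fun j => b' j a) F (𝓝 (b a))) {C q : ℝ} (hC : 0 ≤ C) (hq : 0 ≤ q)
    (hq1 : q < 1) (hGC' : ∀ᶠ j in F, ∀ (n : ℕ) (u : Fin n → ι), ‖gprod (G' j) u‖ ≤ C * q ^ n)
    (hGC : ∀ (n : ℕ) (u : Fin n → ι), ‖gprod G u‖ ≤ C * q ^ n)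
    {Φ' : α → (ℕ → ι) → E} {Φ : (ℕ → ι) → E} (hΦ' : ∀ᶠ j in F, IsProc (G' j) (b' j) (Φ' j))
    (hΦ : IsProc G b Φ) {ε : ℝ} (hε : 0 < ε) : ∀ᶠ j in F, ∀ w, ‖Φ' j w - Φ w‖ ≤ ε := by
  classical
  have := Fintype.ofFinite ι
  -- a common bound of the offsets
  obtain ⟨M₀, hM₀⟩ := (Set.finite_range fun a => ‖b a‖).bddAbove
  set M := M₀ + 1 with hM
  have hbM : ∀ a, ‖b a‖ ≤ M := fun a => (hM₀ ⟨a, rfl⟩).trans (by linarith)
  have hbM' : ∀ᶠ j in F, ∀ a, ‖b' j a‖ ≤ M := by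
    rw [eventually_all]
    intro a
    have h1 := (hb a).norm.eventually (eventually_lt_nhds
      (show ‖b a‖ < M from lt_of_le_of_lt (hM₀ ⟨a, rfl⟩) (by linarith)))
    exact h1.mono fun j hj => hj.le
  set B := C * M / (1 - q) with hB
  have hlim : Tendsto (fun n : ℕ => C * q ^ n * B) atTop (𝓝 (C * 0 * B)) :=
    ((tendsto_pow_atTop_nhds_zero_of_lt_one hq hq1).const_mul C).mul_const B
  rw [mul_zero, zero_mul] at hlim
  obtain ⟨n, hn⟩ := (hlim.eventually (eventually_lt_nhds (show (0:ℝ) < ε / 3 by positivity))).exists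
  have hfin : ∀ᶠ j in F, ∀ u : Fin n → ι, ‖pfin (G' j) (b' j) u - pfin G b u‖ < ε / 3 := by
    rw [eventually_all]
    intro u
    have h1 := ((tendsto_pfin hG hb u).sub_const (pfin G b u)).norm
    rw [sub_self, norm_zero] at h1
    exact h1.eventually (eventually_lt_nhds (show (0:ℝ) < ε / 3 by positivity))
  filter_upwards [hfin, hbM', hGC', hΦ'] with j h1 h2 h3 h4 w
  have e1 := norm_proc_sub_pfin_le h4 hC hq hq1 h3 h2 n w
  have e2 := norm_proc_sub_pfin_le hΦ hC hq hq1 hGC hbM n w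
  have e3 := h1 (pre n w)
  rw [← hB] at e1 e2
  have e4 : Φ' j w - Φ w = (Φ' j w - pfin (G' j) (b' j) (pre n w)) -
      (Φ w - pfin G b (pre n w)) + (pfin (G' j) (b' j) (pre n w) - pfin G b (pre n w)) := by abel
  rw [e4]
  refine (norm_add_le _ _).trans ?_
  have e5 := norm_sub_le (Φ' j w - pfin (G' j) (b' j) (pre n w)) (Φ w - pfin G b (pre n w))
  linarith

end stability

section package

variable {ι E : Type*} [NormedAddCommGroup E] [NormedSpace ℝ E] [CompleteSpace E]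

/-- continuity of the letter maps in the generator -/
theorem tendsto_gen {α : Type*} {F : Filter α} (σ ℓ : ι → ℝ) {L' : α → E →L[ℝ] E} {L : E →L[ℝ] E}
    (hL : Tendsto L' F (𝓝 L)) (a : ι) :
    Tendsto (fun j => gen σ ℓ (L' j) a) F (𝓝 (gen σ ℓ L a)) := by
  letI : NormedAlgebra ℚ (E →L[ℝ] E) := NormedAlgebra.restrictScalars ℚ ℝ (E →L[ℝ] E)
  unfold gen
  exact ((NormedSpace.exp_continuous.tendsto _).comp (hL.const_smul (-(ℓ a)))).const_smul (σ a)

/-- **(G1)+(G2)** for generators near `L` with `L - 1` nilpotent -/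
theorem exists_gen_bound [Finite ι] {σ ℓ : ι → ℝ} (hσ : ∀ a, |σ a| = 1) (hℓ : ∀ a, 0 < ℓ a)
    {L : E →L[ℝ] E} (hL : IsNilpotent (L - 1)) {d : ℝ} (hd : 0 < d) (hd1 : d < 1) :
    ∃ C δ q : ℝ, 1 ≤ C ∧ 0 < δ ∧ 0 ≤ q ∧ q < 1 ∧ ∀ L' : E →L[ℝ] E, ‖L' - L‖ ≤ δ →
      (∀ x : ℝ, 0 ≤ x → ‖NormedSpace.exp ((-x) • L')‖ ≤ C * Real.exp (-((1 - d) * x))) ∧
      (∀ x : ℝ, 0 ≤ x → ‖NormedSpace.exp (x • L')‖ ≤ C * Real.exp ((1 + d) * x)) ∧
      (∀ (n : ℕ) (u : Fin n → ι), ‖gprod (gen σ ℓ L') u‖ ≤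
        C * Real.exp (-((1 - d) * ∑ j, ℓ (u j)))) ∧
      (∀ (n : ℕ) (u : Fin n → ι), ‖gprod (gen σ ℓ L') u‖ ≤ C * q ^ n) := by
  obtain ⟨C, δ, hC, hδ, h⟩ := exists_exp_bound hL hd
  -- a positive lower bound of `ℓ`
  obtain ⟨ℓ₀, hℓ₀, hℓℓ⟩ : ∃ ℓ₀ : ℝ, 0 < ℓ₀ ∧ ∀ a, ℓ₀ ≤ ℓ a := by
    rcases isEmpty_or_nonempty ι with hι | hι
    · exact ⟨1, one_pos, fun a => hι.elim a⟩
    · obtain ⟨a, ha⟩ := Finite.exists_min ℓ
      exact ⟨ℓ a, hℓ a, ha⟩
  refine ⟨C, δ, Real.exp (-((1 - d) * ℓ₀)), hC, hδ, (Real.exp_pos _).le, ?_, fun L' hL' => ?_⟩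
  · rw [Real.exp_lt_one_iff, neg_lt_zero]
    exact mul_pos (by linarith) hℓ₀
  · have h1 : ∀ x : ℝ, 0 ≤ x → ‖NormedSpace.exp ((-x) • L')‖ ≤ C * Real.exp (-((1 - d) * x)) :=
      fun x hx => (h L' hL' x hx).1
    refine ⟨h1, fun x hx => (h L' hL' x hx).2, fun n u => ?_, fun n u => ?_⟩
    · exact norm_gprod_le hσ h1 (fun a => (hℓ a).le) u
    · exact norm_gprod_le_pow hσ (by linarith) (by linarith) h1 hℓ₀.le hℓℓ u

variable [Finite ι] [MeasurableSpace ι] [DiscreteMeasurableSpace ι]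

/-- **(G2)**: for generators near `L` the process exists; uniform bound `B` for `‖b' a‖ ≤ M`. -/
theorem exists_process {σ ℓ : ι → ℝ} (hσ : ∀ a, |σ a| = 1) (hℓ : ∀ a, 0 < ℓ a)
    {L : E →L[ℝ] E} (hL : IsNilpotent (L - 1)) (M : ℝ) (hM : 0 ≤ M) :
    ∃ B δ : ℝ, 0 ≤ B ∧ 0 < δ ∧ ∀ L' : E →L[ℝ] E, ‖L' - L‖ ≤ δ → ∀ b' : ι → E, (∀ a, ‖b' a‖ ≤ M) →
      ∃ Φ', IsProc (gen σ ℓ L') b' Φ' ∧ (∀ w, ‖Φ' w‖ ≤ B) ∧
        ∀ Φ'', IsProc (gen σ ℓ L') b' Φ'' → Φ'' = Φ' := by
  obtain ⟨C, δ, q, hC, hδ, hq, hq1, h⟩ := exists_gen_bound hσ hℓ hL (d := 1 / 2) (by norm_num)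
    (by norm_num)
  have hC0 : 0 ≤ C := by linarith
  refine ⟨C * M / (1 - q), δ, by
    have : 0 < 1 - q := by linarith
    positivity, hδ, fun L' hL' b' hb' => ?_⟩
  obtain ⟨-, -, -, h4⟩ := h L' hL'
  have hp := isProc_pinf hC0 hq hq1 h4 hb'
  exact ⟨_, hp, norm_pinf_le hC0 hq hq1 h4 hb', fun Φ'' h'' =>
    proc_unique h'' hp hC0 hq hq1 h4⟩

/-- **(G3)** -/
theorem tendsto_gen_proc {α : Type*} {F : Filter α} {σ ℓ : ι → ℝ} (hσ : ∀ a, |σ a| = 1)
    (hℓ : ∀ a, 0 < ℓ a) {L : E →L[ℝ] E} (hL : IsNilpotent (L - 1)) {L' : α → E →L[ℝ] E}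
    (hLL : Tendsto L' F (𝓝 L)) {b' : α → ι → E} {b : ι → E}
    (hb : ∀ a, Tendsto (fun j => b' j a) F (𝓝 (b a)))
    {Φ' : α → (ℕ → ι) → E} {Φ : (ℕ → ι) → E}
    (hΦ' : ∀ᶠ j in F, IsProc (gen σ ℓ (L' j)) (b' j) (Φ' j))
    (hΦ : IsProc (gen σ ℓ L) b Φ) {ε : ℝ} (hε : 0 < ε) : ∀ᶠ j in F, ∀ w, ‖Φ' j w - Φ w‖ ≤ ε := by
  obtain ⟨C, δ, q, hC, hδ, hq, hq1, h⟩ := exists_gen_bound hσ hℓ hL (d := 1 / 2) (by norm_num)
    (by norm_num)
  have hev : ∀ᶠ j in F, ‖L' j - L‖ ≤ δ := by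
    have h1 := (hLL.sub_const L).norm
    rw [sub_self, norm_zero] at h1
    exact (h1.eventually (eventually_lt_nhds hδ)).mono fun j hj => hj.le
  exact tendsto_proc (fun a => tendsto_gen σ ℓ hLL a) hb (by linarith) hq hq1
    (hev.mono fun j hj => (h (L' j) hj).2.2.2) (h L (by simpa using hδ.le)).2.2.2 hΦ' hΦ hε

end package

end Crest.Agent.R98.GF
end

-- ▼ part R98/F5
section

/-!
Row 98 (helper893): (F5) + (F2) in the shape of the ending.
-/

set_option autoImplicit false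
set_option linter.unusedSectionVars false
set_option linter.unusedSimpArgs false

namespace Crest.Agent.R98.F

open MeasureTheory ProbabilityTheory Filter Topology Real
open Crest.Agent.R98.FD Crest.Agent.R98.Part
open Crest.Agent.R098.Upper (pw sw)

noncomputable section

/-- uniform bounds near a generator -/
def GBnear {E : Type*} [NormedAddCommGroup E] [NormedSpace ℝ E] (L : E →L[ℝ] E) : Prop :=
  ∀ d : ℝ, 0 < d → d ≤ 1 / 2 → ∃ C δ : ℝ, 1 ≤ C ∧ 0 < δ ∧
    ∀ L' : E →L[ℝ] E, ‖L' - L‖ ≤ δ → GB L' C d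

set_option maxHeartbeats 2000000 in
/-- **(F5) + (F2)**, with the approximating processes given -/
theorem F5_core {ι : Type*} [Fintype ι] [Nonempty ι] [MeasurableSpace ι]
    [DiscreteMeasurableSpace ι] {E : Type*} [NormedAddCommGroup E] [NormedSpace ℝ E]
    [FiniteDimensional ℝ E] {p σ ℓ : ι → ℝ} (hp : (∀ i, 0 ≤ p i) ∧ ∑ i, p i = 1)
    (hσ : ∀ i, |σ i| = 1) (hℓ : ∀ i, 0 < ℓ i)
    {L : E →L[ℝ] E} (hGB : GBnear L) {b : ι → E} {Φ : (ℕ → ι) → E}
    (hΦ : Crest.Agent.R98.IsProc (gen σ ℓ L) b Φ) {Lj : ℕ → E →L[ℝ] E}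
    (hL : Tendsto Lj atTop (𝓝 L)) {bj : ℕ → ι → E} {nj : ℕ → ℕ} (hn : Tendsto nj atTop atTop)
    {B : ℝ} {Φj : ℕ → (ℕ → ι) → E}
    (hΦj : ∀ᶠ j in atTop, Crest.Agent.R98.IsProc (gen σ ℓ (Lj j)) (bj j) (Φj j) ∧
      ∀ w, ‖Φj j w‖ ≤ B)
    (hclose : ∀ ε > 0, ∀ᶠ j in atTop, ∀ w, ‖Φj j w - Φ w‖ ≤ ε)
    {Y : (ℕ → ι) → ℝ} {ρ τ : ι → ℝ} (hρ : ∀ a, ρ a ≠ 0)
    (hY : ∀ a w, Y (scons a w) = τ a + ρ a * Y w) {φ0 : E →L[ℝ] ℝ} (hφ0 : ∀ w, φ0 (Φ w) = Y w)
    (hS : ∀ η > 0, ∀ᶠ j in atTop, ∃ S : Setoid (Fin (nj j) → ι),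
      HS (pw p) S ≤ (alpha p Y + η) * nj j ∧
      ∀ u v, S u v → ‖pfin (gen σ ℓ (Lj j)) (bj j) u - pfin (gen σ ℓ (Lj j)) (bj j) v‖ ≤
        exp (-((∑ i, p i * ℓ i) * nj j))) (φ : E →L[ℝ] ℝ) :
    Fac p Y (fun w => φ (Φ w)) := by
  have hprob := isProb_PP hp
  let _ : MeasurableSpace E := borel E
  have : BorelSpace E := ⟨rfl⟩
  have hσ0 : ∀ a, σ a ≠ 0 := fun a h => by
    have := hσ a; rw [h] at this; simp at this
  refine fac_of_alpha_le hp hΦ (fun a => gen_injective (hσ0 a)) hρ hY hφ0 ?_ φ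
  by_contra hcon
  push Not at hcon
  set α := alpha p Y with hα
  set α' := alpha p Φ with hα'
  set ε : ℝ := (α' - α) / 4 with hεd
  have hε : 0 < ε := by rw [hεd]; linarith
  let e := (Module.finBasis ℝ E).equivFunL
  obtain ⟨B0, hB0⟩ := hΦ.bdd
  obtain ⟨C0, δ0, hC0, hδ0, hGB0⟩ := hGB (1 / 4) (by norm_num) (by norm_num)
  have gb0 : GB L C0 (1 / 4) := hGB0 L (by simp [hδ0.le])
  let X := mkProc e gb0 hΦ hB0
  have hXα : alpha p X.Φ = α' := alpha_coord hp e (proc_measurable hΦ)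
  have hXlow : ∀ n : ℕ, ∃ x0, 0 ≤ x0 ∧
      n * α' - (1 + Fintype.card (Fin (Module.finrank ℝ E)) * log 5) ≤
        MI (PP p) n (X.cell x0) := by
    intro n
    rw [← hXα]
    exact Proc.exists_MI_cell_ge hp hσ X n
  have hWM := FD.WM_PP (p := p) hp
  obtain ⟨η, hη, hηχ, hlow⟩ := X.fcell_lower hWM hσ hℓ hp.1 hp.2 hXlow hε
  set χ := ∑ i, p i * ℓ i with hχ
  have hχ0 : 0 < χ := hη.trans hηχ
  set d : ℝ := min (1 / 2) (η / χ) with hd
  have hd0 : 0 < d := lt_min (by norm_num) (div_pos hη hχ0)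
  have hd2 : d ≤ 1 / 2 := min_le_left _ _
  have hdη : d * χ ≤ η := by
    have : d ≤ η / χ := min_le_right _ _
    rwa [le_div_iff₀ hχ0] at this
  obtain ⟨C, δ, hC, hδ, hGB1⟩ := hGB d hd0 hd2
  set C' : ℝ := max 1 (‖(e : E →L[ℝ] (Fin (Module.finrank ℝ E) → ℝ))‖ * C *
    ‖(e.symm : (Fin (Module.finrank ℝ E) → ℝ) →L[ℝ] E)‖) with hC'
  set ne : ℝ := ‖(e : E →L[ℝ] (Fin (Module.finrank ℝ E) → ℝ))‖ with hne
  have hne0 : 0 ≤ ne := norm_nonneg _
  have hC'0 : 0 < C' := lt_of_lt_of_le one_pos (le_max_left _ _)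
  obtain ⟨x0, n0, hlow2⟩ := hlow C' (ne * B)
  -- eventual facts
  have ev1 : ∀ᶠ j in atTop, ‖Lj j - L‖ ≤ δ := by
    have := (tendsto_iff_norm_sub_tendsto_zero.1 hL)
    exact (this.eventually (gt_mem_nhds hδ)).mono fun j hj => le_of_lt hj
  have hTc : Tendsto (fun j => NormedSpace.exp ((-(-x0)) • Lj j)) atTop
      (𝓝 (NormedSpace.exp ((-(-x0)) • L))) := by
    have : CompleteSpace E := FiniteDimensional.complete ℝ E
    let _ : NormedAlgebra ℚ (E →L[ℝ] E) := NormedAlgebra.restrictScalars ℚ ℝ (E →L[ℝ] E)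
    exact (NormedSpace.exp_continuous.tendsto _).comp (hL.const_smul _)
  set T : E →L[ℝ] E := NormedSpace.exp ((-(-x0)) • L) with hT
  have ev2 : ∀ᶠ j in atTop, ‖NormedSpace.exp ((-(-x0)) • Lj j) - T‖ ≤
      1 / (2 * (ne + 1) * (|B| + 1)) := by
    have h1 := (tendsto_iff_norm_sub_tendsto_zero.1 hTc)
    have h2 : 0 < 1 / (2 * (ne + 1) * (|B| + 1)) := by positivity
    exact (h1.eventually (gt_mem_nhds h2)).mono fun j hj => le_of_lt hj
  have ev3 := hclose (1 / (2 * (ne + 1) * (‖T‖ + 1))) (by positivity)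
  have ev4 : ∀ᶠ j in atTop, n0 ≤ nj j := hn.eventually_ge_atTop n0
  set R : ℝ := C' * ne with hR
  have hR0 : 0 ≤ R := by positivity
  set KR : ℝ := Fintype.card (Fin (Module.finrank ℝ E)) * log (2 * R + 3) with hKR
  have ev5 : ∀ᶠ j in atTop, KR / ε < nj j := by
    have h1 : Tendsto (fun j => ((nj j : ℕ) : ℝ)) atTop atTop :=
      tendsto_natCast_atTop_atTop.comp hn
    exact h1.eventually_gt_atTop _
  have ev6 := hS ε hε
  obtain ⟨j, ⟨hj1, hjB⟩, hj2, hj3, hj4, hj5, hj6, S, hjS, hjS2⟩ :=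
    (hΦj.and (ev1.and (ev2.and (ev3.and (ev4.and (ev5.and ev6)))))).exists
  have gb : GB (Lj j) C d := hGB1 _ hj2
  let Yp := mkProc e gb hj1 hjB
  have hYC : Yp.F.C ≤ C' := le_refl _
  have hYB : Yp.B ≤ ne * B := le_refl _
  have hYclose : ∀ w, ‖Yp.sc x0 w - X.sc x0 w‖ ≤ 1 := by
    intro w
    have e1 : Yp.sc x0 w = e (NormedSpace.exp ((-(-x0)) • Lj j) (Φj j w)) := by
      show (mkFlow e gb).A (-x0) (e (Φj j w)) = _
      rw [mkFlow_A, e.symm_apply_apply]
    have e2 : X.sc x0 w = e (T (Φ w)) := by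
      show (mkFlow e gb0).A (-x0) (e (Φ w)) = _
      rw [mkFlow_A, e.symm_apply_apply]
    rw [e1, e2, ← map_sub]
    have e3 : NormedSpace.exp ((-(-x0)) • Lj j) (Φj j w) - T (Φ w) =
        (NormedSpace.exp ((-(-x0)) • Lj j) - T) (Φj j w) + T (Φj j w - Φ w) := by
      rw [map_sub]
      show _ = (NormedSpace.exp ((-(-x0)) • Lj j)) (Φj j w) - T (Φj j w) + _
      abel
    have h1 : ‖NormedSpace.exp ((-(-x0)) • Lj j) (Φj j w) - T (Φ w)‖ ≤
        1 / (ne + 1) := by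
      rw [e3]
      refine (norm_add_le _ _).trans ?_
      have a1 : ‖(NormedSpace.exp ((-(-x0)) • Lj j) - T) (Φj j w)‖ ≤
          1 / (2 * (ne + 1) * (|B| + 1)) * (|B| + 1) := by
        refine (ContinuousLinearMap.le_opNorm _ _).trans ?_
        refine mul_le_mul hj3 ?_ (norm_nonneg _) (by positivity)
        have := hjB w
        have := le_abs_self B
        linarith
      have a2 : ‖T (Φj j w - Φ w)‖ ≤ (‖T‖ + 1) * (1 / (2 * (ne + 1) * (‖T‖ + 1))) := by
        refine (T.le_opNorm _).trans ?_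
        refine mul_le_mul (by linarith [norm_nonneg T]) (hj4 w) (norm_nonneg _) (by positivity)
      have a3 : 1 / (2 * (ne + 1) * (|B| + 1)) * (|B| + 1) = 1 / (2 * (ne + 1)) := by
        field_simp
      have a4 : (‖T‖ + 1) * (1 / (2 * (ne + 1) * (‖T‖ + 1))) = 1 / (2 * (ne + 1)) := by
        field_simp
      have a5 : 1 / (2 * (ne + 1)) + 1 / (2 * (ne + 1)) = 1 / (ne + 1) := by
        field_simp; norm_num
      rw [a3] at a1
      rw [a4] at a2
      linarith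
    calc ‖e (NormedSpace.exp ((-(-x0)) • Lj j) (Φj j w) - T (Φ w))‖ ≤
          ne * ‖NormedSpace.exp ((-(-x0)) • Lj j) (Φj j w) - T (Φ w)‖ :=
            (e : E →L[ℝ] (Fin (Module.finrank ℝ E) → ℝ)).le_opNorm _
      _ ≤ ne * (1 / (ne + 1)) := mul_le_mul_of_nonneg_left h1 hne0
      _ ≤ 1 := by
            rw [mul_one_div, div_le_one (by positivity)]
            linarith
  have hmain := hlow2 Yp hYC hYB hYclose (nj j) hj5
  have hx : 0 ≤ (χ - η) * (nj j : ℝ) := mul_nonneg (by linarith) (Nat.cast_nonneg _)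
  have hup := Yp.fcell_le_HS hWM (nj j) ((χ - η) * nj j) S hR0 (fun u v huv => by
    have h1 : Yp.fin u - Yp.fin v = e (pfin (gen σ ℓ (Lj j)) (bj j) u -
        pfin (gen σ ℓ (Lj j)) (bj j) v) := by
      rw [mkProc_fin e gb hj1 hjB u, mkProc_fin e gb hj1 hjB v, map_sub]
    rw [← map_sub, h1]
    have h2 := Yp.F.bd' ((χ - η) * nj j) hx (e (pfin (gen σ ℓ (Lj j)) (bj j) u -
        pfin (gen σ ℓ (Lj j)) (bj j) v))
    refine h2.trans ?_
    have h3 : ‖e (pfin (gen σ ℓ (Lj j)) (bj j) u - pfin (gen σ ℓ (Lj j)) (bj j) v)‖ ≤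
        ne * exp (-(χ * nj j)) := by
      refine ((e : E →L[ℝ] (Fin (Module.finrank ℝ E) → ℝ)).le_opNorm _).trans ?_
      exact mul_le_mul_of_nonneg_left (hjS2 u v huv) hne0
    have h4 : Yp.F.d = d := rfl
    have h5 : Yp.F.C = C' := rfl
    rw [h4, h5]
    calc C' * exp ((1 + d) * ((χ - η) * nj j)) *
          ‖e (pfin (gen σ ℓ (Lj j)) (bj j) u - pfin (gen σ ℓ (Lj j)) (bj j) v)‖ ≤
          C' * exp ((1 + d) * ((χ - η) * nj j)) * (ne * exp (-(χ * nj j))) :=
            mul_le_mul_of_nonneg_left h3 (by positivity)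
      _ = C' * ne * exp ((1 + d) * ((χ - η) * nj j) + -(χ * nj j)) := by
            rw [exp_add]; ring
      _ ≤ C' * ne * 1 := by
            refine mul_le_mul_of_nonneg_left ?_ hR0
            rw [exp_le_one_iff]
            have h6 : (1 + d) * (χ - η) ≤ χ := by nlinarith
            have h7 : (0:ℝ) ≤ nj j := Nat.cast_nonneg _
            nlinarith
      _ = R := by rw [mul_one])
  have h8 : KR < ε * nj j := by
    rwa [div_lt_iff₀ hε, mul_comm] at hj6
  have h9 : (α' - ε) * nj j ≤ (α + ε) * nj j + KR := hmain.trans (hup.trans (by linarith))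
  have h10 : α' - α = 4 * ε := by rw [hεd]; ring
  have h11 : (0:ℝ) ≤ nj j := Nat.cast_nonneg _
  nlinarith

theorem gbnear {E : Type*} [NormedAddCommGroup E] [NormedSpace ℝ E] [FiniteDimensional ℝ E]
    {L : E →L[ℝ] E} (hL : IsNilpotent (L - 1)) : GBnear L := by
  have : CompleteSpace E := FiniteDimensional.complete ℝ E
  intro d hd hd2
  obtain ⟨C, δ, hC, hδ, h⟩ := GF.exists_exp_bound hL hd
  exact ⟨C, δ, hC, hδ, fun L' hL' => ⟨hC, hd.le, hd2, fun x hx => (h L' hL' x hx).1,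
    fun x hx => (h L' hL' x hx).2⟩⟩

/-- **(F5) + (F2)** in the shape of the ending (note 10133 and mail of helper549) -/
theorem F5 {ι : Type*} [Fintype ι] [Nonempty ι] [MeasurableSpace ι]
    [DiscreteMeasurableSpace ι] {E : Type*} [NormedAddCommGroup E] [NormedSpace ℝ E]
    [FiniteDimensional ℝ E] {p σ ℓ : ι → ℝ} (hp : (∀ i, 0 ≤ p i) ∧ ∑ i, p i = 1)
    (hσ : ∀ i, |σ i| = 1) (hℓ : ∀ i, 0 < ℓ i)
    {L : E →L[ℝ] E} (hN : IsNilpotent (L - 1)) {b : ι → E} {Φ : (ℕ → ι) → E}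
    (hΦ : Crest.Agent.R98.IsProc (gen σ ℓ L) b Φ) {Lj : ℕ → E →L[ℝ] E}
    (hL : Tendsto Lj atTop (𝓝 L)) {bj : ℕ → ι → E}
    (hb : ∀ a, Tendsto (fun j => bj j a) atTop (𝓝 (b a))) {nj : ℕ → ℕ}
    (hn : Tendsto nj atTop atTop)
    {Y : (ℕ → ι) → ℝ} {ρ τ : ι → ℝ} (hρ : ∀ a, ρ a ≠ 0)
    (hY : ∀ a w, Y (scons a w) = τ a + ρ a * Y w) {φ0 : E →L[ℝ] ℝ} (hφ0 : ∀ w, φ0 (Φ w) = Y w)
    (hS : ∀ η > 0, ∀ᶠ j in atTop, ∃ S : Setoid (Fin (nj j) → ι),
      HS (pw p) S ≤ (alpha p Y + η) * nj j ∧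
      ∀ u v, S u v → ‖pfin (gen σ ℓ (Lj j)) (bj j) u - pfin (gen σ ℓ (Lj j)) (bj j) v‖ ≤
        exp (-((∑ i, p i * ℓ i) * nj j))) (φ : E →L[ℝ] ℝ) :
    Fac p Y (fun w => φ (Φ w)) := by
  classical
  have : CompleteSpace E := FiniteDimensional.complete ℝ E
  set M : ℝ := ∑ a, (‖b a‖ + 1) with hM
  have hM0 : 0 ≤ M := Finset.sum_nonneg fun a _ => by positivity
  obtain ⟨B, δ, hB, hδ, h⟩ := GF.exists_process hσ hℓ hN M hM0
  have ev1 : ∀ᶠ j in atTop, ‖Lj j - L‖ ≤ δ := by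
    have := (tendsto_iff_norm_sub_tendsto_zero.1 hL)
    exact (this.eventually (gt_mem_nhds hδ)).mono fun j hj => le_of_lt hj
  have ev2 : ∀ᶠ j in atTop, ∀ a, ‖bj j a‖ ≤ M := by
    rw [eventually_all]
    intro a
    have h1 : ∀ᶠ j in atTop, ‖bj j a‖ < ‖b a‖ + 1 :=
      (hb a).norm.eventually (gt_mem_nhds (by linarith))
    filter_upwards [h1] with j hj
    refine hj.le.trans ?_
    exact Finset.single_le_sum (f := fun a => ‖b a‖ + 1) (fun a _ => by positivity)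
      (Finset.mem_univ a)
  let Φj : ℕ → (ℕ → ι) → E := fun j =>
    if hj : ‖Lj j - L‖ ≤ δ ∧ ∀ a, ‖bj j a‖ ≤ M then (h (Lj j) hj.1 (bj j) hj.2).choose else 0
  have hΦj : ∀ᶠ j in atTop, Crest.Agent.R98.IsProc (gen σ ℓ (Lj j)) (bj j) (Φj j) ∧
      ∀ w, ‖Φj j w‖ ≤ B := by
    filter_upwards [ev1, ev2] with j h1 h2
    have e : Φj j = (h (Lj j) h1 (bj j) h2).choose := dif_pos ⟨h1, h2⟩
    rw [e]
    exact ⟨(h (Lj j) h1 (bj j) h2).choose_spec.1, (h (Lj j) h1 (bj j) h2).choose_spec.2.1⟩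
  have hclose : ∀ ε > 0, ∀ᶠ j in atTop, ∀ w, ‖Φj j w - Φ w‖ ≤ ε := fun ε hε =>
    GF.tendsto_gen_proc hσ hℓ hN hL hb (hΦj.mono fun j hj => hj.1) hΦ hε
  exact F5_core hp hσ hℓ (gbnear hN) hΦ hL hn hΦj hclose hρ hY hφ0 hS φ

end

end Crest.Agent.R98.F
end

-- ▼ part R98/GenFlow2
section

/-!
R98 / GenFlow2 (helper529): `exists_GB`, `exists_procs` in the shape used by F5.
-/

set_option autoImplicit false

open MeasureTheory Filter Topology

namespace Crest.Agent.R98.GF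

section GB

variable {E : Type*} [NormedAddCommGroup E] [NormedSpace ℝ E] [FiniteDimensional ℝ E]

/-- (G1) in the form `GB` -/
theorem exists_GB {L : E →L[ℝ] E} (hN : IsNilpotent (L - 1)) {d : ℝ} (hd : 0 < d)
    (hd2 : d ≤ 1 / 2) :
    ∃ C δ : ℝ, 1 ≤ C ∧ 0 < δ ∧ ∀ L' : E →L[ℝ] E, ‖L' - L‖ ≤ δ → FD.GB L' C d := by
  have : CompleteSpace E := FiniteDimensional.complete ℝ E
  obtain ⟨C, δ, hC, hδ, h⟩ := exists_exp_bound hN hd
  refine ⟨C, δ, hC, hδ, fun L' hL' => ?_⟩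
  exact ⟨hC, hd.le, hd2, fun x hx => (h L' hL' x hx).1, fun x hx => (h L' hL' x hx).2⟩

variable {ι : Type*} [Finite ι] [MeasurableSpace ι] [DiscreteMeasurableSpace ι]


end GB

end Crest.Agent.R98.GF
end

-- ▼ part R98/Uni
section

/-!
Row 98, module UNI (helper549): the frozen statement `UniP`.
-/

set_option autoImplicit false

namespace Crest.Agent.R98

open Finset MeasureTheory Filter Crest.AnalysisR Crest.Agent.R98.Part Crest.Agent.R098.Upper
open scoped Topology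

section Pack

variable {ι : Type*} [Fintype ι] [Nonempty ι] [MeasurableSpace ι] [DiscreteMeasurableSpace ι]

omit [Nonempty ι] [MeasurableSpace ι] [DiscreteMeasurableSpace ι] in
lemma rayR_zero_eq (σ ℓ : ι → ℝ) : rayR σ ℓ 0 = fun i => σ i * Real.exp (-(ℓ i)) := by
  funext i
  simp [rayR]

/-- (F4) -/
theorem softL {σ ℓ p : ι → ℝ} (hσ : ∀ i, |σ i| = 1) (hℓ : ∀ i, 0 < ℓ i)
    (hp : (∀ i, 0 ≤ p i) ∧ ∑ i, p i = 1) (t : ι → ℝ) :
    SoftL σ ℓ p t (F.alpha p (Pi (rayR σ ℓ 0) t)) (∑ i, p i * ℓ i) := by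
  intro κ hκ
  obtain ⟨ε, hε, h⟩ := FD.F4 hp hσ hℓ t hκ
  refine ⟨ε, hε, ?_⟩
  filter_upwards [h] with n hn w hw S hS
  have h1 : ‖w - t‖ < ε := (pi_norm_lt_iff hε).2 fun i => by
    rw [Pi.sub_apply, Real.norm_eq_abs]; exact hw i
  rw [rayR_zero_eq] at *
  refine hn w h1 S fun u v huv => ?_
  have := hS u v huv
  rw [← Finset.sum_sub_distrib] at this
  simp only [← sub_mul] at this
  exact this

/-- (F5) + (F2) -/
theorem softF {σ ℓ p : ι → ℝ} (hσ : ∀ i, |σ i| = 1) (hℓ : ∀ i, 0 < ℓ i)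
    (hp : (∀ i, 0 ≤ p i) ∧ ∑ i, p i = 1) (t : ι → ℝ) (E : Type*) [NormedAddCommGroup E]
    [NormedSpace ℝ E] [FiniteDimensional ℝ E] :
    SoftF σ ℓ p t (F.alpha p (Pi (rayR σ ℓ 0) t)) (∑ i, p i * ℓ i) E := by
  intro L L' b b' Φ n φ₀ hL hN hb hn hΦ hφ hS φ
  obtain ⟨k, hk⟩ := hN
  have hr : ∀ i, |rayR σ ℓ 0 i| ≤ Real.exp (-(Finset.univ.inf' Finset.univ_nonempty ℓ)) := by
    intro i
    rw [rayR_zero_eq]
    show |σ i * Real.exp (-(ℓ i))| ≤ _
    rw [abs_mul, hσ, one_mul, Real.abs_exp]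
    exact Real.exp_le_exp.2 (neg_le_neg (Finset.inf'_le _ (Finset.mem_univ i)))
  have hq : Real.exp (-(Finset.univ.inf' Finset.univ_nonempty ℓ)) < 1 := by
    rw [Real.exp_lt_one_iff, neg_lt_zero, Finset.lt_inf'_iff]
    exact fun i _ => hℓ i
  refine F.F5 (ρ := rayR σ ℓ 0) (τ := t) hp hσ hℓ (L := L') ⟨k, hk⟩ hΦ hL hb hn ?_ ?_ hφ hS φ
  · intro a
    have h1 : |rayR σ ℓ 0 a| ≠ 0 := by
      rw [rayR_zero_eq]
      show |σ a * Real.exp (-(ℓ a))| ≠ 0
      rw [abs_mul, hσ, one_mul, Real.abs_exp]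
      exact (Real.exp_pos _).ne'
    exact abs_ne_zero.1 h1
  · intro a w
    rw [Pi_scons hr hq]
    ring

/-- (F3) for the projected jet process -/
theorem softR {σ ℓ p : ι → ℝ} (hσ : ∀ i, |σ i| = 1) (hℓ : ∀ i, 0 < ℓ i)
    (hp : (∀ i, 0 ≤ p i) ∧ ∑ i, p i = 1) (t : ι → ℝ) (J : ℕ)
    (hst : ∀ a ∈ VJ σ ℓ p t J, shT J a ∈ VJ σ ℓ p t J)
    (hcol : ∀ q > 0, ∀ η > 0, ∀ᶠ n : ℕ in atTop, ∃ S : Setoid (Fin n → ι),
      Part.HS (pw p) S ≤ (F.alpha p (Pi (rayR σ ℓ 0) t) + η) * n ∧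
      ∀ u v, S u v → wtype u = wtype v ∧
        |∑ i, (cw (rayR σ ℓ 0) u i - cw (rayR σ ℓ 0) v i) * t i| ≤ Real.exp (-q * n)) :
    SoftR σ ℓ p t (F.alpha p (Pi (rayR σ ℓ 0) t)) J := by
  classical
  intro q hq κ hκ
  obtain ⟨i0, _, hi0⟩ := Finset.exists_min_image Finset.univ ℓ Finset.univ_nonempty
  have hℓ' : ∀ i, ℓ i0 ≤ ℓ i := fun i => hi0 i (Finset.mem_univ i)
  have hσ' : ∀ i, |σ i| ≤ 1 := fun i => (hσ i).le
  set V := VJ σ ℓ p t J with hV
  set P := V.starProjection with hP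
  have hPN := proj_shJ hst
  have hcomp : ∀ a, P.comp (GJ σ ℓ J a) = (gen σ ℓ (MJ P (shJ J)) a).comp P := fun a =>
    comp_gen σ ℓ (proj_comp_MJ hPN) a
  have hproc : IsProc (gen σ ℓ (MJ P (shJ J))) (fun a => P (bJ J a))
      (fun w => P (ji σ ℓ J w)) := (isProc_ji hσ' hℓ' (hℓ i0) J).comp hcomp
  have hnil : IsNilpotent (MJ P (shJ J) - (1 : EJ ι J →L[ℝ] EJ ι J)) := by
    refine ⟨J + 1, ?_⟩
    have e1 : MJ P (shJ J) - (1 : EJ ι J →L[ℝ] EJ ι J) = P.comp (shJ J) := by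
      refine ContinuousLinearMap.ext fun v => ?_
      show v + P (shJ J v) - v = P (shJ J v)
      simp
    rw [e1]
    refine ContinuousLinearMap.ext fun v => ?_
    rw [PN_pow hPN J v, shJ_nilpotent]
    simp
  obtain ⟨C, δ, hC, hδ, hGB⟩ := GF.exists_GB hnil (d := 1 / 2) (by norm_num) le_rfl
  have hGB' : FD.GB (MJ P (shJ J)) C (1 / 2) := hGB _ (by simpa using hδ.le)
  have hfac : ∀ φ : EJ ι J →L[ℝ] ℝ, Fac p (Pi (rayR σ ℓ 0) t)
      (fun w => φ (P (ji σ ℓ J w))) := by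
    intro φ
    set a := (InnerProductSpace.toDual ℝ (EJ ι J)).symm φ with ha
    have h1 : ∀ v, inner ℝ a v = φ v := by
      intro v
      rw [ha, InnerProductSpace.toDual_symm_apply]
    have h2 : P a ∈ V := Submodule.starProjection_apply_mem _ _
    rw [hV, mem_VJ] at h2
    refine h2.congr (Eventually.of_forall fun w => ?_)
    show inner ℝ (P a) (ji σ ℓ J w) = φ (P (ji σ ℓ J w))
    rw [← h1, hP, Submodule.inner_starProjection_left_eq_right]
  have h := FD.F3 hσ hℓ hp t hGB' hproc hfac hcol hq hκ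
  filter_upwards [h] with n hn
  obtain ⟨S, hS1, hS2⟩ := hn
  refine ⟨S, hS1, fun u v huv => ⟨(hS2 u v huv).1, ?_⟩⟩
  have h3 := (hS2 u v huv).2
  have h4 : ∀ u : Fin n → ι, pfin (gen σ ℓ (MJ P (shJ J))) (fun a => P (bJ J a)) u =
      P (jf σ ℓ J u) := by
    intro u
    rw [pfin_comp (T := P) hcomp, jf_eq_pfin]
  rw [h4, h4, ← map_sub] at h3
  refine h3.trans (le_of_eq ?_)
  congr 1
  ring

end Pack

section UniP

variable {ι : Type*} [Fintype ι] [Nonempty ι] [MeasurableSpace ι] [DiscreteMeasurableSpace ι]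

/-- exponential collapse in class form, from `NC.collapse_rr` -/
theorem hcol_of_lt {σ ℓ p t : ι → ℝ} (hσ : Top.IsS σ) (hℓ : ∀ i, 0 < ℓ i) (hp : ∀ i, 0 < p i)
    (hp1 : ∑ i, p i = 1) (hα : F.alpha p (Pi (Top.rr σ ℓ) t) < Top.chi p ℓ) :
    ∀ q > 0, ∀ η > 0, ∀ᶠ n : ℕ in atTop, ∃ S : Setoid (Fin n → ι),
      Part.HS (pw p) S ≤ (F.alpha p (Pi (rayR σ ℓ 0) t) + η) * n ∧
      ∀ u v, S u v → wtype u = wtype v ∧
        |∑ i, (cw (rayR σ ℓ 0) u i - cw (rayR σ ℓ 0) v i) * t i| ≤ Real.exp (-q * n) := by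
  intro q hq η hη
  have hrr : Top.rr σ ℓ = rayR σ ℓ 0 := by
    funext i; simp [Top.rr, rayR]
  have h := NC.collapse_rr hp hp1 hσ hℓ hα (q := q) (ε := η) hq.le hη
  filter_upwards [h] with n hn
  refine ⟨_, by rw [← hrr]; exact hn, ?_⟩
  intro u v huv
  have h1 : wtype u = wtype v := huv.1
  have h2 : (Part.cell (fun u : Fin n → ι => Top.cdot (Top.rr σ ℓ) t u) (Real.exp (-(q * n))) 0) u v :=
    huv.2
  refine ⟨h1, ?_⟩
  have h3 : ⌊(Top.cdot (Top.rr σ ℓ) t u - 0) / Real.exp (-(q * n))⌋ =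
      ⌊(Top.cdot (Top.rr σ ℓ) t v - 0) / Real.exp (-(q * n))⌋ := h2
  have h4 := Int.abs_sub_lt_one_of_floor_eq_floor h3
  rw [sub_zero, sub_zero, ← sub_div, abs_div, Real.abs_exp, div_lt_one (Real.exp_pos _)] at h4
  have e : ∑ i, (cw (rayR σ ℓ 0) u i - cw (rayR σ ℓ 0) v i) * t i =
      Top.cdot (Top.rr σ ℓ) t u - Top.cdot (Top.rr σ ℓ) t v := by
    unfold Top.cdot
    rw [hrr, ← Finset.sum_sub_distrib]
    exact Finset.sum_congr rfl fun i _ => sub_mul _ _ _
  rw [e]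
  refine h4.le.trans (le_of_eq ?_)
  congr 1
  ring

/-- **UNI** -/
theorem uniP_of_stab {σ ℓ p t : ι → ℝ} (hσ : Top.IsS σ) (hℓ : ∀ i, 0 < ℓ i) (hp : ∀ i, 0 < p i)
    (hp1 : ∑ i, p i = 1) (hα : F.alpha p (Pi (Top.rr σ ℓ) t) < Top.chi p ℓ)
    (hst : ∀ J, ∀ a ∈ VJ σ ℓ p t J, shT J a ∈ VJ σ ℓ p t J) : UniP p σ ℓ t := by
  classical
  intro J m s τ η d A hm hs hτ hη0 hH hA hd hd0 hηd hX
  have hpp : (∀ i, 0 ≤ p i) ∧ ∑ i, p i = 1 := ⟨fun i => (hp i).le, hp1⟩
  have hσ1 : ∀ i, |σ i| = 1 := fun i => by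
    rcases hσ i with h | h <;> simp [h]
  have hσ' : ∀ i, |σ i| ≤ 1 := fun i => (hσ1 i).le
  obtain ⟨i0, _, hi0⟩ := Finset.exists_min_image Finset.univ ℓ Finset.univ_nonempty
  have hℓ' : ∀ i, ℓ i0 ≤ ℓ i := fun i => hi0 i (Finset.mem_univ i)
  by_contra hcon
  rw [Filter.not_eventually] at hcon
  obtain ⟨φ, hφ, hφ2⟩ := extraction_of_frequently_atTop hcon
  have hφt := hφ.tendsto_atTop
  have hχ : 0 ≤ ∑ i, p i * ℓ i :=
    Finset.sum_nonneg fun i _ => mul_nonneg (hp i).le (hℓ i).le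
  have hds : ∀ j, ‖s j‖ ≤ d j ^ 2 := by
    intro j
    have h1 : √‖s j‖ ≤ d j := by rw [hd j]; exact le_max_right _ _
    calc ‖s j‖ = (√‖s j‖) ^ 2 := (Real.sq_sqrt (norm_nonneg _)).symm
      _ ≤ d j ^ 2 := pow_le_pow_left₀ (Real.sqrt_nonneg _) h1 2
  refine uni_core hσ' hℓ' (hℓ i0) hpp hχ J (hst J)
    (softR hσ1 hℓ hpp t J (hst J) (hcol_of_lt hσ hℓ hp hp1 hα))
    (softL hσ1 hℓ hpp t) (softF hσ1 hℓ hpp t (ℂ × EJ ι J))
    (m := fun j => m (φ j)) (hm.comp hφt) (s := fun j => s (φ j)) (hs.comp hφt)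
    (τ := fun j => τ (φ j)) (fun i => ((tendsto_pi_nhds.1 hτ) i).comp hφt)
    (η := fun j => η (φ j)) (A := fun j => A (φ j))
    (fun κ hκ => hφt.eventually (hH κ hκ)) (fun j u v huv => (hA (φ j) u v huv).1) ?_
    (d := fun j => d (φ j)) (fun j => hd0 _) ?_ (fun j => hds _) (fun j => hηd _)
    (hX.comp hφt) (fun j => not_lt.1 (hφ2 j))
  · intro j u v huv
    have h := (hA (φ j) u v huv).2
    unfold val
    rw [← Finset.sum_sub_distrib]
    simp only [← sub_mul]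
    exact h
  · intro j
    show _ ≤ d (φ j)
    rw [hd (φ j)]
    exact le_max_left _ _

end UniP

end Crest.Agent.R98
end

-- ▼ part R98/Stab
section

/-!
Row 98, module STAB (helper21): the space `VJ` of jet functionals which are a.s. functions of
`Π_ω` is stable under the transposed shift `shT`.
-/

set_option autoImplicit false

namespace Crest.Agent.R98

open Finset MeasureTheory Filter Crest.AnalysisR
open scoped Topology

section Alg

variable {E : Type*} [NormedAddCommGroup E] [NormedSpace ℝ E]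

/-- operators mapping `V` to `V` -/
def stabOps (V : Submodule ℝ E) : Subalgebra ℝ (E →L[ℝ] E) where
  carrier := {T | ∀ a ∈ V, T a ∈ V}
  mul_mem' := by
    intro S T hS hT a ha
    exact hS _ (hT _ ha)
  add_mem' := by
    intro S T hS hT a ha
    exact V.add_mem (hS _ ha) (hT _ ha)
  algebraMap_mem' := by
    intro r a ha
    have h : (algebraMap ℝ (E →L[ℝ] E) r) a = r • a := by
      rw [Algebra.algebraMap_eq_smul_one]; rfl
    rw [h]
    exact V.smul_mem r ha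


/-- a subalgebra which contains `∑_{k ≤ J} c^k/k! N^k`, with `N^(J+1) = 0` and `c ≠ 0`, contains `N` -/
lemma mem_of_exp_mem {A : Type*} [Ring A] [Algebra ℝ A] (S : Subalgebra ℝ A) {N : A} {J : ℕ}
    (hN : N ^ (J + 1) = 0) {c : ℝ} (hc : c ≠ 0)
    (hU : ∑ k ∈ range (J + 1), (c ^ k / (k.factorial : ℝ)) • N ^ k ∈ S) : N ∈ S := by
  classical
  rcases Nat.eq_zero_or_pos J with hJ | hJ
  · subst hJ
    have : N = 0 := by simpa using hN
    rw [this]; exact S.zero_mem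
  set g : Polynomial ℝ :=
    ∑ k ∈ range J, Polynomial.C (c ^ (k + 1) / ((k + 1).factorial : ℝ)) * Polynomial.X ^ k with hg
  have hg0 : g.coeff 0 = c := by
    rw [hg, Polynomial.finsetSum_coeff]
    rw [Finset.sum_eq_single 0]
    · simp
    · intro k _ hk
      rw [Polynomial.coeff_C_mul, Polynomial.coeff_X_pow, if_neg (Ne.symm hk), mul_zero]
    · intro h; exact absurd (mem_range.2 hJ) h
  have hD : Polynomial.aeval N (Polynomial.X * g) ∈ S := by
    have h1 : Polynomial.aeval N (Polynomial.X * g) =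
        (∑ k ∈ range (J + 1), (c ^ k / (k.factorial : ℝ)) • N ^ k) - 1 := by
      rw [Finset.sum_range_succ']
      simp only [pow_zero, Nat.factorial_zero, Nat.cast_one, div_one, one_smul, add_sub_cancel_right]
      rw [map_mul, Polynomial.aeval_X, hg, map_sum, Finset.mul_sum]
      refine Finset.sum_congr rfl fun k _ => ?_
      rw [map_mul, Polynomial.aeval_C, map_pow, Polynomial.aeval_X, Algebra.algebraMap_eq_smul_one,
        smul_mul_assoc, one_mul, mul_smul_comm, ← pow_succ']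
    rw [h1]
    exact S.sub_mem hU S.one_mem
  have key : ∀ j, j ≤ J → ∀ k, J + 1 ≤ k + j → N ^ k ∈ S := by
    intro j
    induction j with
    | zero =>
      intro _ k hk
      have : N ^ k = 0 := by
        obtain ⟨d, rfl⟩ := Nat.exists_eq_add_of_le (show J + 1 ≤ k by omega)
        rw [pow_add, hN, zero_mul]
      rw [this]; exact S.zero_mem
    | succ j ih =>
      intro hj k hk
      by_cases hk' : J + 1 ≤ k + j
      · exact ih (by omega) k hk'
      have hkm : k + j = J := by omega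
      -- `(X g)^k = c^k X^k + X^(k+1) h`
      have hpoly : (Polynomial.X * g) ^ k =
          Polynomial.C (c ^ k) * Polynomial.X ^ k +
            Polynomial.X ^ (k + 1) * (g ^ k).divX := by
        have h2 := Polynomial.divX_mul_X_add (g ^ k)
        have h3 : (g ^ k).coeff 0 = c ^ k := by
          rw [Polynomial.coeff_zero_eq_eval_zero, Polynomial.eval_pow,
            ← Polynomial.coeff_zero_eq_eval_zero, hg0]
        rw [h3] at h2
        calc (Polynomial.X * g) ^ k = Polynomial.X ^ k * g ^ k := by rw [mul_pow]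
          _ = Polynomial.X ^ k * ((g ^ k).divX * Polynomial.X + Polynomial.C (c ^ k)) := by
              rw [h2]
          _ = _ := by ring
      have hpow : ∀ h : Polynomial ℝ, N ^ (k + 1) * Polynomial.aeval N h ∈ S := by
        intro h
        induction h using Polynomial.induction_on' with
        | add p q hp hq =>
          rw [map_add, mul_add]
          exact S.add_mem hp hq
        | monomial n r =>
          rw [Polynomial.aeval_monomial, Algebra.algebraMap_eq_smul_one, smul_mul_assoc, one_mul,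
            mul_smul_comm, ← pow_add]
          exact S.smul_mem (ih (by omega) _ (by omega)) r
      have h4 := S.pow_mem hD k
      rw [← map_pow, hpoly, map_add, map_mul, map_mul, map_pow (Polynomial.aeval N) Polynomial.X k,
        map_pow (Polynomial.aeval N) Polynomial.X (k + 1), Polynomial.aeval_X,
        Polynomial.aeval_C, Algebra.algebraMap_eq_smul_one, smul_mul_assoc, one_mul] at h4
      have h5 := S.sub_mem h4 (hpow (g ^ k).divX)
      rw [add_sub_cancel_right] at h5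
      have h6 := S.smul_mem h5 (c ^ k)⁻¹
      rwa [smul_smul, inv_mul_cancel₀ (pow_ne_zero _ hc), one_smul] at h6
  simpa using key J le_rfl 1 (by omega)

end Alg

section Adj

variable {ι : Type*} [Fintype ι]

lemma inner_shT (J : ℕ) (a v : EJ ι J) : inner ℝ (shT J a) v = inner ℝ a (shJ J v) := by
  simp only [PiLp.inner_apply, Fintype.sum_prod_type_right]
  refine Finset.sum_congr rfl fun i _ => ?_
  rw [Fin.sum_univ_castSucc, Fin.sum_univ_succ]
  have h0 : (shJ J v) ((0 : Fin (J + 1)), i) = 0 := by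
    rw [shJ_apply]; simp
  have h1 : ∀ l : Fin J, (shJ J v) (l.succ, i) = v (l.castSucc, i) := by
    intro l
    rw [shJ_apply, dif_neg (by simp)]
    congr 2
  have h2 : ∀ l : Fin J, (shT J a) (l.castSucc, i) = a (l.succ, i) := by
    intro l
    rw [shT_apply, dif_pos (by simp)]
    congr 2
  have h3 : (shT J a) (Fin.last J, i) = 0 := by
    rw [shT_apply, dif_neg (by simp)]
  simp only [h0, h1, h2, h3, inner_zero_left, inner_zero_right, add_zero, zero_add]

lemma inner_shT_pow (J k : ℕ) (a v : EJ ι J) :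
    inner ℝ (((shT J) ^ k) a) v = inner ℝ a (((shJ J) ^ k) v) := by
  induction k generalizing a v with
  | zero => simp
  | succ k ih =>
    rw [pow_succ, mul_apply_eq_comp, ih, inner_shT, pow_succ',
      mul_apply_eq_comp]

lemma shJ_pow_top (J : ℕ) : (shJ J : EJ ι J →L[ℝ] EJ ι J) ^ (J + 1) = 0 := by
  refine ContinuousLinearMap.ext fun v => ?_
  ext x
  rw [shJ_pow_apply, dif_neg (by omega)]
  rfl

lemma shT_pow_top (J : ℕ) : (shT J : EJ ι J →L[ℝ] EJ ι J) ^ (J + 1) = 0 := by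
  refine ContinuousLinearMap.ext fun a => ?_
  refine ext_inner_right ℝ fun v => ?_
  rw [inner_shT_pow, shJ_pow_top]
  simp

lemma GJ_eq_sum (σ ℓ : ι → ℝ) (J : ℕ) (i : ι) (v : EJ ι J) :
    GJ σ ℓ J i v = ∑ k ∈ range (J + 1),
      (σ i * Real.exp (-ℓ i) * (-ℓ i) ^ k / (k.factorial : ℝ)) • ((shJ J) ^ k) v := by
  ext x
  have hsub : range ((x.1 : ℕ) + 1) ⊆ range (J + 1) :=
    range_subset_range.2 (by omega)
  have e : (∑ k ∈ range (J + 1),
      (σ i * Real.exp (-ℓ i) * (-ℓ i) ^ k / (k.factorial : ℝ)) • ((shJ J) ^ k) v) x =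
      ∑ k ∈ range (J + 1),
      (σ i * Real.exp (-ℓ i) * (-ℓ i) ^ k / (k.factorial : ℝ)) * ((shJ J) ^ k) v x := by
    rw [WithLp.ofLp_sum, Finset.sum_apply]
    rfl
  rw [GJ_apply, e]
  refine Finset.sum_subset hsub fun k _ hk => ?_
  rw [shJ_pow_apply, dif_neg, mul_zero]
  simp only [mem_range] at hk
  omega

end Adj

section Main

variable {ι : Type*} [Fintype ι] [MeasurableSpace ι] [DiscreteMeasurableSpace ι]

/-- conditioning on the first letter -/
lemma Fac.scons {r t p : ι → ℝ} {q : ℝ} (hr : ∀ i, |r i| ≤ q) (hq : q < 1)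
    (hp : ∀ i, 0 < p i) (hp1 : ∑ i, p i = 1)
    {X : (ℕ → ι) → ℝ} (h : Fac p (Pi r t) X) (i : ι) :
    Fac p (Pi r t) fun w => X (R98.scons i w) := by
  obtain ⟨f, hf, e⟩ := h
  refine ⟨fun y => f (t i + r i * y), hf.comp (by fun_prop), ?_⟩
  -- a.e. for `PP` gives a.e. for the image under `scons i`
  have hpv : (∀ i, 0 ≤ p i) ∧ ∑ i, p i = 1 := ⟨fun i => (hp i).le, hp1⟩
  have h1 : ∀ᵐ w ∂((PP p).map (R98.scons i)), X w = f (Pi r t w) := by
    have h2 : ∀ᵐ w ∂(∑ a, ENNReal.ofReal (p a) • (PP p).map (R98.scons a)),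
        X w = f (Pi r t w) := by
      rw [← PP_cons hpv]; exact e
    have h3 : ENNReal.ofReal (p i) • (PP p).map (R98.scons i) ≤
        ∑ a, ENNReal.ofReal (p a) • (PP p).map (R98.scons a) := by
      intro A
      simp only [Measure.coe_finsetSum, Finset.sum_apply]
      exact Finset.single_le_sum (f := fun a : ι =>
        (ENNReal.ofReal (p a) • (PP p).map (R98.scons a)) A) (fun _ _ => zero_le) (mem_univ i)
    have h4 : ∀ᵐ w ∂(ENNReal.ofReal (p i) • (PP p).map (R98.scons i)), X w = f (Pi r t w) :=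
      h2.filter_mono (ae_mono h3)
    rwa [Measure.ae_ennreal_smul_measure_iff (by
      simpa using hp i)] at h4
  have h5 := ae_of_ae_map (measurable_scons i).aemeasurable h1
  filter_upwards [h5] with w hw
  rw [hw, Pi_scons hr hq, add_comm]

/-- STAB -/
theorem shT_mem_VJ {σ ℓ p : ι → ℝ} (hσ : ∀ i, |σ i| = 1) (hℓ : ∀ i, 0 < ℓ i)
    (hp : ∀ i, 0 < p i) (hp1 : ∑ i, p i = 1) (t : ι → ℝ) (J : ℕ) {a : EJ ι J}
    (ha : a ∈ VJ σ ℓ p t J) : shT J a ∈ VJ σ ℓ p t J := by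
  classical
  have hne : (univ : Finset ι).Nonempty := by
    by_contra h
    rw [not_nonempty_iff_eq_empty] at h
    rw [h] at hp1
    simp at hp1
  obtain ⟨i0, -, hi0⟩ := exists_min_image univ ℓ hne
  have hσ' : ∀ i, |σ i| ≤ 1 := fun i => (hσ i).le
  have h0 : 0 < ℓ i0 := hℓ i0
  have hℓ0 : ∀ i, ℓ i0 ≤ ℓ i := fun i => hi0 i (mem_univ i)
  have hray : ∀ i, |rayR σ ℓ 0 i| ≤ Real.exp (-ℓ i0) := by
    intro i
    unfold rayR
    rw [abs_mul, hσ, one_mul, abs_of_pos (Real.exp_pos _)]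
    apply Real.exp_le_exp.2
    have := hℓ0 i
    linarith
  have hq : Real.exp (-ℓ i0) < 1 := by
    rw [Real.exp_lt_one_iff]; linarith
  set V := VJ σ ℓ p t J with hV
  suffices h : (shT J : EJ ι J →L[ℝ] EJ ι J) ∈ stabOps V from h a ha
  refine mem_of_exp_mem (stabOps V) (shT_pow_top J) (c := -ℓ i0) (by linarith) ?_
  intro b hb
  rw [hV, mem_VJ] at hb ⊢
  have h1 := Fac.scons hray hq hp hp1 hb i0
  -- `⟨b, ji (scons i w)⟩ = ⟨b, bJ i⟩ + σ e^{-ℓ} ⟨U b, ji w⟩`
  have hcoef : σ i0 * Real.exp (-ℓ i0) ≠ 0 := by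
    refine mul_ne_zero ?_ (Real.exp_pos _).ne'
    intro h
    have := hσ i0
    rw [h] at this
    simp at this
  have h2 : ∀ w : ℕ → ι, inner ℝ ((∑ k ∈ range (J + 1),
      ((-ℓ i0) ^ k / (k.factorial : ℝ)) • (shT J : EJ ι J →L[ℝ] EJ ι J) ^ k) b) (ji σ ℓ J w) =
      (σ i0 * Real.exp (-ℓ i0))⁻¹ * inner ℝ b (ji σ ℓ J (R98.scons i0 w)) +
        -((σ i0 * Real.exp (-ℓ i0))⁻¹ * inner ℝ b (bJ J i0)) := by
    intro w
    rw [ji_scons hσ' hℓ0 h0, inner_add_right, GJ_eq_sum, inner_sum, _root_.sum_apply,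
      sum_inner, mul_add, add_comm ((σ i0 * Real.exp (-ℓ i0))⁻¹ * inner ℝ b (bJ J i0)),
      add_neg_cancel_right, Finset.mul_sum]
    refine Finset.sum_congr rfl fun k _ => ?_
    rw [_root_.smul_apply, real_inner_smul_left, real_inner_smul_right, inner_shT_pow]
    have e : (σ i0 * Real.exp (-ℓ i0))⁻¹ * (σ i0 * Real.exp (-ℓ i0) * (-ℓ i0) ^ k /
        (k.factorial : ℝ) * inner ℝ b (((shJ J) ^ k) (ji σ ℓ J w))) =
        ((σ i0 * Real.exp (-ℓ i0))⁻¹ * (σ i0 * Real.exp (-ℓ i0))) * ((-ℓ i0) ^ k /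
        (k.factorial : ℝ) * inner ℝ b (((shJ J) ^ k) (ji σ ℓ J w))) := by ring
    rw [e, inv_mul_cancel₀ hcoef, one_mul]
  refine Fac.congr (Fac.add (Fac.const_mul h1 (σ i0 * Real.exp (-ℓ i0))⁻¹)
    (Fac.const p _ (-((σ i0 * Real.exp (-ℓ i0))⁻¹ * inner ℝ b (bJ J i0)))))
    (Eventually.of_forall fun w => ?_)
  exact (h2 w).symm


end Main

end Crest.Agent.R98
end

-- ▼ part R98/RMain

/-!
Row 98 (S0129), case R assembled: `rmain` (all ratios of logarithms rational).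
-/

set_option autoImplicit false

namespace Crest.Agent.R98

universe u

/-- Case R of the main theorem. -/
theorem rmain : RMain.{u} :=
  Top.rmain_of_uni fun _ _ _ _ _ _ _ hp hp1 hσ _ t hℓ hα =>
    uniP_of_stab hσ hℓ hp hp1 hα fun J _ ha =>
      shT_mem_VJ (fun i => by rcases hσ i with h | h <;> simp [h]) hℓ hp hp1 t J ha

end Crest.Agent.R98
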