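import Crest.Agent.R98.EndJet
import Crest.Agent.R98.Word4

-- ▼ part R98/UniB
section

/-!
Row 98, module UNI (helper549), part B: the process `(ψ_j, π jet)`.
-/

set_option autoImplicit false

namespace Crest.Agent.R98

open Finset MeasureTheory Filter Crest.AnalysisR Crest.Agent.R98.Part
open scoped Topology

section Ops

variable {E : Type*} [NormedAddCommGroup E] [NormedSpace ℝ E]

/-- compressed jet generator `1 + π N` -/
noncomputable def MJ (P N : E →L[ℝ] E) : E →L[ℝ] E := ContinuousLinearMap.id ℝ E + P.comp N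

/-- generator on `ℂ × E` -/
noncomputable def LJ (P N : E →L[ℝ] E) (s : ℂ) (β : E →L[ℝ] ℂ) : (ℂ × E) →L[ℝ] (ℂ × E) :=
  ((1 + s) • ContinuousLinearMap.fst ℝ ℂ E + β.comp (ContinuousLinearMap.snd ℝ ℂ E)).prod
    ((MJ P N).comp (ContinuousLinearMap.snd ℝ ℂ E))

/-- `(x, v) ↦ ((x - φ v) / D, π v)` -/
noncomputable def TJ (P : E →L[ℝ] E) (D : ℝ) (φ : E →L[ℝ] ℂ) : (ℂ × E) →L[ℝ] (ℂ × E) :=
  (D⁻¹ • (ContinuousLinearMap.fst ℝ ℂ E - φ.comp (ContinuousLinearMap.snd ℝ ℂ E))).prod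
    (P.comp (ContinuousLinearMap.snd ℝ ℂ E))

/-- `v ↦ (ξ v, π v)` -/
noncomputable def TI (P : E →L[ℝ] E) (ξ : E →L[ℝ] ℂ) : E →L[ℝ] (ℂ × E) := ξ.prod P


lemma LJ_apply (P N : E →L[ℝ] E) (s : ℂ) (β : E →L[ℝ] ℂ) (x : ℂ) (v : E) :
    LJ P N s β (x, v) = ((1 + s) * x + β v, v + P (N v)) := rfl

lemma TJ_apply (P : E →L[ℝ] E) (D : ℝ) (φ : E →L[ℝ] ℂ) (x : ℂ) (v : E) :
    TJ P D φ (x, v) = (D⁻¹ • (x - φ v), P v) := rfl


lemma proj_comp_MJ {P N : E →L[ℝ] E} (hPN : ∀ v, P (N (P v)) = P (N v)) :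
    P.comp (ContinuousLinearMap.id ℝ E + N) = (MJ P N).comp P := by
  refine ContinuousLinearMap.ext fun v => ?_
  simp [MJ, hPN]

lemma TJ_comp {P N : E →L[ℝ] E} (hPN : ∀ v, P (N (P v)) = P (N v)) {D : ℝ}
    {φ β : E →L[ℝ] ℂ} {s : ℂ} (hφ : ∀ v, φ (P v) = φ v)
    (hβ : ∀ v, β v = D⁻¹ • (s * φ v - φ (N v))) :
    (TJ P D φ).comp (Lsrc s (ContinuousLinearMap.id ℝ E + N)) =
      (LJ P N s β).comp (TJ P D φ) := by
  refine ContinuousLinearMap.ext fun y => ?_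
  obtain ⟨x, v⟩ := y
  have e1 : (TJ P D φ).comp (Lsrc s (ContinuousLinearMap.id ℝ E + N)) (x, v) =
      (D⁻¹ • ((1 + s) * x - φ (v + N v)), P (v + N v)) := rfl
  have e2 : (LJ P N s β).comp (TJ P D φ) (x, v) =
      ((1 + s) * (D⁻¹ • (x - φ v)) + β (P v), P v + P (N (P v))) := rfl
  rw [e1, e2]
  refine Prod.ext ?_ ?_
  · show D⁻¹ • ((1 + s) * x - φ (v + N v)) = (1 + s) * (D⁻¹ • (x - φ v)) + β (P v)
    have h1 : φ (N (P v)) = φ (N v) := by
      rw [← hφ (N (P v)), hPN, hφ]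
    rw [hβ, hφ, h1, map_add]
    simp only [Complex.real_smul]
    ring
  · show P (v + N v) = P v + P (N (P v))
    rw [hPN, map_add]

lemma beta_proj {P N : E →L[ℝ] E} (hPN : ∀ v, P (N (P v)) = P (N v)) {D : ℝ}
    {φ β : E →L[ℝ] ℂ} {s : ℂ} (hφ : ∀ v, φ (P v) = φ v)
    (hβ : ∀ v, β v = D⁻¹ • (s * φ v - φ (N v))) (v : E) : β (P v) = β v := by
  have h1 : φ (N (P v)) = φ (N v) := by
    rw [← hφ (N (P v)), hPN, hφ]
  rw [hβ, hβ, hφ, h1]

lemma TI_comp {P N : E →L[ℝ] E} (hPN : ∀ v, P (N (P v)) = P (N v))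
    {ξ β : E →L[ℝ] ℂ} (hβ : ∀ v, β (P v) = ξ (N v)) :
    (TI P ξ).comp (ContinuousLinearMap.id ℝ E + N) = (LJ P N 0 β).comp (TI P ξ) := by
  refine ContinuousLinearMap.ext fun v => ?_
  have e1 : (TI P ξ).comp (ContinuousLinearMap.id ℝ E + N) v = (ξ (v + N v), P (v + N v)) := rfl
  have e2 : (LJ P N 0 β).comp (TI P ξ) v = ((1 + 0) * ξ v + β (P v), P v + P (N (P v))) := rfl
  rw [e1, e2]
  refine Prod.ext ?_ ?_
  · show ξ (v + N v) = (1 + 0) * ξ v + β (P v)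
    rw [hβ, map_add]; ring
  · show P (v + N v) = P v + P (N (P v))
    rw [hPN, map_add]

lemma PN_pow {P N : E →L[ℝ] E} (hPN : ∀ v, P (N (P v)) = P (N v)) (k : ℕ) (v : E) :
    ((P.comp N) ^ (k + 1)) v = P ((N ^ (k + 1)) v) := by
  induction k generalizing v with
  | zero => simp
  | succ k ih =>
    rw [pow_succ, ContinuousLinearMap.mul_apply, ih]
    have h : ∀ (k : ℕ) (v : E), P ((N ^ k) (P v)) = P ((N ^ k) v) ∨ k = 0 := by
      intro k
      induction k with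
      | zero => intro v; exact Or.inr rfl
      | succ k ihk =>
        intro v
        left
        rw [pow_succ', ContinuousLinearMap.mul_apply, ContinuousLinearMap.mul_apply]
        rcases ihk v with h | h
        · rw [← hPN, h, hPN]
        · subst h; simpa using hPN v
    rcases h (k + 1) (N v) with h' | h'
    · rw [show (P.comp N) v = P (N v) from rfl, h', pow_succ N (k + 1),
        ContinuousLinearMap.mul_apply]
    · omega

lemma LJ_nilpotent {P N : E →L[ℝ] E} (hPN : ∀ v, P (N (P v)) = P (N v)) {J : ℕ}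
    (hN : N ^ (J + 1) = 0) (β : E →L[ℝ] ℂ) :
    (LJ P N 0 β - ContinuousLinearMap.id ℝ (ℂ × E)) ^ (J + 2) = 0 := by
  have h1 : ∀ (k : ℕ) (x : ℂ) (v : E),
      ((LJ P N 0 β - ContinuousLinearMap.id ℝ (ℂ × E)) ^ (k + 1)) (x, v) =
        (β (((P.comp N) ^ k) v), ((P.comp N) ^ (k + 1)) v) := by
    intro k
    induction k with
    | zero =>
      intro x v
      have : (LJ P N 0 β - ContinuousLinearMap.id ℝ (ℂ × E)) (x, v) =
          ((1 + 0) * x + β v - x, v + P (N v) - v) := rfl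
      rw [zero_add, pow_one, this]
      simp
    | succ k ih =>
      intro x v
      have : (LJ P N 0 β - ContinuousLinearMap.id ℝ (ℂ × E)) (x, v) =
          ((1 + 0) * x + β v - x, v + P (N v) - v) := rfl
      rw [pow_succ, ContinuousLinearMap.mul_apply, this, ih]
      have e : v + P (N v) - v = (P.comp N) v := by simp
      rw [e, pow_succ _ k, pow_succ _ (k + 1)]
      rfl
  refine ContinuousLinearMap.ext fun y => ?_
  obtain ⟨x, v⟩ := y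
  rw [h1 (J + 1) x v, PN_pow hPN J, PN_pow hPN (J + 1), pow_succ N (J + 1), hN]
  simp

end Ops

section ShJ

variable {ι : Type*} [Fintype ι]

lemma shJ_nilpotent (J : ℕ) : (shJ J : EJ ι J →L[ℝ] EJ ι J) ^ (J + 1) = 0 := by
  refine ContinuousLinearMap.ext fun v => ?_
  ext x
  rw [shJ_pow_apply, dif_neg (by omega)]
  rfl

lemma inner_shTb (J : ℕ) (a v : EJ ι J) : inner ℝ (shT J a) v = inner ℝ a (shJ J v) := by
  rw [PiLp.inner_apply, PiLp.inner_apply, Fintype.sum_prod_type_right, Fintype.sum_prod_type_right]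
  refine Finset.sum_congr rfl fun i _ => ?_
  rw [Fin.sum_univ_castSucc, Fin.sum_univ_succ]
  have h0 : shT J a (Fin.last J, i) = 0 := by
    rw [shT_apply, dif_neg (by simp)]
  have h1 : shJ J v ((0 : Fin (J + 1)), i) = 0 := by
    rw [shJ_apply]; simp
  rw [h0, h1]
  simp only [inner_zero_left, inner_zero_right, add_zero, zero_add]
  refine Finset.sum_congr rfl fun l _ => ?_
  have h2 : shT J a (l.castSucc, i) = a (l.succ, i) := by
    rw [shT_apply, dif_pos (by simp)]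
    congr 2
  have h3 : shJ J v (l.succ, i) = v (l.castSucc, i) := by
    rw [shJ_apply, dif_neg (by simp)]
    congr 2
  rw [h2, h3]

/-- stability of a subspace under the transposed shift, in terms of the projection -/
lemma proj_shJ {J : ℕ} {V : Submodule ℝ (EJ ι J)} (hst : ∀ a ∈ V, shT J a ∈ V) (v : EJ ι J) :
    V.starProjection (shJ J (V.starProjection v)) = V.starProjection (shJ J v) := by
  have h : V.starProjection (shJ J (v - V.starProjection v)) = 0 := by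
    rw [Submodule.starProjection_apply_eq_zero_iff]
    rw [Submodule.mem_orthogonal]
    intro a ha
    rw [← inner_shTb]
    have h1 := Submodule.starProjection_inner_eq_zero (K := V) v (shT J a) (hst a ha)
    rw [real_inner_comm]
    exact h1
  rw [map_sub, map_sub, sub_eq_zero] at h
  exact h.symm

end ShJ

section Src2

variable {ι : Type*} [Fintype ι]

/-- the source process: value functional and jet -/
lemma pfin_Lsrc (σ ℓ : ι → ℝ) (J : ℕ) (s : ℂ) (τ : ι → ℂ) {n : ℕ} (u : Fin n → ι) :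
    pfin (gen σ ℓ (Lsrc s (ContinuousLinearMap.id ℝ (EJ ι J) + shJ J)))
      (fun a => (τ a, bJ J a)) u = (∑ i, cw (rayC σ ℓ s) u i * τ i, jf σ ℓ J u) := by
  classical
  induction n with
  | zero =>
    refine Prod.ext ?_ ?_
    · simp
    · ext x; simp [jf_apply]
  | succ n ih =>
    obtain ⟨a, u, rfl⟩ := exists_cons u
    rw [pfin_cons, ih, gen_Lsrc, jf_cons]
    refine Prod.ext ?_ rfl
    show τ a + (σ a : ℂ) * Complex.exp (-(1 + s) * ℓ a) * ∑ i, cw (rayC σ ℓ s) u i * τ i =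
      ∑ i, cw (rayC σ ℓ s) (Fin.cons a u : Fin (n + 1) → ι) i * τ i
    simp only [cw_cons, add_mul, Finset.sum_add_distrib, ite_mul, one_mul, zero_mul,
      Finset.sum_ite_eq, Finset.mem_univ, if_true, mul_assoc, ← Finset.mul_sum]
    simp [rayC, mul_assoc]

end Src2

end Crest.Agent.R98
end

-- ▼ part R98/UniC
section

/-!
Row 98, module UNI (helper549), part C: estimates on classes.
-/

set_option autoImplicit false

namespace Crest.Agent.R98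

open Finset MeasureTheory Filter Crest.AnalysisR Crest.Agent.R98.Part
open scoped Topology

section Lim

variable {E : Type*} [NormedAddCommGroup E] [NormedSpace ℝ E]

lemma norm_LJ_sub_le (P N : E →L[ℝ] E) (s s' : ℂ) (β β' : E →L[ℝ] ℂ) :
    ‖LJ P N s β - LJ P N s' β'‖ ≤ ‖s - s'‖ + ‖β - β'‖ := by
  refine ContinuousLinearMap.opNorm_le_bound _ (by positivity) fun y => ?_
  obtain ⟨x, v⟩ := y
  have e : (LJ P N s β - LJ P N s' β') (x, v) = ((s - s') * x + (β - β') v, 0) := by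
    have e1 : (LJ P N s β - LJ P N s' β') (x, v) = LJ P N s β (x, v) - LJ P N s' β' (x, v) := rfl
    rw [e1, LJ_apply, LJ_apply]
    refine Prod.ext ?_ ?_
    · show (1 + s) * x + β v - ((1 + s') * x + β' v) = (s - s') * x + (β v - β' v)
      ring
    · show v + P (N v) - (v + P (N v)) = 0
      simp
  rw [e, Prod.norm_def]
  have h1 : ‖x‖ ≤ ‖(x, v)‖ := norm_fst_le (x, v)
  have h2 : ‖v‖ ≤ ‖(x, v)‖ := norm_snd_le (x, v)
  have h3 : ‖(s - s') * x + (β - β') v‖ ≤ ‖s - s'‖ * ‖x‖ + ‖β - β'‖ * ‖v‖ := by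
    refine (norm_add_le _ _).trans (add_le_add (norm_mul_le _ _) ?_)
    exact ContinuousLinearMap.le_opNorm _ _
  have h4 : ‖s - s'‖ * ‖x‖ + ‖β - β'‖ * ‖v‖ ≤ (‖s - s'‖ + ‖β - β'‖) * ‖(x, v)‖ := by
    rw [add_mul]
    gcongr
  refine max_le (h3.trans h4) ?_
  show ‖(0 : E)‖ ≤ _
  rw [norm_zero]
  positivity

lemma tendsto_LJ {P N : E →L[ℝ] E} {s : ℕ → ℂ} {β : ℕ → E →L[ℝ] ℂ} {s' : ℂ} {β' : E →L[ℝ] ℂ}
    (hs : Tendsto s atTop (𝓝 s')) (hβ : Tendsto β atTop (𝓝 β')) :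
    Tendsto (fun j => LJ P N (s j) (β j)) atTop (𝓝 (LJ P N s' β')) := by
  rw [tendsto_iff_norm_sub_tendsto_zero] at *
  refine squeeze_zero (fun _ => norm_nonneg _) (fun j => norm_LJ_sub_le P N _ _ _ _) ?_
  simpa using hs.add hβ

end Lim

section Res

variable {ι : Type*} [Fintype ι]

/-- `0`-jet part of a jet -/
noncomputable def res0 (J : ℕ) (x : EJ ι J) : EJ ι 0 :=
  WithLp.toLp 2 fun y : Fin 1 × ι => x ((0 : Fin (J + 1)), y.2)

/-- a functional of the `0`-jet as a functional of the `J`-jet -/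
noncomputable def lift0 (J : ℕ) (a : EJ ι 0) : EJ ι J :=
  WithLp.toLp 2 fun y : Fin (J + 1) × ι => if (y.1 : ℕ) = 0 then a ((0 : Fin 1), y.2) else 0

lemma inner_lift0 (J : ℕ) (a : EJ ι 0) (x : EJ ι J) :
    inner ℝ (lift0 J a) x = inner ℝ a (res0 J x) := by
  rw [PiLp.inner_apply, PiLp.inner_apply, Fintype.sum_prod_type_right, Fintype.sum_prod_type_right]
  refine Finset.sum_congr rfl fun i _ => ?_
  rw [Fin.sum_univ_succ, Fin.sum_univ_one]
  have h0 : lift0 J a ((0 : Fin (J + 1)), i) = a ((0 : Fin 1), i) := by simp [lift0]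
  have h1 : ∀ l : Fin J, lift0 J a (l.succ, i) = 0 := by intro l; simp [lift0]
  have h2 : res0 J x ((0 : Fin 1), i) = x ((0 : Fin (J + 1)), i) := rfl
  simp only [h1, inner_zero_left, Finset.sum_const_zero, add_zero]
  rw [h0, h2]

lemma res0_lift0 (J : ℕ) (a : EJ ι 0) : res0 J (lift0 J a) = a := by
  ext y
  obtain ⟨l, i⟩ := y
  have : l = 0 := Subsingleton.elim (α := Fin 1) l 0
  subst this
  show (if ((0 : Fin (J + 1)) : ℕ) = 0 then a ((0 : Fin 1), i) else 0) = a ((0 : Fin 1), i)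
  simp

lemma norm_lift0 (J : ℕ) (a : EJ ι 0) : ‖lift0 J a‖ = ‖a‖ := by
  have h : ‖lift0 J a‖ ^ 2 = ‖a‖ ^ 2 := by
    rw [← real_inner_self_eq_norm_sq, ← real_inner_self_eq_norm_sq, inner_lift0, res0_lift0]
  exact (pow_left_inj₀ (norm_nonneg _) (norm_nonneg _) two_ne_zero).1 h

lemma res0_sub (J : ℕ) (x y : EJ ι J) : res0 J (x - y) = res0 J x - res0 J y := rfl

lemma res0_jf (σ ℓ : ι → ℝ) (J : ℕ) {n : ℕ} (u : Fin n → ι) :
    res0 J (jf σ ℓ J u) = jf σ ℓ 0 u := by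
  ext y
  obtain ⟨l, i⟩ := y
  have : l = 0 := Subsingleton.elim (α := Fin 1) l 0
  subst this
  rfl

lemma res0_ji (σ ℓ : ι → ℝ) (J : ℕ) (w : ℕ → ι) : res0 J (ji σ ℓ J w) = ji σ ℓ 0 w := by
  ext y
  obtain ⟨l, i⟩ := y
  have : l = 0 := Subsingleton.elim (α := Fin 1) l 0
  subst this
  rfl

variable [MeasurableSpace ι]

lemma lift0_mem {σ ℓ p t : ι → ℝ} {J : ℕ} {a : EJ ι 0} (h : a ∈ VJ σ ℓ p t 0) :
    lift0 J a ∈ VJ σ ℓ p t J := by
  rw [mem_VJ] at *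
  refine h.congr (Eventually.of_forall fun w => ?_)
  show inner ℝ a (ji σ ℓ 0 w) = inner ℝ (lift0 J a) (ji σ ℓ J w)
  rw [inner_lift0, res0_ji]

lemma norm_proj_res0_le (σ ℓ p t : ι → ℝ) (J : ℕ) (x : EJ ι J) :
    ‖(VJ σ ℓ p t 0).starProjection (res0 J x)‖ ≤ ‖(VJ σ ℓ p t J).starProjection x‖ := by
  set a := (VJ σ ℓ p t 0).starProjection (res0 J x) with ha
  have hmem : a ∈ VJ σ ℓ p t 0 := Submodule.starProjection_apply_mem _ _
  have h1 : ‖a‖ ^ 2 = inner ℝ a (res0 J x) := by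
    have h := Submodule.starProjection_inner_eq_zero (K := VJ σ ℓ p t 0) (res0 J x) a hmem
    rw [inner_sub_left, sub_eq_zero, ← ha] at h
    rw [real_inner_comm, h, real_inner_self_eq_norm_sq]
  have h2 : inner ℝ a (res0 J x) =
      inner ℝ (lift0 J a) ((VJ σ ℓ p t J).starProjection x) := by
    rw [← inner_lift0]
    have h := Submodule.starProjection_inner_eq_zero (K := VJ σ ℓ p t J) x (lift0 J a)
      (lift0_mem hmem)
    rw [inner_sub_left, sub_eq_zero] at h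
    rw [real_inner_comm, h, real_inner_comm]
  have h3 : ‖a‖ ^ 2 ≤ ‖a‖ * ‖(VJ σ ℓ p t J).starProjection x‖ := by
    rw [h1, h2]
    refine (real_inner_le_norm _ _).trans ?_
    rw [norm_lift0]
  rcases (norm_nonneg a).eq_or_lt with h0 | h0
  · rw [← h0]; exact norm_nonneg _
  · rw [sq] at h3
    exact le_of_mul_le_mul_left h3 h0

end Res

section Base

variable {ι : Type*} [Fintype ι]

open Classical in
lemma EJ0_eq (x : EJ ι 0) : x = ∑ i, x ((0 : Fin 1), i) • bJ 0 i := by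
  ext y
  obtain ⟨l, i⟩ := y
  have : l = 0 := Subsingleton.elim (α := Fin 1) l 0
  subst this
  rw [WithLp.ofLp_sum, Finset.sum_apply, Finset.sum_eq_single i]
  · unfold bJ; simp
  · intro b _ hb
    unfold bJ
    simp [hb.symm]
  · simp

/-- the real base vector of a functional of the `0`-jet -/
noncomputable def wv (ψ : EJ ι 0 →L[ℝ] ℂ) (i : ι) : ℝ := (ψ (bJ 0 i)).re

lemma re_eq_wv (ψ : EJ ι 0 →L[ℝ] ℂ) (x : EJ ι 0) :
    (ψ x).re = ∑ i, x ((0 : Fin 1), i) * wv ψ i := by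
  conv_lhs => rw [EJ0_eq x]
  rw [map_sum, Complex.re_sum]
  refine Finset.sum_congr rfl fun i _ => ?_
  rw [map_smul]
  simp [wv]

lemma sum_cw_wv (σ ℓ : ι → ℝ) (ψ : EJ ι 0 →L[ℝ] ℂ) {n : ℕ} (u : Fin n → ι) :
    ∑ i, cw (rayR σ ℓ 0) u i * wv ψ i = (ψ (jf σ ℓ 0 u)).re := by
  rw [re_eq_wv]
  refine Finset.sum_congr rfl fun i _ => ?_
  rw [jf_apply]
  show _ = jetw σ ℓ 0 u i * _
  rw [jetw_zero_eq]

lemma AJ_bJ (J : ℕ) (s : ℂ) (t' : ι → ℂ) (a : ι) : AJ J s t' (bJ J a) = t' a := by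
  classical
  rw [AJ_apply, Finset.sum_eq_single ((0 : Fin (J + 1)), a)]
  · unfold bJ; simp
  · intro b _ hb
    unfold bJ
    simp [hb]
  · simp

end Base

section Cls

variable {ι : Type*} [Fintype ι] [Nonempty ι] [MeasurableSpace ι]

/-- value functional -/
noncomputable def val (σ ℓ : ι → ℝ) (s : ℂ) (τ : ι → ℂ) {n : ℕ} (u : Fin n → ι) : ℂ :=
  ∑ i, cw (rayC σ ℓ s) u i * τ i

/-- the constant bounding the `0`-jets -/
noncomputable def K0 (ι : Type*) [Fintype ι] (ℓ0 : ℝ) : ℝ :=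
  √(∑ x : Fin (0 + 1) × ι, (2 ^ (x.1 : ℕ) * jK ℓ0) ^ 2)

omit [Nonempty ι] in
/-- base values on classes of the first kind -/
lemma base_A {σ ℓ p t : ι → ℝ} (hσ : ∀ i, |σ i| ≤ 1) {ℓ0 : ℝ} (hℓ : ∀ i, ℓ0 ≤ ℓ i)
    (h0 : 0 < ℓ0) {s : ℂ} (hs : ‖s‖ ≤ 1 / 4) (τ : ι → ℂ) {n : ℕ} (u v : Fin n → ι) {e : ℝ}
    (h : ‖val σ ℓ s τ u - val σ ℓ s τ v‖ ≤ e) :
    |∑ i, cw (rayR σ ℓ 0) u i * wv ((AJ 0 s τ).comp (VJ σ ℓ p t 0).starProjection) i -
      ∑ i, cw (rayR σ ℓ 0) v i * wv ((AJ 0 s τ).comp (VJ σ ℓ p t 0).starProjection) i| ≤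
      e + 8 * jK ℓ0 * (∑ i, ‖τ i‖) * ‖s‖ + 2 * K0 ι ℓ0 * DJ σ ℓ p t 0 s τ := by
  set ψ := (AJ 0 s τ).comp (VJ σ ℓ p t 0).starProjection with hψ
  rw [sum_cw_wv, sum_cw_wv, ← Complex.sub_re, ← map_sub]
  set x := jf σ ℓ 0 u - jf σ ℓ 0 v with hx
  refine (Complex.abs_re_le_norm _).trans ?_
  have h1 : ψ x = AJ 0 s τ x - (AJ 0 s τ - ψ) x := by
    show ψ x = AJ 0 s τ x - (AJ 0 s τ x - ψ x)
    ring
  have h2 : ‖(AJ 0 s τ - ψ) x‖ ≤ DJ σ ℓ p t 0 s τ * (2 * K0 ι ℓ0) := by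
    refine (ContinuousLinearMap.le_opNorm _ _).trans ?_
    refine mul_le_mul_of_nonneg_left ?_ (norm_nonneg _)
    refine (norm_sub_le _ _).trans ?_
    have a1 := norm_jf_le hσ hℓ h0 0 u
    have a2 := norm_jf_le hσ hℓ h0 0 v
    unfold K0
    linarith
  have h3 : ‖AJ 0 s τ x‖ ≤ e + 8 * jK ℓ0 * (∑ i, ‖τ i‖) * ‖s‖ := by
    have a1 := norm_val_sub_AJ_le hσ hℓ h0 hs 0 τ u
    have a2 := norm_val_sub_AJ_le hσ hℓ h0 hs 0 τ v
    have e1 : AJ 0 s τ x = (val σ ℓ s τ u - val σ ℓ s τ v) -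
        (val σ ℓ s τ u - AJ 0 s τ (jf σ ℓ 0 u)) + (val σ ℓ s τ v - AJ 0 s τ (jf σ ℓ 0 v)) := by
      rw [hx, map_sub]; ring
    rw [e1]
    refine (norm_add_le _ _).trans ?_
    have b1 := norm_sub_le (val σ ℓ s τ u - val σ ℓ s τ v)
      (val σ ℓ s τ u - AJ 0 s τ (jf σ ℓ 0 u))
    unfold val at *
    have hp1 : (2 * ‖s‖) ^ (0 + 1) = 2 * ‖s‖ := by simp
    rw [hp1] at a1 a2
    nlinarith
  rw [h1]
  refine (norm_sub_le _ _).trans ?_
  linarith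

omit [Nonempty ι] in
/-- base values on classes of the second kind -/
lemma base_R {σ ℓ p t : ι → ℝ} {s : ℂ} (hs : ‖s‖ ≤ 1) (τ : ι → ℂ) {J n : ℕ} (u v : Fin n → ι)
    {e : ℝ} (h : ‖(VJ σ ℓ p t J).starProjection (jf σ ℓ J u - jf σ ℓ J v)‖ ≤ e) :
    |∑ i, cw (rayR σ ℓ 0) u i * wv ((AJ 0 s τ).comp (VJ σ ℓ p t 0).starProjection) i -
      ∑ i, cw (rayR σ ℓ 0) v i * wv ((AJ 0 s τ).comp (VJ σ ℓ p t 0).starProjection) i| ≤
      (∑ i, ‖τ i‖) * e := by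
  rw [sum_cw_wv, sum_cw_wv, ← Complex.sub_re, ← map_sub]
  refine (Complex.abs_re_le_norm _).trans ?_
  show ‖AJ 0 s τ ((VJ σ ℓ p t 0).starProjection (jf σ ℓ 0 u - jf σ ℓ 0 v))‖ ≤ _
  refine (ContinuousLinearMap.le_opNorm _ _).trans ?_
  have h1 := norm_AJ_le 0 hs τ
  have h2 : ‖(VJ σ ℓ p t 0).starProjection (jf σ ℓ 0 u - jf σ ℓ 0 v)‖ ≤ e := by
    rw [← res0_jf σ ℓ J u, ← res0_jf σ ℓ J v, ← res0_sub]
    exact (norm_proj_res0_le σ ℓ p t J _).trans h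
  have h3 : (0 : ℝ) ≤ ∑ i, ‖τ i‖ := Finset.sum_nonneg fun _ _ => norm_nonneg _
  calc _ ≤ (((0 : ℕ) : ℝ) + 1) * (∑ i, ‖τ i‖) * e :=
        mul_le_mul h1 h2 (norm_nonneg _) (by positivity)
    _ = _ := by push_cast; ring

omit [Nonempty ι] in
/-- the value at level `n` of the process `(ψ_j, π jet)` on common classes -/
lemma close_TJ {σ ℓ p t : ι → ℝ} {s : ℂ} (hs : ‖s‖ ≤ 1) (τ : ι → ℂ) {J n : ℕ}
    (u v : Fin n → ι) {e e' D : ℝ} (hD : 0 < D)
    (h : ‖val σ ℓ s τ u - val σ ℓ s τ v‖ ≤ e)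
    (h' : ‖(VJ σ ℓ p t J).starProjection (jf σ ℓ J u - jf σ ℓ J v)‖ ≤ e') :
    ‖TJ (VJ σ ℓ p t J).starProjection D ((AJ J s τ).comp (VJ σ ℓ p t J).starProjection)
        (val σ ℓ s τ u, jf σ ℓ J u) -
      TJ (VJ σ ℓ p t J).starProjection D ((AJ J s τ).comp (VJ σ ℓ p t J).starProjection)
        (val σ ℓ s τ v, jf σ ℓ J v)‖ ≤
      D⁻¹ * (e + (J + 1) * (∑ i, ‖τ i‖) * e') + e' := by
  have he' : 0 ≤ e' := (norm_nonneg _).trans h'
  have he : 0 ≤ e := (norm_nonneg _).trans h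
  have h3 : (0 : ℝ) ≤ ∑ i, ‖τ i‖ := Finset.sum_nonneg fun _ _ => norm_nonneg _
  have hD' : 0 < D⁻¹ := inv_pos.2 hD
  rw [← map_sub, Prod.mk_sub_mk, TJ_apply, Prod.norm_def]
  refine max_le ?_ ?_
  · show ‖D⁻¹ • _‖ ≤ _
    rw [norm_smul, Real.norm_of_nonneg hD'.le]
    have h1 : ‖val σ ℓ s τ u - val σ ℓ s τ v -
        ((AJ J s τ).comp (VJ σ ℓ p t J).starProjection) (jf σ ℓ J u - jf σ ℓ J v)‖ ≤
        e + (J + 1) * (∑ i, ‖τ i‖) * e' := by
      refine (norm_sub_le _ _).trans (add_le_add h ?_)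
      show ‖AJ J s τ ((VJ σ ℓ p t J).starProjection (jf σ ℓ J u - jf σ ℓ J v))‖ ≤ _
      refine (ContinuousLinearMap.le_opNorm _ _).trans ?_
      exact mul_le_mul (norm_AJ_le J hs τ) h' (norm_nonneg _) (by positivity)
    have := mul_le_mul_of_nonneg_left h1 hD'.le
    linarith
  · show ‖(VJ σ ℓ p t J).starProjection (jf σ ℓ J u - jf σ ℓ J v)‖ ≤ _
    have : 0 ≤ D⁻¹ * (e + (J + 1) * (∑ i, ‖τ i‖) * e') := by positivity
    linarith

end Cls

end Crest.Agent.R98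
end

-- ▼ part R98/UniD

/-!
Row 98, module UNI (helper549), part D: the limit lemma.
-/

set_option autoImplicit false

namespace Crest.Agent.R98

open Finset MeasureTheory Filter Crest.AnalysisR Crest.Agent.R98.Part
open scoped Topology

section Soft

variable {ι : Type*} [Fintype ι] [MeasurableSpace ι]

/-- (F3) class form of the collapse of the measurable jets -/
def SoftR (σ ℓ p t : ι → ℝ) (α : ℝ) (J : ℕ) : Prop :=
  ∀ q > 0, ∀ κ > 0, ∀ᶠ n : ℕ in atTop, ∃ S : Setoid (Fin n → ι), HW p S ≤ (α + κ) * n ∧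
    ∀ u v, S u v → wtype u = wtype v ∧
      ‖(VJ σ ℓ p t J).starProjection (jf σ ℓ J u - jf σ ℓ J v)‖ ≤ Real.exp (-(q * n))

/-- (F4) class form of the lower bound -/
def SoftL (σ ℓ p t : ι → ℝ) (α χ : ℝ) : Prop :=
  ∀ κ > 0, ∃ ε > 0, ∀ᶠ n : ℕ in atTop, ∀ w : ι → ℝ, (∀ i, |w i - t i| < ε) →
    ∀ S : Setoid (Fin n → ι),
      (∀ u v, S u v → |∑ i, cw (rayR σ ℓ 0) u i * w i - ∑ i, cw (rayR σ ℓ 0) v i * w i| ≤
        Real.exp (-(χ * n))) → (α - κ) * n ≤ HW p S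

/-- (F5)+(F2) -/
def SoftF (σ ℓ p t : ι → ℝ) (α χ : ℝ) (E : Type*) [NormedAddCommGroup E] [NormedSpace ℝ E] :
    Prop :=
  ∀ (L : ℕ → E →L[ℝ] E) (L' : E →L[ℝ] E) (b : ℕ → ι → E) (b' : ι → E) (Φ : (ℕ → ι) → E)
    (n : ℕ → ℕ) (φ₀ : E →L[ℝ] ℝ), Tendsto L atTop (𝓝 L') →
    (∃ k : ℕ, (L' - ContinuousLinearMap.id ℝ E) ^ k = 0) →
    (∀ a, Tendsto (fun j => b j a) atTop (𝓝 (b' a))) → Tendsto n atTop atTop →
    IsProc (gen σ ℓ L') b' Φ → (∀ w, φ₀ (Φ w) = Pi (rayR σ ℓ 0) t w) →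
    (∀ κ > 0, ∀ᶠ j in atTop, ∃ S : Setoid (Fin (n j) → ι), HW p S ≤ (α + κ) * n j ∧
      ∀ u v, S u v → ‖pfin (gen σ ℓ (L j)) (b j) u - pfin (gen σ ℓ (L j)) (b j) v‖ ≤
        Real.exp (-(χ * n j))) →
    ∀ φ : E →L[ℝ] ℝ, Fac p (Pi (rayR σ ℓ 0) t) fun w => φ (Φ w)

end Soft

section NN

lemma nn_facts {d : ℕ → ℝ} {m : ℕ → ℕ} (hd : ∀ j, 0 < d j) (hm : Tendsto m atTop atTop)
    (hX : Tendsto (fun j => -Real.log (d j) / m j) atTop atTop) {C0 : ℝ} (hC0 : 0 < C0) :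
    Tendsto (fun j => m j * ⌊-Real.log (d j) / (C0 * m j)⌋₊) atTop atTop ∧
    (∀ᶠ j in atTop, d j ≤
      Real.exp (-(C0 * ((m j * ⌊-Real.log (d j) / (C0 * m j)⌋₊ : ℕ) : ℝ)))) ∧
    (∀ᶠ j in atTop,
      Real.exp (-(2 * C0 * ((m j * ⌊-Real.log (d j) / (C0 * m j)⌋₊ : ℕ) : ℝ))) ≤ d j) := by
  have key : ∀ᶠ j in atTop, C0 * ((m j * ⌊-Real.log (d j) / (C0 * m j)⌋₊ : ℕ) : ℝ) ≤
      -Real.log (d j) ∧ -Real.log (d j) ≤
      2 * C0 * ((m j * ⌊-Real.log (d j) / (C0 * m j)⌋₊ : ℕ) : ℝ) := by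
    filter_upwards [hm.eventually_ge_atTop 1, hX.eventually_ge_atTop (2 * C0)] with j h1 h2
    have hm0 : (0 : ℝ) < m j := by exact_mod_cast h1
    have hCm : 0 < C0 * m j := by positivity
    set X := -Real.log (d j) with hXd
    have h3 : 2 ≤ X / (C0 * m j) := by
      rw [le_div_iff₀ hCm]
      rw [le_div_iff₀ hm0] at h2
      linarith
    have h4 : ((⌊X / (C0 * m j)⌋₊ : ℕ) : ℝ) ≤ X / (C0 * m j) := Nat.floor_le (by linarith)
    have h5 : X / (C0 * m j) < (⌊X / (C0 * m j)⌋₊ : ℝ) + 1 := Nat.lt_floor_add_one _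
    have h6 : X / (C0 * m j) ≤ 2 * (⌊X / (C0 * m j)⌋₊ : ℝ) := by linarith
    rw [le_div_iff₀ hCm] at h4
    rw [div_le_iff₀ hCm] at h6
    push_cast
    constructor <;> nlinarith
  have hXt : Tendsto (fun j => -Real.log (d j)) atTop atTop := by
    have h1 : Tendsto (fun j => (-Real.log (d j) / m j) * m j) atTop atTop :=
      hX.atTop_mul_atTop₀ (tendsto_natCast_atTop_atTop.comp hm)
    refine h1.congr' ?_
    filter_upwards [hm.eventually_ge_atTop 1] with j h1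
    have hm0 : (0 : ℝ) < m j := by exact_mod_cast h1
    field_simp
  refine ⟨?_, ?_, ?_⟩
  · rw [← tendsto_natCast_atTop_iff (R := ℝ)]
    refine tendsto_atTop_mono' _ ?_ (hXt.atTop_div_const (by positivity : (0 : ℝ) < 2 * C0))
    filter_upwards [key] with j hj
    rw [div_le_iff₀ (by positivity)]
    linarith [hj.2]
  · filter_upwards [key] with j hj
    calc d j = Real.exp (Real.log (d j)) := (Real.exp_log (hd j)).symm
      _ ≤ _ := Real.exp_le_exp.2 (by linarith [hj.1])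
  · filter_upwards [key] with j hj
    calc _ ≤ Real.exp (Real.log (d j)) := Real.exp_le_exp.2 (by linarith [hj.2])
      _ = d j := Real.exp_log (hd j)

/-- `K ≤ exp n` eventually -/
lemma ev_le_exp {n : ℕ → ℕ} (hn : Tendsto n atTop atTop) (K : ℝ) :
    ∀ᶠ j in atTop, K ≤ Real.exp (n j) := by
  have h : Tendsto (fun j => Real.exp (n j)) atTop atTop :=
    Real.tendsto_exp_atTop.comp (tendsto_natCast_atTop_atTop.comp hn)
  exact h.eventually_ge_atTop K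

end NN

section At

variable {ι : Type*} [Fintype ι]

/-- the vector `t` as a functional of the `0`-jet -/
noncomputable def at0 (t : ι → ℝ) : EJ ι 0 := WithLp.toLp 2 fun y : Fin 1 × ι => t y.2

lemma inner_at0 (t : ι → ℝ) (x : EJ ι 0) :
    inner ℝ (at0 t) x = ∑ i, x ((0 : Fin 1), i) * t i := by
  rw [PiLp.inner_apply, Fintype.sum_prod_type_right]
  refine Finset.sum_congr rfl fun i _ => ?_
  rw [Fin.sum_univ_one]
  show inner ℝ (t i) (x ((0 : Fin 1), i)) = _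
  simp

variable [MeasurableSpace ι]

lemma inner_at0_ji {σ ℓ : ι → ℝ} (hσ : ∀ i, |σ i| ≤ 1) {ℓ0 : ℝ} (hℓ : ∀ i, ℓ0 ≤ ℓ i)
    (h0 : 0 < ℓ0) (t : ι → ℝ) (w : ℕ → ι) :
    inner ℝ (at0 t) (ji σ ℓ 0 w) = Pi (rayR σ ℓ 0) t w := by
  rw [inner_at0]
  unfold Pi
  refine Finset.sum_congr rfl fun i _ => ?_
  rw [ji_apply, ← jetinf_zero_eq hσ hℓ h0]
  rfl

lemma at0_mem {σ ℓ : ι → ℝ} (hσ : ∀ i, |σ i| ≤ 1) {ℓ0 : ℝ} (hℓ : ∀ i, ℓ0 ≤ ℓ i)
    (h0 : 0 < ℓ0) (p t : ι → ℝ) : at0 t ∈ VJ σ ℓ p t 0 := by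
  rw [mem_VJ]
  refine (Fac.self p _).congr (Eventually.of_forall fun w => ?_)
  exact (inner_at0_ji hσ hℓ h0 t w).symm

lemma tendsto_wv {σ ℓ : ι → ℝ} (hσ : ∀ i, |σ i| ≤ 1) {ℓ0 : ℝ} (hℓ : ∀ i, ℓ0 ≤ ℓ i)
    (h0 : 0 < ℓ0) (p t : ι → ℝ) {s : ℕ → ℂ} {τ : ℕ → ι → ℂ}
    (hτ : ∀ i, Tendsto (fun j => τ j i) atTop (𝓝 (t i : ℂ))) (i : ι) :
    Tendsto (fun j => wv ((AJ 0 (s j) (τ j)).comp (VJ σ ℓ p t 0).starProjection) i) atTop
      (𝓝 (t i)) := by
  classical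
  set x := (VJ σ ℓ p t 0).starProjection (bJ 0 i) with hx
  have h1 : ∀ j, wv ((AJ 0 (s j) (τ j)).comp (VJ σ ℓ p t 0).starProjection) i =
      ∑ k, (τ j k).re * x ((0 : Fin 1), k) := by
    intro j
    unfold wv
    show (AJ 0 (s j) (τ j) x).re = _
    rw [AJ_apply, Fintype.sum_prod_type_right, Complex.re_sum]
    refine Finset.sum_congr rfl fun k _ => ?_
    rw [Fin.sum_univ_one]
    show ((s j) ^ 0 * τ j k * (x ((0 : Fin 1), k) : ℂ)).re = _
    simp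
  simp only [h1]
  have h2 : Tendsto (fun j => ∑ k, (τ j k).re * x ((0 : Fin 1), k)) atTop
      (𝓝 (∑ k, (t k) * x ((0 : Fin 1), k))) := by
    refine tendsto_finsetSum _ fun k _ => ?_
    have := (Complex.continuous_re.tendsto _).comp (hτ k)
    exact this.mul_const _
  have h3 : ∑ k, (t k) * x ((0 : Fin 1), k) = t i := by
    have e1 : inner ℝ (at0 t) x = ∑ k, x ((0 : Fin 1), k) * t k := inner_at0 t x
    have e2 : inner ℝ (at0 t) x = inner ℝ (at0 t) (bJ 0 i) := by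
      have h := Submodule.starProjection_inner_eq_zero (K := VJ σ ℓ p t 0) (bJ 0 i) (at0 t)
        (at0_mem hσ hℓ h0 p t)
      rw [inner_sub_left, sub_eq_zero] at h
      rw [real_inner_comm, ← hx] at *
      rw [← h]
    have e3 : inner ℝ (at0 t) (bJ 0 i) = t i := by
      rw [inner_at0, Finset.sum_eq_single i]
      · unfold bJ; simp
      · intro b _ hb
        unfold bJ
        simp [hb]
      · simp
    rw [← e3, ← e2, e1]
    exact Finset.sum_congr rfl fun k _ => mul_comm _ _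
  rw [h3] at h2
  exact h2

end At

end Crest.Agent.R98
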